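import Mathlib
import Crest.Prelude.Def_SpechtModule

/-! Row 195: definitions. Word model for Specht modules on an arbitrary finite letter type `T`.

* words `T → X`, `Perm T` acts on functions of words by `(g • f) w = f (w ∘ g)`;
* a tableau of shape `D : Finset (ℕ × ℕ)` on `T` is an injective `τ : T → ℕ × ℕ` with image `D`
  (letter `t` sits in the cell `τ t`, cells are (row, column));
* `polyF τ : (T → ℕ) → ℂ` is the polytabloid;
* `Sp D T` the Specht module, `Kr D E T` the "tensor product" inside functions on words `T → ℕ × ℕ`;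
* `Occ ρ S`: there is a nonzero equivariant map from the rep `ρ` of `Perm T` into `S`;
* `Full D E`: every nonzero rep of `Perm T`, `|T| = |D|`, has a nonzero map to `Kr D E T`. -/

set_option autoImplicit false
set_option linter.unusedSectionVars false
set_option linter.unusedDecidableInType false

namespace Crest.Agent.R195

open Finset Function

section defs

variable {T : Type*} [Fintype T] [DecidableEq T]

/-- `τ` is a tableau of shape `D`: every letter sits in its own cell of `D`, all cells are used. -/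
def IsTab (D : Finset (ℕ × ℕ)) (τ : T → ℕ × ℕ) : Prop :=
  Injective τ ∧ univ.image τ = D

/-- polytabloid as a function of row words: signed sum over the column group of `τ`. -/
noncomputable def polyF (τ : T → ℕ × ℕ) (w : T → ℕ) : ℂ :=
  ∑ σ : Equiv.Perm T, if (∀ i, (τ (σ i)).2 = (τ i).2) ∧ (∀ i, w (σ i) = (τ i).1)
    then ((Equiv.Perm.sign σ : ℤ) : ℂ) else 0


/-- product of two functions of words -/
def prodF (f g : (T → ℕ) → ℂ) (w : T → ℕ × ℕ) : ℂ := f (fun t => (w t).1) * g (fun t => (w t).2)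

variable (T) in
/-- `Sp D T ⊗ Sp E T` inside functions of words `T → ℕ × ℕ`. -/
noncomputable def Kr (D E : Finset (ℕ × ℕ)) : Submodule ℂ ((T → ℕ × ℕ) → ℂ) :=
  Submodule.span ℂ {f | ∃ τ τ' : T → ℕ × ℕ, IsTab D τ ∧ IsTab E τ' ∧ f = prodF (polyF τ) (polyF τ')}

/-- a nonzero equivariant map from `ρ` into `S` -/
def Occ {X W : Type*} [AddCommGroup W] [Module ℂ W] (ρ : Representation ℂ (Equiv.Perm T) W)
    (S : Submodule ℂ ((T → X) → ℂ)) : Prop :=
  ∃ φ : W →ₗ[ℂ] ((T → X) → ℂ), φ ≠ 0 ∧ (∀ v, φ v ∈ S) ∧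
    ∀ (g : Equiv.Perm T) (v : W) (w : T → X), φ (ρ g v) w = φ v (w ∘ g)

end defs

/-- Every nonzero representation of `Perm T` maps nontrivially to `Kr D E T`. -/
def Full (D E : Finset (ℕ × ℕ)) : Prop :=
  ∀ (T : Type) [Fintype T] [DecidableEq T], Fintype.card T = D.card →
    ∀ (W : Type) [AddCommGroup W] [Module ℂ W] (ρ : Representation ℂ (Equiv.Perm T) W),
      (∃ v : W, v ≠ 0) → Occ ρ (Kr T D E)

section basic

variable {T : Type*} [Fintype T] [DecidableEq T]

theorem polyF_act (τ : T → ℕ × ℕ) (g : Equiv.Perm T) (w : T → ℕ) :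
    polyF τ (w ∘ g) = polyF (τ ∘ g.symm) w := by
  unfold polyF
  refine Fintype.sum_equiv ((MulAut.conj g).toEquiv) _ _ fun σ => ?_
  have h1 : ((∀ i, (τ (σ i)).2 = (τ i).2) ∧ ∀ i, (w ∘ g) (σ i) = (τ i).1) ↔
      ((∀ i, ((τ ∘ g.symm) (((MulAut.conj g).toEquiv σ) i)).2 = ((τ ∘ g.symm) i).2) ∧
        ∀ i, w (((MulAut.conj g).toEquiv σ) i) = ((τ ∘ g.symm) i).1) := by
    have h2 : ∀ i, ((MulAut.conj g).toEquiv σ) i = g (σ (g.symm i)) := fun i => rfl
    simp only [h2, comp_apply, Equiv.symm_apply_apply]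
    constructor
    · rintro ⟨ha, hb⟩
      exact ⟨fun i => ha _, fun i => hb _⟩
    · rintro ⟨ha, hb⟩
      refine ⟨fun i => ?_, fun i => ?_⟩
      · simpa using ha (g i)
      · simpa using hb (g i)
  have h3 : Equiv.Perm.sign ((MulAut.conj g).toEquiv σ) = Equiv.Perm.sign σ := by
    change Equiv.Perm.sign (g * σ * g⁻¹) = _
    rw [Equiv.Perm.sign_mul, Equiv.Perm.sign_mul, Equiv.Perm.sign_inv, mul_comm, ← mul_assoc,
      Int.units_mul_self, one_mul]
  simp only [h1, h3]

theorem IsTab.comp {D : Finset (ℕ × ℕ)} {τ : T → ℕ × ℕ} (h : IsTab D τ) (g : Equiv.Perm T) :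
    IsTab D (τ ∘ g) := by
  refine ⟨h.1.comp g.injective, ?_⟩
  rw [← h.2]
  ext c
  simp only [mem_image, mem_univ, true_and, comp_apply]
  exact ⟨fun ⟨t, ht⟩ => ⟨g t, ht⟩, fun ⟨t, ht⟩ => ⟨g.symm t, by simpa using ht⟩⟩


theorem Kr_act {D E : Finset (ℕ × ℕ)} {f : (T → ℕ × ℕ) → ℂ} (hf : f ∈ Kr T D E)
    (g : Equiv.Perm T) : (fun w => f (w ∘ g)) ∈ Kr T D E := by
  unfold Kr at hf ⊢
  induction hf using Submodule.span_induction with
  | mem x hx =>
    obtain ⟨τ, τ', hτ, hτ', rfl⟩ := hx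
    refine Submodule.subset_span ⟨τ ∘ g.symm, τ' ∘ g.symm, hτ.comp g.symm, hτ'.comp g.symm, ?_⟩
    funext w
    unfold prodF
    rw [← polyF_act τ g, ← polyF_act τ' g]
    rfl
  | zero => exact Submodule.zero_mem _
  | add x y _ _ hx hy => exact Submodule.add_mem _ hx hy
  | smul a x _ hx => exact Submodule.smul_mem _ a hx

/-- support of a polytabloid: the row contents are those of the tableau -/
theorem polyF_support {τ : T → ℕ × ℕ} {w : T → ℕ} (h : polyF τ w ≠ 0) :
    ∃ σ : Equiv.Perm T, (∀ i, (τ (σ i)).2 = (τ i).2) ∧ (∀ i, w (σ i) = (τ i).1) := by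
  unfold polyF at h
  obtain ⟨σ, -, hσ⟩ := Finset.exists_ne_zero_of_sum_ne_zero h
  by_contra hcon
  push Not at hcon
  rw [if_neg] at hσ
  · exact hσ rfl
  · rintro ⟨h1, h2⟩
    obtain ⟨i, hi⟩ := hcon σ h1
    exact hi (h2 i)

end basic

end Crest.Agent.R195
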