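import Mathlib
import Crest.Agent.R195.SpDefs
import Crest.Agent.R195.Shape
import Crest.Agent.R195.ChainB1c

-- ▼ part R195/ChainDefs
section

/-! Row 195, part (B): products of column minors as functions on words, the operators
`op` obtained by evaluating a rank one invariant at a reference pair of words, and the
covering property `Cov`. -/

set_option autoImplicit false

namespace Crest.Agent.R195

open Finset Function Equiv

/-- The `n × n` minor on the letters listed by `Fin n`, evaluated at a word with row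
indices `u`: the signed indicator that `u` is a permutation of `0, …, n-1`. -/
noncomputable def minor {n : ℕ} (u : Fin n → ℕ) : ℂ :=
  ∑ κ : Perm (Fin n), ((Perm.sign κ : ℤ) : ℂ) * (if ∀ x, u x = (κ x : ℕ) then 1 else 0)

theorem minor_ne_zero {n : ℕ} {u : Fin n → ℕ} (h : minor u ≠ 0) :
    ∃ κ : Perm (Fin n), ∀ x, u x = (κ x : ℕ) := by
  by_contra hcon
  apply h
  unfold minor
  refine Finset.sum_eq_zero fun κ _ => ?_
  rw [if_neg (fun hx => hcon ⟨κ, hx⟩), mul_zero]

section colFun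

variable {T : Type} {ι : Type} [Fintype ι]

/-- product of the minors on the columns `x ↦ e ⟨i, x⟩` -/
noncomputable def colFun (c : ι → ℕ) (e : (Σ i, Fin (c i)) ≃ T) (r : T → ℕ) : ℂ :=
  ∏ i, minor (fun x => r (e ⟨i, x⟩))

theorem colFun_ne_zero {c : ι → ℕ} {e : (Σ i, Fin (c i)) ≃ T} {r : T → ℕ}
    (h : colFun c e r ≠ 0) : ∀ i, ∃ κ : Perm (Fin (c i)), ∀ x, r (e ⟨i, x⟩) = (κ x : ℕ) := by
  intro i
  exact minor_ne_zero (Finset.prod_ne_zero_iff.1 h i (Finset.mem_univ i))

/-- sums over the letters of a function of the row index only depend on the column lengths -/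
theorem colFun_sum [Fintype T] {c : ι → ℕ} {e : (Σ i, Fin (c i)) ≃ T} {r : T → ℕ}
    (h : colFun c e r ≠ 0) (f : ℕ → ℤ) :
    ∑ t, f (r t) = ∑ i, ∑ x : Fin (c i), f x := by
  rw [← Equiv.sum_comp e, Fintype.sum_sigma]
  refine Finset.sum_congr rfl fun i _ => ?_
  obtain ⟨κ, hκ⟩ := colFun_ne_zero h i
  calc ∑ x, f (r (e ⟨i, x⟩)) = ∑ x, f ((κ x : Fin (c i)) : ℕ) :=
        Finset.sum_congr rfl fun x _ => by rw [hκ x]
    _ = ∑ x : Fin (c i), f x := Equiv.sum_comp κ (fun y : Fin (c i) => f y)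

end colFun

section op

variable {T : Type} [Fintype T] [DecidableEq T] {ι : Type} [Fintype ι]
variable {W : Type} [AddCommGroup W] [Module ℂ W]

/-- the coefficient function -/
noncomputable def coef (c : ι → ℕ) (r0 c0 : T → ℕ) (e e' : (Σ i, Fin (c i)) ≃ T)
    (g : Perm T) : ℂ := colFun c e (r0 ∘ g) * colFun c e' (c0 ∘ g)

/-- the operator `∑_g coef g • σ g⁻¹` -/
noncomputable def op (c : ι → ℕ) (r0 c0 : T → ℕ) (e e' : (Σ i, Fin (c i)) ≃ T)
    (σ : Representation ℂ (Perm T) W) : W →ₗ[ℂ] W :=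
  ∑ g : Perm T, coef c r0 c0 e e' g • σ g⁻¹


/-- pairs of column systems -/
abbrev EPair (c : ι → ℕ) (T : Type) : Type :=
  ((Σ i, Fin (c i)) ≃ T) → ((Σ i, Fin (c i)) ≃ T) → Prop


/-- the reference pair of words minimises the sum of squares -/
def Lo (c : ι → ℕ) (r0 c0 : T → ℕ) (A : EPair c T) : Prop :=
  ∀ (e e' : (Σ i, Fin (c i)) ≃ T), A e e' → ∀ (r s : T → ℕ),
    colFun c e r ≠ 0 → colFun c e' s ≠ 0 →
    ∑ t, ((r0 t : ℤ) + c0 t) ^ 2 ≤ ∑ t, ((r t : ℤ) + s t) ^ 2

/-- a block on the antidiagonals `a`, `b` (`|a - b| ≤ 1`): the reference words have all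
antidiagonal indices in `{a, b}` -/
structure Blk (c : ι → ℕ) (r0 c0 : T → ℕ) (a b : ℤ) : Prop where
  near : a = b ∨ a = b + 1
  mem : ∀ t, (r0 t : ℤ) + c0 t = a ∨ (r0 t : ℤ) + c0 t = b
  sum : ∑ t, ((r0 t : ℤ) + c0 t) = 2 * ∑ i, ∑ x : Fin (c i), (x : ℤ)

end op

theorem near_nonneg {a b s : ℤ} (h : a = b ∨ a = b + 1) : 0 ≤ (s - a) * (s - b) := by
  rcases h with h | h
  · subst h
    nlinarith [sq_nonneg (s - a)]
  · subst h
    rcases le_or_gt s b with h1 | h1
    · nlinarith
    · have : b + 1 ≤ s := h1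
      nlinarith

section lo

variable {T : Type} [Fintype T] {ι : Type} [Fintype ι]

theorem Blk.sum_eq {c : ι → ℕ} {r0 c0 : T → ℕ} {a b : ℤ} (h : Blk c r0 c0 a b)
    {e e' : (Σ i, Fin (c i)) ≃ T} {r s : T → ℕ} (hr : colFun c e r ≠ 0)
    (hs : colFun c e' s ≠ 0) :
    ∑ t, ((r t : ℤ) + s t) = ∑ t, ((r0 t : ℤ) + c0 t) := by
  rw [h.sum, Finset.sum_add_distrib, colFun_sum hr (fun n => (n : ℤ)),
    colFun_sum hs (fun n => (n : ℤ))]
  ring

theorem Blk.sq_eq {c : ι → ℕ} {r0 c0 : T → ℕ} {a b : ℤ} (h : Blk c r0 c0 a b)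
    {e e' : (Σ i, Fin (c i)) ≃ T} {r s : T → ℕ} (hr : colFun c e r ≠ 0)
    (hs : colFun c e' s ≠ 0) :
    ∑ t, ((r t : ℤ) + s t) ^ 2 = ∑ t, ((r0 t : ℤ) + c0 t) ^ 2
      + ∑ t, (((r t : ℤ) + s t) - a) * (((r t : ℤ) + s t) - b) := by
  have h1 : ∑ t, (((r t : ℤ) + s t) - a) * (((r t : ℤ) + s t) - b)
      = ∑ t, ((r t : ℤ) + s t) ^ 2 - (a + b) * ∑ t, ((r t : ℤ) + s t) + ∑ _t : T, a * b := by
    rw [Finset.mul_sum, ← Finset.sum_sub_distrib, ← Finset.sum_add_distrib]
    exact Finset.sum_congr rfl fun t _ => by ring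
  have h2 : ∑ t, ((r0 t : ℤ) + c0 t) ^ 2
      = (a + b) * ∑ t, ((r0 t : ℤ) + c0 t) - ∑ _t : T, a * b := by
    rw [Finset.mul_sum, ← Finset.sum_sub_distrib]
    refine Finset.sum_congr rfl fun t _ => ?_
    rcases h.mem t with h | h <;> rw [h] <;> ring
  rw [h1, h2, h.sum_eq hr hs]
  ring

theorem Blk.lo {c : ι → ℕ} {r0 c0 : T → ℕ} {a b : ℤ} (h : Blk c r0 c0 a b)
    (A : EPair c T) : Lo c r0 c0 A := by
  intro e e' _ r s hr hs
  rw [h.sq_eq hr hs]
  have : 0 ≤ ∑ t, (((r t : ℤ) + s t) - a) * (((r t : ℤ) + s t) - b) :=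
    Finset.sum_nonneg fun t _ => near_nonneg h.near
  linarith

end lo

end Crest.Agent.R195
end

-- ▼ part R195/ColSum
section

/-! Row 195: `colFun` as a signed sum over the column group, and transposition duality. -/

set_option autoImplicit false

namespace Crest.Agent.R195

open Finset Function Equiv

theorem sign_sigmaCongrRight' {ι : Type} [Fintype ι] [DecidableEq ι] {β : ι → Type}
    [∀ i, Fintype (β i)] [∀ i, DecidableEq (β i)] (κ : ∀ i, Perm (β i)) :
    Perm.sign (Perm.sigmaCongrRight κ) = ∏ i, Perm.sign (κ i) := by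
  let f : (∀ i, Perm (β i)) →* ℤˣ := Perm.sign.comp (Perm.sigmaCongrRightHom β)
  let g : (∀ i, Perm (β i)) →* ℤˣ :=
    { toFun := fun κ => ∏ i, Perm.sign (κ i)
      map_one' := by simp
      map_mul' := fun a b => by simp [Finset.prod_mul_distrib] }
  have hfg : f = g := by
    refine MonoidHom.pi_ext ?_
    intro i x
    induction x using Perm.swap_induction_on with
    | one => simp
    | swap_mul y a b hab ih =>
      rw [Pi.mulSingle_mul, map_mul, map_mul, ih]
      congr 1
      show Perm.sign (Perm.sigmaCongrRight (Pi.mulSingle i (swap a b)))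
        = ∏ j, Perm.sign ((Pi.mulSingle i (swap a b) : ∀ i, Perm (β i)) j)
      have h1 : Perm.sigmaCongrRight (Pi.mulSingle i (swap a b))
          = swap (⟨i, a⟩ : Σ i, β i) ⟨i, b⟩ := by
        ext ⟨j, x⟩ : 1
        show (⟨j, (Pi.mulSingle i (swap a b) : ∀ i, Perm (β i)) j x⟩ : Σ i, β i)
          = swap (⟨i, a⟩ : Σ i, β i) ⟨i, b⟩ ⟨j, x⟩
        by_cases hj : j = i
        · subst hj
          rw [Pi.mulSingle_eq_same]
          by_cases hxa : x = a
          · subst hxa; simp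
          · by_cases hxb : x = b
            · subst hxb; simp
            · rw [swap_apply_of_ne_of_ne hxa hxb, swap_apply_of_ne_of_ne]
              · intro h; exact hxa (by simpa using h)
              · intro h; exact hxb (by simpa using h)
        · rw [swap_apply_of_ne_of_ne]
          · simp [Pi.mulSingle_eq_of_ne hj]
          · intro h; exact hj (congrArg Sigma.fst h)
          · intro h; exact hj (congrArg Sigma.fst h)
      rw [h1, Perm.sign_swap (by simpa using hab), Finset.prod_eq_single i]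
      · simp [Perm.sign_swap hab]
      · intro j _ hj
        simp [Pi.mulSingle_eq_of_ne hj]
      · simp
  exact DFunLike.congr_fun hfg κ

/-- signed sum over the column group: `polyt row col r = ∑_{κ, col ∘ κ = col} sign κ [r = row ∘ κ]` -/
noncomputable def polyt {T : Type} [Fintype T] [DecidableEq T] (row col : T → ℕ) (r : T → ℕ) : ℂ :=
  ∑ κ : Perm T, if (∀ t, col (κ t) = col t) ∧ (∀ t, r t = row (κ t)) then
    ((Perm.sign κ : ℤ) : ℂ) else 0

section

variable {T : Type} [Fintype T] [DecidableEq T] {ι : Type} [Fintype ι] [DecidableEq ι]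

omit [Fintype ι] [DecidableEq ι] in
/-- the permutations preserving the first component of a sigma type -/
theorem exists_sigmaCongrRight {β : ι → Type} [∀ i, Finite (β i)] (κ : Perm (Σ i, β i))
    (h : ∀ p, (κ p).1 = p.1) : ∃ k : ∀ i, Perm (β i), Perm.sigmaCongrRight k = κ := by
  have h1 : ∀ i (x : β i), ∃ y : β i, κ ⟨i, x⟩ = ⟨i, y⟩ := by
    intro i x
    have h2 := h ⟨i, x⟩
    rcases hk : κ ⟨i, x⟩ with ⟨j, y⟩
    rw [hk] at h2
    dsimp at h2
    subst h2
    exact ⟨y, rfl⟩
  choose f hf using h1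
  have hinj : ∀ i, Injective (f i) := by
    intro i x y hxy
    have := hf i x
    rw [hxy, ← hf i y] at this
    simpa using κ.injective this
  refine ⟨fun i => Equiv.ofBijective (f i) (Finite.injective_iff_bijective.1 (hinj i)), ?_⟩
  ext ⟨i, x⟩ : 1
  rw [hf]
  rfl

theorem colFun_eq_polyt {c : ι → ℕ} (e : (Σ i, Fin (c i)) ≃ T) (idx : ι → ℕ)
    (hidx : Injective idx) (row col : T → ℕ) (hrow : ∀ i x, row (e ⟨i, x⟩) = x)
    (hcol : ∀ i x, col (e ⟨i, x⟩) = idx i) (r : T → ℕ) :
    colFun c e r = polyt row col r := by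
  unfold colFun minor polyt
  rw [Fintype.prod_sum]
  -- conjugation by `e`
  let F : (∀ i, Perm (Fin (c i))) → Perm T := fun k => e.permCongr (Perm.sigmaCongrRight k)
  have hF : Injective F := by
    intro a b hab
    exact Perm.sigmaCongrRightHom_injective (e.permCongr.injective hab)
  have hFapply : ∀ k i x, F k (e ⟨i, x⟩) = e ⟨i, k i x⟩ := by
    intro k i x
    simp only [F, Equiv.permCongr_apply, Equiv.symm_apply_apply]
    rfl
  have hforall : ∀ P : T → Prop, (∀ t, P t) ↔ ∀ i x, P (e ⟨i, x⟩) := by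
    intro P
    constructor
    · intro h i x; exact h _
    · intro h t
      obtain ⟨⟨i, x⟩, rfl⟩ := e.surjective t
      exact h i x
  refine Fintype.sum_of_injective F hF _ _ ?_ ?_
  · intro κ hκ
    rw [if_neg]
    rintro ⟨h1, -⟩
    apply hκ
    have h2 : ∀ p, ((e.permCongr.symm κ) p).1 = p.1 := by
      rintro ⟨i, x⟩
      apply hidx
      have h3 := h1 (e ⟨i, x⟩)
      rw [hcol] at h3
      rw [← h3]
      obtain ⟨⟨j, y⟩, hy⟩ := e.surjective (κ (e ⟨i, x⟩))
      have h4 : (e.permCongr.symm κ) ⟨i, x⟩ = ⟨j, y⟩ := by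
        apply e.injective
        rw [hy]
        simp [Equiv.permCongr_symm, Equiv.permCongr_apply]
      rw [h4, ← hy, hcol]
    obtain ⟨k, hk⟩ := exists_sigmaCongrRight _ h2
    refine ⟨k, ?_⟩
    show e.permCongr (Perm.sigmaCongrRight k) = κ
    rw [hk, Equiv.apply_symm_apply]
  · intro k
    rw [Finset.prod_mul_distrib]
    have hsign : (∏ i, (((Perm.sign (k i) : ℤˣ) : ℤ) : ℂ)) = ((Perm.sign (F k) : ℤ) : ℂ) := by
      simp only [F, Perm.sign_permCongr, sign_sigmaCongrRight']
      push_cast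
      rfl
    rw [hsign]
    by_cases hc : ∀ i x, r (e ⟨i, x⟩) = (k i x : ℕ)
    · rw [Finset.prod_eq_one (fun i _ => if_pos (hc i)), mul_one, if_pos]
      constructor
      · rw [hforall]
        intro i x
        rw [hFapply, hcol, hcol]
      · rw [hforall]
        intro i x
        rw [hFapply, hrow, hc]
    · rw [if_neg]
      · push Not at hc
        obtain ⟨i, x, hx⟩ := hc
        rw [Finset.prod_eq_zero (Finset.mem_univ i), mul_zero]
        rw [if_neg]
        intro h
        exact hx (h x)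
      · rintro ⟨-, h⟩
        apply hc
        intro i x
        rw [h (e ⟨i, x⟩), hFapply, hrow]

omit [DecidableEq ι] [Fintype ι] in
/-- transposition duality -/
theorem polyt_dual (row col : T → ℕ) (g : Perm T) :
    polyt row col (row ∘ g) = ((Perm.sign g : ℤ) : ℂ) * polyt col row (col ∘ g.symm) := by
  unfold polyt
  rw [Finset.mul_sum]
  conv_rhs => rw [← Equiv.sum_comp (Equiv.mulRight g⁻¹)]
  refine Finset.sum_congr rfl fun κ _ => ?_
  rw [mul_ite, mul_zero]
  have hiff : ((∀ t, col (κ t) = col t) ∧ (∀ t, (row ∘ g) t = row (κ t))) ↔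
      ((∀ t, row ((Equiv.mulRight g⁻¹ κ) t) = row t) ∧
        (∀ t, (col ∘ g.symm) t = col ((Equiv.mulRight g⁻¹ κ) t))) := by
    simp only [Equiv.coe_mulRight, Perm.mul_apply, Function.comp]
    constructor
    · rintro ⟨h1, h2⟩
      refine ⟨fun t => ?_, fun t => ?_⟩
      · rw [← h2]; simp
      · exact (h1 (g⁻¹ t)).symm
    · rintro ⟨h1, h2⟩
      refine ⟨fun t => ?_, fun t => ?_⟩
      · have := h2 (g t)
        simpa using this.symm
      · have := h1 (g t)
        simpa using this.symm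
  by_cases h : (∀ t, col (κ t) = col t) ∧ (∀ t, (row ∘ g) t = row (κ t))
  · rw [if_pos h, if_pos (hiff.1 h)]
    simp only [Equiv.coe_mulRight, Perm.sign_mul, Perm.sign_inv]
    have hs : ((Perm.sign g : ℤ) : ℂ) * ((Perm.sign g : ℤ) : ℂ) = 1 := by
      rcases Int.units_eq_one_or (Perm.sign g) with h | h <;> simp [h]
    push_cast
    linear_combination (-((Perm.sign κ : ℤ) : ℂ)) * hs
  · rw [if_neg h, if_neg (fun h' => h (hiff.2 h'))]

end

end Crest.Agent.R195
end

-- ▼ part R195/ChainB2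
section

/-! Row 195, part (B2): the coefficient function of a pair of columns `(m+1, m)` at the
zigzag reference words is the chain functional `chainPsi`. -/

set_option autoImplicit false

namespace Crest.Agent.R195

open Finset Function Equiv

def eps2 : Matrix (Fin 2) (Fin 2) ℂ := !![0, 1; -1, 0]

/-- chain functional on label words over the positions `Fin (2*m+1)` -/
noncomputable def chainPsi (m : ℕ) (z : Fin (2*m+1) → Fin 2 × Fin 2) : ℂ :=
  (if (z ⟨0, by omega⟩).2 = 0 then 1 else 0) * (if (z ⟨2*m, by omega⟩).1 = 0 then 1 else 0) *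
  (∏ j : Fin m, eps2 (z ⟨2*(j:ℕ), by have := j.2; omega⟩).1 (z ⟨2*(j:ℕ)+1, by have := j.2; omega⟩).1) *
  (∏ j : Fin m, eps2 (z ⟨2*(j:ℕ)+1, by have := j.2; omega⟩).2 (z ⟨2*(j:ℕ)+2, by have := j.2; omega⟩).2)

/-- row part -/
noncomputable def epsRow (m : ℕ) (s : Fin (2*m+1) → Fin 2) : ℂ :=
  (if s ⟨2*m, by omega⟩ = 0 then 1 else 0) *
  ∏ j : Fin m, eps2 (s ⟨2*(j:ℕ), by have := j.2; omega⟩) (s ⟨2*(j:ℕ)+1, by have := j.2; omega⟩)

/-- column part -/
noncomputable def epsCol (m : ℕ) (s : Fin (2*m+1) → Fin 2) : ℂ :=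
  (if s ⟨0, by omega⟩ = 0 then 1 else 0) *
  ∏ j : Fin m, eps2 (s ⟨2*(j:ℕ)+1, by have := j.2; omega⟩) (s ⟨2*(j:ℕ)+2, by have := j.2; omega⟩)

theorem chainPsi_eq (m : ℕ) (z : Fin (2*m+1) → Fin 2 × Fin 2) :
    chainPsi m z = epsRow m (fun p => (z p).1) * epsCol m (fun p => (z p).2) := by
  unfold chainPsi epsRow epsCol
  ring

/-- the row word of the zigzag -/
def zRow (m : ℕ) (p : Fin (2*m+1)) : ℕ := (p : ℕ) / 2
/-- the standard labels -/
def zLab (m : ℕ) (p : Fin (2*m+1)) : ℕ := (p : ℕ) % 2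
/-- the column word of the zigzag -/
def zCol (m : ℕ) (p : Fin (2*m+1)) : ℕ := m - ((p : ℕ) + 1) / 2

/-- column lengths of the pair of columns -/
def cPair (m : ℕ) (b : Bool) : ℕ := cond b m (m+1)

/-- the standard column system -/
noncomputable def ePair (m : ℕ) : (Σ b : Bool, Fin (cPair m b)) ≃ Fin (2*m+1) :=
  Equiv.ofBijective (fun q => match q with
    | ⟨false, x⟩ => ⟨2 * (x : ℕ), by have := x.2; simp only [cPair, cond_false] at this; omega⟩
    | ⟨true, x⟩ => ⟨2 * (x : ℕ) + 1, by have := x.2; simp only [cPair, cond_true] at this; omega⟩) (by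
    rw [Fintype.bijective_iff_injective_and_card]
    constructor
    · rintro ⟨b, x⟩ ⟨b', x'⟩ h
      cases b <;> cases b' <;> simp only [Fin.mk.injEq] at h
      · have : x = x' := Fin.ext (by omega)
        rw [this]
      · omega
      · omega
      · have : x = x' := Fin.ext (by omega)
        rw [this]
    · have h : Fintype.card (Σ b : Bool, Fin (cPair m b)) = ∑ b : Bool, cPair m b := by
        rw [Fintype.card_sigma]
        exact Finset.sum_congr rfl fun b _ => Fintype.card_fin _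
      rw [h, Fintype.sum_bool, Fintype.card_fin]
      show m + (m + 1) = 2 * m + 1
      omega)

/-- row lengths -/
def cRows (m : ℕ) : Fin m ⊕ Unit → ℕ := Sum.elim (fun _ => 2) (fun _ => 1)

/-- the standard row system -/
noncomputable def eRows (m : ℕ) : (Σ j : Fin m ⊕ Unit, Fin (cRows m j)) ≃ Fin (2*m+1) :=
  Equiv.ofBijective (fun q => match q with
    | ⟨Sum.inl j, x⟩ => ⟨2 * (j : ℕ) + (x : ℕ), by
        have := j.2; have := x.2; simp only [cRows, Sum.elim_inl] at this; omega⟩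
    | ⟨Sum.inr _, x⟩ => ⟨2 * m + (x : ℕ), by
        have := x.2; simp only [cRows, Sum.elim_inr] at this; omega⟩) (by
    rw [Fintype.bijective_iff_injective_and_card]
    constructor
    · rintro ⟨j | j, x⟩ ⟨j' | j', x'⟩ h <;> simp only [Fin.mk.injEq] at h <;>
        have hx := x.2 <;> have hx' := x'.2 <;>
        simp only [cRows, Sum.elim_inl, Sum.elim_inr] at hx hx'
      · have h1 : j = j' := Fin.ext (by omega)
        subst h1
        have : x = x' := Fin.ext (by omega)
        rw [this]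
      · have := j.2; omega
      · have := j'.2; omega
      · have : x = x' := Fin.ext (by omega)
        rw [this]
    · have h : Fintype.card (Σ j : Fin m ⊕ Unit, Fin (cRows m j))
          = ∑ j : Fin m ⊕ Unit, cRows m j := by
        rw [Fintype.card_sigma]
        exact Finset.sum_congr rfl fun b _ => Fintype.card_fin _
      rw [h, Fintype.sum_sum_type, Fintype.card_fin]
      show ∑ j : Fin m, 2 + ∑ j : Unit, 1 = 2 * m + 1
      simp
      ring)

theorem colFun_ePair (m : ℕ) (r : Fin (2*m+1) → ℕ) :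
    colFun (cPair m) (ePair m) r = polyt (zRow m) (zLab m) r := by
  refine colFun_eq_polyt (ePair m) (fun b => cond b 1 0) ?_ _ _ ?_ ?_ r
  · intro a b h
    cases a <;> cases b <;> simp_all
  · intro b x
    cases b
    · show (2 * (x : ℕ)) / 2 = x
      omega
    · show (2 * (x : ℕ) + 1) / 2 = x
      omega
  · intro b x
    cases b
    · show (2 * (x : ℕ)) % 2 = 0
      omega
    · show (2 * (x : ℕ) + 1) % 2 = 1
      omega

theorem colFun_eRows (m : ℕ) (r : Fin (2*m+1) → ℕ) :
    colFun (cRows m) (eRows m) r = polyt (zLab m) (zRow m) r := by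
  refine colFun_eq_polyt (eRows m) (Sum.elim (fun j => (j : ℕ)) (fun _ => m)) ?_ _ _ ?_ ?_ r
  · rintro (a | a) (b | b) h
    · simpa [Fin.ext_iff] using h
    · simp at h; have := a.2; omega
    · simp at h; have := b.2; omega
    · rfl
  · rintro (j | j) x
    · have hx := x.2
      simp only [cRows, Sum.elim_inl] at hx
      show (2 * (j : ℕ) + (x : ℕ)) % 2 = x
      omega
    · have hx := x.2
      simp only [cRows, Sum.elim_inr] at hx
      show (2 * m + (x : ℕ)) % 2 = x
      omega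
  · rintro (j | j) x
    · have hx := x.2
      simp only [cRows, Sum.elim_inl] at hx
      show (2 * (j : ℕ) + (x : ℕ)) / 2 = j
      omega
    · have hx := x.2
      simp only [cRows, Sum.elim_inr] at hx
      show (2 * m + (x : ℕ)) / 2 = m
      omega

theorem minor_one (u : Fin 1 → Fin 2) :
    minor (fun x => (u x : ℕ)) = if u 0 = 0 then 1 else 0 := by
  unfold minor
  rw [Fintype.sum_eq_single 1 (fun κ hκ => absurd (Subsingleton.elim κ 1) hκ)]
  simp only [Perm.sign_one, Units.val_one, Int.cast_one, one_mul]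
  congr 1
  rw [eq_iff_iff]
  constructor
  · intro h
    have := h 0
    exact Fin.ext (by simpa using this)
  · intro h x
    have hx : x = 0 := Subsingleton.elim _ _
    subst hx
    simp [h]

theorem minor_two (u : Fin 2 → Fin 2) :
    minor (fun x => (u x : ℕ)) = eps2 (u 0) (u 1) := by
  unfold minor
  have huniv : (univ : Finset (Perm (Fin 2))) = {1, swap 0 1} := by decide
  rw [huniv, Finset.sum_pair (by decide)]
  simp only [Perm.sign_one, Units.val_one, Int.cast_one, one_mul,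
    Perm.sign_swap (show (0 : Fin 2) ≠ 1 by decide), Units.val_neg, Int.cast_neg, Fin.forall_fin_two,
    Perm.coe_one, id_eq, swap_apply_left, swap_apply_right]
  generalize u 0 = a
  generalize u 1 = b
  fin_cases a <;> fin_cases b <;> simp [eps2]

theorem colFun_eRows_eq (m : ℕ) (s : Fin (2*m+1) → Fin 2) :
    colFun (cRows m) (eRows m) (fun p => (s p : ℕ)) = epsRow m s := by
  unfold colFun epsRow
  rw [Fintype.prod_sum_type, mul_comm]
  congr 1
  · rw [Fintype.prod_unique]
    exact minor_one (fun x : Fin 1 => s (eRows m ⟨Sum.inr (), x⟩))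
  · refine Finset.prod_congr rfl fun j _ => ?_
    exact minor_two (fun x : Fin 2 => s (eRows m ⟨Sum.inl j, x⟩))

theorem colFun_std (m : ℕ) (g : Perm (Fin (2*m+1))) :
    colFun (cPair m) (ePair m) (zRow m ∘ g)
      = ((Perm.sign g : ℤ) : ℂ) * colFun (cRows m) (eRows m) (zLab m ∘ g.symm) := by
  rw [colFun_ePair, colFun_eRows, polyt_dual]

theorem exists_row (m : ℕ) (s : Fin (2*m+1) → Fin 2)
    (hs : ∃ g : Perm (Fin (2*m+1)), epsRow m (s ∘ g) ≠ 0) :
    ∃ (e : (Σ b : Bool, Fin (cPair m b)) ≃ Fin (2*m+1)) (C : ℂ), C ≠ 0 ∧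
      ∀ g : Perm (Fin (2*m+1)), colFun (cPair m) e (zRow m ∘ g)
        = C * (((Perm.sign g : ℤ) : ℂ) * epsRow m (s ∘ g.symm)) := by
  obtain ⟨g1, hg1⟩ := hs
  have h1 : polyt (zLab m) (zRow m) (fun p => ((s ∘ g1) p : ℕ)) ≠ 0 := by
    rw [← colFun_eRows, colFun_eRows_eq]
    exact hg1
  unfold polyt at h1
  obtain ⟨ρ, -, hρ'⟩ := Finset.exists_ne_zero_of_sum_ne_zero h1
  have hρ : ∀ t, ((s (g1 t) : Fin 2) : ℕ) = zLab m (ρ t) := by
    by_contra hcon
    exact hρ' (if_neg (fun h => hcon h.2))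
  -- `s ∘ θ = zLab`
  set θ : Perm (Fin (2*m+1)) := g1 * ρ⁻¹ with hθ
  have hsθ : ∀ p, ((s (θ p) : Fin 2) : ℕ) = zLab m p := by
    intro p
    have := hρ (ρ⁻¹ p)
    simpa [hθ] using this
  refine ⟨(ePair m).trans θ, ((Perm.sign θ : ℤ) : ℂ), ?_, ?_⟩
  · rcases Int.units_eq_one_or (Perm.sign θ) with h | h <;> simp [h]
  · intro g
    have h2 : colFun (cPair m) ((ePair m).trans θ) (zRow m ∘ g)
        = colFun (cPair m) (ePair m) (zRow m ∘ (g * θ : Perm _)) := rfl
    rw [h2, colFun_std, ← colFun_eRows_eq, Perm.sign_mul]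
    have h3 : (zLab m ∘ (g * θ : Perm _).symm) = fun p => (((s ∘ g.symm) p : Fin 2) : ℕ) := by
      funext p
      have := hsθ ((g * θ : Perm _).symm p)
      rw [comp_apply, ← this]
      have h4 : θ ((g * θ : Perm _).symm p) = g.symm p := by
        apply g.injective
        have : g (θ ((g * θ : Perm _).symm p)) = (g * θ) ((g * θ : Perm _).symm p) := rfl
        rw [this, Equiv.apply_symm_apply, Equiv.apply_symm_apply]
      rw [h4]
      rfl
    rw [h3]
    push_cast
    ring

theorem zCol_eq (m : ℕ) (p : Fin (2*m+1)) : zCol m p = zRow m (Fin.revPerm p) := by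
  have := p.2
  simp only [zCol, zRow, Fin.revPerm_apply, Fin.val_rev]
  omega

theorem epsRow_rev (m : ℕ) (s : Fin (2*m+1) → Fin 2) :
    epsRow m (s ∘ Fin.revPerm) = (-1) ^ m * epsCol m s := by
  unfold epsRow epsCol
  have h0 : (Fin.revPerm (⟨2*m, by omega⟩ : Fin (2*m+1))) = ⟨0, by omega⟩ := by
    ext; simp
  have hanti : ∀ a b : Fin 2, eps2 a b = -eps2 b a := by
    intro a b
    fin_cases a <;> fin_cases b <;> simp [eps2]
  have h00 : (if (s ∘ Fin.revPerm) (⟨2*m, by omega⟩ : Fin (2*m+1)) = 0 then (1:ℂ) else 0)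
      = if s ⟨0, by omega⟩ = 0 then 1 else 0 := by
    rw [comp_apply, h0]
  rw [h00]
  simp only [comp_apply]
  have h1 : (∏ j : Fin m, eps2 (s (Fin.revPerm ⟨2*(j:ℕ), by have := j.2; omega⟩))
      (s (Fin.revPerm ⟨2*(j:ℕ)+1, by have := j.2; omega⟩)))
      = ∏ j : Fin m, (-1 : ℂ) * eps2 (s ⟨2*(j:ℕ)+1, by have := j.2; omega⟩)
          (s ⟨2*(j:ℕ)+2, by have := j.2; omega⟩) := by
    rw [← Equiv.prod_comp Fin.revPerm]
    refine Finset.prod_congr rfl fun j _ => ?_
    rw [hanti, neg_one_mul]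
    congr 3
    · apply Fin.ext
      have := j.2
      simp only [Fin.revPerm_apply, Fin.val_rev]
      omega
    · apply Fin.ext
      have := j.2
      simp only [Fin.revPerm_apply, Fin.val_rev]
      omega
  rw [h1, Finset.prod_mul_distrib, Finset.prod_const, Finset.card_univ, Fintype.card_fin]
  ring

theorem exists_col (m : ℕ) (s : Fin (2*m+1) → Fin 2)
    (hs : ∃ g : Perm (Fin (2*m+1)), epsCol m (s ∘ g) ≠ 0) :
    ∃ (e : (Σ b : Bool, Fin (cPair m b)) ≃ Fin (2*m+1)) (C : ℂ), C ≠ 0 ∧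
      ∀ g : Perm (Fin (2*m+1)), colFun (cPair m) e (zCol m ∘ g)
        = C * (((Perm.sign g : ℤ) : ℂ) * epsCol m (s ∘ g.symm)) := by
  obtain ⟨g1, hg1⟩ := hs
  have h1 : ∃ g : Perm (Fin (2*m+1)), epsRow m (s ∘ g) ≠ 0 := by
    refine ⟨g1 * Fin.revPerm, ?_⟩
    have : (s ∘ (g1 * Fin.revPerm : Perm (Fin (2*m+1)))) = (s ∘ g1) ∘ Fin.revPerm := rfl
    rw [this, epsRow_rev]
    exact mul_ne_zero (pow_ne_zero _ (by norm_num)) hg1
  obtain ⟨e, C, hC, he⟩ := exists_row m s h1
  refine ⟨e, C * ((Perm.sign (Fin.revPerm : Perm (Fin (2*m+1))) : ℤ) : ℂ) * (-1) ^ m, ?_, ?_⟩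
  · refine mul_ne_zero (mul_ne_zero hC ?_) (pow_ne_zero _ (by norm_num))
    rcases Int.units_eq_one_or (Perm.sign (Fin.revPerm : Perm (Fin (2*m+1)))) with h | h <;>
      simp [h]
  · intro g
    have h2 : (zCol m ∘ g) = zRow m ∘ (Fin.revPerm * g : Perm (Fin (2*m+1))) := by
      funext p
      simp only [comp_apply, zCol_eq, Perm.mul_apply]
    have h3 : s ∘ (Fin.revPerm * g : Perm (Fin (2*m+1))).symm = (s ∘ g.symm) ∘ Fin.revPerm := by
      funext p
      rfl
    rw [h2, he, h3, epsRow_rev, Perm.sign_mul]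
    push_cast
    ring

/-- (B2) -/
theorem exists_pair (m : ℕ) (z : Fin (2*m+1) → Fin 2 × Fin 2)
    (hz : ∃ g : Perm (Fin (2*m+1)), chainPsi m (z ∘ g) ≠ 0) :
    ∃ (e e' : (Σ b : Bool, Fin (cPair m b)) ≃ Fin (2*m+1)) (C : ℂ), C ≠ 0 ∧
      ∀ g : Perm (Fin (2*m+1)), coef (cPair m) (zRow m) (zCol m) e e' g
        = C * chainPsi m (z ∘ g.symm) := by
  obtain ⟨g, hg⟩ := hz
  rw [chainPsi_eq] at hg
  obtain ⟨e, C, hC, he⟩ := exists_row m (fun p => (z p).1) ⟨g, left_ne_zero_of_mul hg⟩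
  obtain ⟨e', C', hC', he'⟩ := exists_col m (fun p => (z p).2) ⟨g, right_ne_zero_of_mul hg⟩
  refine ⟨e, e', C * C', mul_ne_zero hC hC', fun g => ?_⟩
  unfold coef
  rw [he, he', chainPsi_eq]
  have hs : ((Perm.sign g : ℤ) : ℂ) * ((Perm.sign g : ℤ) : ℂ) = 1 := by
    rcases Int.units_eq_one_or (Perm.sign g) with h | h <;> simp [h]
  have h1 : ((fun p => (z p).1) ∘ g.symm) = fun p => ((z ∘ g.symm) p).1 := rfl
  have h2 : ((fun p => (z p).2) ∘ g.symm) = fun p => ((z ∘ g.symm) p).2 := rfl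
  rw [h1, h2]
  linear_combination (C * C' * epsRow m (fun p => ((z ∘ g.symm) p).1)
    * epsCol m (fun p => ((z ∘ g.symm) p).2)) * hs

end Crest.Agent.R195
end

-- ▼ part R195/ChainB1a
section

/-! Row 195, part (B1a): the chain functional on matrices. -/

set_option autoImplicit false

namespace Crest.Agent.R195

open Finset Function Equiv Matrix

/-- transpose or not -/
def opT (b : Bool) (M : Matrix (Fin 2) (Fin 2) ℂ) : Matrix (Fin 2) (Fin 2) ℂ :=
  match b with
  | true => M.transpose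
  | false => M

/-- chain value after the first matrix -/
noncomputable def chainW :
    (b : Bool) → (v : Fin 2 → ℂ) → (n : ℕ) → (Fin n → Matrix (Fin 2) (Fin 2) ℂ) → ℂ
  | _, v, 0, _ => v 0
  | b, v, n+1, N => chainW (!b) ((v ᵥ* eps2) ᵥ* opT (!b) (N 0)) n (fun i => N i.succ)

/-- chain value -/
noncomputable def chainV (b : Bool) (a : Fin 2 → ℂ) (n : ℕ)
    (M : Fin (n+1) → Matrix (Fin 2) (Fin 2) ℂ) : ℂ :=
  chainW b (a ᵥ* opT b (M 0)) n (fun i => M i.succ)

theorem chainV_zero (b : Bool) (a : Fin 2 → ℂ) (M : Fin 1 → Matrix (Fin 2) (Fin 2) ℂ) :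
    chainV b a 0 M = (a ᵥ* opT b (M 0)) 0 := rfl

theorem chainV_succ (b : Bool) (a : Fin 2 → ℂ) (n : ℕ)
    (M : Fin (n+2) → Matrix (Fin 2) (Fin 2) ℂ) :
    chainV b a (n+1) M = chainV (!b) ((a ᵥ* opT b (M 0)) ᵥ* eps2) n (fun i => M i.succ) := rfl

theorem chainW_smul (b : Bool) (c : ℂ) (v : Fin 2 → ℂ) (n : ℕ)
    (N : Fin n → Matrix (Fin 2) (Fin 2) ℂ) :
    chainW b (c • v) n N = c * chainW b v n N := by
  induction n generalizing b v with
  | zero => simp [chainW]
  | succ n ih =>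
    simp only [chainW]
    rw [Matrix.smul_vecMul, Matrix.smul_vecMul, ih]

theorem chainW_add (b : Bool) (v v' : Fin 2 → ℂ) (n : ℕ)
    (N : Fin n → Matrix (Fin 2) (Fin 2) ℂ) :
    chainW b (v + v') n N = chainW b v n N + chainW b v' n N := by
  induction n generalizing b v v' with
  | zero => simp [chainW]
  | succ n ih =>
    simp only [chainW]
    rw [Matrix.add_vecMul, Matrix.add_vecMul, ih]

theorem chainW_neg (b : Bool) (v : Fin 2 → ℂ) (n : ℕ)
    (N : Fin n → Matrix (Fin 2) (Fin 2) ℂ) :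
    chainW b (-v) n N = -chainW b v n N := by
  rw [← neg_one_smul ℂ v, chainW_smul, neg_one_mul]

/-- incoming index -/
def lin (b : Bool) (z : Fin 2 × Fin 2) : Fin 2 :=
  match b with
  | true => z.2
  | false => z.1

/-- weights of label words -/
noncomputable def chainR : (b : Bool) → (n : ℕ) → (Fin (n+1) → Fin 2 × Fin 2) → ℂ
  | b, 0, z => if lin (!b) (z 0) = 0 then 1 else 0
  | b, n+1, z => eps2 (lin (!b) (z 0)) (lin (!b) (z 1)) * chainR (!b) n (fun i => z i.succ)

theorem vec_key (b : Bool) (a : Fin 2 → ℂ) (M : Matrix (Fin 2) (Fin 2) ℂ) (t : Fin 2) :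
    ((a ᵥ* opT b M) ᵥ* eps2) t
      = ∑ x : Fin 2 × Fin 2, a (lin b x) * eps2 (lin (!b) x) t * M x.1 x.2 := by
  cases b <;>
  simp only [Fintype.sum_prod_type, Fin.sum_univ_two, Matrix.vecMul, dotProduct, opT, lin,
    Bool.not_true, Bool.not_false, Matrix.transpose_apply] <;>
  ring

theorem chainV_eq (b : Bool) (a : Fin 2 → ℂ) (n : ℕ)
    (M : Fin (n+1) → Matrix (Fin 2) (Fin 2) ℂ) :
    chainV b a n M = ∑ z : Fin (n+1) → Fin 2 × Fin 2,
      a (lin b (z 0)) * chainR b n z * ∏ p, M p (z p).1 (z p).2 := by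
  induction n generalizing b a with
  | zero =>
    refine Eq.trans ?_ (Equiv.sum_comp (Equiv.funUnique (Fin 1) (Fin 2 × Fin 2)).symm
      (fun z : Fin 1 → Fin 2 × Fin 2 =>
        a (lin b (z 0)) * chainR b 0 z * ∏ p, M p (z p).1 (z p).2))
    rw [chainV_zero]
    cases b <;>
    simp [Fintype.sum_prod_type, Fin.sum_univ_two, Matrix.vecMul, dotProduct, opT, lin,
      chainR, Equiv.funUnique]
  | succ n ih =>
    rw [chainV_succ, ih]
    refine Eq.trans ?_ (Equiv.sum_comp (Fin.consEquiv (n := n+1) (fun _ => Fin 2 × Fin 2))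
      (fun z : Fin (n+2) → Fin 2 × Fin 2 =>
        a (lin b (z 0)) * chainR b (n+1) z * ∏ p, M p (z p).1 (z p).2))
    rw [Fintype.sum_prod_type_right]
    refine Finset.sum_congr rfl fun z _ => ?_
    rw [vec_key, Finset.sum_mul, Finset.sum_mul]
    refine Finset.sum_congr rfl fun x _ => ?_
    simp only [Fin.consEquiv_apply, Fin.cons_zero, Fin.cons_succ, chainR]
    have h1 : (Fin.cons x z : Fin (n+2) → Fin 2 × Fin 2) 1 = z 0 := rfl
    have h2 : ∏ p : Fin (n+2), M p ((Fin.cons x z : Fin (n+2) → Fin 2 × Fin 2) p).1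
        ((Fin.cons x z : Fin (n+2) → Fin 2 × Fin 2) p).2
        = M 0 x.1 x.2 * ∏ p : Fin (n+1), M p.succ (z p).1 (z p).2 := by
      rw [Fin.prod_univ_succ]
      rfl
    rw [h1, h2]
    ring

theorem chainR_eq (m : ℕ) (z : Fin (2*m+1) → Fin 2 × Fin 2) :
    chainR true (2*m) z = (if (z ⟨2*m, by omega⟩).1 = 0 then 1 else 0) *
      (∏ j : Fin m, eps2 (z ⟨2*(j:ℕ), by have := j.2; omega⟩).1
        (z ⟨2*(j:ℕ)+1, by have := j.2; omega⟩).1) *
      (∏ j : Fin m, eps2 (z ⟨2*(j:ℕ)+1, by have := j.2; omega⟩).2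
        (z ⟨2*(j:ℕ)+2, by have := j.2; omega⟩).2) := by
  induction m with
  | zero =>
    simp [chainR, lin]
  | succ m ih =>
    have h1 : chainR true (2*(m+1)) z = eps2 (z ⟨0, by omega⟩).1 (z ⟨1, by omega⟩).1 *
        (eps2 (z ⟨1, by omega⟩).2 (z ⟨2, by omega⟩).2 *
          chainR true (2*m) (fun i => z ⟨i + 2, by have := i.2; omega⟩)) := rfl
    rw [h1, ih, Fin.prod_univ_succ, Fin.prod_univ_succ]
    simp only [Fin.val_zero, Fin.val_succ, mul_zero, zero_add, mul_add, mul_one]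
    ring

theorem chainPsi_eq_R (m : ℕ) (z : Fin (2*m+1) → Fin 2 × Fin 2) :
    chainPsi m z = (if (z 0).2 = 0 then 1 else 0) * chainR true (2*m) z := by
  rw [chainR_eq]
  unfold chainPsi
  have : (⟨0, by omega⟩ : Fin (2*m+1)) = 0 := rfl
  rw [this]
  ring

/-- matrix form of the chain functional -/
theorem chainV_psi (m : ℕ) (M : Fin (2*m+1) → Matrix (Fin 2) (Fin 2) ℂ) :
    chainV true (Pi.single 0 1) (2*m) M
      = ∑ z : Fin (2*m+1) → Fin 2 × Fin 2, chainPsi m z * ∏ p, M p (z p).1 (z p).2 := by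
  rw [chainV_eq]
  refine Finset.sum_congr rfl fun z _ => ?_
  rw [chainPsi_eq_R]
  congr 2
  show (Pi.single 0 1 : Fin 2 → ℂ) (z 0).2 = _
  rw [Pi.single_apply]

end Crest.Agent.R195
private theorem rz_ce6fa116bf : type_of% @_root_.Crest.Agent.R195.chainR.eq_def := @_root_.Crest.Agent.R195.chainR.eq_def -- L66
private theorem rz_37e5a9d720 : type_of% @_root_.Crest.Agent.R195.chainR.eq_1 := @_root_.Crest.Agent.R195.chainR.eq_1 -- L66
private theorem rz_6b70f788e2 : type_of% @_root_.Crest.Agent.R195.chainW.eq_def := @_root_.Crest.Agent.R195.chainW.eq_def -- L19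
private theorem rz_a6c3bb3102 : type_of% @_root_.Crest.Agent.R195.chainW.eq_1 := @_root_.Crest.Agent.R195.chainW.eq_1 -- L19
private theorem rz_d303feb96c : type_of% @_root_.Crest.Agent.R195.lin.eq_1 := @_root_.Crest.Agent.R195.lin.eq_1 -- L60
private theorem rz_24480eec26 : type_of% @_root_.Crest.Agent.R195.opT.eq_1 := @_root_.Crest.Agent.R195.opT.eq_1 -- L13
end

-- ▼ part R195/ChainB1b
section

/-! Row 195, part (B1b): antisymmetry of the chain functional in the four units, and
non-vanishing. -/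

set_option autoImplicit false

namespace Crest.Agent.R195

open Finset Function Equiv Matrix

/-- orthogonality of two matrices for the determinant form, left and right -/
def Cond (X Y : Matrix (Fin 2) (Fin 2) ℂ) : Prop :=
  X.transpose * eps2 * Y = -(Y.transpose * eps2 * X) ∧
  X * eps2 * Y.transpose = -(Y * eps2 * X.transpose)

theorem Cond.opT {X Y : Matrix (Fin 2) (Fin 2) ℂ} (h : Cond X Y) (b : Bool) :
    opT b Y * eps2 * opT (!b) X = -(opT b X * eps2 * opT (!b) Y) := by
  cases b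
  · show Y * eps2 * X.transpose = -(X * eps2 * Y.transpose)
    rw [h.2, neg_neg]
  · show Y.transpose * eps2 * X = -(X.transpose * eps2 * Y)
    rw [h.1, neg_neg]

theorem chainV_swap (n : ℕ) : ∀ (b : Bool) (a : Fin 2 → ℂ)
    (M : Fin (n+1) → Matrix (Fin 2) (Fin 2) ℂ) (i : ℕ) (hi : i + 1 < n + 1),
    Cond (M ⟨i, by omega⟩) (M ⟨i+1, hi⟩) →
    chainV b a n (M ∘ swap ⟨i, by omega⟩ ⟨i+1, hi⟩) = -chainV b a n M := by
  induction n with
  | zero => intro b a M i hi; omega
  | succ n ih =>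
    intro b a M i hi hc
    cases i with
    | zero =>
      have h1 : ∀ N : Fin (n+2) → Matrix (Fin 2) (Fin 2) ℂ, chainV b a (n+1) N
          = chainW (!b) (a ᵥ* (opT b (N 0) * eps2 * opT (!b) (N 1))) n
            (fun i => N i.succ.succ) := by
        intro N
        rw [← Matrix.vecMul_vecMul, ← Matrix.vecMul_vecMul]
        rfl
      rw [h1, h1]
      have e0 : (M ∘ swap (⟨0, by omega⟩ : Fin (n+2)) ⟨0+1, hi⟩) 0 = M 1 := by
        show M (swap 0 1 0) = M 1
        rw [swap_apply_left]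
      have e1 : (M ∘ swap (⟨0, by omega⟩ : Fin (n+2)) ⟨0+1, hi⟩) 1 = M 0 := by
        show M (swap 0 1 1) = M 0
        rw [swap_apply_right]
      have e2 : (fun i : Fin n => (M ∘ swap (⟨0, by omega⟩ : Fin (n+2)) ⟨0+1, hi⟩) i.succ.succ)
          = fun i : Fin n => M i.succ.succ := by
        funext i
        show M (swap 0 1 i.succ.succ) = M i.succ.succ
        rw [swap_apply_of_ne_of_ne]
        · exact Fin.succ_ne_zero _
        · intro h
          have := congrArg Fin.val h
          simp at this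
      rw [e0, e1, e2]
      have hc' : Cond (M 0) (M 1) := hc
      rw [hc'.opT b, Matrix.vecMul_neg, chainW_neg]
    | succ i =>
      rw [chainV_succ, chainV_succ]
      have e0 : (M ∘ swap (⟨i+1, by omega⟩ : Fin (n+2)) ⟨i+1+1, hi⟩) 0 = M 0 := by
        show M (swap _ _ 0) = M 0
        rw [swap_apply_of_ne_of_ne]
        · intro h; exact absurd (congrArg Fin.val h) (by simp)
        · intro h; exact absurd (congrArg Fin.val h) (by simp)
      have e1 : (fun j : Fin (n+1) =>
          (M ∘ swap (⟨i+1, by omega⟩ : Fin (n+2)) ⟨i+1+1, hi⟩) j.succ)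
          = (fun j : Fin (n+1) => M j.succ) ∘ swap ⟨i, by omega⟩ ⟨i+1, by omega⟩ := by
        funext j
        show M (swap _ _ j.succ) = M (Fin.succ (swap _ _ j))
        congr 1
        have : (Fin.succ (swap (⟨i, by omega⟩ : Fin (n+1)) ⟨i+1, by omega⟩ j))
            = swap (Fin.succ ⟨i, by omega⟩) (Fin.succ ⟨i+1, by omega⟩) j.succ := by
          rw [← (Fin.succ_injective (n+1)).swap_apply]
        rw [this]
        rfl
      rw [e0, e1]
      exact ih _ _ _ i (by omega) hc

/-- the four units -/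
def qm (a : Fin 4) : Matrix (Fin 2) (Fin 2) ℂ :=
  match a with
  | 0 => !![1, 0; 0, 1]
  | 1 => !![1, 0; 0, -1]
  | 2 => !![0, 1; 1, 0]
  | 3 => !![0, 1; -1, 0]

def Jm : Matrix (Fin 2) (Fin 2) ℂ := !![0, 1; 1, 0]

theorem left_apply (X Y : Matrix (Fin 2) (Fin 2) ℂ) (i j : Fin 2) :
    (X.transpose * eps2 * Y) i j = X 0 i * Y 1 j - X 1 i * Y 0 j := by
  rw [Matrix.mul_apply, Fin.sum_univ_two, Matrix.mul_apply, Matrix.mul_apply, Fin.sum_univ_two,
    Fin.sum_univ_two]
  simp only [Matrix.transpose_apply, eps2, Matrix.of_apply, Matrix.cons_val', Matrix.cons_val_zero,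
    Matrix.cons_val_one, Matrix.cons_val_fin_one]
  ring

theorem right_apply (X Y : Matrix (Fin 2) (Fin 2) ℂ) (i j : Fin 2) :
    (X * eps2 * Y.transpose) i j = X i 0 * Y j 1 - X i 1 * Y j 0 := by
  rw [Matrix.mul_apply, Fin.sum_univ_two, Matrix.mul_apply, Matrix.mul_apply, Fin.sum_univ_two,
    Fin.sum_univ_two]
  simp only [Matrix.transpose_apply, eps2, Matrix.of_apply, Matrix.cons_val', Matrix.cons_val_zero,
    Matrix.cons_val_one, Matrix.cons_val_fin_one]
  ring

theorem cond_iff (X Y : Matrix (Fin 2) (Fin 2) ℂ) : Cond X Y ↔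
    (∀ i j, X 0 i * Y 1 j - X 1 i * Y 0 j = -(Y 0 i * X 1 j - Y 1 i * X 0 j)) ∧
    (∀ i j, X i 0 * Y j 1 - X i 1 * Y j 0 = -(Y i 0 * X j 1 - Y i 1 * X j 0)) := by
  unfold Cond
  constructor
  · rintro ⟨h1, h2⟩
    refine ⟨fun i j => ?_, fun i j => ?_⟩
    · have := congrFun (congrFun h1 i) j
      rwa [Matrix.neg_apply, left_apply, left_apply] at this
    · have := congrFun (congrFun h2 i) j
      rwa [Matrix.neg_apply, right_apply, right_apply] at this
  · rintro ⟨h1, h2⟩
    constructor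
    · ext i j
      rw [Matrix.neg_apply, left_apply, left_apply, h1]
    · ext i j
      rw [Matrix.neg_apply, right_apply, right_apply, h2]

theorem cond_qm {a b : Fin 4} (h : a ≠ b) : Cond (qm a) (qm b) := by
  rw [cond_iff]
  simp only [Fin.forall_fin_two]
  fin_cases a <;> fin_cases b <;> first
    | exact absurd rfl h
    | simp [qm]

theorem cond_qmJ {a b : Fin 4} (h : a ≠ b) : Cond (qm a * Jm) (qm b * Jm) := by
  have hJ : ∀ (c : Fin 4) (i : Fin 2), (qm c * Jm) i 0 = qm c i 1 ∧ (qm c * Jm) i 1 = qm c i 0 := by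
    intro c i
    rw [Matrix.mul_apply, Matrix.mul_apply, Fin.sum_univ_two, Fin.sum_univ_two]
    simp [Jm]
  rw [cond_iff]
  simp only [Fin.forall_fin_two, (hJ _ _).1, (hJ _ _).2]
  fin_cases a <;> fin_cases b <;> first
    | exact absurd rfl h
    | simp [qm]

theorem det_qm (a : Fin 4) : (qm a).det ≠ 0 := by
  fin_cases a <;> simp [qm, Matrix.det_fin_two]

/-- chain value of a word in the units -/
noncomputable def psiQ (Q : Fin 4 → Matrix (Fin 2) (Fin 2) ℂ) (m : ℕ)
    (r : Fin (2*m+1) → Fin 4) : ℂ :=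
  chainV true (Pi.single 0 1) (2*m) (fun p => Q (r p))

theorem psiQ_swap_adj {Q : Fin 4 → Matrix (Fin 2) (Fin 2) ℂ}
    (hQ : ∀ a b, a ≠ b → Cond (Q a) (Q b)) (m : ℕ) (r : Fin (2*m+1) → Fin 4)
    (i j : Fin (2*m+1)) (hij : (j : ℕ) = i + 1) (hr : r i ≠ r j) :
    psiQ Q m (r ∘ swap i j) = -psiQ Q m r := by
  have hi : (i : ℕ) + 1 < 2*m+1 := by have := j.2; omega
  have hj : j = ⟨i + 1, hi⟩ := Fin.ext hij
  subst hj
  exact chainV_swap (2*m) true (Pi.single 0 1) (fun p => Q (r p)) i hi (hQ _ _ hr)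

theorem psiQ_swap {Q : Fin 4 → Matrix (Fin 2) (Fin 2) ℂ}
    (hQ : ∀ a b, a ≠ b → Cond (Q a) (Q b)) (m : ℕ) (d : ℕ) :
    ∀ (i j : Fin (2*m+1)), (j : ℕ) = i + d + 1 → ∀ r : Fin (2*m+1) → Fin 4,
      (∀ x y, i ≤ x → x ≤ j → i ≤ y → y ≤ j → r x = r y → x = y) →
      psiQ Q m (r ∘ swap i j) = -psiQ Q m r := by
  induction d with
  | zero =>
    intro i j hij r hr
    refine psiQ_swap_adj hQ m r i j (by omega) ?_
    intro h
    have := hr i j le_rfl (by rw [Fin.le_def]; omega) (by rw [Fin.le_def]; omega) le_rfl h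
    rw [this] at hij
    omega
  | succ d ih =>
    intro i j hij r hr
    have hk : (i : ℕ) + 1 < 2*m+1 := by have := j.2; omega
    set k : Fin (2*m+1) := ⟨i + 1, hk⟩ with hkdef
    have hkval : (k : ℕ) = i + 1 := rfl
    have hlik : i ≤ k := Fin.le_def.2 (by omega)
    have hlkj : k ≤ j := Fin.le_def.2 (by omega)
    have hik : i ≠ k := by intro h; have := congrArg Fin.val h; simp [hkdef] at this
    have hkj : k ≠ j := by intro h; have := congrArg Fin.val h; simp [hkdef] at this; omega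
    have hij' : i ≠ j := by intro h; rw [h] at hij; omega
    -- r ∘ swap i k is injective on [i,j]
    have hmap : ∀ x, i ≤ x → x ≤ j → i ≤ swap i k x ∧ swap i k x ≤ j := by
      intro x h1 h2
      by_cases hx1 : x = i
      · rw [hx1, swap_apply_left]
        constructor <;> rw [Fin.le_def] <;> simp only [hkdef] <;> omega
      · by_cases hx2 : x = k
        · rw [hx2, swap_apply_right]
          constructor
          · exact le_rfl
          · rw [Fin.le_def]; omega
        · rw [swap_apply_of_ne_of_ne hx1 hx2]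
          exact ⟨h1, h2⟩
    have hr1 : ∀ x y, i ≤ x → x ≤ j → i ≤ y → y ≤ j → (r ∘ swap i k) x = (r ∘ swap i k) y →
        x = y := by
      intro x y hx1 hx2 hy1 hy2 h
      have := hr _ _ (hmap x hx1 hx2).1 (hmap x hx1 hx2).2 (hmap y hy1 hy2).1 (hmap y hy1 hy2).2 h
      exact (swap i k).injective this
    have hdec : r ∘ swap i j = ((r ∘ swap i k) ∘ swap k j) ∘ swap i k := by
      have : swap i j = swap i k * swap k j * swap i k := by
        have h1 := Equiv.swap_mul_swap_mul_swap (x := j) (y := k) (z := i) hkj.symm hij'.symm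
        rw [← h1, Equiv.swap_comm k i, Equiv.swap_comm j k]
      rw [this]
      rfl
    rw [hdec, psiQ_swap_adj hQ m _ i k rfl, ih k j (by show (j : ℕ) = (i + 1) + d + 1; omega),
      psiQ_swap_adj hQ m _ i k rfl]
    · ring
    · intro h
      exact hik (hr i k le_rfl (hlik.trans hlkj) hlik hlkj h)
    · intro x y hx1 hx2 hy1 hy2
      exact hr1 x y (hlik.trans hx1) hx2 (hlik.trans hy1) hy2
    · intro h
      have h1 : ((r ∘ swap i k) ∘ swap k j) i = (r ∘ swap i k) i := by
        show (r ∘ swap i k) (swap k j i) = _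
        rw [swap_apply_of_ne_of_ne hik hij']
      have h2 : ((r ∘ swap i k) ∘ swap k j) k = (r ∘ swap i k) j := by
        show (r ∘ swap i k) (swap k j k) = _
        rw [swap_apply_left]
      rw [h1, h2] at h
      exact hij' (hr1 i j le_rfl (by rw [Fin.le_def]; omega) (by rw [Fin.le_def]; omega) le_rfl h)

theorem psiQ_perm {Q : Fin 4 → Matrix (Fin 2) (Fin 2) ℂ}
    (hQ : ∀ a b, a ≠ b → Cond (Q a) (Q b)) (m : ℕ) (col : Fin (2*m+1) → ℕ) (hcol : Monotone col)
    (κ : Perm (Fin (2*m+1))) (hκ : ∀ t, col (κ t) = col t) (r : Fin (2*m+1) → Fin 4)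
    (hr : ∀ x y, col x = col y → r x = r y → x = y) :
    psiQ Q m (r ∘ κ) = ((Perm.sign κ : ℤ) : ℂ) * psiQ Q m r := by
  induction hn : κ.support.card using Nat.strong_induction_on generalizing κ r with
  | _ n ih =>
    by_cases h1 : κ = 1
    · subst h1; simp
    · obtain ⟨x, hx⟩ : ∃ x, κ x ≠ x := by
        by_contra hcon
        push Not at hcon
        exact h1 (Equiv.ext hcon)
      have hlt := Perm.card_support_swap_mul hx
      have hcs : ∀ t, col (swap x (κ x) t) = col t := by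
        intro t
        by_cases ht : t = x
        · rw [ht, swap_apply_left, hκ]
        · by_cases ht2 : t = κ x
          · rw [ht2, swap_apply_right, hκ]
          · rw [swap_apply_of_ne_of_ne ht ht2]
      have hr' : ∀ y z, col y = col z → (r ∘ swap x (κ x)) y = (r ∘ swap x (κ x)) z → y = z := by
        intro y z hyz h
        exact (swap x (κ x)).injective (hr _ _ (by rw [hcs, hcs, hyz]) h)
      have hih := ih _ (hn ▸ hlt) (swap x (κ x) * κ) (by
        intro t
        rw [Perm.mul_apply, hcs, hκ]) (r ∘ swap x (κ x)) hr' rfl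
      have e : (r ∘ swap x (κ x)) ∘ (swap x (κ x) * κ : Perm _) = r ∘ κ := by
        funext t
        show r (swap x (κ x) (swap x (κ x) (κ t))) = r (κ t)
        rw [swap_apply_self]
      rw [e] at hih
      rw [hih]
      -- the swap
      have hsw : psiQ Q m (r ∘ swap x (κ x)) = -psiQ Q m r := by
        have hinj : ∀ i j : Fin (2*m+1), col i = col j → ∀ y z, i ≤ y → y ≤ j → i ≤ z → z ≤ j →
            r y = r z → y = z := by
          intro i j hij y z h1 h2 h3 h4 h
          have hy : col y = col i := le_antisymm ((hcol h2).trans hij.ge) (hcol h1)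
          have hz : col z = col i := le_antisymm ((hcol h4).trans hij.ge) (hcol h3)
          exact hr y z (hy.trans hz.symm) h
        rcases lt_or_gt_of_ne (fun h => hx h.symm : x ≠ κ x) with hlt | hlt
        · exact psiQ_swap hQ m ((κ x : ℕ) - x - 1) x (κ x)
            (by have := Fin.lt_def.1 hlt; omega) r (hinj x (κ x) (hκ x).symm)
        · rw [Equiv.swap_comm]
          exact psiQ_swap hQ m ((x : ℕ) - κ x - 1) (κ x) x
            (by have := Fin.lt_def.1 hlt; omega) r (hinj (κ x) x (hκ x))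
      rw [hsw, Perm.sign_mul, Perm.sign_swap (Ne.symm hx)]
      push_cast
      ring

/-- non-vanishing for a suitable rotation -/
theorem chainW_surj (n : ℕ) : ∀ (b : Bool) (N : Fin n → Matrix (Fin 2) (Fin 2) ℂ),
    (∀ i, (N i).det ≠ 0) → ∃ v, chainW b v n N ≠ 0 := by
  induction n with
  | zero =>
    intro b N _
    exact ⟨Pi.single 0 1, by simp [chainW]⟩
  | succ n ih =>
    intro b N hN
    obtain ⟨v, hv⟩ := ih (!b) (fun i => N i.succ) (fun i => hN _)
    have h1 : (opT (!b) (N 0)).det ≠ 0 := by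
      cases b
      · show (N 0).transpose.det ≠ 0
        rw [Matrix.det_transpose]; exact hN 0
      · exact hN 0
    have h2 : (eps2 * opT (!b) (N 0)).det ≠ 0 := by
      rw [Matrix.det_mul]
      exact mul_ne_zero (by simp [eps2, Matrix.det_fin_two]) h1
    refine ⟨v ᵥ* (eps2 * opT (!b) (N 0))⁻¹, ?_⟩
    have h3 : chainW b (v ᵥ* (eps2 * opT (!b) (N 0))⁻¹) (n+1) N = chainW (!b) v n
        (fun i => N i.succ) := by
      show chainW (!b) (((v ᵥ* (eps2 * opT (!b) (N 0))⁻¹) ᵥ* eps2) ᵥ* opT (!b) (N 0)) n _ = _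
      rw [Matrix.vecMul_vecMul, Matrix.vecMul_vecMul,
        Matrix.nonsing_inv_mul _ (Ne.isUnit h2), Matrix.vecMul_one]
    rw [h3]
    exact hv

theorem chainV_J (m : ℕ) : ∀ (a : Fin 2 → ℂ) (M : Fin (2*m+1) → Matrix (Fin 2) (Fin 2) ℂ),
    chainV true a (2*m) (fun p => M p * Jm)
      = (-1) ^ m * chainV true (a ᵥ* Jm) (2*m) M := by
  induction m with
  | zero =>
    intro a M
    have h1 : chainV true a (2*0) (fun p => M p * Jm) = (a ᵥ* (M 0 * Jm).transpose) 0 := rfl
    have h2 : chainV true (a ᵥ* Jm) (2*0) M = ((a ᵥ* Jm) ᵥ* (M 0).transpose) 0 := rfl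
    rw [h1, h2, Matrix.transpose_mul, pow_zero, one_mul, Matrix.vecMul_vecMul]
    rfl
  | succ m ih =>
    intro a M
    have h1 : ∀ (a : Fin 2 → ℂ) (N : Fin (2*(m+1)+1) → Matrix (Fin 2) (Fin 2) ℂ),
        chainV true a (2*(m+1)) N
        = chainV true (((a ᵥ* ((N 0).transpose)) ᵥ* eps2) ᵥ* (N 1) ᵥ* eps2) (2*m)
          (fun i => N i.succ.succ) := fun a N => rfl
    rw [h1, h1, ih]
    have h2 : ((((a ᵥ* ((M 0 * Jm).transpose)) ᵥ* eps2) ᵥ* (M 1 * Jm) ᵥ* eps2) ᵥ* Jm)
        = -((((a ᵥ* Jm) ᵥ* ((M 0).transpose)) ᵥ* eps2) ᵥ* (M 1) ᵥ* eps2) := by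
      have h3 : Jm * eps2 * Jm = -eps2 := by
        ext i j
        fin_cases i <;> fin_cases j <;>
          simp [Jm, eps2, Matrix.mul_apply, Fin.sum_univ_two]
      have h4 : Jm.transpose = Jm := by
        ext i j
        fin_cases i <;> fin_cases j <;> simp [Jm, Matrix.transpose_apply]
      rw [Matrix.transpose_mul, h4]
      simp only [Matrix.vecMul_vecMul]
      rw [← Matrix.vecMul_neg]
      congr 1
      calc Jm * (M 0).transpose * eps2 * (M 1 * Jm) * eps2 * Jm
          = Jm * (M 0).transpose * eps2 * M 1 * (Jm * eps2 * Jm) := by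
            simp only [Matrix.mul_assoc]
        _ = _ := by rw [h3, Matrix.mul_neg]
    rw [h2]
    have h5 : ∀ (v : Fin 2 → ℂ) (N : Fin (2*m+1) → Matrix (Fin 2) (Fin 2) ℂ),
        chainV true (-v) (2*m) N = -chainV true v (2*m) N := by
      intro v N
      unfold chainV
      rw [Matrix.neg_vecMul, chainW_neg]
    rw [h5, pow_succ]
    ring

theorem exists_Q (m : ℕ) (r : Fin (2*m+1) → Fin 4) :
    ∃ Q : Fin 4 → Matrix (Fin 2) (Fin 2) ℂ, (∀ a b, a ≠ b → Cond (Q a) (Q b)) ∧
      psiQ Q m r ≠ 0 := by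
  by_contra hcon
  push Not at hcon
  have h1 := hcon qm (fun a b h => cond_qm h)
  have h2 := hcon (fun a => qm a * Jm) (fun a b h => cond_qmJ h)
  unfold psiQ at h1 h2
  rw [chainV_J m (Pi.single 0 1) (fun p => qm (r p))] at h2
  have h3 : chainV true (Pi.single 0 1 ᵥ* Jm) (2*m) (fun p => qm (r p)) = 0 :=
    (mul_eq_zero.1 h2).resolve_left (pow_ne_zero _ (by norm_num))
  have h4 : (Pi.single 0 1 ᵥ* Jm : Fin 2 → ℂ) = Pi.single 1 1 := by
    funext j
    fin_cases j <;> simp [Jm, Matrix.vecMul, dotProduct, Fin.sum_univ_two]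
  rw [h4] at h3
  have h5 : ∀ a : Fin 2 → ℂ, chainV true a (2*m) (fun p => qm (r p)) = 0 := by
    intro a
    have h6 : a = a 0 • (Pi.single 0 1 : Fin 2 → ℂ) + a 1 • (Pi.single 1 1 : Fin 2 → ℂ) := by
      funext j
      fin_cases j <;> simp
    rw [h6]
    unfold chainV at h1 h3 ⊢
    rw [Matrix.add_vecMul, Matrix.smul_vecMul, Matrix.smul_vecMul, chainW_add, chainW_smul,
      chainW_smul, h1, h3]
    ring
  obtain ⟨v, hv⟩ := chainW_surj (2*m) true (fun i => qm (r i.succ)) (fun i => det_qm _)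
  apply hv
  have h7 := h5 (v ᵥ* ((qm (r 0)).transpose)⁻¹)
  unfold chainV at h7
  have h8 : ((qm (r 0)).transpose).det ≠ 0 := by
    rw [Matrix.det_transpose]; exact det_qm _
  have h9 : (v ᵥ* ((qm (r 0)).transpose)⁻¹) ᵥ* opT true (qm (r 0)) = v := by
    show (v ᵥ* ((qm (r 0)).transpose)⁻¹) ᵥ* (qm (r 0)).transpose = v
    rw [Matrix.vecMul_vecMul, Matrix.nonsing_inv_mul _ (Ne.isUnit h8), Matrix.vecMul_one]
  rw [h9] at h7
  exact h7

end Crest.Agent.R195
private theorem rz_892c7cb703 : type_of% @_root_.Crest.Agent.R195.qm.eq_1 := @_root_.Crest.Agent.R195.qm.eq_1 -- L83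
end

-- ▼ part R195/ChainGadget

/-! Row 195, part (B): the pair gadget in the definitions of `SpDefs`. -/

set_option autoImplicit false

namespace Crest.Agent.R195

open Finset Function Equiv

section tableau4

variable {T : Type*} [Fintype T] [DecidableEq T]
variable {U : Type*} [AddCommGroup U] [Module ℂ U]

/-- restriction of a representation to an invariant subspace -/
noncomputable def subRep (ρ : Representation ℂ (Perm T) U) (V : Submodule ℂ U)
    (hV : ∀ g, ∀ u ∈ V, ρ g u ∈ V) : Representation ℂ (Perm T) V where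
  toFun g := (ρ g).restrict (hV g)
  map_one' := by ext x; simp [LinearMap.restrict_apply]
  map_mul' g h := by ext x; simp [LinearMap.restrict_apply]

theorem subRep_coe (ρ : Representation ℂ (Perm T) U) (V : Submodule ℂ U)
    (hV : ∀ g, ∀ u ∈ V, ρ g u ∈ V) (g : Perm T) (u : V) :
    ((subRep ρ V hV g u : V) : U) = ρ g u := rfl

/-- a nonzero vector fixed by a colouring with four colours gives a tableau with at most four
rows -/
theorem exists_tableau4 (ρ : Representation ℂ (Perm T) U) (f : T → Fin 4) (w : U) (hw0 : w ≠ 0)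
    (hw : SwapFixed ρ f w) :
    ∃ (row : T → Fin 4) (col : T → ℕ) (x : U),
      (∀ s t, row s = row t → col s = col t → s = t) ∧
      (∀ t a, a < row t → ∃ s, row s = a ∧ col s = col t) ∧
      (∀ g : Perm T, (∀ t, row (g t) = row t) → ρ g x = x) ∧
      colAsym ρ col x ≠ 0 := by
  classical
  set V : Submodule ℂ U := Submodule.span ℂ (Set.range fun g : Perm T => ρ g w) with hVdef
  have hV : ∀ g, ∀ u ∈ V, ρ g u ∈ V := by
    intro g u hu
    rw [hVdef] at hu ⊢
    induction hu using Submodule.span_induction with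
    | mem x hx =>
      obtain ⟨h, rfl⟩ := hx
      refine Submodule.subset_span ⟨g * h, ?_⟩
      show ρ (g * h) w = ρ g (ρ h w)
      rw [map_mul, Module.End.mul_apply]
    | zero => rw [map_zero]; exact Submodule.zero_mem _
    | add x y _ _ hx hy => rw [map_add]; exact Submodule.add_mem _ hx hy
    | smul a x _ hx => rw [map_smul]; exact Submodule.smul_mem _ a hx
  have hwV : w ∈ V := Submodule.subset_span ⟨1, by simp⟩
  have : Nontrivial V := ⟨⟨⟨w, hwV⟩, 0, fun h => hw0 (congrArg Subtype.val h)⟩⟩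
  obtain ⟨μ, e, x, hx, hA⟩ := shape_lemma (subRep ρ V hV)
  set col : T → ℕ := fun t => (e t).1.2 with hcol
  -- antisymmetrisers of five letters vanish on `V`
  have hkill : ∀ A : Finset T, 4 < A.card → ∀ v ∈ V, asym ρ A v = 0 := by
    intro A hAc v hv
    rw [hVdef] at hv
    induction hv using Submodule.span_induction with
    | mem x hx =>
      obtain ⟨g, rfl⟩ := hx
      obtain ⟨a, ha, b, hb, hab, hfab⟩ := Finset.exists_ne_map_eq_of_card_lt_of_maps_to
        (s := A) (t := (univ : Finset (Fin 4))) (f := fun t => f (g⁻¹ t)) (by simpa using hAc)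
        (fun _ _ => mem_univ _)
      refine asym_eq_zero ρ A _ ha hb hab ?_
      show ρ (swap a b) (ρ g w) = ρ g w
      have h1 : swap a b * g = g * swap (g⁻¹ a) (g⁻¹ b) := by
        rw [swap_conj g (g⁻¹ a) (g⁻¹ b)]
        simp
      rw [rho_mul, h1, ← rho_mul, hw _ _ hfab]
    | zero => rw [map_zero]
    | add x y _ _ hx hy => rw [map_add, hx, hy, add_zero]
    | smul a x _ hx => rw [map_smul, hx, smul_zero]
  -- the column antisymmetrised vector in `U`
  have hcoe : ((colAsym (subRep ρ V hV) col x : V) : U) = colAsym ρ col x := by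
    rw [colAsym_apply, colAsym_apply, Submodule.coe_sum]
    rfl
  have hAne : colAsym ρ col x ≠ 0 := by
    rw [← hcoe]
    intro h
    exact hA (Subtype.ext h)
  -- at most four rows
  have hrow : ∀ t, (e t).1.1 < 4 := by
    intro t
    by_contra hcon
    push Not at hcon
    have hmem : ∀ i : Fin 5, (((i : ℕ), col t) : ℕ × ℕ) ∈ μ.cells := by
      intro i
      refine μ.isLowerSet (a := (e t).1) ?_ (e t).2
      refine Prod.mk_le_mk.2 ⟨?_, le_rfl⟩
      have := i.2
      show (i : ℕ) ≤ (e t).1.1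
      omega
    let a : Fin 5 → T := fun i => e.symm ⟨((i : ℕ), col t), hmem i⟩
    have hacol : ∀ i, col (a i) = col t := by
      intro i
      simp [a, hcol]
    have hainj : Injective a := by
      intro i j hij
      have h1 := e.symm.injective hij
      have h2 := congrArg (fun z : μ.cells => z.1.1) h1
      exact Fin.ext h2
    set A : Finset T := univ.image a with hAdef
    have hAc : A.card = 5 := by
      rw [hAdef, card_image_of_injective _ hainj]
      simp
    have hAcol : ∀ s ∈ A, col s = col t := by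
      intro s hs
      rw [hAdef, mem_image] at hs
      obtain ⟨i, -, rfl⟩ := hs
      exact hacol i
    have h0 := hkill A (by omega) (colAsym ρ col x) (hcoe ▸ Submodule.coe_mem _)
    rw [asym_apply] at h0
    have h1 : ∀ σ ∈ univ.filter (fun σ : Perm T => ∀ t, t ∉ A → σ t = t),
        ((((Perm.sign σ : ℤˣ) : ℤ) : ℂ)) • ρ σ (colAsym ρ col x) = colAsym ρ col x := by
      intro σ hσ
      simp only [mem_filter, mem_univ, true_and] at hσ
      have h2 : ∀ s, col (σ s) = col s := by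
        intro s
        by_cases hs : s ∈ A
        · have hσs : σ s ∈ A := by
            by_contra hcon'
            have h3 := hσ _ hcon'
            have h4 : σ s = s := σ.injective h3
            rw [h4] at hcon'
            exact hcon' hs
          rw [hAcol _ hσs, hAcol _ hs]
        · rw [hσ s hs]
      rw [(colAsym_alt ρ col x).perm σ h2, smul_smul]
      have : ((((Perm.sign σ : ℤˣ) : ℤ) : ℂ)) * ((((Perm.sign σ : ℤˣ) : ℤ) : ℂ)) = 1 := by
        rcases Int.units_eq_one_or (Perm.sign σ) with h | h <;> simp [h]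
      rw [this, one_smul]
    rw [Finset.sum_congr rfl h1, Finset.sum_const, ← Nat.cast_smul_eq_nsmul ℂ] at h0
    rcases smul_eq_zero.1 h0 with h | h
    · rw [Nat.cast_eq_zero, Finset.card_eq_zero] at h
      have : (1 : Perm T) ∈ univ.filter (fun σ : Perm T => ∀ t, t ∉ A → σ t = t) := by simp
      rw [h] at this
      exact absurd this (Finset.notMem_empty _)
    · exact hAne h
  refine ⟨fun t => ⟨(e t).1.1, hrow t⟩, col, x, ?_, ?_, ?_, hAne⟩
  · intro s t h1 h2
    apply e.injective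
    apply Subtype.ext
    apply Prod.ext
    · exact congrArg Fin.val h1
    · exact h2
  · intro t a ha
    have hm : (((a : ℕ), col t) : ℕ × ℕ) ∈ μ.cells := by
      refine μ.isLowerSet (a := (e t).1) ?_ (e t).2
      refine Prod.mk_le_mk.2 ⟨?_, le_rfl⟩
      exact (Fin.lt_def.1 ha).le
    refine ⟨e.symm ⟨((a : ℕ), col t), hm⟩, ?_, ?_⟩
    · apply Fin.ext
      simp
    · simp [hcol]
  · intro g hg
    have h1 := hx.perm g (fun t => congrArg Fin.val (hg t))
    have h2 := congrArg Subtype.val h1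
    exact h2

end tableau4

/-- the shape with columns `c`, `c-1` -/
def pairD (c : ℕ) : Finset (ℕ × ℕ) :=
  (Finset.range c ×ˢ Finset.range 2).filter fun x => x.1 + x.2 < c

theorem mem_pairD {c : ℕ} {x : ℕ × ℕ} : x ∈ pairD c ↔ x.2 < 2 ∧ x.1 + x.2 < c := by
  unfold pairD
  rw [mem_filter, mem_product, mem_range, mem_range]
  constructor
  · rintro ⟨⟨-, h⟩, h'⟩; exact ⟨h, h'⟩
  · rintro ⟨h, h'⟩; exact ⟨⟨by omega, h⟩, h'⟩

section gadget

variable {T : Type} [Fintype T] [DecidableEq T]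

theorem polyF_eq_polyt (τ : T → ℕ × ℕ) (w : T → ℕ) :
    polyF τ w = polyt (fun t => (τ t).1) (fun t => (τ t).2) w := by
  unfold polyF polyt
  rw [← Equiv.sum_comp (Equiv.inv (Perm T))]
  refine Finset.sum_congr rfl fun κ _ => ?_
  simp only [Equiv.inv_apply, Perm.sign_inv]
  have hiff : ((∀ i, (τ (κ⁻¹ i)).2 = (τ i).2) ∧ ∀ i, w (κ⁻¹ i) = (τ i).1) ↔
      ((∀ t, (τ (κ t)).2 = (τ t).2) ∧ ∀ t, w t = (τ (κ t)).1) := by
    constructor
    · rintro ⟨h1, h2⟩
      refine ⟨fun t => ?_, fun t => ?_⟩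
      · have := h1 (κ t)
        simpa using this.symm
      · have := h2 (κ t)
        simpa using this
    · rintro ⟨h1, h2⟩
      refine ⟨fun t => ?_, fun t => ?_⟩
      · have := h1 (κ⁻¹ t)
        simpa using this.symm
      · have := h2 (κ⁻¹ t)
        simpa using this
  by_cases h : (∀ t, (τ (κ t)).2 = (τ t).2) ∧ ∀ t, w t = (τ (κ t)).1
  · rw [if_pos h, if_pos (hiff.2 h)]
  · rw [if_neg h, if_neg (fun h' => h (hiff.1 h'))]

/-- the tableau of a pair of columns -/
def tabOf (m : ℕ) (e : (Σ b : Bool, Fin (cPair m b)) ≃ T) (t : T) : ℕ × ℕ :=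
  (((e.symm t).2 : ℕ), cond (e.symm t).1 1 0)

theorem isTab_tabOf (m : ℕ) (e : (Σ b : Bool, Fin (cPair m b)) ≃ T) :
    IsTab (pairD (m+1)) (tabOf m e) := by
  constructor
  · intro s t h
    apply e.symm.injective
    have h1 : (((e.symm s).2 : ℕ), cond (e.symm s).1 1 0)
      = (((e.symm t).2 : ℕ), cond (e.symm t).1 1 0) := h
    rcases hs : e.symm s with ⟨b, x⟩
    rcases ht : e.symm t with ⟨b', x'⟩
    rw [hs, ht] at h1
    simp only [Prod.mk.injEq] at h1
    obtain ⟨h2, h3⟩ := h1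
    have hb : b = b' := by
      cases b <;> cases b' <;> simp_all
    subst hb
    have : x = x' := Fin.ext h2
    rw [this]
  · ext ⟨i, j⟩
    rw [mem_pairD, mem_image]
    constructor
    · rintro ⟨t, -, ht⟩
      rcases hs : e.symm t with ⟨b, x⟩
      have h1 : tabOf m e t = ((x : ℕ), cond b 1 0) := by
        unfold tabOf; rw [hs]
      rw [h1] at ht
      simp only [Prod.mk.injEq] at ht
      obtain ⟨rfl, rfl⟩ := ht
      have hx := x.2
      cases b
      · have hx' : (x : ℕ) < m + 1 := hx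
        show (0 : ℕ) < 2 ∧ (x : ℕ) + 0 < m + 1
        omega
      · have hx' : (x : ℕ) < m := hx
        show (1 : ℕ) < 2 ∧ (x : ℕ) + 1 < m + 1
        omega
    · rintro ⟨h1, h2⟩
      simp only at h1 h2
      rcases Nat.lt_or_ge j 1 with hj | hj
      · have hj0 : j = 0 := by omega
        subst hj0
        refine ⟨e ⟨false, ⟨i, h2⟩⟩, mem_univ _, ?_⟩
        unfold tabOf
        rw [Equiv.symm_apply_apply]
        rfl
      · have hj1 : j = 1 := by omega
        subst hj1
        refine ⟨e ⟨true, ⟨i, by show i < m; omega⟩⟩, mem_univ _, ?_⟩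
        unfold tabOf
        rw [Equiv.symm_apply_apply]
        rfl

theorem polyF_tabOf (m : ℕ) (e : (Σ b : Bool, Fin (cPair m b)) ≃ T) (w : T → ℕ) :
    polyF (tabOf m e) w = colFun (cPair m) e w := by
  rw [polyF_eq_polyt]
  symm
  refine colFun_eq_polyt e (fun b => cond b 1 0) ?_ _ _ ?_ ?_ w
  · intro a b h
    cases a <;> cases b <;> simp_all
  · intro i x
    unfold tabOf
    rw [Equiv.symm_apply_apply]
  · intro i x
    unfold tabOf
    rw [Equiv.symm_apply_apply]

/-- **pair gadget** -/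
theorem pair_gadget' (m : ℕ) (hT : Fintype.card T = 2*m+1)
    {U : Type*} [AddCommGroup U] [Module ℂ U] (ρ : Representation ℂ (Perm T) U)
    (f : T → Fin 4) (w : U) (hw0 : w ≠ 0) (hw : SwapFixed ρ f w) :
    ∃ E ∈ Kr T (pairD (m+1)) (pairD (m+1)), ∃ u : T → ℕ × ℕ,
      (∀ t, (u t).1 + (u t).2 + 1 = m+1 ∨ (u t).1 + (u t).2 + 2 = m+1) ∧
      ∃ x : U, ∑ g : Perm T, E (u ∘ g) • ρ g⁻¹ x ≠ 0 := by
  classical
  obtain ⟨row, col, x, hinj, htop, hfix, hA⟩ := exists_tableau4 ρ f w hw0 hw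
  -- sort the letters by columns
  obtain ⟨pos, hpos⟩ : ∃ pos : T ≃ Fin (2*m+1), Monotone (col ∘ pos.symm) := by
    let p0 : T ≃ Fin (2*m+1) := Fintype.equivFinOfCardEq hT
    refine ⟨p0.trans (Tuple.sort (col ∘ p0.symm)).symm, ?_⟩
    exact Tuple.monotone_sort (col ∘ p0.symm)
  obtain ⟨Q, hQ, hQ0⟩ := exists_Q m (row ∘ pos.symm)
  set ψ : (T → Fin 4) → ℂ := fun r => psiQ Q m (r ∘ pos.symm) with hψ
  have hcore := core_abs ρ row col hinj htop ψ (by
    intro κ hκ r hr
    have h1 : (r ∘ κ) ∘ pos.symm = (r ∘ pos.symm) ∘ (pos.permCongr κ : Perm _) := by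
      funext t
      simp [Equiv.permCongr_apply]
    simp only [hψ]
    rw [h1, psiQ_perm hQ m (col ∘ pos.symm) hpos (pos.permCongr κ) ?_ (r ∘ pos.symm) ?_,
      Perm.sign_permCongr]
    · intro t
      simp [Equiv.permCongr_apply, hκ]
    · intro a b h2 h3
      exact pos.symm.injective (hr _ _ h2 h3)) hQ0 x hfix hA
  -- expand in label words
  set y := colAsym ρ col x with hy
  have hexp : ∀ g : Perm T, ψ (row ∘ g) = ∑ z : T → Fin 2 × Fin 2,
      (∏ t, Q (row t) (z t).1 (z t).2) * chainPsi m ((z ∘ g) ∘ pos.symm) := by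
    intro g
    simp only [hψ]
    unfold psiQ
    rw [chainV_psi]
    let φ : (T → Fin 2 × Fin 2) ≃ (Fin (2*m+1) → Fin 2 × Fin 2) :=
      Equiv.arrowCongr (g.symm.trans pos) (Equiv.refl _)
    rw [← Equiv.sum_comp φ]
    refine Finset.sum_congr rfl fun z _ => ?_
    have h1 : φ z = (z ∘ g) ∘ pos.symm := by
      funext p
      rfl
    rw [h1, mul_comm]
    congr 1
    rw [← Equiv.prod_comp (g.symm.trans pos)]
    refine Finset.prod_congr rfl fun t _ => ?_
    simp
  have hz : ∃ z : T → Fin 2 × Fin 2,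
      ∑ g : Perm T, chainPsi m ((z ∘ g) ∘ pos.symm) • ρ g y ≠ 0 := by
    by_contra hcon
    push Not at hcon
    apply hcore
    calc ∑ g : Perm T, ψ (row ∘ g) • ρ g y
        = ∑ z : T → Fin 2 × Fin 2, (∏ t, Q (row t) (z t).1 (z t).2) •
            ∑ g : Perm T, chainPsi m ((z ∘ g) ∘ pos.symm) • ρ g y := by
          simp only [Finset.smul_sum, smul_smul]
          rw [Finset.sum_comm]
          refine Finset.sum_congr rfl fun g _ => ?_
          rw [hexp g, Finset.sum_smul]
      _ = 0 := Finset.sum_eq_zero fun z _ => by rw [hcon z, smul_zero]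
  obtain ⟨z, hz⟩ := hz
  have hcomp : ∀ g : Perm T, (z ∘ g) ∘ pos.symm = (z ∘ pos.symm) ∘ (pos.permCongr g : Perm _) := by
    intro g
    funext t
    simp [Equiv.permCongr_apply]
  obtain ⟨g0, -, hg0⟩ := Finset.exists_ne_zero_of_sum_ne_zero hz
  have hg0' : chainPsi m ((z ∘ pos.symm) ∘ (pos.permCongr g0 : Perm _)) ≠ 0 := by
    rw [← hcomp]
    intro h
    exact hg0 (by rw [h, zero_smul])
  obtain ⟨e, e', C, hC, hcoef⟩ := exists_pair m (z ∘ pos.symm) ⟨_, hg0'⟩
  refine ⟨prodF (polyF (tabOf m (e.trans pos.symm))) (polyF (tabOf m (e'.trans pos.symm))),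
    Submodule.subset_span ⟨_, _, isTab_tabOf m _, isTab_tabOf m _, rfl⟩,
    fun t => (zRow m (pos t), zCol m (pos t)), ?_, y, ?_⟩
  · intro t
    have h1 := (pos t).2
    show zRow m (pos t) + zCol m (pos t) + 1 = m + 1 ∨ zRow m (pos t) + zCol m (pos t) + 2 = m + 1
    unfold zRow zCol
    omega
  · have hE : ∀ g : Perm T, prodF (polyF (tabOf m (e.trans pos.symm)))
        (polyF (tabOf m (e'.trans pos.symm))) ((fun t => (zRow m (pos t), zCol m (pos t))) ∘ g)
        = C * chainPsi m ((z ∘ (g⁻¹ : Perm T)) ∘ pos.symm) := by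
      intro g
      unfold prodF
      rw [polyF_tabOf, polyF_tabOf, hcomp g⁻¹]
      have h2 := hcoef (pos.permCongr g)
      have h3 : ((pos.permCongr g).symm : Perm _) = (pos.permCongr g⁻¹ : Perm _) := by
        ext t : 1
        simp [Equiv.permCongr_apply, Equiv.permCongr_symm]
        rfl
      rw [h3] at h2
      rw [← h2]
      unfold coef colFun
      simp only [Function.comp_apply, Equiv.trans_apply, Equiv.permCongr_apply]
    have h4 : ∑ g : Perm T, prodF (polyF (tabOf m (e.trans pos.symm)))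
        (polyF (tabOf m (e'.trans pos.symm))) ((fun t => (zRow m (pos t), zCol m (pos t))) ∘ g)
          • ρ g⁻¹ y = C • ∑ g : Perm T, chainPsi m ((z ∘ g) ∘ pos.symm) • ρ g y := by
      rw [Finset.smul_sum, ← Equiv.sum_comp (Equiv.inv (Perm T))
        (fun g : Perm T => C • chainPsi m ((z ∘ g) ∘ pos.symm) • ρ g y)]
      refine Finset.sum_congr rfl fun g _ => ?_
      rw [hE, smul_smul]
      rfl
    rw [h4]
    exact smul_ne_zero hC hz

theorem pair_gadget (c : ℕ) (hc : 1 ≤ c) (hT : Fintype.card T = 2*c-1)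
    (D : Finset (ℕ × ℕ)) (hD : ∀ x, x ∈ D ↔ x.2 < 2 ∧ x.1 + x.2 < c)
    {U : Type*} [AddCommGroup U] [Module ℂ U] (ρ : Representation ℂ (Perm T) U)
    (f : T → Fin 4) (w : U) (hw0 : w ≠ 0) (hw : SwapFixed ρ f w) :
    ∃ E ∈ Kr T D D, ∃ u : T → ℕ × ℕ,
      (∀ t, (u t).1 + (u t).2 + 1 = c ∨ (u t).1 + (u t).2 + 2 = c) ∧
      ∃ x : U, ∑ g : Perm T, E (u ∘ g) • ρ g⁻¹ x ≠ 0 := by
  obtain ⟨m, rfl⟩ : ∃ m, c = m + 1 := ⟨c - 1, by omega⟩
  have hDe : D = pairD (m+1) := by
    ext x
    rw [hD, mem_pairD]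
  rw [hDe]
  exact pair_gadget' m (by omega) ρ f w hw0 hw

end gadget

end Crest.Agent.R195
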