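import Crest.Agent.R195.Zig3

/-! Row 195, L4.  The rectangle gadget, lists of column groups and the final occurrence theorem (B). -/

set_option autoImplicit false
set_option linter.unusedSectionVars false
set_option linter.unusedDecidableInType false

namespace Crest.Agent.R195

open Finset Function

section exists_tab

variable {T : Type*} [Fintype T] [DecidableEq T]

theorem exists_isTab {D : Finset (ℕ × ℕ)} (h : Fintype.card T = D.card) :
    ∃ τ : T → ℕ × ℕ, IsTab D τ := by
  classical
  have e : T ≃ D := Fintype.equivOfCardEq (by rw [h, Fintype.card_coe])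
  refine ⟨fun t => (e t : ℕ × ℕ), ?_, ?_⟩
  · intro s t hst
    exact e.injective (Subtype.ext hst)
  · ext c
    simp only [mem_image, mem_univ, true_and]
    constructor
    · rintro ⟨t, rfl⟩
      exact (e t).2
    · intro hc
      exact ⟨e.symm ⟨c, hc⟩, by simp⟩

/-- integer valued polytabloid -/
def polyI (τ : T → ℕ × ℕ) (w : T → ℕ) : ℤ :=
  ∑ σ : Equiv.Perm T, if (∀ i, (τ (σ i)).2 = (τ i).2) ∧ (∀ i, w (σ i) = (τ i).1)
    then (Equiv.Perm.sign σ : ℤ) else 0

theorem polyF_eq_polyI (τ : T → ℕ × ℕ) (w : T → ℕ) : polyF τ w = (polyI τ w : ℂ) := by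
  unfold polyF polyI
  push_cast
  refine Finset.sum_congr rfl fun σ _ => ?_
  split_ifs <;> simp

/-- value of the polytabloid at its own row word -/
theorem polyI_self {τ : T → ℕ × ℕ} (hτ : Injective τ) : polyI τ (fun t => (τ t).1) = 1 := by
  unfold polyI
  rw [Finset.sum_eq_single 1]
  · simp
  · intro σ _ hσ
    rw [if_neg]
    rintro ⟨h1, h2⟩
    apply hσ
    ext i
    exact hτ (Prod.ext (h2 i) (h1 i))
  · intro h; exact absurd (mem_univ _) h

end exists_tab

section rect

/-- the rectangle with `k` columns of length `c` -/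
def rectShape (c k : ℕ) : Finset (ℕ × ℕ) := range c ×ˢ range k

/-- the cells of the antidiagonal -/
def antiZ (c : ℕ) : Set (ℕ × ℕ) := {q | q.1 + q.2 + 1 = c}

variable {T : Type*} [Fintype T] [DecidableEq T]

theorem polyI_rev {c k : ℕ} {τ : T → ℕ × ℕ} (hτ : IsTab (rectShape c k) τ) :
    ∃ s : ℤ, s ≠ 0 ∧ ∀ g : Equiv.Perm T,
      polyI τ (fun t => c - 1 - (τ (g t)).1) = s * polyI τ (fun t => (τ (g t)).1) := by
  classical
  have hlt : ∀ t, (τ t).1 < c ∧ (τ t).2 < k := by
    intro t
    have : τ t ∈ rectShape c k := by rw [← hτ.2]; exact mem_image_of_mem _ (mem_univ _)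
    simpa [rectShape] using this
  have hex : ∀ t, ∃ t', τ t' = (c - 1 - (τ t).1, (τ t).2) := by
    intro t
    have : (c - 1 - (τ t).1, (τ t).2) ∈ rectShape c k := by
      simp only [rectShape, mem_product, mem_range]
      have := hlt t
      omega
    rw [← hτ.2] at this
    obtain ⟨t', -, h⟩ := mem_image.1 this
    exact ⟨t', h⟩
  choose r hr using hex
  have hrr : ∀ t, r (r t) = t := by
    intro t
    apply hτ.1
    rw [hr, hr]
    have := hlt t
    ext
    · simp only; omega
    · rfl
  let π : Equiv.Perm T := ⟨r, r, hrr, hrr⟩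
  have hπ : ∀ t, τ (π t) = (c - 1 - (τ t).1, (τ t).2) := hr
  refine ⟨(Equiv.Perm.sign π : ℤ), by simp, fun g => ?_⟩
  unfold polyI
  rw [Finset.mul_sum, ← Equiv.sum_comp (Equiv.mulRight π)]
  refine Finset.sum_congr rfl fun σ _ => ?_
  have h1 : ((∀ i, (τ ((Equiv.mulRight π σ) i)).2 = (τ i).2) ∧
      ∀ i, (c - 1 - (τ (g ((Equiv.mulRight π σ) i))).1) = (τ i).1) ↔
      ((∀ i, (τ (σ i)).2 = (τ i).2) ∧ ∀ i, (τ (g (σ i))).1 = (τ i).1) := by
    have h2 : ∀ i, (Equiv.mulRight π σ) i = σ (π i) := fun i => rfl
    simp only [h2]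
    constructor
    · rintro ⟨ha, hb⟩
      refine ⟨fun i => ?_, fun i => ?_⟩
      · have := ha (π i)
        rw [show π (π i) = i from hrr i, hπ] at this
        exact this
      · have := hb (π i)
        rw [show π (π i) = i from hrr i, hπ] at this
        have h3 := hlt (g (σ i))
        have h4 := hlt i
        simp only at this
        omega
    · rintro ⟨ha, hb⟩
      refine ⟨fun i => ?_, fun i => ?_⟩
      · have := ha (π i)
        rw [hπ i] at this
        exact this
      · have := hb (π i)
        rw [hπ i] at this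
        have h4 := hlt i
        simp only at this
        omega
  simp only [h1]
  have h5 : (Equiv.Perm.sign (Equiv.mulRight π σ) : ℤ) =
      (Equiv.Perm.sign π : ℤ) * (Equiv.Perm.sign σ : ℤ) := by
    change ((Equiv.Perm.sign (σ * π) : ℤˣ) : ℤ) = _
    rw [Equiv.Perm.sign_mul]
    push_cast
    ring
  split_ifs
  · exact h5
  · simp

variable {K : Type} [Fintype K] [DecidableEq K]

/-- **Rectangle gadget**: `k` equal columns of length `c` give the trivial part `c * k`. -/
theorem det_rect (c k : ℕ) (hc : 1 ≤ c) {ν : K → ℕ} (hν : ∑ a, ν a = c * k)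
    (h1 : ∀ a b, ν a ≠ 0 → ν b ≠ 0 → a = b) :
    ∃ c0, Det ν (rectShape c k) (rectShape c k) (antiZ c) c0 := by
  classical
  refine ⟨_, det_of_gadget (N := 2) (by norm_num)
    (fun i => -(i : ℤ) ^ 2 + 2 * ((c : ℤ) - 1) * i - ((c : ℤ) - 1) ^ 2)
    (fun j => -(j : ℤ) ^ 2 + 2 * ((c : ℤ) - 1) * j) ?_ ?_ (C := Unit) (fun _ => ())
    (fun a b ha hb _ => h1 a b ha hb) ?_⟩
  · intro i j
    have := sq_nonneg ((i : ℤ) + j - (c - 1))
    push_cast
    nlinarith
  · intro i j
    simp only [antiZ, Set.mem_ofPred_eq]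
    constructor
    · intro h
      have h2 : ((i : ℤ) + j - (c - 1)) ^ 2 = 0 := by push_cast at h; nlinarith
      have h3 : (i : ℤ) + j - (c - 1) = 0 := by simpa using h2
      omega
    · intro h
      have : (c : ℤ) = i + j + 1 := by exact_mod_cast h.symm
      rw [this]
      push_cast
      ring
  · intro T _ _ hT U _ _ ρ f w hw hfix
    have hcard : Fintype.card T = (rectShape c k).card := by
      rw [hT, hν, rectShape, card_product, card_range, card_range]
    obtain ⟨τ, hτ⟩ := exists_isTab hcard
    have hlt : ∀ t, (τ t).1 < c ∧ (τ t).2 < k := by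
      intro t
      have : τ t ∈ rectShape c k := by rw [← hτ.2]; exact mem_image_of_mem _ (mem_univ _)
      simpa [rectShape] using this
    refine ⟨prodF (polyF τ) (polyF τ), Submodule.subset_span ⟨τ, τ, hτ, hτ, rfl⟩,
      fun t => ((τ t).1, c - 1 - (τ t).1), ?_, w, ?_⟩
    · intro t
      have := (hlt t).1
      simp only [antiZ, Set.mem_ofPred_eq]
      omega
    · have hw' : ∀ g : Equiv.Perm T, ρ g⁻¹ w = w := fun g => hfix.perm _ fun t => rfl
      simp only [hw']
      rw [← Finset.sum_smul]
      refine smul_ne_zero ?_ hw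
      obtain ⟨s, hs, hrev⟩ := polyI_rev hτ
      have h2 : ∀ g : Equiv.Perm T,
          prodF (polyF τ) (polyF τ) ((fun t => ((τ t).1, c - 1 - (τ t).1)) ∘ g) =
          (s : ℂ) * ((polyI τ (fun t => (τ (g t)).1)) ^ 2 : ℤ) := by
        intro g
        unfold prodF
        rw [polyF_eq_polyI, polyF_eq_polyI]
        have h3 := hrev g
        simp only [comp_apply]
        rw [h3]
        push_cast
        ring
      simp only [h2]
      rw [← Finset.mul_sum]
      refine mul_ne_zero (by exact_mod_cast hs) ?_
      have h4 : 0 < ∑ g : Equiv.Perm T, (polyI τ (fun t => (τ (g t)).1)) ^ 2 := by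
        refine Finset.sum_pos' (fun g _ => sq_nonneg _) ⟨1, mem_univ _, ?_⟩
        have : polyI τ (fun t => (τ ((1 : Equiv.Perm T) t)).1) = 1 := polyI_self hτ.1
        rw [this]; norm_num
      have h5 : (∑ g : Equiv.Perm T, (((polyI τ (fun t => (τ (g t)).1)) ^ 2 : ℤ) : ℂ)) =
          ((∑ g : Equiv.Perm T, (polyI τ (fun t => (τ (g t)).1)) ^ 2 : ℤ) : ℂ) := by
        push_cast; rfl
      rw [h5]
      exact_mod_cast h4.ne'

end rect

section pair

/-- two columns of lengths `c`, `c - 1` -/
def pairShape (c : ℕ) : Finset (ℕ × ℕ) := (range c ×ˢ range 2).filter fun q => q.1 + q.2 < c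

/-- the zigzag cells -/
def zigZ (c : ℕ) : Set (ℕ × ℕ) := {q | q.1 + q.2 + 1 = c ∨ q.1 + q.2 + 2 = c}

/-- `U`-form of the pair gadget -/
def PairGadget (c : ℕ) : Prop :=
  ∀ (T : Type) [Fintype T] [DecidableEq T], Fintype.card T + 1 = 2 * c →
    ∀ (U : Type) [AddCommGroup U] [Module ℂ U] (ρ : Representation ℂ (Equiv.Perm T) U)
      (f : T → Fin 4) (w : U), w ≠ 0 → SwapFixed ρ f w →
    ∃ G ∈ Kr T (pairShape c) (pairShape c), ∃ u : T → ℕ × ℕ, (∀ t, u t ∈ zigZ c) ∧
      ∃ x : U, ∑ g : Equiv.Perm T, G (u ∘ g) • ρ g⁻¹ x ≠ 0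

variable {K : Type} [Fintype K] [DecidableEq K]

theorem det_pair {c : ℕ} (hpair : PairGadget c) {ν : K → ℕ} (hν : (∑ a, ν a) + 1 = 2 * c)
    (e : K → Fin 4) (he : ∀ a b, ν a ≠ 0 → ν b ≠ 0 → e a = e b → a = b) :
    ∃ c0, Det ν (pairShape c) (pairShape c) (zigZ c) c0 := by
  classical
  refine ⟨_, det_of_gadget (N := 2) (by norm_num)
    (fun i => -(i : ℤ) ^ 2 + (2 * (c : ℤ) - 3) * i - ((c : ℤ) - 1) * (c - 2))
    (fun j => -(j : ℤ) ^ 2 + (2 * (c : ℤ) - 3) * j) ?_ ?_ e he ?_⟩
  · intro i j
    have : 0 ≤ ((i : ℤ) + j - (c - 1)) * ((i : ℤ) + j - (c - 2)) := by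
      rcases le_or_gt ((c : ℤ) - 1) (i + j) with h | h
      · exact mul_nonneg (by linarith) (by linarith)
      · have h' : (i : ℤ) + j ≤ c - 2 := by omega
        exact mul_nonneg_of_nonpos_of_nonpos (by linarith) (by linarith)
    push_cast
    nlinarith
  · intro i j
    simp only [zigZ, Set.mem_ofPred_eq]
    constructor
    · intro h
      have h2 : ((i : ℤ) + j - (c - 1)) * ((i : ℤ) + j - (c - 2)) = 0 := by
        push_cast at h; nlinarith
      rcases mul_eq_zero.1 h2 with h3 | h3
      · left; omega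
      · right; omega
    · rintro (h | h)
      · have : (c : ℤ) = i + j + 1 := by exact_mod_cast h.symm
        rw [this]; push_cast; ring
      · have : (c : ℤ) = i + j + 2 := by exact_mod_cast h.symm
        rw [this]; push_cast; ring
  · intro T _ _ hT U _ _ ρ f w hw hfix
    exact hpair T (by rw [hT]; exact hν) U ρ f w hw hfix

end pair

/-- column groups: `pair c` = two columns `c, c - 1`; `rect c k` = `k` columns of length `c`. -/
inductive Grp
  | pair (c : ℕ)
  | rect (c k : ℕ)
  deriving DecidableEq

namespace Grp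

/-- length of the first column -/
def top : Grp → ℕ
  | pair c => c
  | rect c _ => c

/-- number of columns -/
def width : Grp → ℕ
  | pair _ => 2
  | rect _ k => k

/-- number of cells (for `top ≥ 1`) -/
def size : Grp → ℕ
  | pair c => 2 * c - 1
  | rect c k => c * k

/-- bound for the later columns -/
def next : Grp → ℕ
  | pair c => c - 2
  | rect c _ => c - 1

/-- shape -/
def shape : Grp → Finset (ℕ × ℕ)
  | pair c => pairShape c
  | rect c k => rectShape c k

/-- cells used at minimal cost -/
def Z : Grp → Set (ℕ × ℕ)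
  | pair c => zigZ c
  | rect c _ => antiZ c

/-- number of colours used in the group: four for a pair, one for a rectangle -/
def isRect : Grp → Prop
  | pair _ => False
  | rect _ _ => True

theorem shape_lt (g : Grp) : ∀ c ∈ g.shape, c.2 < g.width := by
  intro c hc
  cases g with
  | pair n =>
    simp only [shape, pairShape, mem_filter, mem_product, mem_range] at hc
    exact hc.1.2
  | rect n k =>
    simp only [shape, rectShape, mem_product, mem_range] at hc
    exact hc.2

theorem Z_le (g : Grp) : ∀ c ∈ g.Z, c.1 + c.2 + 1 ≤ g.top := by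
  intro c hc
  cases g with
  | pair n =>
    simp only [Z, zigZ, Set.mem_ofPred_eq] at hc
    simp only [top]
    omega
  | rect n k =>
    simp only [Z, antiZ, Set.mem_ofPred_eq] at hc
    simp only [top]
    omega

theorem Z_gt (g : Grp) (hg : 1 ≤ g.top) : ∀ c ∈ g.Z, g.next < c.1 + c.2 + 1 := by
  intro c hc
  cases g with
  | pair n =>
    simp only [Z, zigZ, Set.mem_ofPred_eq] at hc
    simp only [next, top] at hg ⊢
    omega
  | rect n k =>
    simp only [Z, antiZ, Set.mem_ofPred_eq] at hc
    simp only [next, top] at hg ⊢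
    omega

/-- detection for one group -/
theorem det {K : Type} [Fintype K] [DecidableEq K] (g : Grp) (hg : 1 ≤ g.top)
    (hpair : ∀ c, 1 ≤ c → PairGadget c) {ν : K → ℕ} (hν : ∑ a, ν a = g.size)
    (e : K → Fin 4) (he : ∀ a b, ν a ≠ 0 → ν b ≠ 0 → e a = e b → a = b)
    (hr : g.isRect → ∀ a, ν a ≠ 0 → e a = 0) :
    ∃ c0, Det ν g.shape g.shape g.Z c0 := by
  cases g with
  | pair c =>
    simp only [top] at hg
    refine det_pair (hpair c hg) ?_ e he
    rw [hν]
    simp only [size]
    omega
  | rect c k =>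
    simp only [top] at hg
    refine det_rect c k hg (by rw [hν]; rfl) fun a b ha hb => he a b ha hb ?_
    rw [hr trivial a ha, hr trivial b hb]

end Grp

/-- shape of a list of groups -/
def shapeL : List Grp → Finset (ℕ × ℕ)
  | [] => ∅
  | g :: L => addC g.width g.shape (shapeL L)

/-- admissible lists: positive columns, later columns are short enough -/
def validL : List Grp → Prop
  | [] => True
  | g :: L => 1 ≤ g.top ∧ (∀ h ∈ L, h.top ≤ g.next) ∧ validL L

/-- minimal cost cells -/
def ZL : List Grp → Set (ℕ × ℕ)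
  | [] => ∅
  | g :: L => g.Z ∪ ZL L

theorem ZL_le {L : List Grp} {n : ℕ} (h : ∀ g ∈ L, g.top ≤ n) : ∀ c ∈ ZL L, c.1 + c.2 + 1 ≤ n := by
  induction L with
  | nil => intro c hc; exact hc.elim
  | cons g L ih =>
    rintro c (hc | hc)
    · exact (g.Z_le c hc).trans (h g (by simp))
    · exact ih (fun g' hg' => h g' (by simp [hg'])) c hc

/-- detection for a list of groups; colours are pairs (group index, one of four). -/
theorem det_list (hpair : ∀ c, 1 ≤ c → PairGadget c) (N : ℕ) :
    ∀ (L : List Grp), validL L → ∀ (o : ℕ), o + L.length ≤ N → ∀ (ν : Fin N × Fin 4 → ℕ),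
      (∀ q : Fin N × Fin 4, ν q ≠ 0 → o ≤ q.1.1 ∧ q.1.1 < o + L.length) →
      (∀ (j : ℕ) (hj : j < L.length) (i : Fin N), i.1 = o + j → ∑ a, ν (i, a) = (L[j]).size) →
      (∀ (j : ℕ) (hj : j < L.length) (i : Fin N), i.1 = o + j → (L[j]).isRect →
        ∀ a, ν (i, a) ≠ 0 → a = 0) →
      ∃ c0, Det ν (shapeL L) (shapeL L) (ZL L) c0 := by
  classical
  intro L
  induction L with
  | nil =>
    intro _ o _ ν hν _ _
    refine ⟨0, ?_⟩
    have : ν = fun _ => 0 := by
      funext q
      by_contra h
      have := hν q h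
      simp only [List.length_nil, add_zero] at this
      omega
    rw [this]
    exact Det.empty
  | cons g L ih =>
    intro hL o hN ν hsupp hsize hrect
    obtain ⟨h1, h2, h3⟩ := hL
    simp only [List.length_cons] at hN
    let i0 : Fin N := ⟨o, by omega⟩
    let ν' : Fin N × Fin 4 → ℕ := fun q => if q.1 = i0 then ν q else 0
    let ν'' : Fin N × Fin 4 → ℕ := fun q => if q.1 = i0 then 0 else ν q
    have hsum : ν = fun q => ν' q + ν'' q := by
      funext q
      simp only [ν', ν'']
      split_ifs <;> simp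
    obtain ⟨c', hc'⟩ := g.det h1 hpair (ν := ν') (by
      have h4 : ∑ q, ν' q = ∑ a, ν (i0, a) := by
        rw [Fintype.sum_prod_type, Finset.sum_eq_single i0]
        · refine Finset.sum_congr rfl fun a _ => ?_
          simp [ν']
        · intro b _ hb
          refine Finset.sum_eq_zero fun a _ => ?_
          simp [ν', hb]
        · intro h; exact absurd (mem_univ _) h
      rw [h4, hsize 0 (by simp) i0 (by simp [i0])]
      rfl) Prod.snd (by
      intro a b ha hb hab
      simp only [ν'] at ha hb
      have ha' : a.1 = i0 := by by_contra h; simp [h] at ha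
      have hb' : b.1 = i0 := by by_contra h; simp [h] at hb
      exact Prod.ext (ha'.trans hb'.symm) hab) (by
      intro hr a ha
      simp only [ν'] at ha
      have ha' : a.1 = i0 := by by_contra h; simp [h] at ha
      rw [if_pos ha'] at ha
      refine hrect 0 (by simp) a.1 (by rw [ha']; simp [i0]) hr a.2 ha)
    obtain ⟨c'', hc''⟩ := ih h3 (o + 1) (by omega) ν'' (by
      intro q hq
      simp only [ν''] at hq
      have hq' : q.1 ≠ i0 := by intro h; simp [h] at hq
      rw [if_neg hq'] at hq
      have h4 := hsupp q hq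
      have h5 : q.1.1 ≠ o := fun h => hq' (Fin.ext h)
      simp only [List.length_cons] at h4
      omega) (by
      intro j hj i hi
      have hi' : i ≠ i0 := by intro h; rw [h] at hi; simp only [i0] at hi; omega
      have h4 := hsize (j + 1) (by simp; omega) i (by omega)
      simp only [ν'', hi', if_false]
      rw [h4]
      rfl) (by
      intro j hj i hi hr a ha
      have hi' : i ≠ i0 := by intro h; rw [h] at hi; simp only [i0] at hi; omega
      simp only [ν'', hi', if_false] at ha
      exact hrect (j + 1) (by simp; omega) i (by omega) hr a ha)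
    refine ⟨c' + c'', ?_⟩
    rw [hsum]
    refine Det.add hc' hc'' ?_ ?_ g.shape_lt g.shape_lt
    · intro q
      simp only [ν', ν'']
      by_cases h : q.1 = i0 <;> simp [h]
    · rw [Set.disjoint_left]
      intro c hc1 hc2
      have h4 := g.Z_gt h1 c hc1
      have h5 := ZL_le h2 c hc2
      omega

/-- **(B)**: a representation with a nonzero vector fixed by the Young subgroup of a colouring
`f : T → ℕ × Fin 4` whose first component has fibre sizes the sizes of the groups (and with a single
colour for the rectangles) occurs in `Kr T λ λ`, `λ` the shape of the list of groups. -/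
theorem occ_of_groups (hpair : ∀ c, 1 ≤ c → PairGadget c) (L : List Grp) (hL : validL L)
    {T : Type} [Fintype T] [DecidableEq T] {W : Type*} [AddCommGroup W] [Module ℂ W]
    (ρ : Representation ℂ (Equiv.Perm T) W) (f : T → ℕ × Fin 4)
    (hlt : ∀ t, (f t).1 < L.length)
    (hsize : ∀ (j : ℕ) (hj : j < L.length), (univ.filter fun t => (f t).1 = j).card = (L[j]).size)
    (hrect : ∀ t, (L[(f t).1]'(hlt t)).isRect → (f t).2 = 0)
    (w : W) (hw : w ≠ 0) (hfix : SwapFixed ρ f w) :
    Occ ρ (Kr T (shapeL L) (shapeL L)) := by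
  classical
  let f' : T → Fin L.length × Fin 4 := fun t => (⟨(f t).1, hlt t⟩, (f t).2)
  let ν : Fin L.length × Fin 4 → ℕ := fun a => (univ.filter fun t => f' t = a).card
  obtain ⟨c0, h0⟩ := det_list hpair L.length L hL 0 (by simp) ν
    (fun q _ => ⟨Nat.zero_le _, by have := q.1.2; omega⟩)
    (by
      intro j hj i hi
      rw [← hsize j hj]
      simp only [ν]
      rw [← Finset.card_biUnion]
      · congr 1
        ext t
        simp only [mem_biUnion, mem_univ, true_and, mem_filter, f', Prod.mk.injEq, Fin.ext_iff]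
        constructor
        · rintro ⟨a, h1, -⟩
          omega
        · intro h1
          exact ⟨(f t).2, by omega, rfl⟩
      · intro a _ b _ hab
        rw [Function.onFun, Finset.disjoint_left]
        intro t ht1 ht2
        simp only [mem_filter, mem_univ, true_and] at ht1 ht2
        rw [ht1] at ht2
        exact hab (Prod.ext_iff.1 ht2).2)
    (by
      intro j hj i hi hr a ha
      simp only [ν] at ha
      obtain ⟨t, ht⟩ := Finset.card_ne_zero.1 ha
      simp only [mem_filter, mem_univ, true_and, f', Prod.mk.injEq] at ht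
      rw [← ht.2]
      apply hrect
      have : (f t).1 = j := by
        have := congrArg Fin.val ht.1
        simp only at this
        omega
      simpa only [this] using hr)
  refine h0.occ ρ f' (fun a => rfl) w hw fun a b hab => hfix a b ?_
  simp only [f', Prod.mk.injEq, Fin.mk.injEq] at hab
  exact Prod.ext hab.1 hab.2

end Crest.Agent.R195
private theorem rz_619b566df3 : type_of% @_root_.Crest.Agent.R195.Grp.Z.eq_1 := @_root_.Crest.Agent.R195.Grp.Z.eq_1 -- L296
private theorem rz_940e02dcb9 : type_of% @_root_.Crest.Agent.R195.Grp.next.eq_1 := @_root_.Crest.Agent.R195.Grp.next.eq_1 -- L286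
private theorem rz_fd2014d89e : type_of% @_root_.Crest.Agent.R195.Grp.shape.eq_1 := @_root_.Crest.Agent.R195.Grp.shape.eq_1 -- L291
private theorem rz_cec9fca0a7 : type_of% @_root_.Crest.Agent.R195.Grp.size.eq_1 := @_root_.Crest.Agent.R195.Grp.size.eq_1 -- L281
private theorem rz_fa5780aad6 : type_of% @_root_.Crest.Agent.R195.Grp.top.eq_1 := @_root_.Crest.Agent.R195.Grp.top.eq_1 -- L271
private theorem rz_316be437b4 : type_of% @_root_.Crest.Agent.R195.Grp.width.eq_1 := @_root_.Crest.Agent.R195.Grp.width.eq_1 -- L276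
private theorem rz_df2a4932d6 : type_of% @_root_.Crest.Agent.R195.shapeL.eq_def := @_root_.Crest.Agent.R195.shapeL.eq_def -- L360
private theorem rz_0b0bb86beb : type_of% @_root_.Crest.Agent.R195.shapeL.eq_1 := @_root_.Crest.Agent.R195.shapeL.eq_1 -- L360
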