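import Mathlib
import Crest.Agent.R195.ChainGadget
import Crest.Agent.R195.Zig4

/-! Row 195: the gadget for a duplicate pair of columns `(c, c)`: tableaux whose columns are matched
in pairs of equal height (at most four rows). -/

set_option autoImplicit false

namespace Crest.Agent.R195

open Finset Function Equiv

/-- orthonormal frame up to the factor `2` -/
noncomputable def qd (a : Fin 4) : Matrix (Fin 2) (Fin 2) ℂ :=
  match a with
  | 0 => !![1, 0; 0, 1]
  | 1 => !![Complex.I, 0; 0, -Complex.I]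
  | 2 => !![0, 1; -1, 0]
  | 3 => !![0, Complex.I; Complex.I, 0]

theorem qd_orth (a b : Fin 4) :
    ∑ y : Fin 2 → Fin 2 × Fin 2, (∏ k : Fin 2, qd (![a, b] k) (y k).1 (y k).2) *
      (eps2 (y 0).1 (y 1).1 * eps2 (y 0).2 (y 1).2) = if a = b then 2 else 0 := by
  rw [← Equiv.sum_comp (finTwoArrowEquiv (Fin 2 × Fin 2)).symm, Fintype.sum_prod_type]
  simp only [Fintype.sum_prod_type, Fin.prod_univ_two, finTwoArrowEquiv, Equiv.coe_fn_symm_mk,
    Fin.sum_univ_two, Matrix.cons_val_zero, Matrix.cons_val_one]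
  have hI : Complex.I * Complex.I = -1 := Complex.I_mul_I
  fin_cases a <;> fin_cases b <;> simp [qd, eps2] <;> norm_num

section X

variable {T : Type} [Fintype T] [DecidableEq T] {c : ℕ}

/-- product of the `2 × 2` determinants over the pairs -/
noncomputable def dupX (e : (Σ _ : Fin c, Fin 2) ≃ T) (s : T → Fin 2) : ℂ :=
  ∏ i : Fin c, eps2 (s (e ⟨i, 0⟩)) (s (e ⟨i, 1⟩))

/-- index of the pair -/
def dupRow (e : (Σ _ : Fin c, Fin 2) ≃ T) (t : T) : ℕ := ((e.symm t).1 : ℕ)

/-- index in the pair -/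
def dupCol (e : (Σ _ : Fin c, Fin 2) ≃ T) (t : T) : ℕ := ((e.symm t).2 : ℕ)

theorem dupX_eq (e : (Σ _ : Fin c, Fin 2) ≃ T) (s : T → Fin 2) :
    polyt (dupCol e) (dupRow e) (fun t => (s t : ℕ)) = dupX e s := by
  rw [← colFun_eq_polyt (c := fun _ : Fin c => 2) e (fun i => (i : ℕ)) Fin.val_injective
    (dupCol e) (dupRow e)]
  · unfold colFun dupX
    refine Finset.prod_congr rfl fun i _ => ?_
    exact minor_two (fun x : Fin 2 => s (e ⟨i, x⟩))
  · intro i x
    unfold dupCol
    rw [Equiv.symm_apply_apply]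
  · intro i x
    unfold dupRow
    rw [Equiv.symm_apply_apply]

/-- the standard tableau -/
def dupTab (e : (Σ _ : Fin c, Fin 2) ≃ T) (t : T) : ℕ × ℕ := (dupRow e t, dupCol e t)

omit [DecidableEq T] in
theorem isTab_dupTab (e : (Σ _ : Fin c, Fin 2) ≃ T) : IsTab (rectShape c 2) (dupTab e) := by
  constructor
  · intro s t h
    apply e.symm.injective
    have h1 := congrArg Prod.fst h
    have h2 := congrArg Prod.snd h
    simp only [dupTab, dupRow, dupCol] at h1 h2
    rcases hs : e.symm s with ⟨i, x⟩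
    rcases ht : e.symm t with ⟨j, y⟩
    rw [hs, ht] at h1 h2
    obtain rfl := Fin.ext h1
    obtain rfl := Fin.ext h2
    rfl
  · ext ⟨i, j⟩
    simp only [rectShape, mem_product, mem_range, mem_image, mem_univ, true_and]
    constructor
    · rintro ⟨t, ht⟩
      have h1 := congrArg Prod.fst ht
      have h2 := congrArg Prod.snd ht
      simp only [dupTab, dupRow, dupCol] at h1 h2
      exact ⟨h1 ▸ (e.symm t).1.2, h2 ▸ (e.symm t).2.2⟩
    · rintro ⟨hi, hj⟩
      refine ⟨e ⟨⟨i, hi⟩, ⟨j, hj⟩⟩, ?_⟩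
      simp [dupTab, dupRow, dupCol]

theorem exists_dup_row (e : (Σ _ : Fin c, Fin 2) ≃ T) (s : T → Fin 2)
    (hs : ∃ g : Perm T, dupX e (s ∘ g) ≠ 0) :
    ∃ τ : T → ℕ × ℕ, IsTab (rectShape c 2) τ ∧
      (∃ C : ℂ, C ≠ 0 ∧ ∀ g : Perm T, polyF τ (dupRow e ∘ g)
        = C * (((Perm.sign g : ℤ) : ℂ) * dupX e (s ∘ g.symm))) ∧
      (∃ C : ℂ, C ≠ 0 ∧ ∀ g : Perm T, polyF τ (fun t => c - 1 - dupRow e (g t))
        = C * (((Perm.sign g : ℤ) : ℂ) * dupX e (s ∘ g.symm))) := by
  obtain ⟨g1, hg1⟩ := hs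
  have h1 : polyt (dupCol e) (dupRow e) (fun p => ((s ∘ g1) p : ℕ)) ≠ 0 := by
    rw [dupX_eq]
    exact hg1
  unfold polyt at h1
  obtain ⟨ρ, -, hρ'⟩ := Finset.exists_ne_zero_of_sum_ne_zero h1
  have hρ : ∀ t, ((s (g1 t) : Fin 2) : ℕ) = dupCol e (ρ t) := by
    by_contra hcon
    exact hρ' (if_neg (fun h => hcon h.2))
  set θ : Perm T := g1 * ρ⁻¹ with hθ
  have hsθ : ∀ p, ((s (θ p) : Fin 2) : ℕ) = dupCol e p := by
    intro p
    have := hρ (ρ⁻¹ p)
    simpa [hθ] using this
  have hmain : ∀ g : Perm T, polyF (dupTab e ∘ θ.symm) (dupRow e ∘ g)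
      = ((Perm.sign θ : ℤ) : ℂ) * (((Perm.sign g : ℤ) : ℂ) * dupX e (s ∘ g.symm)) := by
    intro g
    rw [← polyF_act, polyF_eq_polyt]
    have h2 : ((dupRow e ∘ g) ∘ θ) = dupRow e ∘ (g * θ : Perm T) := rfl
    have h3 := polyt_dual (dupRow e) (dupCol e) (g * θ)
    rw [h2]
    change polyt (dupRow e) (dupCol e) _ = _
    rw [h3, ← dupX_eq, Perm.sign_mul]
    have h4 : (dupCol e ∘ (g * θ : Perm T).symm) = fun p => (((s ∘ g.symm) p : Fin 2) : ℕ) := by
      funext p
      have := hsθ ((g * θ : Perm T).symm p)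
      rw [comp_apply, ← this]
      have h5 : θ ((g * θ : Perm T).symm p) = g.symm p := by
        apply g.injective
        have : g (θ ((g * θ : Perm T).symm p)) = (g * θ) ((g * θ : Perm T).symm p) := rfl
        rw [this, Equiv.apply_symm_apply, Equiv.apply_symm_apply]
      rw [h5]
      rfl
    rw [h4]
    push_cast
    ring
  have hsg : ((Perm.sign θ : ℤ) : ℂ) ≠ 0 := by
    rcases Int.units_eq_one_or (Perm.sign θ) with h | h <;> simp [h]
  have htab : IsTab (rectShape c 2) (dupTab e ∘ θ.symm) := (isTab_dupTab e).comp θ.symm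
  refine ⟨dupTab e ∘ θ.symm, htab, ⟨_, hsg, hmain⟩, ?_⟩
  obtain ⟨s0, hs0, hrev⟩ := polyI_rev htab
  have hs0' : (s0 : ℂ) ≠ 0 := by exact_mod_cast hs0
  refine ⟨(s0 : ℂ) * ((Perm.sign θ : ℤ) : ℂ), mul_ne_zero hs0' hsg, ?_⟩
  intro g
  have h6 := hrev (θ * g)
  have h7 : ∀ t, ((dupTab e ∘ θ.symm) ((θ * g : Perm T) t)).1 = dupRow e (g t) := by
    intro t
    simp [dupTab]
  simp only [h7] at h6
  rw [polyF_eq_polyI, h6]
  push_cast
  rw [← polyF_eq_polyI]
  have h8 := hmain g
  change polyF (dupTab e ∘ θ.symm) (fun t => dupRow e (g t)) = _ at h8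
  rw [h8]
  ring

theorem dup_expand (e : (Σ _ : Fin c, Fin 2) ≃ T) (r : T → Fin 4) :
    ∑ z : T → Fin 2 × Fin 2, (∏ t, qd (r t) (z t).1 (z t).2) *
      (dupX e (fun t => (z t).1) * dupX e (fun t => (z t).2))
      = ∏ i : Fin c, (if r (e ⟨i, 0⟩) = r (e ⟨i, 1⟩) then (2 : ℂ) else 0) := by
  let φ : (T → Fin 2 × Fin 2) ≃ (Fin c → Fin 2 → Fin 2 × Fin 2) :=
    (Equiv.arrowCongr e.symm (Equiv.refl _)).trans
      (Equiv.piCurry (fun (_ : Fin c) (_ : Fin 2) => Fin 2 × Fin 2))
  have hφ : ∀ z i k, φ z i k = z (e ⟨i, k⟩) := fun z i k => rfl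
  have h1 : ∀ z : T → Fin 2 × Fin 2, (∏ t, qd (r t) (z t).1 (z t).2) *
      (dupX e (fun t => (z t).1) * dupX e (fun t => (z t).2))
      = ∏ i : Fin c, ((∏ k : Fin 2, qd (![r (e ⟨i, 0⟩), r (e ⟨i, 1⟩)] k) (φ z i k).1 (φ z i k).2) *
        (eps2 (φ z i 0).1 (φ z i 1).1 * eps2 (φ z i 0).2 (φ z i 1).2)) := by
    intro z
    rw [Finset.prod_mul_distrib, Finset.prod_mul_distrib]
    congr 1
    rw [← Equiv.prod_comp e, Fintype.prod_sigma]
    refine Finset.prod_congr rfl fun i _ => ?_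
    rw [Fin.prod_univ_two, Fin.prod_univ_two]
    rfl
  simp only [h1]
  rw [Equiv.sum_comp φ (fun y : Fin c → Fin 2 → Fin 2 × Fin 2 =>
    ∏ i : Fin c, ((∏ k : Fin 2, qd (![r (e ⟨i, 0⟩), r (e ⟨i, 1⟩)] k) (y i k).1 (y i k).2) *
        (eps2 (y i 0).1 (y i 1).1 * eps2 (y i 0).2 (y i 1).2)))]
  rw [← Fintype.prod_sum (fun (i : Fin c) (y : Fin 2 → Fin 2 × Fin 2) =>
    ((∏ k : Fin 2, qd (![r (e ⟨i, 0⟩), r (e ⟨i, 1⟩)] k) (y k).1 (y k).2) *
        (eps2 (y 0).1 (y 1).1 * eps2 (y 0).2 (y 1).2)))]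
  refine Finset.prod_congr rfl fun i _ => ?_
  exact qd_orth _ _

end X

section core

variable {T : Type*} [Fintype T] [DecidableEq T]

/-- the pairing functional -/
noncomputable def dupPsi0 (π : T → T) (r : T → Fin 4) : ℂ :=
  if ∀ t, r (π t) = r t then 1 else 0

/-- antisymmetrised pairing functional -/
noncomputable def dupPsi (π : T → T) (col : T → ℕ) (r : T → Fin 4) : ℂ :=
  ∑ κ : Perm T, if ∀ t, col (κ t) = col t then ((Perm.sign κ : ℤ) : ℂ) * dupPsi0 π (r ∘ κ) else 0

theorem dupPsi_alt (π : T → T) (col : T → ℕ) (κ : Perm T) (hκ : ∀ t, col (κ t) = col t)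
    (r : T → Fin 4) : dupPsi π col (r ∘ κ) = ((Perm.sign κ : ℤ) : ℂ) * dupPsi π col r := by
  unfold dupPsi
  conv_rhs => rw [← Equiv.sum_comp (Equiv.mulLeft κ)]
  rw [Finset.mul_sum]
  refine Finset.sum_congr rfl fun g _ => ?_
  have h1 : (∀ t, col ((Equiv.mulLeft κ g) t) = col t) ↔ ∀ t, col (g t) = col t := by
    simp only [Equiv.coe_mulLeft, Perm.mul_apply, hκ]
  have hs : ((Perm.sign κ : ℤ) : ℂ) * ((Perm.sign κ : ℤ) : ℂ) = 1 := by
    rcases Int.units_eq_one_or (Perm.sign κ) with h | h <;> simp [h]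
  by_cases h : ∀ t, col (g t) = col t
  · rw [if_pos h, if_pos (h1.2 h)]
    have h2 : r ∘ (Equiv.mulLeft κ g) = (r ∘ κ) ∘ g := rfl
    rw [h2, Equiv.coe_mulLeft, Perm.sign_mul]
    push_cast
    linear_combination (-((Perm.sign g : ℤ) : ℂ) * dupPsi0 π ((r ∘ κ) ∘ g)) * hs
  · rw [if_neg h, if_neg (fun h' => h (h1.1 h')), mul_zero]

theorem dupPsi_ne_zero (π : T → T) (hπ : ∀ t, π (π t) = t) (row : T → Fin 4) (col : T → ℕ)
    (hinj : ∀ s t, row s = row t → col s = col t → s = t)
    (hπr : ∀ t, row (π t) = row t) (hπ0 : ∀ t, π t ≠ t)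
    (hπc : ∀ s t, col s = col t → col (π s) = col (π t)) : dupPsi π col row ≠ 0 := by
  classical
  let S : Finset (Perm T) := univ.filter fun κ => (∀ t, col (κ t) = col t) ∧
    ∀ t, row (κ (π t)) = row (κ t)
  have h1 : dupPsi π col row = (S.card : ℂ) := by
    unfold dupPsi
    rw [Finset.card_eq_sum_ones, Nat.cast_sum, Finset.sum_filter]
    refine Finset.sum_congr rfl fun κ _ => ?_
    by_cases hκ : ∀ t, col (κ t) = col t
    · rw [if_pos hκ]
      unfold dupPsi0
      by_cases hκ2 : ∀ t, row (κ (π t)) = row (κ t)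
      · rw [if_pos (show ∀ t, (row ∘ κ) (π t) = (row ∘ κ) t from hκ2),
          if_pos (show (∀ t, col (κ t) = col t) ∧ ∀ t, row (κ (π t)) = row (κ t) from ⟨hκ, hκ2⟩),
          mul_one, Nat.cast_one]
        -- κ commutes with π
        have hcomm : ∀ t, κ (π t) = π (κ t) := by
          intro t
          apply hinj
          · rw [hκ2, hπr]
          · rw [hκ]
            exact hπc _ _ (hκ t).symm
        -- the half
        let p : T → Prop := fun t => col t < col (π t)
        have hpκ : ∀ t, p (κ t) ↔ p t := by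
          intro t
          show col (κ t) < col (π (κ t)) ↔ col t < col (π t)
          rw [hκ, ← hcomm, hκ]
        have hpπ : ∀ t, p (π t) ↔ ¬ p t := by
          intro t
          show col (π t) < col (π (π t)) ↔ ¬ col t < col (π t)
          rw [hπ]
          have : col t ≠ col (π t) := by
            intro h
            exact hπ0 t (hinj _ _ (hπr t) h.symm)
          omega
        let πe : Perm T := ⟨π, π, hπ, hπ⟩
        have hπe : ∀ t, πe t = π t := fun t => rfl
        let κ1 : Perm T := Perm.ofSubtype (κ.subtypePerm (p := p) hpκ)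
        have hκ1p : ∀ t, p t → κ1 t = κ t := by
          intro t ht
          simp only [κ1]
          rw [Perm.ofSubtype_apply_of_mem _ ht]
          rfl
        have hκ1n : ∀ t, ¬ p t → κ1 t = t := by
          intro t ht
          simp only [κ1]
          exact Perm.ofSubtype_apply_of_not_mem _ ht
        have hfac : κ = κ1 * (πe * κ1 * πe⁻¹) := by
          ext t : 1
          have h2 : πe⁻¹ t = π t := by
            rw [Perm.inv_eq_iff_eq, hπe, hπ]
          rw [Perm.mul_apply, Perm.mul_apply, Perm.mul_apply, h2]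
          by_cases ht : p t
          · have h3 : ¬ p (π t) := by rw [hpπ]; exact not_not.2 ht
            rw [hκ1n _ h3, hπe, hπ, hκ1p _ ht]
          · have h3 : p (π t) := (hpπ t).2 ht
            rw [hκ1p _ h3, hcomm, hπe, hπ, hκ1n]
            rw [hpκ]
            exact ht
        rw [hfac, Perm.sign_mul, Perm.sign_mul, Perm.sign_mul, Perm.sign_inv]
        rcases Int.units_eq_one_or (Perm.sign κ1) with h | h <;>
          rcases Int.units_eq_one_or (Perm.sign πe) with h' | h' <;> simp [h, h']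
      · rw [if_neg (show ¬ ∀ t, (row ∘ κ) (π t) = (row ∘ κ) t from hκ2),
          if_neg (show ¬ ((∀ t, col (κ t) = col t) ∧ ∀ t, row (κ (π t)) = row (κ t)) from
            fun h => hκ2 h.2), mul_zero]
    · rw [if_neg hκ, if_neg (show ¬ ((∀ t, col (κ t) = col t) ∧
        ∀ t, row (κ (π t)) = row (κ t)) from fun h => hκ h.1)]
  rw [h1, Nat.cast_ne_zero, Finset.card_ne_zero]
  refine ⟨1, ?_⟩
  simp only [S, mem_filter, mem_univ, true_and, Perm.coe_one, id]
  exact ⟨fun _ => trivial, hπr⟩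

omit [DecidableEq T] in
theorem exists_dup_e (c : ℕ) (hT : Fintype.card T = 2 * c) (π : T → T) (hπ : ∀ t, π (π t) = t)
    (p : T → Prop) (hp : ∀ t, p (π t) ↔ ¬ p t) :
    ∃ e : (Σ _ : Fin c, Fin 2) ≃ T, ∀ i, π (e ⟨i, 0⟩) = e ⟨i, 1⟩ := by
  classical
  have h1 : (univ.filter fun t => p t).card = (univ.filter fun t => ¬ p t).card := by
    refine Finset.card_bij (fun t _ => π t) ?_ ?_ ?_
    · intro t ht
      simp only [mem_filter, mem_univ, true_and] at ht ⊢
      rw [hp]
      exact not_not.2 ht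
    · intro s _ t _ h
      rw [← hπ s, ← hπ t, h]
    · intro t ht
      simp only [mem_filter, mem_univ, true_and] at ht
      refine ⟨π t, ?_, hπ t⟩
      simp only [mem_filter, mem_univ, true_and]
      exact (hp t).2 ht
  have h2 : (univ.filter fun t => p t).card + (univ.filter fun t => ¬ p t).card = 2 * c := by
    rw [← hT, ← Finset.card_univ]
    exact Finset.card_filter_add_card_filter_not (s := (univ : Finset T)) p
  have h3 : (univ.filter fun t => p t).card = c := by omega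
  let a : Fin c ≃ (univ.filter fun t => p t) := (Finset.equivFinOfCardEq h3).symm
  have ha : ∀ i, p (a i) := fun i => (mem_filter.1 (a i).2).2
  let f : (Σ _ : Fin c, Fin 2) → T := fun q => if q.2 = 0 then (a q.1 : T) else π (a q.1)
  have hf0 : ∀ i, f ⟨i, 0⟩ = a i := fun i => if_pos rfl
  have hf1 : ∀ i, f ⟨i, 1⟩ = π (a i) := fun i => if_neg (show ¬ (1 : Fin 2) = 0 by decide)
  have hfinj : Injective f := by
    rintro ⟨i, x⟩ ⟨j, y⟩ h
    have hx : x = 0 ∨ x = 1 := by omega
    have hy : y = 0 ∨ y = 1 := by omega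
    rcases hx with rfl | rfl <;> rcases hy with rfl | rfl
    · rw [hf0, hf0] at h
      have : i = j := a.injective (Subtype.ext h)
      rw [this]
    · rw [hf0, hf1] at h
      have h4 := ha i
      rw [h, hp] at h4
      exact absurd (ha j) h4
    · rw [hf1, hf0] at h
      have h4 := ha j
      rw [← h, hp] at h4
      exact absurd (ha i) h4
    · rw [hf1, hf1] at h
      have h4 : (a i : T) = a j := by rw [← hπ (a i), ← hπ (a j), h]
      have : i = j := a.injective (Subtype.ext h4)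
      rw [this]
  refine ⟨Equiv.ofBijective f ((Fintype.bijective_iff_injective_and_card f).2 ⟨hfinj, ?_⟩), ?_⟩
  · rw [Fintype.card_sigma, hT]
    simp
    ring
  · intro i
    show π (f ⟨i, 0⟩) = f ⟨i, 1⟩
    rw [hf0, hf1]

end core

section gadget

variable {T : Type} [Fintype T] [DecidableEq T]

theorem dup_gadget_aux (c : ℕ) (hT : Fintype.card T = 2 * c)
    {U : Type*} [AddCommGroup U] [Module ℂ U] (ρ : Representation ℂ (Perm T) U)
    (row : T → Fin 4) (col : T → ℕ)
    (hinj : ∀ s t, row s = row t → col s = col t → s = t)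
    (htop : ∀ t a, a < row t → ∃ s, row s = a ∧ col s = col t)
    (π : T → T) (hπ : ∀ t, π (π t) = t) (hπ0 : ∀ t, π t ≠ t) (hπr : ∀ t, row (π t) = row t)
    (hπc : ∀ s t, col s = col t → col (π s) = col (π t))
    (x : U) (hfix : ∀ g : Perm T, (∀ t, row (g t) = row t) → ρ g x = x)
    (hA : colAsym ρ col x ≠ 0) :
    ∃ E ∈ Kr T (rectShape c 2) (rectShape c 2), ∃ u : T → ℕ × ℕ,
      (∀ t, (u t).1 + (u t).2 + 1 = c) ∧
      ∃ x : U, ∑ g : Perm T, E (u ∘ g) • ρ g⁻¹ x ≠ 0 := by
  classical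
  obtain ⟨e, he⟩ := exists_dup_e c hT π hπ (fun t => col t < col (π t)) (by
    intro t
    show col (π t) < col (π (π t)) ↔ ¬ col t < col (π t)
    rw [hπ]
    have : col t ≠ col (π t) := by
      intro h
      exact hπ0 t (hinj _ _ (hπr t) h.symm)
    omega)
  set y := colAsym ρ col x with hy
  have hcore := core_abs ρ row col hinj htop (dupPsi π col)
    (fun κ hκ r _ => dupPsi_alt π col κ hκ r)
    (dupPsi_ne_zero π hπ row col hinj hπr hπ0 hπc) x hfix hA
  rw [← hy] at hcore
  -- the plain functional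
  have h0 : ∑ g : Perm T, dupPsi0 π (row ∘ g) • ρ g y ≠ 0 := by
    intro h0
    apply hcore
    have h1 : ∀ g : Perm T, dupPsi π col (row ∘ g) • ρ g y = ∑ κ : Perm T,
        (if ∀ t, col (κ t) = col t then (dupPsi0 π (row ∘ (g * κ : Perm T))) • ρ (g * κ) y
          else 0) := by
      intro g
      unfold dupPsi
      rw [Finset.sum_smul]
      refine Finset.sum_congr rfl fun κ _ => ?_
      split_ifs with hκ
      · rw [map_mul, Module.End.mul_apply, (colAsym_alt ρ col x).perm κ hκ, map_smul, smul_smul,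
          mul_comm]
        rfl
      · rw [zero_smul]
    rw [Finset.sum_congr rfl fun g _ => h1 g, Finset.sum_comm]
    refine Finset.sum_eq_zero fun κ _ => ?_
    split_ifs with hκ
    · rw [← h0]
      exact Equiv.sum_comp (Equiv.mulRight κ)
        (fun g : Perm T => dupPsi0 π (row ∘ g) • ρ g y)
    · exact Finset.sum_const_zero
  -- the expansion
  set χ : (T → Fin 2 × Fin 2) → ℂ := fun z =>
    dupX e (fun t => (z t).1) * dupX e (fun t => (z t).2) with hχ
  have hexp : ∀ r : T → Fin 4, ∑ z : T → Fin 2 × Fin 2, (∏ t, qd (r t) (z t).1 (z t).2) * χ z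
      = 2 ^ c * dupPsi0 π r := by
    intro r
    rw [hχ, dup_expand]
    unfold dupPsi0
    by_cases hr : ∀ t, r (π t) = r t
    · rw [if_pos hr, Finset.prod_congr rfl fun i _ => if_pos (by rw [← he, hr])]
      simp
    · rw [if_neg hr, mul_zero]
      by_contra hcon
      apply hr
      have h2 : ∀ i : Fin c, r (e ⟨i, 0⟩) = r (e ⟨i, 1⟩) := by
        intro i
        by_contra h3
        exact hcon (Finset.prod_eq_zero (mem_univ i) (if_neg h3))
      intro t
      obtain ⟨⟨i, k⟩, rfl⟩ := e.surjective t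
      have hk : k = 0 ∨ k = 1 := by omega
      rcases hk with rfl | rfl
      · rw [he, h2]
      · rw [← he, hπ, he, h2]
  have hz : ∃ z : T → Fin 2 × Fin 2, ∑ g : Perm T, χ (z ∘ g) • ρ g y ≠ 0 := by
    by_contra hcon
    push Not at hcon
    apply h0
    have h3 : (2 : ℂ) ^ c • ∑ g : Perm T, dupPsi0 π (row ∘ g) • ρ g y = 0 := by
      calc (2 : ℂ) ^ c • ∑ g : Perm T, dupPsi0 π (row ∘ g) • ρ g y
          = ∑ g : Perm T, ∑ z : T → Fin 2 × Fin 2,
              ((∏ t, qd (row t) (z t).1 (z t).2) * χ (z ∘ g)) • ρ g y := by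
            rw [Finset.smul_sum]
            refine Finset.sum_congr rfl fun g _ => ?_
            rw [smul_smul, ← hexp, Finset.sum_smul]
            refine (Equiv.sum_comp (Equiv.arrowCongr g.symm (Equiv.refl (Fin 2 × Fin 2)))
              (fun z : T → Fin 2 × Fin 2 => ((∏ t, qd ((row ∘ g) t) (z t).1 (z t).2) * χ z) •
                ρ g y)).symm.trans ?_
            refine Finset.sum_congr rfl fun z _ => ?_
            have h4 : (Equiv.arrowCongr g.symm (Equiv.refl (Fin 2 × Fin 2))) z = z ∘ g := by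
              funext t
              rfl
            rw [h4, ← Equiv.prod_comp g (fun t => qd (row t) (z t).1 (z t).2)]
            rfl
        _ = ∑ z : T → Fin 2 × Fin 2, (∏ t, qd (row t) (z t).1 (z t).2) •
            ∑ g : Perm T, χ (z ∘ g) • ρ g y := by
          rw [Finset.sum_comm]
          refine Finset.sum_congr rfl fun z _ => ?_
          rw [Finset.smul_sum]
          refine Finset.sum_congr rfl fun g _ => ?_
          rw [smul_smul]
        _ = 0 := Finset.sum_eq_zero fun z _ => by rw [hcon z, smul_zero]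
    exact (smul_eq_zero.1 h3).resolve_left (pow_ne_zero _ two_ne_zero)
  obtain ⟨z, hz⟩ := hz
  obtain ⟨g0, -, hg0⟩ := Finset.exists_ne_zero_of_sum_ne_zero hz
  have hg0' : χ (z ∘ g0) ≠ 0 := by
    intro h
    exact hg0 (by rw [h, zero_smul])
  obtain ⟨τ, hτ, ⟨C, hC, hτC⟩, -⟩ := exists_dup_row e (fun t => (z t).1)
    ⟨g0, left_ne_zero_of_mul hg0'⟩
  obtain ⟨τ', hτ', -, ⟨C', hC', hτC'⟩⟩ := exists_dup_row e (fun t => (z t).2)
    ⟨g0, right_ne_zero_of_mul hg0'⟩
  refine ⟨prodF (polyF τ) (polyF τ'), Submodule.subset_span ⟨_, _, hτ, hτ', rfl⟩,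
    fun t => (dupRow e t, c - 1 - dupRow e t), ?_, y, ?_⟩
  · intro t
    have h1 : dupRow e t < c := (e.symm t).1.2
    show dupRow e t + (c - 1 - dupRow e t) + 1 = c
    omega
  · have hE : ∀ g : Perm T, prodF (polyF τ) (polyF τ')
        ((fun t => (dupRow e t, c - 1 - dupRow e t)) ∘ g) = (C * C') * χ (z ∘ g.symm) := by
      intro g
      unfold prodF
      have h5 := hτC g
      have h6 := hτC' g
      have h7 : polyF τ (fun t => (((fun t => (dupRow e t, c - 1 - dupRow e t)) ∘ g) t).1)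
        = polyF τ (dupRow e ∘ g) := rfl
      have h8 : polyF τ' (fun t => (((fun t => (dupRow e t, c - 1 - dupRow e t)) ∘ g) t).2)
        = polyF τ' (fun t => c - 1 - dupRow e (g t)) := rfl
      rw [h7, h8, h5, h6]
      have hs : ((Perm.sign g : ℤ) : ℂ) * ((Perm.sign g : ℤ) : ℂ) = 1 := by
        rcases Int.units_eq_one_or (Perm.sign g) with h | h <;> simp [h]
      have h9 : χ (z ∘ g.symm) = dupX e ((fun t => (z t).1) ∘ g.symm) *
        dupX e ((fun t => (z t).2) ∘ g.symm) := rfl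
      rw [h9]
      linear_combination (C * C' * dupX e ((fun t => (z t).1) ∘ g.symm) *
        dupX e ((fun t => (z t).2) ∘ g.symm)) * hs
    have h10 : ∑ g : Perm T, prodF (polyF τ) (polyF τ')
        ((fun t => (dupRow e t, c - 1 - dupRow e t)) ∘ g) • ρ g⁻¹ y
        = (C * C') • ∑ g : Perm T, χ (z ∘ g) • ρ g y := by
      rw [Finset.smul_sum, ← Equiv.sum_comp (Equiv.inv (Perm T))
        (fun g : Perm T => (C * C') • χ (z ∘ g) • ρ g y)]
      refine Finset.sum_congr rfl fun g _ => ?_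
      rw [hE, smul_smul]
      rfl
    rw [h10]
    exact smul_ne_zero (mul_ne_zero hC hC') hz

end gadget

end Crest.Agent.R195
private theorem rz_b575dcb652 : type_of% @_root_.Crest.Agent.R195.qd.eq_1 := @_root_.Crest.Agent.R195.qd.eq_1 -- L15
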