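import Crest.Agent.R195.SpDefs
import Crest.Agent.R195.Major

/-! Row 195: sign twist = transposition, in the word model, for arbitrary shapes.

`Kmat e w w' = ∑_g sign g [fst ∘ e ∘ g = w] [snd ∘ e ∘ g = w']`: `Sp T D` is its column space and
`Sp T Dᵀ` its row space. `theta e` (the transposed matrix applied to the first coordinate) is injective
on `Kr T D E` and maps it to `Kr T Dᵀ E`, twisting by the sign. -/

set_option autoImplicit false
set_option linter.unusedSectionVars false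
set_option linter.unusedDecidableInType false

namespace Crest.Agent.R195

open Finset Function

section kmat

variable {T : Type*} [Fintype T] [DecidableEq T]

/-- the matrix of signs -/
noncomputable def Kmat (e : T → ℕ × ℕ) (w w' : T → ℕ) : ℂ :=
  ∑ g : Equiv.Perm T, if (∀ t, (e (g t)).1 = w t) ∧ (∀ t, (e (g t)).2 = w' t)
    then ((Equiv.Perm.sign g : ℤ) : ℂ) else 0

theorem polyF_eq (e : T → ℕ × ℕ) (h : Equiv.Perm T) (w : T → ℕ) :
    polyF (e ∘ h) w = ((Equiv.Perm.sign h : ℤ) : ℂ) * Kmat e w (fun t => (e (h t)).2) := by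
  unfold polyF Kmat
  rw [Finset.mul_sum]
  refine Fintype.sum_equiv ((Equiv.inv (Equiv.Perm T)).trans (Equiv.mulLeft h)) _ _ fun σ => ?_
  have hg : ∀ t, ((Equiv.inv (Equiv.Perm T)).trans (Equiv.mulLeft h)) σ t = h (σ⁻¹ t) :=
    fun t => rfl
  have h1 : ((∀ i, ((e ∘ h) (σ i)).2 = ((e ∘ h) i).2) ∧ ∀ i, w (σ i) = ((e ∘ h) i).1) ↔
      ((∀ t, (e (((Equiv.inv (Equiv.Perm T)).trans (Equiv.mulLeft h)) σ t)).1 = w t) ∧
        (∀ t, (e (((Equiv.inv (Equiv.Perm T)).trans (Equiv.mulLeft h)) σ t)).2 = (e (h t)).2)) := by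
    simp only [hg, comp_apply]
    constructor
    · rintro ⟨ha, hb⟩
      refine ⟨fun t => ?_, fun t => ?_⟩
      · have := hb (σ⁻¹ t); simpa using this.symm
      · have := ha (σ⁻¹ t); simpa using this.symm
    · rintro ⟨ha, hb⟩
      refine ⟨fun i => ?_, fun i => ?_⟩
      · have := hb (σ i); simpa using this.symm
      · have := ha (σ i); simpa using this.symm
  have h2 : ((Equiv.Perm.sign h : ℤ) : ℂ) * ((Equiv.Perm.sign
      (((Equiv.inv (Equiv.Perm T)).trans (Equiv.mulLeft h)) σ) : ℤ) : ℂ)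
      = ((Equiv.Perm.sign σ : ℤ) : ℂ) := by
    have h3 : ((Equiv.inv (Equiv.Perm T)).trans (Equiv.mulLeft h)) σ = h * σ⁻¹ := rfl
    rw [h3, Equiv.Perm.sign_mul, Equiv.Perm.sign_inv, ← Int.cast_mul, ← Units.val_mul, ← mul_assoc,
      Int.units_mul_self, one_mul]
  by_cases hc : (∀ i, ((e ∘ h) (σ i)).2 = ((e ∘ h) i).2) ∧ ∀ i, w (σ i) = ((e ∘ h) i).1
  · rw [if_pos hc, if_pos (h1.1 hc), h2]
  · rw [if_neg hc, if_neg (fun h' => hc (h1.2 h')), mul_zero]

theorem IsTab.exists_perm {D : Finset (ℕ × ℕ)} {e τ : T → ℕ × ℕ} (he : IsTab D e)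
    (hτ : IsTab D τ) : ∃ h : Equiv.Perm T, τ = e ∘ h := by
  have h1 : ∀ t, ∃ s, e s = τ t := by
    intro t
    have : τ t ∈ univ.image e := by
      rw [he.2, ← hτ.2]; exact mem_image_of_mem τ (mem_univ t)
    simpa using this
  choose f hf using h1
  have hinj : Injective f := by
    intro a b hab
    apply hτ.1
    rw [← hf a, ← hf b, hab]
  refine ⟨Equiv.ofBijective f ⟨hinj, Finite.injective_iff_surjective.1 hinj⟩, ?_⟩
  funext t
  exact (hf t).symm

/-- the transposed matrix applied to a function of words -/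
noncomputable def theta1 (e : T → ℕ × ℕ) (f : (T → ℕ) → ℂ) (w' : T → ℕ) : ℂ :=
  ∑ g : Equiv.Perm T, if (∀ t, (e (g t)).2 = w' t)
    then ((Equiv.Perm.sign g : ℤ) : ℂ) * f (fun t => (e (g t)).1) else 0

/-- swapped tableau -/
def swapT (e : T → ℕ × ℕ) : T → ℕ × ℕ := fun t => (e t).swap


theorem Kmat_swap (e : T → ℕ × ℕ) (w w' : T → ℕ) : Kmat (swapT e) w w' = Kmat e w' w := by
  unfold Kmat swapT
  refine Finset.sum_congr rfl fun g _ => ?_
  simp only [Prod.fst_swap, Prod.snd_swap]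
  rw [if_congr And.comm rfl rfl]

theorem IsTab.swap {D : Finset (ℕ × ℕ)} {τ : T → ℕ × ℕ} (h : IsTab D τ) :
    IsTab (D.image Prod.swap) (swapT τ) := by
  refine ⟨?_, ?_⟩
  · intro a b hab
    exact h.1 (Prod.swap_injective hab)
  · rw [← h.2, Finset.image_image]; rfl

theorem theta1_polyF (e : T → ℕ × ℕ) (h : Equiv.Perm T) :
    theta1 e (polyF (e ∘ h)) = ((Equiv.Perm.sign h : ℤ) : ℂ) •
      ∑ g' : Equiv.Perm T, if (∀ t, (e (g' t)).2 = (e (h t)).2) then polyF (swapT e ∘ g') else 0 := by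
  classical
  funext w'
  unfold theta1
  simp only [Pi.smul_apply, Finset.sum_apply, smul_eq_mul]
  have h1 : ∀ g : Equiv.Perm T, (if (∀ t, (e (g t)).2 = w' t)
      then ((Equiv.Perm.sign g : ℤ) : ℂ) * polyF (e ∘ h) (fun t => (e (g t)).1) else 0)
      = ((Equiv.Perm.sign h : ℤ) : ℂ) * ∑ g' : Equiv.Perm T,
        if ((∀ t, (e (g' t)).1 = (e (g t)).1) ∧ (∀ t, (e (g' t)).2 = (e (h t)).2)) ∧
          (∀ t, (e (g t)).2 = w' t)
        then ((Equiv.Perm.sign g : ℤ) : ℂ) * ((Equiv.Perm.sign g' : ℤ) : ℂ) else 0 := by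
    intro g
    by_cases hg : ∀ t, (e (g t)).2 = w' t
    · rw [if_pos hg, polyF_eq]
      unfold Kmat
      simp only [hg, implies_true, and_true]
      rw [← mul_assoc, mul_comm ((Equiv.Perm.sign g : ℤ) : ℂ), mul_assoc, Finset.mul_sum]
      congr 1
      refine Finset.sum_congr rfl fun g' _ => ?_
      split_ifs <;> simp
    · rw [if_neg hg]
      symm
      rw [Finset.sum_eq_zero, mul_zero]
      intro g' _
      rw [if_neg]
      rintro ⟨-, h2⟩
      exact hg h2
  rw [Finset.sum_congr rfl fun g _ => h1 g, ← Finset.mul_sum, Finset.sum_comm]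
  congr 1
  refine Finset.sum_congr rfl fun g' _ => ?_
  by_cases hg' : ∀ t, (e (g' t)).2 = (e (h t)).2
  · rw [if_pos hg', polyF_eq, Kmat_swap]
    have h2 : (fun t => (swapT e (g' t)).2) = fun t => (e (g' t)).1 := rfl
    rw [h2]
    unfold Kmat
    rw [Finset.mul_sum]
    refine Finset.sum_congr rfl fun g _ => ?_
    have h3 : (((∀ t, (e (g' t)).1 = (e (g t)).1) ∧ (∀ t, (e (g' t)).2 = (e (h t)).2)) ∧
          (∀ t, (e (g t)).2 = w' t)) ↔
        ((∀ t, (e (g t)).1 = (e (g' t)).1) ∧ (∀ t, (e (g t)).2 = w' t)) := by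
      constructor
      · rintro ⟨⟨ha, -⟩, hb⟩; exact ⟨fun t => (ha t).symm, hb⟩
      · rintro ⟨ha, hb⟩; exact ⟨⟨fun t => (ha t).symm, hg'⟩, hb⟩
    by_cases hc : (∀ t, (e (g t)).1 = (e (g' t)).1) ∧ (∀ t, (e (g t)).2 = w' t)
    · rw [if_pos hc, if_pos (h3.2 hc)]; ring
    · rw [if_neg hc, if_neg (fun h' => hc (h3.1 h')), mul_zero]
  · rw [if_neg hg']
    refine Finset.sum_eq_zero fun g _ => ?_
    rw [if_neg]
    rintro ⟨⟨-, h2⟩, -⟩
    exact hg' h2

/-- the map on functions of pair words -/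
noncomputable def theta (e : T → ℕ × ℕ) : ((T → ℕ × ℕ) → ℂ) →ₗ[ℂ] ((T → ℕ × ℕ) → ℂ) where
  toFun F z := ∑ g : Equiv.Perm T, if (∀ t, (e (g t)).2 = (z t).1)
    then ((Equiv.Perm.sign g : ℤ) : ℂ) * F (fun t => ((e (g t)).1, (z t).2)) else 0
  map_add' F G := by
    funext z
    simp only [Pi.add_apply]
    rw [← Finset.sum_add_distrib]
    refine Finset.sum_congr rfl fun g _ => ?_
    split_ifs
    · ring
    · simp
  map_smul' c F := by
    funext z
    simp only [Pi.smul_apply, smul_eq_mul, RingHom.id_apply]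
    rw [Finset.mul_sum]
    refine Finset.sum_congr rfl fun g _ => ?_
    split_ifs
    · ring
    · simp

theorem theta_apply (e : T → ℕ × ℕ) (F : (T → ℕ × ℕ) → ℂ) (z : T → ℕ × ℕ) :
    theta e F z = ∑ g : Equiv.Perm T, if (∀ t, (e (g t)).2 = (z t).1)
      then ((Equiv.Perm.sign g : ℤ) : ℂ) * F (fun t => ((e (g t)).1, (z t).2)) else 0 := rfl

theorem theta_prodF (e : T → ℕ × ℕ) (f f' : (T → ℕ) → ℂ) :
    theta e (prodF f f') = prodF (theta1 e f) f' := by
  funext z
  rw [theta_apply]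
  unfold prodF theta1
  rw [Finset.sum_mul]
  refine Finset.sum_congr rfl fun g _ => ?_
  split_ifs
  · ring
  · simp


theorem prodF_smul_left (c : ℂ) (f h : (T → ℕ) → ℂ) : prodF (c • f) h = c • prodF f h := by
  funext z; simp only [prodF, Pi.smul_apply, smul_eq_mul]; ring

theorem prodF_sum_left {ι : Type*} (s : Finset ι) (f : ι → (T → ℕ) → ℂ) (h : (T → ℕ) → ℂ) :
    prodF (∑ i ∈ s, f i) h = ∑ i ∈ s, prodF (f i) h := by
  funext z; simp only [prodF, Finset.sum_apply, Finset.sum_mul]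

theorem theta_mem {D E : Finset (ℕ × ℕ)} {e : T → ℕ × ℕ} (he : IsTab D e)
    {F : (T → ℕ × ℕ) → ℂ} (hF : F ∈ Kr T D E) : theta e F ∈ Kr T (D.image Prod.swap) E := by
  classical
  unfold Kr at hF
  induction hF using Submodule.span_induction with
  | mem x hx =>
    obtain ⟨τ, τ', hτ, hτ', rfl⟩ := hx
    obtain ⟨h, rfl⟩ := he.exists_perm hτ
    rw [theta_prodF, theta1_polyF, prodF_smul_left, prodF_sum_left]
    refine Submodule.smul_mem _ _ (Submodule.sum_mem _ fun g _ => ?_)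
    split_ifs
    · refine Submodule.subset_span ⟨swapT e ∘ g, τ', he.swap.comp g, hτ', rfl⟩
    · have : prodF (0 : (T → ℕ) → ℂ) (polyF τ') = 0 := by funext z; simp [prodF]
      rw [this]; exact Submodule.zero_mem _
  | zero => rw [map_zero]; exact Submodule.zero_mem _
  | add x y _ _ hx hy => rw [map_add]; exact Submodule.add_mem _ hx hy
  | smul c x _ hx => rw [map_smul]; exact Submodule.smul_mem _ c hx

theorem Kr_range {D E : Finset (ℕ × ℕ)} {e : T → ℕ × ℕ} (he : IsTab D e)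
    {F : (T → ℕ × ℕ) → ℂ} (hF : F ∈ Kr T D E) :
    ∃ Y : (T → ℕ × ℕ) → ℂ, ∀ z, F z = ∑ g : Equiv.Perm T, if (∀ t, (e (g t)).1 = (z t).1)
      then ((Equiv.Perm.sign g : ℤ) : ℂ) * Y (fun t => ((e (g t)).2, (z t).2)) else 0 := by
  classical
  unfold Kr at hF
  induction hF using Submodule.span_induction with
  | mem x hx =>
    obtain ⟨τ, τ', hτ, hτ', rfl⟩ := hx
    obtain ⟨h, rfl⟩ := he.exists_perm hτ
    refine ⟨fun u => if ∀ t, (u t).1 = (e (h t)).2 then
      ((Equiv.Perm.sign h : ℤ) : ℂ) * polyF τ' (fun t => (u t).2) else 0, fun z => ?_⟩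
    unfold prodF
    rw [polyF_eq]
    unfold Kmat
    rw [Finset.mul_sum, Finset.sum_mul]
    refine Finset.sum_congr rfl fun g _ => ?_
    dsimp only
    by_cases h1 : ∀ t, (e (g t)).1 = (z t).1
    · by_cases h2 : ∀ t, (e (g t)).2 = (e (h t)).2
      · rw [if_pos ⟨h1, h2⟩, if_pos h1, if_pos h2]; ring
      · rw [if_neg (fun h' => h2 h'.2), if_pos h1, if_neg h2]; ring
    · rw [if_neg (fun h' => h1 h'.1), if_neg h1]; ring
  | zero => exact ⟨0, fun z => by simp⟩
  | add x y _ _ hx hy =>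
    obtain ⟨Y1, h1⟩ := hx
    obtain ⟨Y2, h2⟩ := hy
    refine ⟨Y1 + Y2, fun z => ?_⟩
    simp only [Pi.add_apply, h1, h2]
    rw [← Finset.sum_add_distrib]
    refine Finset.sum_congr rfl fun g _ => ?_
    split_ifs
    · ring
    · simp
  | smul c x _ hx =>
    obtain ⟨Y1, h1⟩ := hx
    refine ⟨c • Y1, fun z => ?_⟩
    simp only [Pi.smul_apply, smul_eq_mul, h1]
    rw [Finset.mul_sum]
    refine Finset.sum_congr rfl fun g _ => ?_
    split_ifs
    · ring
    · simp

theorem theta_inj {D E : Finset (ℕ × ℕ)} {e : T → ℕ × ℕ} (he : IsTab D e)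
    {F : (T → ℕ × ℕ) → ℂ} (hF : F ∈ Kr T D E) (h0 : theta e F = 0) : F = 0 := by
  classical
  obtain ⟨Y, hY⟩ := Kr_range he hF
  funext z
  set y : T → ℕ := fun t => (z t).2 with hy
  -- value of `F` at `(w, y)`
  set f : (T → ℕ) → ℂ := fun w => F (fun t => (w t, y t)) with hf
  set A : Equiv.Perm T → ℂ := fun g => ((Equiv.Perm.sign g : ℤ) : ℂ) *
    Y (fun t => ((e (g t)).2, y t)) with hA
  set r : Equiv.Perm T → (T → ℕ) := fun g t => (e (g t)).1 with hr
  set c : Equiv.Perm T → (T → ℕ) := fun g t => (e (g t)).2 with hc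
  have hfA : ∀ w, f w = ∑ g ∈ univ.filter (fun g => r g = w), A g := by
    intro w
    simp only [hf]
    rw [hY, Finset.sum_filter]
    refine Finset.sum_congr rfl fun g _ => ?_
    have h1 : (∀ t, (e (g t)).1 = w t) ↔ r g = w := ⟨fun h => funext h, fun h t => congrFun h t⟩
    simp only [h1, hA]
  have hth : ∀ w', ∑ g ∈ univ.filter (fun g => c g = w'),
      ((Equiv.Perm.sign g : ℤ) : ℂ) * f (r g) = 0 := by
    intro w'
    have h1 := congrFun h0 (fun t => (w' t, y t))
    rw [theta_apply] at h1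
    simp only [Pi.zero_apply] at h1
    rw [← h1, Finset.sum_filter]
    refine Finset.sum_congr rfl fun g _ => ?_
    have h2 : (∀ t, (e (g t)).2 = w' t) ↔ c g = w' := ⟨fun h => funext h, fun h t => congrFun h t⟩
    simp only [h2, hf, hr]
  have hS1 : ∑ g, f (r g) * (starRingEnd ℂ) (A g) = 0 := by
    rw [← Finset.sum_fiberwise_of_maps_to (t := univ.image c) (g := c)
      (fun g _ => mem_image_of_mem c (mem_univ g))]
    refine Finset.sum_eq_zero fun w' _ => ?_
    have h1 : ∀ g ∈ univ.filter (fun g => c g = w'), f (r g) * (starRingEnd ℂ) (A g)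
        = (((Equiv.Perm.sign g : ℤ) : ℂ) * f (r g)) * (starRingEnd ℂ) (Y (fun t => (w' t, y t))) := by
      intro g hg
      have hg' : c g = w' := (mem_filter.1 hg).2
      simp only [hA, map_mul]
      have h2 : (starRingEnd ℂ) ((Equiv.Perm.sign g : ℤ) : ℂ) = ((Equiv.Perm.sign g : ℤ) : ℂ) := by
        simp
      have h3 : (fun t => ((e (g t)).2, y t)) = fun t => (w' t, y t) := by
        funext t
        rw [← hg']
      rw [h2, h3]; ring
    rw [Finset.sum_congr rfl h1, ← Finset.sum_mul, hth w', zero_mul]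
  have hS2 : ∑ g, f (r g) * (starRingEnd ℂ) (A g)
      = ∑ w ∈ univ.image r, ((Complex.normSq (f w) : ℝ) : ℂ) := by
    rw [← Finset.sum_fiberwise_of_maps_to (t := univ.image r) (g := r)
      (fun g _ => mem_image_of_mem r (mem_univ g))]
    refine Finset.sum_congr rfl fun w _ => ?_
    have h1 : ∀ g ∈ univ.filter (fun g => r g = w), f (r g) * (starRingEnd ℂ) (A g)
        = f w * (starRingEnd ℂ) (A g) := by
      intro g hg
      rw [(mem_filter.1 hg).2]
    rw [Finset.sum_congr rfl h1, ← Finset.mul_sum, ← map_sum, ← hfA w, Complex.mul_conj]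
  rw [hS1] at hS2
  have hS3 : (0 : ℝ) = ∑ w ∈ univ.image r, Complex.normSq (f w) := by
    have := congrArg Complex.re hS2
    simpa [← Complex.ofReal_sum] using this
  have hz : F z = f (fun t => (z t).1) := rfl
  rw [hz]
  simp only [Pi.zero_apply]
  by_cases hw : (fun t => (z t).1) ∈ univ.image r
  · have h1 := (Finset.sum_eq_zero_iff_of_nonneg (fun w _ => Complex.normSq_nonneg (f w))).1
      hS3.symm _ hw
    exact Complex.normSq_eq_zero.1 h1
  · rw [hfA]
    refine Finset.sum_eq_zero fun g hg => ?_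
    exact absurd (mem_image.2 ⟨g, mem_univ g, (mem_filter.1 hg).2⟩) hw

theorem theta_act (e : T → ℕ × ℕ) (F : (T → ℕ × ℕ) → ℂ) (h : Equiv.Perm T) (z : T → ℕ × ℕ) :
    theta e (fun z => F (z ∘ h)) z = ((Equiv.Perm.sign h : ℤ) : ℂ) * theta e F (z ∘ h) := by
  rw [theta_apply, theta_apply, Finset.mul_sum]
  refine Fintype.sum_equiv (Equiv.mulRight h) _ _ fun g => ?_
  have h1 : (∀ t, (e (g t)).2 = (z t).1) ↔ (∀ t, (e ((Equiv.mulRight h) g t)).2 = ((z ∘ h) t).1) := by
    constructor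
    · intro hh t; exact hh (h t)
    · intro hh t
      have := hh (h.symm t)
      simpa using this
  have h2 : ((Equiv.Perm.sign h : ℤ) : ℂ) * (((Equiv.Perm.sign ((Equiv.mulRight h) g) : ℤ) : ℂ))
      = ((Equiv.Perm.sign g : ℤ) : ℂ) := by
    have h3 : (Equiv.mulRight h) g = g * h := rfl
    rw [h3, Equiv.Perm.sign_mul, ← Int.cast_mul, ← Units.val_mul, mul_comm, mul_assoc,
      Int.units_mul_self, mul_one]
  by_cases hc : ∀ t, (e (g t)).2 = (z t).1
  · rw [if_pos hc, if_pos (h1.1 hc), ← mul_assoc, h2]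
    rfl
  · rw [if_neg hc, if_neg (fun h' => hc (h1.2 h')), mul_zero]

end kmat

section occ

variable {T : Type*} [Fintype T] [DecidableEq T] {W : Type*} [AddCommGroup W] [Module ℂ W]

theorem Kr_exists_tab {D E : Finset (ℕ × ℕ)} {F : (T → ℕ × ℕ) → ℂ} (hF : F ∈ Kr T D E)
    (h : F ≠ 0) : (∃ e : T → ℕ × ℕ, IsTab D e) ∧ ∃ e : T → ℕ × ℕ, IsTab E e := by
  by_contra hcon
  apply h
  unfold Kr at hF
  have : {f : (T → ℕ × ℕ) → ℂ | ∃ τ τ' : T → ℕ × ℕ, IsTab D τ ∧ IsTab E τ' ∧
      f = prodF (polyF τ) (polyF τ')} = ∅ := by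
    ext f
    simp only [Set.mem_ofPred_eq, Set.mem_empty_iff_false, iff_false]
    rintro ⟨τ, τ', h1, h2, -⟩
    exact hcon ⟨⟨τ, h1⟩, ⟨τ', h2⟩⟩
  rw [this, Submodule.span_empty] at hF
  exact (Submodule.mem_bot ℂ).1 hF

/-- **sign twist on the first factor** -/
theorem Occ.twist {ρ : Representation ℂ (Equiv.Perm T) W} {D E : Finset (ℕ × ℕ)}
    (h : Occ (signTwist ρ) (Kr T D E)) : Occ ρ (Kr T (D.image Prod.swap) E) := by
  obtain ⟨φ, hφ0, hφm, hφe⟩ := h
  obtain ⟨v, hv⟩ : ∃ v, φ v ≠ 0 := by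
    by_contra hcon
    push Not at hcon
    exact hφ0 (LinearMap.ext hcon)
  obtain ⟨⟨e, he⟩, -⟩ := Kr_exists_tab (hφm v) hv
  refine ⟨(theta e).comp φ, ?_, fun v => theta_mem he (hφm v), ?_⟩
  · intro h0
    apply hv
    exact theta_inj he (hφm v) (LinearMap.congr_fun h0 v)
  · intro g v z
    simp only [LinearMap.comp_apply]
    have hs : ((Equiv.Perm.sign g : ℤ) : ℂ) * ((Equiv.Perm.sign g : ℤ) : ℂ) = 1 := by
      rw [← Int.cast_mul, ← Units.val_mul, Int.units_mul_self]; simp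
    have h1 : φ (ρ g v) = ((Equiv.Perm.sign g : ℤ) : ℂ) • (fun z => φ v (z ∘ g)) := by
      have h2 : ρ g v = ((Equiv.Perm.sign g : ℤ) : ℂ) • (signTwist ρ g v) := by
        rw [signTwist_apply, smul_smul, hs, one_smul]
      rw [h2, map_smul]
      congr 1
      funext z
      exact hφe g v z
    rw [h1, map_smul]
    simp only [Pi.smul_apply, smul_eq_mul]
    rw [theta_act, ← mul_assoc, hs, one_mul]

theorem Kr_swapFactors {D E : Finset (ℕ × ℕ)} {F : (T → ℕ × ℕ) → ℂ} (hF : F ∈ Kr T D E) :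
    (fun z : T → ℕ × ℕ => F (fun t => (z t).swap)) ∈ Kr T E D := by
  unfold Kr at hF ⊢
  induction hF using Submodule.span_induction with
  | mem x hx =>
    obtain ⟨τ, τ', hτ, hτ', rfl⟩ := hx
    refine Submodule.subset_span ⟨τ', τ, hτ', hτ, ?_⟩
    funext z
    simp only [prodF, Prod.fst_swap, Prod.snd_swap]
    ring
  | zero => exact Submodule.zero_mem _
  | add x y _ _ hx hy => exact Submodule.add_mem _ hx hy
  | smul a x _ hx => exact Submodule.smul_mem _ a hx

/-- exchange of the two factors -/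
theorem Occ.swapFactors {ρ : Representation ℂ (Equiv.Perm T) W} {D E : Finset (ℕ × ℕ)}
    (h : Occ ρ (Kr T D E)) : Occ ρ (Kr T E D) := by
  obtain ⟨φ, hφ0, hφm, hφe⟩ := h
  refine ⟨{ toFun := fun v z => φ v (fun t => (z t).swap), map_add' := ?_, map_smul' := ?_ },
    ?_, ?_, ?_⟩
  · intro u v; funext z; simp
  · intro c v; funext z; simp
  · intro h0
    apply hφ0
    ext v z
    have := congrFun (LinearMap.congr_fun h0 v) (fun t => (z t).swap)
    simpa using this
  · intro v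
    exact Kr_swapFactors (hφm v)
  · intro g v z
    simp only [LinearMap.coe_mk, AddHom.coe_mk]
    rw [hφe]
    rfl

/-- twist on the second factor -/
theorem Occ.twist₂ {ρ : Representation ℂ (Equiv.Perm T) W} {D E : Finset (ℕ × ℕ)}
    (h : Occ (signTwist ρ) (Kr T D E)) : Occ ρ (Kr T D (E.image Prod.swap)) :=
  (h.swapFactors.twist).swapFactors

/-- transposition of both factors -/
theorem Occ.transpose {ρ : Representation ℂ (Equiv.Perm T) W} {D E : Finset (ℕ × ℕ)}
    (h : Occ ρ (Kr T D E)) : Occ ρ (Kr T (D.image Prod.swap) (E.image Prod.swap)) := by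
  have h1 : Occ (signTwist (signTwist ρ)) (Kr T D E) := by rw [signTwist_signTwist]; exact h
  exact h1.twist.twist₂

/-- self-conjugate first factor: `Occ` is invariant under the sign twist -/
theorem Occ.of_signTwist {ρ : Representation ℂ (Equiv.Perm T) W} {D E : Finset (ℕ × ℕ)}
    (hD : D.image Prod.swap = D) (h : Occ (signTwist ρ) (Kr T D E)) : Occ ρ (Kr T D E) := by
  have := h.twist
  rwa [hD] at this

end occ

section full

theorem card_image_swap (D : Finset (ℕ × ℕ)) : (D.image Prod.swap).card = D.card :=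
  Finset.card_image_of_injective _ Prod.swap_injective


theorem Full.transpose {D E : Finset (ℕ × ℕ)} (h : Full D E) :
    Full (D.image Prod.swap) (E.image Prod.swap) := by
  intro T _ _ hT W _ _ ρ hv
  rw [card_image_swap] at hT
  exact (h T hT W ρ hv).transpose

theorem image_swap_stair (m : ℕ) : (Crest.AlgebraR.Specht.staircaseShape m).image Prod.swap
    = Crest.AlgebraR.Specht.staircaseShape m := by
  ext c
  unfold Crest.AlgebraR.Specht.staircaseShape
  simp only [mem_image, mem_filter, mem_product, Finset.mem_range]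
  constructor
  · rintro ⟨d, hd, rfl⟩
    simp only [Prod.fst_swap, Prod.snd_swap]; omega
  · intro hc
    exact ⟨c.swap, by simp only [Prod.fst_swap, Prod.snd_swap]; omega, by simp⟩

end full

end Crest.Agent.R195
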