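import Crest.Agent.R195.HGen
import Crest.Agent.R195.Twist

-- ▼ part R195/HRel
section

/-! Row 195: relative H-step (only the fixed vectors of `Perm K` have to occur) and hook-layer step. -/

set_option autoImplicit false
set_option linter.unusedSectionVars false
set_option linter.unusedDecidableInType false

namespace Crest.Agent.R195

open Finset Function

section fix

variable {T : Type} [Fintype T] [DecidableEq T] {W : Type} [AddCommGroup W] [Module ℂ W]

/-- vectors fixed by the transpositions of letters in `K` -/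
def fixSub (ρ : Representation ℂ (Equiv.Perm T) W) (K : Finset T) : Submodule ℂ W where
  carrier := {v | ∀ x ∈ K, ∀ y ∈ K, ρ (Equiv.swap x y) v = v}
  add_mem' := by
    intro a b ha hb x hx y hy
    rw [map_add, ha x hx y hy, hb x hx y hy]
  zero_mem' := by intro x _ y _; simp
  smul_mem' := by
    intro c v hv x hx y hy
    rw [map_smul, hv x hx y hy]


theorem ofSubtype_swap_comm {K : Finset T} (g : Equiv.Perm {t : T // t ∉ K}) {x y : T}
    (hx : x ∈ K) (hy : y ∈ K) :
    Equiv.swap x y * Equiv.Perm.ofSubtype g = Equiv.Perm.ofSubtype g * Equiv.swap x y := by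
  have h1 : Equiv.Perm.ofSubtype g x = x :=
    Equiv.Perm.ofSubtype_apply_of_not_mem g (by simpa using hx)
  have h2 : Equiv.Perm.ofSubtype g y = y :=
    Equiv.Perm.ofSubtype_apply_of_not_mem g (by simpa using hy)
  rw [Equiv.mul_swap_eq_swap_mul, h1, h2]

/-- `Perm (T \ K)` acts on the vectors fixed by `Perm K` -/
def fixRep (ρ : Representation ℂ (Equiv.Perm T) W) (K : Finset T) :
    Representation ℂ (Equiv.Perm {t : T // t ∉ K}) (fixSub ρ K) where
  toFun g := (ρ (Equiv.Perm.ofSubtype g)).restrict (p := fixSub ρ K) (q := fixSub ρ K) (by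
    intro v hv x hx y hy
    rw [← Module.End.mul_apply, ← map_mul, ofSubtype_swap_comm g hx hy, map_mul,
      Module.End.mul_apply, hv x hx y hy])
  map_one' := by
    ext v
    simp only [map_one]
    rfl
  map_mul' g g' := by
    ext v
    simp only [map_mul]
    rfl

theorem fixRep_apply (ρ : Representation ℂ (Equiv.Perm T) W) (K : Finset T)
    (g : Equiv.Perm {t : T // t ∉ K}) (v : fixSub ρ K) :
    ((fixRep ρ K g v : fixSub ρ K) : W) = ρ (Equiv.Perm.ofSubtype g) (v : W) := rfl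

/-- the bijection used for the H-step -/
noncomputable def thetaK {p : ℕ} (K : Finset T) (hK : K.card = p) :
    Fin p ⊕ {t : T // t ∉ K} ≃ T :=
  (Equiv.sumCongr (K.equivFinOfCardEq hK).symm (Equiv.refl _)).trans
      (Equiv.sumCompl (fun t => t ∈ K))

theorem thetaK_inl {p : ℕ} (K : Finset T) (hK : K.card = p) (i : Fin p) :
    thetaK K hK (Sum.inl i) ∈ K := by
  simp [thetaK]

theorem thetaK_inr {p : ℕ} (K : Finset T) (hK : K.card = p) (t : {t : T // t ∉ K}) :
    thetaK K hK (Sum.inr t) = (t : T) := by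
  simp [thetaK]

theorem exists_thetaK_inl {p : ℕ} (K : Finset T) (hK : K.card = p) {x : T} (hx : x ∈ K) :
    ∃ i, thetaK K hK (Sum.inl i) = x := by
  rcases h : (thetaK K hK).symm x with i | t
  · exact ⟨i, by rw [← h]; simp⟩
  · exfalso
    have h1 : thetaK K hK (Sum.inr t) = x := by rw [← h]; simp
    rw [thetaK_inr] at h1
    exact t.2 (h1 ▸ hx)

theorem thetaK_permCongr {p : ℕ} (K : Finset T) (hK : K.card = p)
    (g : Equiv.Perm {t : T // t ∉ K}) :
    (thetaK K hK).permCongr (Equiv.Perm.sumCongr 1 g) = Equiv.Perm.ofSubtype g := by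
  ext x
  rw [Equiv.permCongr_apply]
  rcases h : (thetaK K hK).symm x with i | t
  · have hx : thetaK K hK (Sum.inl i) = x := by rw [← h]; simp
    have hxK : x ∈ K := hx ▸ thetaK_inl K hK i
    have h1 : Equiv.Perm.ofSubtype g x = x :=
      Equiv.Perm.ofSubtype_apply_of_not_mem g (by simpa using hxK)
    rw [h1]
    simpa using hx
  · have hx : thetaK K hK (Sum.inr t) = x := by rw [← h]; simp
    rw [thetaK_inr] at hx
    subst hx
    rw [Equiv.Perm.ofSubtype_apply_coe]
    simp [thetaK_inr]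

theorem thetaK_swap {p : ℕ} (K : Finset T) (hK : K.card = p) (x y : Fin p) :
    (thetaK K hK).permCongr (Equiv.swap (Sum.inl x) (Sum.inl y))
        = Equiv.swap (thetaK K hK (Sum.inl x)) (thetaK K hK (Sum.inl y)) := by
  ext t
  simp [Equiv.permCongr_apply, Equiv.swap_apply_def, Equiv.symm_apply_eq]
  split_ifs <;> simp_all

theorem fixedK_relRep {p : ℕ} (K : Finset T) (hK : K.card = p)
    (ρ : Representation ℂ (Equiv.Perm T) W) :
    fixedK (relRep (thetaK K hK) ρ) = fixSub ρ K := by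
  ext v
  constructor
  · intro hv x hx y hy
    obtain ⟨i, rfl⟩ := exists_thetaK_inl K hK hx
    obtain ⟨j, rfl⟩ := exists_thetaK_inl K hK hy
    have h1 := hv (Equiv.swap i j)
    rw [Equiv.Perm.sumCongr_swap_one, relRep_apply, thetaK_swap] at h1
    exact h1
  · intro hv h
    induction h using Equiv.Perm.swap_induction_on with
    | one => rw [Equiv.Perm.sumCongr_one, map_one]; rfl
    | swap_mul f x y hxy ih =>
      have h1 : Equiv.Perm.sumCongr (Equiv.swap x y * f) (1 : Equiv.Perm {t : T // t ∉ K})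
          = Equiv.Perm.sumCongr (Equiv.swap x y) 1 * Equiv.Perm.sumCongr f 1 := by
        rw [Equiv.Perm.sumCongr_mul]; simp
      rw [h1, map_mul, Module.End.mul_apply, ih, Equiv.Perm.sumCongr_swap_one, relRep_apply,
        thetaK_swap]
      exact hv _ (thetaK_inl K hK x) _ (thetaK_inl K hK y)

/-- **relative H-step** -/
theorem hstep_occ {p : ℕ} {a b : Finset (ℕ × ℕ)} (ha : ∀ c ∈ a, c.1 < p)
    (hb : ∀ c ∈ b, c.1 < p) (e : Fin p ≃ Fin p)
    (he : ∀ k : Fin p, min (rowlen a (e k)) (rowlen b (Fin.rev (e k))) < p - k)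
    (K : Finset T) (hK : K.card = p) (ρ : Representation ℂ (Equiv.Perm T) W)
    (h : Occ (fixRep ρ K) (Kr {t : T // t ∉ K} a b)) :
    Occ ρ (Kr T (addCol p a) (addCol p b)) := by
  classical
  refine Occ.relabel (thetaK K hK) (hstep_sum_occ ha hb e he _ ?_)
  obtain ⟨φ, hφ0, hφm, hφe⟩ := h
  have hsub := fixedK_relRep K hK ρ
  set ι : fixedK (relRep (thetaK K hK) ρ) ≃ₗ[ℂ] fixSub ρ K := LinearEquiv.ofEq _ _ hsub with hι
  refine ⟨φ.comp (ι : fixedK (relRep (thetaK K hK) ρ) →ₗ[ℂ] fixSub ρ K), ?_,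
    fun v => hφm _, ?_⟩
  · intro h0
    apply hφ0
    ext v w
    have h1 := congrFun (LinearMap.congr_fun h0 (ι.symm v)) w
    simpa using h1
  · intro g v w
    simp only [LinearMap.comp_apply, LinearEquiv.coe_coe]
    have h1 : ι (fixedRep (relRep (thetaK K hK) ρ) g v) = fixRep ρ K g (ι v) := by
      apply Subtype.ext
      change ((fixedRep (relRep (thetaK K hK) ρ) g v : fixedK _) : W) = _
      rw [fixedRep_apply, fixRep_apply, relRep_apply, thetaK_permCongr]
      rfl
    rw [h1, hφe]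

/-- **relative H-step for Young diagrams** -/
theorem hstep_young_occ {p : ℕ} (μ ν : YoungDiagram) (hμ : μ.colLen 0 ≤ p) (hν : ν.colLen 0 ≤ p)
    (hc : ∀ s, μ.colLen s + ν.colLen s ≤ max p (2 * p - (s + 1)))
    (K : Finset T) (hK : K.card = p) (ρ : Representation ℂ (Equiv.Perm T) W)
    (h : Occ (fixRep ρ K) (Kr {t : T // t ∉ K} μ.cells ν.cells)) :
    Occ ρ (Kr T (addCol p μ.cells) (addCol p ν.cells)) := by
  obtain ⟨e, he⟩ := young_enum μ ν hν hc
  exact hstep_occ (young_rows μ hμ) (young_rows ν hν) e he K hK ρ h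

end fix

end Crest.Agent.R195
end

-- ▼ part R195/HookStep

/-! Row 195: hook-layer step.  `hookS p κ` = `κ` surrounded by the hook with arm and leg of total
length `p` each.  Remove the first column (length `p`) from both factors, transpose, remove the first
column (the old first row without the corner, length `p - 1`), transpose back. -/

set_option autoImplicit false
set_option linter.unusedSectionVars false
set_option linter.unusedDecidableInType false

namespace Crest.Agent.R195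

open Finset Function

/-- add a new first row with `q` cells -/
def addRow (q : ℕ) (a : Finset (ℕ × ℕ)) : Finset (ℕ × ℕ) :=
  (addCol q (a.image Prod.swap)).image Prod.swap

/-- surround by the hook `(p, 1^{p-1})` -/
def hookS (p : ℕ) (a : Finset (ℕ × ℕ)) : Finset (ℕ × ℕ) := addCol p (addRow (p - 1) a)

theorem mem_addCol {p : ℕ} {a : Finset (ℕ × ℕ)} {c : ℕ × ℕ} :
    c ∈ addCol p a ↔ (c.1 < p ∧ c.2 = 0) ∨ (1 ≤ c.2 ∧ (c.1, c.2 - 1) ∈ a) := by
  unfold addCol
  simp only [mem_union, mem_image, Finset.mem_range]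
  constructor
  · rintro (⟨i, hi, rfl⟩ | ⟨d, hd, rfl⟩)
    · left; exact ⟨hi, rfl⟩
    · right; exact ⟨by simp, by simpa using hd⟩
  · rintro (⟨h1, h2⟩ | ⟨h1, h2⟩)
    · left; exact ⟨c.1, h1, Prod.ext rfl h2.symm⟩
    · right; exact ⟨_, h2, Prod.ext rfl (by simp; omega)⟩

theorem mem_addRow {q : ℕ} {a : Finset (ℕ × ℕ)} {c : ℕ × ℕ} :
    c ∈ addRow q a ↔ (c.2 < q ∧ c.1 = 0) ∨ (1 ≤ c.1 ∧ (c.1 - 1, c.2) ∈ a) := by
  unfold addRow
  constructor
  · intro h
    obtain ⟨d, hd, rfl⟩ := mem_image.1 h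
    rw [mem_addCol] at hd
    rcases hd with ⟨h1, h2⟩ | ⟨h1, h2⟩
    · left; exact ⟨h1, h2⟩
    · right
      obtain ⟨e, he, he'⟩ := mem_image.1 h2
      refine ⟨h1, ?_⟩
      have : e = (d.2 - 1, d.1) := by
        rw [← Prod.swap_swap e, he']; rfl
      rw [this] at he
      exact he
  · intro h
    refine mem_image.2 ⟨c.swap, ?_, by simp⟩
    rw [mem_addCol]
    rcases h with ⟨h1, h2⟩ | ⟨h1, h2⟩
    · left; exact ⟨h1, h2⟩
    · right
      exact ⟨h1, mem_image.2 ⟨_, h2, rfl⟩⟩

theorem mem_hookS {p : ℕ} {a : Finset (ℕ × ℕ)} {c : ℕ × ℕ} :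
    c ∈ hookS p a ↔ (c.1 < p ∧ c.2 = 0) ∨ (c.2 < p ∧ c.1 = 0 ∧ 1 ≤ c.2) ∨
      (1 ≤ c.1 ∧ 1 ≤ c.2 ∧ (c.1 - 1, c.2 - 1) ∈ a) := by
  unfold hookS
  rw [mem_addCol, mem_addRow]
  simp only
  constructor
  · rintro (h | ⟨h1, ⟨h2, h3⟩ | ⟨h2, h3⟩⟩)
    · left; exact h
    · right; left; exact ⟨by omega, h3, h1⟩
    · right; right; exact ⟨h2, h1, h3⟩
  · rintro (h | ⟨h1, h2, h3⟩ | ⟨h1, h2, h3⟩)
    · left; exact h
    · right; exact ⟨h3, Or.inl ⟨by omega, h2⟩⟩
    · right; exact ⟨h2, Or.inr ⟨h1, h3⟩⟩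

theorem card_addRow (q : ℕ) (a : Finset (ℕ × ℕ)) : (addRow q a).card = q + a.card := by
  unfold addRow
  rw [card_image_swap, card_addCol, card_image_swap]

theorem card_hookS (p : ℕ) (a : Finset (ℕ × ℕ)) : (hookS p a).card = p + (p - 1) + a.card := by
  unfold hookS
  rw [card_addCol, card_addRow]; omega

theorem hookS_swap {p : ℕ} {a : Finset (ℕ × ℕ)} (ha : a.image Prod.swap = a) :
    (hookS p a).image Prod.swap = hookS p a := by
  have ha' : ∀ c : ℕ × ℕ, c.swap ∈ a ↔ c ∈ a := by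
    intro c
    constructor
    · intro h
      rw [← ha]; exact mem_image.2 ⟨_, h, by simp⟩
    · intro h
      rw [← ha] at h
      obtain ⟨d, hd, rfl⟩ := mem_image.1 h
      simpa using hd
  ext c
  constructor
  · intro h
    obtain ⟨d, hd, rfl⟩ := mem_image.1 h
    rw [mem_hookS] at hd ⊢
    simp only [Prod.fst_swap, Prod.snd_swap]
    rcases hd with ⟨h1, h2⟩ | ⟨h1, h2, h3⟩ | ⟨h1, h2, h3⟩
    · rcases Nat.eq_zero_or_pos d.1 with h0 | h0
      · left; exact ⟨by omega, h0⟩
      · right; left; exact ⟨h1, h2, h0⟩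
    · left; exact ⟨h1, h2⟩
    · right; right; exact ⟨h2, h1, (ha' _).1 h3⟩
  · intro hd
    refine mem_image.2 ⟨c.swap, ?_, by simp⟩
    rw [mem_hookS] at hd ⊢
    simp only [Prod.fst_swap, Prod.snd_swap]
    rcases hd with ⟨h1, h2⟩ | ⟨h1, h2, h3⟩ | ⟨h1, h2, h3⟩
    · rcases Nat.eq_zero_or_pos c.1 with h0 | h0
      · left; exact ⟨by omega, h0⟩
      · right; left; exact ⟨h1, h2, h0⟩
    · left; exact ⟨h1, h2⟩
    · right; right; exact ⟨h2, h1, (ha' (c.1 - 1, c.2 - 1)).2 h3⟩

/-- first row added to a Young diagram -/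
def addRowY (q : ℕ) (κ : YoungDiagram) (h : κ.rowLen 0 ≤ q) : YoungDiagram where
  cells := addRow q κ.cells
  isLowerSet := by
    intro c d hdc hc
    rw [Finset.mem_coe, mem_addRow] at hc ⊢
    have h1 : d.1 ≤ c.1 := hdc.1
    have h2 : d.2 ≤ c.2 := hdc.2
    rcases Nat.eq_zero_or_pos d.1 with h0 | h0
    · left
      rcases hc with ⟨h3, -⟩ | ⟨h3, h4⟩
      · exact ⟨by omega, h0⟩
      · have h5 := YoungDiagram.mem_iff_lt_rowLen.1 (show (c.1 - 1, c.2) ∈ κ from h4)
        have h6 := κ.rowLen_anti 0 (c.1 - 1) (Nat.zero_le _)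
        exact ⟨by omega, h0⟩
    · right
      rcases hc with ⟨-, h3⟩ | ⟨h3, h4⟩
      · omega
      · refine ⟨h0, ?_⟩
        exact κ.isLowerSet (a := (c.1 - 1, c.2)) (b := (d.1 - 1, d.2))
          ⟨Nat.sub_le_sub_right h1 1, h2⟩ h4


theorem addRowY_colLen (q : ℕ) (κ : YoungDiagram) (h : κ.rowLen 0 ≤ q) (s : ℕ) :
    (addRowY q κ h).colLen s = if s < q then κ.colLen s + 1 else 0 := by
  have key : ∀ i, i < (addRowY q κ h).colLen s ↔ i < (if s < q then κ.colLen s + 1 else 0) := by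
    intro i
    rw [← YoungDiagram.mem_iff_lt_colLen]
    have h1 : (i, s) ∈ addRowY q κ h ↔ (i, s) ∈ addRow q κ.cells := Iff.rfl
    rw [h1, mem_addRow]
    simp only
    have h2 : ∀ i, (i, s) ∈ κ.cells ↔ i < κ.colLen s := fun i => YoungDiagram.mem_iff_lt_colLen
    rw [h2]
    by_cases hs : s < q
    · rw [if_pos hs]; omega
    · rw [if_neg hs]
      have h3 : κ.colLen s = 0 := by
        by_contra hne
        have h4 : (0, s) ∈ κ := YoungDiagram.mem_iff_lt_colLen.2 (by omega)
        have h5 := YoungDiagram.mem_iff_lt_rowLen.1 h4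
        omega
      omega
  have h1 := key ((addRowY q κ h).colLen s)
  have h2 := key (if s < q then κ.colLen s + 1 else 0)
  omega

theorem transpose_cells (κ : YoungDiagram) : κ.transpose.cells = κ.cells.image Prod.swap := by
  ext c
  constructor
  · intro h
    have h1 : c.swap ∈ κ := YoungDiagram.mem_transpose.1 h
    exact mem_image.2 ⟨c.swap, h1, by simp⟩
  · intro h
    obtain ⟨d, hd, rfl⟩ := mem_image.1 h
    exact YoungDiagram.mem_transpose.2 (by simpa using hd)

section step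

variable {T : Type} [Fintype T] [DecidableEq T] {W : Type} [AddCommGroup W] [Module ℂ W]



/-- **hook-layer step**, relative form: first the column (`K₁`, `p` letters), then the row
(`K₂`, `p - 1` letters among the remaining ones). -/
theorem hook_occ {p : ℕ} (κ : YoungDiagram) (hrow : κ.rowLen 0 ≤ p - 1) (hcol : κ.colLen 0 ≤ p - 1)
    (hp : 1 ≤ p)
    (h1 : ∀ s, s < p - 1 → 2 * (κ.colLen s + 1) ≤ max p (2 * p - (s + 1)))
    (h2 : ∀ s, 2 * κ.rowLen s ≤ max (p - 1) (2 * (p - 1) - (s + 1)))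
    (K₁ : Finset T) (hK₁ : K₁.card = p) (K₂ : Finset {t : T // t ∉ K₁}) (hK₂ : K₂.card = p - 1)
    (ρ : Representation ℂ (Equiv.Perm T) W)
    (h : Occ (fixRep (fixRep ρ K₁) K₂) (Kr {t : {t : T // t ∉ K₁} // t ∉ K₂} κ.cells κ.cells)) :
    Occ ρ (Kr T (hookS p κ.cells) (hookS p κ.cells)) := by
  have hA : Occ (fixRep ρ K₁) (Kr {t : T // t ∉ K₁} (addRow (p - 1) κ.cells)
      (addRow (p - 1) κ.cells)) := by
    have h3 := hstep_young_occ (p := p - 1) κ.transpose κ.transpose
      (by rw [YoungDiagram.colLen_transpose]; exact hrow)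
      (by rw [YoungDiagram.colLen_transpose]; exact hrow)
      (by
        intro s
        rw [YoungDiagram.colLen_transpose]
        have := h2 s
        omega) K₂ hK₂ (fixRep ρ K₁) (by
        rw [transpose_cells]
        exact h.transpose)
    have h4 := h3.transpose
    rw [transpose_cells] at h4
    exact h4
  have h5 := hstep_young_occ (p := p) (addRowY (p - 1) κ hrow) (addRowY (p - 1) κ hrow)
    (by rw [addRowY_colLen]; split_ifs <;> omega) (by rw [addRowY_colLen]; split_ifs <;> omega)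
    (by
      intro s
      rw [addRowY_colLen]
      split_ifs with hs
      · have := h1 s hs; omega
      · omega) K₁ hK₁ ρ hA
  exact h5

/-- **hook-layer step** with `Full κ κ` -/
theorem hook_full {p : ℕ} (κ : YoungDiagram) (hrow : κ.rowLen 0 ≤ p - 1)
    (hcol : κ.colLen 0 ≤ p - 1) (hp : 1 ≤ p)
    (h1 : ∀ s, s < p - 1 → 2 * (κ.colLen s + 1) ≤ max p (2 * p - (s + 1)))
    (h2 : ∀ s, 2 * κ.rowLen s ≤ max (p - 1) (2 * (p - 1) - (s + 1)))
    (hfull : Full κ.cells κ.cells) (hT : Fintype.card T = p + (p - 1) + κ.card)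
    (K₁ K₂ : Finset T) (hK : Disjoint K₁ K₂) (hK₁ : K₁.card = p) (hK₂ : K₂.card = p - 1)
    (ρ : Representation ℂ (Equiv.Perm T) W) (v : W) (hv0 : v ≠ 0)
    (hv₁ : ∀ x ∈ K₁, ∀ y ∈ K₁, ρ (Equiv.swap x y) v = v)
    (hv₂ : ∀ x ∈ K₂, ∀ y ∈ K₂, ρ (Equiv.swap x y) v = v) :
    Occ ρ (Kr T (hookS p κ.cells) (hookS p κ.cells)) := by
  classical
  set K₂' : Finset {t : T // t ∉ K₁} := K₂.subtype (fun t => t ∉ K₁) with hK₂'
  have hcard : K₂'.card = p - 1 := by
    rw [hK₂', Finset.card_subtype, ← hK₂]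
    congr 1
    ext t
    simp only [mem_filter, and_iff_left_iff_imp]
    intro ht ht'
    exact (Finset.disjoint_left.1 hK ht') ht
  refine hook_occ κ hrow hcol hp h1 h2 K₁ hK₁ K₂' hcard ρ ?_
  have hv1 : v ∈ fixSub ρ K₁ := hv₁
  have hv2 : (⟨v, hv1⟩ : fixSub ρ K₁) ∈ fixSub (fixRep ρ K₁) K₂' := by
    intro x hx y hy
    apply Subtype.ext
    rw [fixRep_apply]
    have h3 : Equiv.Perm.ofSubtype (Equiv.swap x y) = Equiv.swap (x : T) (y : T) :=
      Equiv.Perm.ofSubtype_swap_eq x y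
    rw [h3]
    exact hv₂ x (by simpa [hK₂'] using hx) y (by simpa [hK₂'] using hy)
  refine hfull _ ?_ _ _ ⟨⟨⟨v, hv1⟩, hv2⟩, ?_⟩
  · rw [Fintype.card_subtype_compl, Fintype.card_subtype_compl]
    simp only [Fintype.card_coe]
    rw [hcard, hK₁, hT]
    change _ = κ.card
    omega
  · intro h0
    exact hv0 (congrArg (fun z => ((z : fixSub ρ K₁) : W)) (congrArg Subtype.val h0))

end step

end Crest.Agent.R195
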