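import Crest.Agent.R195.Shape
import Crest.Agent.R195.SpDefs
import Crest.Agent.R195.Major2
import Crest.Agent.R195.Twist

-- ▼ part R195/Cert
section

/-!
Row 195.  Certificate lemma (helper895).

If `w` is fixed by the row group of a tableau `e` and the column antisymmetrizer of `e` does not kill
`w`, and if `R_e κ_e v ≠ 0` for some `v` in a second representation, then there is a nonzero
intertwining map from the first to the second representation.
-/

set_option autoImplicit false

namespace Crest.Agent.R195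

open Equiv Finset

/-! ### Sums of distinct naturals -/

lemma sum_range_lt_of_ne (S : Finset ℕ) (h : S ≠ range S.card) :
    ∑ x ∈ range S.card, x < ∑ x ∈ S, x := by
  classical
  set m := S.card with hm
  have hcard : (S \ range m).card = (range m \ S).card := by
    have h1 := Finset.card_sdiff_add_card_inter S (range m)
    have h2 := Finset.card_sdiff_add_card_inter (range m) S
    rw [Finset.inter_comm] at h2
    rw [card_range] at h2
    omega
  have hne : (S \ range m).Nonempty := by
    rw [Finset.nonempty_iff_ne_empty]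
    intro he
    have hsub : S ⊆ range m := Finset.sdiff_eq_empty_iff_subset.mp he
    exact h (Finset.eq_of_subset_of_card_le hsub (by rw [card_range]))
  have e1 : ∑ x ∈ S, x = ∑ x ∈ S \ range m, x + ∑ x ∈ S ∩ range m, x := by
    rw [← Finset.sum_sdiff (Finset.inter_subset_left : S ∩ range m ⊆ S), Finset.sdiff_inter_self_left]
  have e2 : ∑ x ∈ range m, x = ∑ x ∈ range m \ S, x + ∑ x ∈ S ∩ range m, x := by
    rw [← Finset.sum_sdiff (Finset.inter_subset_right : S ∩ range m ⊆ range m),
      Finset.sdiff_inter_self_right]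
  have b1 : (S \ range m).card • m ≤ ∑ x ∈ S \ range m, x := by
    apply Finset.card_nsmul_le_sum
    intro x hx
    rw [Finset.mem_sdiff, mem_range] at hx
    omega
  have b2 : ∑ x ∈ range m \ S, (x + 1) ≤ (range m \ S).card • m := by
    apply Finset.sum_le_card_nsmul
    intro x hx
    rw [Finset.mem_sdiff, mem_range] at hx
    omega
  rw [Finset.sum_add_distrib, Finset.sum_const, smul_eq_mul, smul_eq_mul, mul_one, ← hcard] at b2
  rw [smul_eq_mul] at b1
  have hpos := hne.card_pos
  omega

lemma sum_range_le_sum (S : Finset ℕ) : ∑ x ∈ range S.card, x ≤ ∑ x ∈ S, x := by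
  by_cases h : S = range S.card
  · rw [← h]
  · exact (sum_range_lt_of_ne S h).le

section james

variable {T : Type*} [Fintype T] [DecidableEq T]

omit [DecidableEq T] in
/-- James's lemma: if `g` sends letters of the same column to different rows, then `g` agrees,
as far as rows are concerned, with a column permutation. -/
theorem cert_james {μ : YoungDiagram} (e : T ≃ μ.cells) (g : Perm T)
    (h : ∀ a b, (e a).1.2 = (e b).1.2 → (e (g a)).1.1 = (e (g b)).1.1 → a = b) :
    ∃ k : Perm T, (∀ t, (e (k t)).1.2 = (e t).1.2) ∧ ∀ t, (e (k t)).1.1 = (e (g t)).1.1 := by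
  classical
  set col : T → ℕ := fun t => (e t).1.2 with hcol
  set row : T → ℕ := fun t => (e t).1.1 with hrow
  -- the letters of column `j`
  let C : ℕ → Finset T := fun j => univ.filter fun t => col t = j
  have hCmem : ∀ j t, t ∈ C j ↔ col t = j := fun j t => by simp [C]
  let S : ℕ → Finset ℕ := fun j => (C j).image fun t => row (g t)
  have hScard : ∀ j, (S j).card = (C j).card := by
    intro j
    apply Finset.card_image_of_injOn
    intro a ha b hb hab
    rw [Finset.mem_coe, hCmem] at ha hb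
    exact h a b (ha.trans hb.symm) hab
  have hSsum : ∀ j, ∑ x ∈ S j, x = ∑ t ∈ C j, row (g t) := by
    intro j
    apply Finset.sum_image
    intro a ha b hb hab
    rw [Finset.mem_coe, hCmem] at ha hb
    exact h a b (ha.trans hb.symm) hab
  have hrowinj : ∀ j, ∀ a ∈ C j, ∀ b ∈ C j, row a = row b → a = b := by
    intro j a ha b hb hab
    rw [hCmem] at ha hb
    exact e.injective (Subtype.ext (Prod.ext hab (ha.trans hb.symm)))
  have hCrange : ∀ j, (C j).image row = range (C j).card := by
    intro j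
    have hcard : ((C j).image row).card = (C j).card :=
      Finset.card_image_of_injOn fun a ha b hb hab => hrowinj j a ha b hb hab
    -- lower set
    have hlow : ∀ x ∈ (C j).image row, ∀ y, y < x → y ∈ (C j).image row := by
      intro x hx y hy
      obtain ⟨t, ht, rfl⟩ := Finset.mem_image.mp hx
      have hmem : (y, j) ∈ μ.cells := by
        have h0 : ((e t).1.1, (e t).1.2) ∈ μ.cells := (e t).2
        have ht' : (e t).1.2 = j := (hCmem j t).mp ht
        rw [ht'] at h0
        exact μ.up_left_mem (le_of_lt hy) le_rfl h0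
      refine Finset.mem_image.mpr ⟨e.symm ⟨(y, j), hmem⟩, ?_, ?_⟩
      · rw [hCmem]; simp [hcol]
      · simp [hrow]
    by_contra hne
    rw [← hcard] at hne
    -- some element of range is missing, so some element of the image is ≥ card
    obtain ⟨x, hx, hx2⟩ : ∃ x ∈ (C j).image row, ((C j).image row).card ≤ x := by
      by_contra hcon
      push Not at hcon
      apply hne
      apply Finset.eq_of_subset_of_card_le
      · intro x hx
        rw [mem_range]
        exact hcon x hx
      · rw [card_range]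
    have hsub : range (x + 1) ⊆ (C j).image row := by
      intro y hy
      rw [mem_range] at hy
      rcases Nat.lt_succ_iff_lt_or_eq.mp hy with h1 | h1
      · exact hlow x hx y h1
      · rw [h1]; exact hx
    have := Finset.card_le_card hsub
    rw [card_range] at this
    omega
  have hCsum : ∀ j, ∑ t ∈ C j, row t = ∑ x ∈ range (C j).card, x := by
    intro j
    rw [← hCrange j, Finset.sum_image (fun a ha b hb hab => hrowinj j a ha b hb hab)]
  -- total sums
  have hfib : ∀ f : T → ℕ, ∑ t, f t = ∑ j ∈ univ.image col, ∑ t ∈ C j, f t := by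
    intro f
    rw [Finset.sum_fiberwise_of_maps_to (fun t _ => Finset.mem_image_of_mem col (mem_univ t))]
  have htot : ∑ j ∈ univ.image col, ∑ t ∈ C j, row (g t) = ∑ j ∈ univ.image col, ∑ t ∈ C j, row t := by
    rw [← hfib, ← hfib (fun t => row t)]
    exact Equiv.sum_comp g row
  have hle : ∀ j ∈ univ.image col, ∑ t ∈ C j, row t ≤ ∑ t ∈ C j, row (g t) := by
    intro j _
    rw [hCsum, ← hSsum, ← hScard]
    exact sum_range_le_sum (S j)
  have heq : ∀ j ∈ univ.image col, ∑ t ∈ C j, row t = ∑ t ∈ C j, row (g t) :=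
    (Finset.sum_eq_sum_iff_of_le hle).mp htot.symm
  have hSrange : ∀ j ∈ univ.image col, S j = range (C j).card := by
    intro j hj
    by_contra hne
    rw [← hScard] at hne
    have := sum_range_lt_of_ne (S j) hne
    rw [hSsum, ← heq j hj, hCsum, hScard] at this
    exact lt_irrefl _ this
  have hcell : ∀ t, (row (g t), col t) ∈ μ.cells := by
    intro t
    have h1 : row (g t) ∈ S (col t) := Finset.mem_image_of_mem _ ((hCmem _ _).mpr rfl)
    rw [hSrange _ (Finset.mem_image_of_mem col (mem_univ t)), ← hCrange] at h1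
    obtain ⟨s, hs, hs2⟩ := Finset.mem_image.mp h1
    rw [hCmem] at hs
    rw [← hs2, ← hs]
    exact (e s).2
  let k0 : T → T := fun t => e.symm ⟨(row (g t), col t), hcell t⟩
  have hk0 : Function.Injective k0 := by
    intro a b hab
    have h1 := e.symm.injective hab
    have h2 := congrArg Subtype.val h1
    simp only [Prod.mk.injEq] at h2
    exact h a b h2.2 h2.1
  refine ⟨Equiv.ofBijective k0 ((Finite.injective_iff_bijective).mp hk0), ?_, ?_⟩
  · intro t; simp [k0, hcol]
  · intro t; simp [k0, hrow]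

omit [Fintype T] [DecidableEq T] in
lemma cert_inv_fix {ι : Type*} (c : T → ι) (r : Perm T) (hr : ∀ t, c (r t) = c t) (t : T) :
    c (r⁻¹ t) = c t := by
  have := hr (r⁻¹ t)
  simpa using this.symm

omit [Fintype T] [DecidableEq T] in
lemma cert_apply_inv (r : Perm T) (t : T) : r (r⁻¹ t) = t := by simp

variable {U : Type*} [AddCommGroup U] [Module ℂ U]

/-- Row symmetrizer of a colouring. -/
noncomputable def rowSym (ρ : Representation ℂ (Perm T) U) (c : T → ℕ) : U →ₗ[ℂ] U :=
  ∑ σ ∈ Finset.univ.filter (fun σ : Perm T => ∀ t, c (σ t) = c t), ρ σ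

lemma rowSym_apply (ρ : Representation ℂ (Perm T) U) (c : T → ℕ) (w : U) :
    rowSym ρ c w = ∑ σ ∈ Finset.univ.filter (fun σ : Perm T => ∀ t, c (σ t) = c t), ρ σ w := by
  simp [rowSym, LinearMap.sum_apply]

lemma rowSym_mul_right (ρ : Representation ℂ (Perm T) U) (c : T → ℕ) (w : U) (r : Perm T)
    (hr : ∀ t, c (r t) = c t) : rowSym ρ c (ρ r w) = rowSym ρ c w := by
  rw [rowSym_apply, rowSym_apply]
  refine Finset.sum_bij' (fun σ _ => σ * r) (fun σ _ => σ * r⁻¹) ?_ ?_ ?_ ?_ ?_
  · intro σ hσ
    simp only [Finset.mem_filter, Finset.mem_univ, true_and] at hσ ⊢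
    intro t
    rw [Perm.mul_apply, hσ, hr]
  · intro σ hσ
    simp only [Finset.mem_filter, Finset.mem_univ, true_and] at hσ ⊢
    intro t
    rw [Perm.mul_apply, hσ, cert_inv_fix c r hr]
  · intro σ _; simp
  · intro σ _; simp
  · intro σ _
    rw [rho_mul]

/-- Certificate lemma. -/
theorem cert_hom {W V : Type*} [AddCommGroup W] [Module ℂ W] [AddCommGroup V] [Module ℂ V]
    (σ : Representation ℂ (Perm T) W) (ρ : Representation ℂ (Perm T) V)
    {μ : YoungDiagram} (e : T ≃ μ.cells) (w : W)
    (hw : SwapFixed σ (fun t => (e t).1.1) w) (hκ : colAsym σ (fun t => (e t).1.2) w ≠ 0)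
    (v : V) (hv : rowSym ρ (fun t => (e t).1.1) (colAsym ρ (fun t => (e t).1.2) v) ≠ 0) :
    ∃ f : W →ₗ[ℂ] V, f ≠ 0 ∧ ∀ g u, f (σ g u) = ρ g (f u) := by
  classical
  set col : T → ℕ := fun t => (e t).1.2 with hcol
  set row : T → ℕ := fun t => (e t).1.1 with hrow
  obtain ⟨l, hl⟩ : ∃ l : Module.Dual ℂ W, l (colAsym σ col w) ≠ 0 := by
    by_contra hcon
    push Not at hcon
    exact hκ ((Module.forall_dual_apply_eq_zero_iff ℂ _).mp hcon)
  set v0 := colAsym ρ col v with hv0
  have halt : SwapAlt ρ col v0 := colAsym_alt ρ col v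
  let f : W →ₗ[ℂ] V := ∑ g : Perm T, (l ∘ₗ σ g⁻¹).smulRight (ρ g v0)
  have hf : ∀ u, f u = ∑ g : Perm T, l (σ g⁻¹ u) • ρ g v0 := by
    intro u
    simp [f, LinearMap.sum_apply]
  refine ⟨f, ?_, ?_⟩
  swap
  · intro g u
    rw [hf, hf, map_sum, ← Equiv.sum_comp (Equiv.mulLeft g)]
    apply Finset.sum_congr rfl
    intro x _
    rw [Equiv.coe_mulLeft, map_smul, rho_mul, rho_mul]
    simp
  intro hf0
  have h0 : rowSym ρ row (f w) = 0 := by rw [hf0]; simp
  rw [hf, map_sum] at h0
  -- the term of `g`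
  let F : Perm T → V := fun g => rowSym ρ row (l (σ g⁻¹ w) • ρ g v0)
  let R := Finset.univ.filter (fun σ : Perm T => ∀ t, row (σ t) = row t)
  let C := Finset.univ.filter (fun σ : Perm T => ∀ t, col (σ t) = col t)
  have hR : ∀ r, r ∈ R ↔ ∀ t, row (r t) = row t := fun r => by simp [R]
  have hC : ∀ r, r ∈ C ↔ ∀ t, col (r t) = col t := fun r => by simp [C]
  have hzero : ∀ g, (¬ ∃ r ∈ R, ∃ k ∈ C, g = r * k) → F g = 0 := by
    intro g hg
    have hex : ∃ a b, a ≠ b ∧ col a = col b ∧ row (g a) = row (g b) := by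
      by_contra hcon
      push Not at hcon
      apply hg
      obtain ⟨k, hk1, hk2⟩ := cert_james e g (fun a b hab hab2 => by
        by_contra hne
        exact hcon a b hne hab hab2)
      refine ⟨g * k⁻¹, ?_, k, (hC k).mpr hk1, by simp⟩
      rw [hR]
      intro t
      rw [Perm.mul_apply]
      have := hk2 (k⁻¹ t)
      rw [cert_apply_inv] at this
      exact this.symm
    obtain ⟨a, b, hab, hc, hr⟩ := hex
    have h1 : rowSym ρ row (ρ g v0) = - rowSym ρ row (ρ g v0) := by
      have h2 : ρ g v0 = - ρ g (ρ (swap a b) v0) := by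
        rw [halt a b hab hc, map_neg, neg_neg]
      conv_lhs => rw [h2]
      rw [rho_mul, swap_conj, ← rho_mul, map_neg, rowSym_mul_right]
      intro t
      by_cases h1 : t = g a
      · rw [h1, swap_apply_left, hr]
      · by_cases h2 : t = g b
        · rw [h2, swap_apply_right, hr]
        · rw [swap_apply_of_ne_of_ne h1 h2]
    have h2 : (2 : ℂ) • rowSym ρ row (ρ g v0) = 0 := by
      rw [two_smul]
      nth_rewrite 2 [h1]
      rw [add_neg_cancel]
    have h3 := (smul_eq_zero.mp h2).resolve_left two_ne_zero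
    change rowSym ρ row (l (σ g⁻¹ w) • ρ g v0) = 0
    rw [map_smul, h3, smul_zero]
  have hterm : ∀ r ∈ R, ∀ k ∈ C, F (r * k) =
      ((((Perm.sign k : ℤˣ) : ℤ) : ℂ) * l (σ k⁻¹ w)) • rowSym ρ row v0 := by
    intro r hr k hk
    rw [hR] at hr
    rw [hC] at hk
    change rowSym ρ row (l (σ (r * k)⁻¹ w) • ρ (r * k) v0) = _
    rw [map_smul, ← rho_mul, rowSym_mul_right ρ row _ r hr, halt.perm k hk, map_smul, smul_smul,
      mul_inv_rev, ← rho_mul, hw.perm r⁻¹ (fun t => cert_inv_fix row r hr t), mul_comm]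
  have hinj : ∀ p ∈ R ×ˢ C, ∀ q ∈ R ×ˢ C, p.1 * p.2 = q.1 * q.2 → p = q := by
    rintro ⟨r, k⟩ hp ⟨r', k'⟩ hq heq
    rw [Finset.mem_product, hR, hC] at hp hq
    simp only at hp hq heq
    have hk : k = k' := by
      ext t
      have h1 : row (k t) = row (k' t) := by
        rw [← hp.1 (k t), ← hq.1 (k' t)]
        exact congrArg row (congrArg (fun g : Perm T => g t) heq)
      have h2 : col (k t) = col (k' t) := by rw [hp.2, hq.2]
      exact e.injective (Subtype.ext (Prod.ext h1 h2))
    subst hk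
    have := mul_right_cancel heq
    rw [this]
  have hsum : ∑ g : Perm T, F g = ∑ p ∈ R ×ˢ C, F (p.1 * p.2) := by
    rw [← Finset.sum_image (s := R ×ˢ C) (g := fun p : Perm T × Perm T => p.1 * p.2) (f := F)
      (fun p hp q hq h => hinj p hp q hq h)]
    symm
    apply Finset.sum_subset (Finset.subset_univ _)
    intro g _ hg
    apply hzero
    rintro ⟨r, hr, k, hk, rfl⟩
    exact hg (Finset.mem_image.mpr ⟨(r, k), Finset.mem_product.mpr ⟨hr, hk⟩, rfl⟩)
  have hfin : ∑ p ∈ R ×ˢ C, F (p.1 * p.2) = ((R.card : ℂ) * l (colAsym σ col w)) • rowSym ρ row v0 := by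
    rw [Finset.sum_product]
    have e1 : ∀ r ∈ R, ∑ k ∈ C, F (r * k) = l (colAsym σ col w) • rowSym ρ row v0 := by
      intro r hr
      rw [Finset.sum_congr rfl (fun k hk => hterm r hr k hk), ← Finset.sum_smul]
      congr 1
      rw [colAsym_apply, map_sum]
      refine Finset.sum_bij' (fun k _ => k⁻¹) (fun k _ => k⁻¹) ?_ ?_ ?_ ?_ ?_
      · intro k hk
        rw [hC] at hk
        simp only [Finset.mem_filter, Finset.mem_univ, true_and]
        intro t
        exact cert_inv_fix col k hk t
      · intro k hk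
        simp only [Finset.mem_filter, Finset.mem_univ, true_and] at hk
        rw [hC]
        intro t
        exact cert_inv_fix col k hk t
      · intro k _; simp
      · intro k _; simp
      · intro k _
        rw [map_smul, smul_eq_mul, Perm.sign_inv]
    rw [Finset.sum_congr rfl e1, Finset.sum_const, ← Nat.cast_smul_eq_nsmul ℂ, smul_smul]
  have h1 : ∑ g : Perm T, F g = 0 := h0
  rw [hsum, hfin] at h1
  rcases smul_eq_zero.mp h1 with h2 | h2
  · rcases mul_eq_zero.mp h2 with h3 | h3
    · have : R.card ≠ 0 := Finset.card_ne_zero.mpr ⟨1, by simp [R]⟩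
      exact this (by exact_mod_cast h3)
    · exact hl h3
  · exact hv h2

end james

end Crest.Agent.R195
end

-- ▼ part R195/CertOcc
section

/-!
Row 195.  Unique-arrangement certificates (helper895).

Three tableaux `τ₁, τ₂, e` of shapes `D, E, μ` on the same letters.  If the only rearrangement of the
triples of row indices which is bijective on all the columns of the three tableaux is the trivial one,
then the representations of shape `μ` occur in `Kr T D E`.
-/

set_option autoImplicit false

namespace Crest.Agent.R195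

open Finset Function

section occ

variable {T : Type*} [Fintype T] [DecidableEq T]

/-- the row word of `τ` moved by `g` is bijective on the columns of `τ` -/
def GoodAt (τ : T → ℕ × ℕ) (g : Equiv.Perm T) : Prop :=
  ∃ σ : Equiv.Perm T, (∀ t, (τ (σ t)).2 = (τ t).2) ∧ ∀ t, (τ (g (σ t))).1 = (τ t).1

omit [Fintype T] [DecidableEq T] in
theorem GoodAt.cell {τ : T → ℕ × ℕ} {g : Equiv.Perm T} (h : GoodAt τ g) (t : T) :
    ∃ s, τ s = ((τ (g t)).1, (τ t).2) := by
  obtain ⟨σ, h1, h2⟩ := h
  refine ⟨σ.symm t, ?_⟩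
  have e1 := h1 (σ.symm t)
  have e2 := h2 (σ.symm t)
  rw [Equiv.apply_symm_apply] at e1 e2
  exact Prod.ext e2.symm e1.symm

omit [Fintype T] [DecidableEq T] in
theorem GoodAt.inj {τ : T → ℕ × ℕ} (hτ : Injective τ) {g : Equiv.Perm T} (h : GoodAt τ g)
    {a b : T} (h1 : (τ a).2 = (τ b).2) (h2 : (τ (g a)).1 = (τ (g b)).1) : a = b := by
  obtain ⟨σ, e1, e2⟩ := h
  have f : ∀ t, τ (σ.symm t) = ((τ (g t)).1, (τ t).2) := by
    intro t
    have e1 := e1 (σ.symm t)
    have e2 := e2 (σ.symm t)
    rw [Equiv.apply_symm_apply] at e1 e2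
    exact Prod.ext e2.symm e1.symm
  have : τ (σ.symm a) = τ (σ.symm b) := by rw [f, f, h1, h2]
  exact σ.symm.injective (hτ this)

/-- value of the polytabloid at its own row word -/
theorem polyF_self {τ : T → ℕ × ℕ} (hτ : Injective τ) : polyF τ (fun t => (τ t).1) = 1 := by
  unfold polyF
  rw [Finset.sum_eq_single 1]
  · simp
  · intro σ _ hσ
    rw [if_neg]
    rintro ⟨h1, h2⟩
    apply hσ
    ext t
    exact hτ (Prod.ext (h2 t) (h1 t))
  · intro h; exact absurd (mem_univ _) h

theorem polyF_good {τ : T → ℕ × ℕ} {g : Equiv.Perm T}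
    (h : polyF τ ((fun t => (τ t).1) ∘ g) ≠ 0) : GoodAt τ g := polyF_support h

variable (T) in
/-- `Kr T D E` as a representation. -/
noncomputable def krRep (D E : Finset (ℕ × ℕ)) : Representation ℂ (Equiv.Perm T) (Kr T D E) where
  toFun g :=
    { toFun := fun f => ⟨fun w => f.1 (w ∘ g), Kr_act f.2 g⟩
      map_add' := fun _ _ => rfl
      map_smul' := fun _ _ => rfl }
  map_one' := by ext f w; rfl
  map_mul' g h := by ext f w; rfl

theorem krRep_apply (D E : Finset (ℕ × ℕ)) (g : Equiv.Perm T) (f : Kr T D E) (w : T → ℕ × ℕ) :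
    (krRep T D E g f).1 w = f.1 (w ∘ g) := rfl


end occ

end Crest.Agent.R195
end

-- ▼ part R195/CertCheck
section

/-!
Row 195.  Kernel-checkable unique-arrangement certificates (helper895).
-/

set_option autoImplicit false
set_option linter.unusedSectionVars false

namespace Crest.Agent.R195

open Finset Function

/-- One letter of a certificate: its cells in the three tableaux. -/
structure Lt where
  r1 : ℕ
  c1 : ℕ
  r2 : ℕ
  c2 : ℕ
  r3 : ℕ
  c3 : ℕ
  deriving DecidableEq, Inhabited

/-- membership test -/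
def memb (r : ℕ) : List ℕ → Bool
  | [] => false
  | x :: l => Nat.beq x r || memb r l

theorem memb_iff (r : ℕ) (l : List ℕ) : memb r l = true ↔ r ∈ l := by
  induction l with
  | nil => simp [memb]
  | cons x l ih =>
    rw [memb, Bool.or_eq_true, ih, List.mem_cons, Nat.beq_eq]
    constructor
    · rintro (h | h)
      · exact Or.inl h.symm
      · exact Or.inr h
    · rintro (h | h)
      · exact Or.inl h.symm
      · exact Or.inr h

/-- rows used by earlier letters in the same block -/
def used (f : Lt → ℕ) (g : Lt → ℕ) (c : ℕ) : List Lt → List ℕ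
  | [] => []
  | z :: l => if Nat.beq (g z) c then f z :: used f g c l else used f g c l

theorem mem_used {f g : Lt → ℕ} {c r : ℕ} {l : List Lt} :
    r ∈ used f g c l ↔ ∃ z ∈ l, g z = c ∧ f z = r := by
  induction l with
  | nil => simp [used]
  | cons z l ih =>
    unfold used
    by_cases h : g z = c
    · rw [if_pos (by rw [Nat.beq_eq]; exact h), List.mem_cons, ih]
      constructor
      · rintro (h1 | ⟨y, hy, h2⟩)
        · exact ⟨z, List.mem_cons_self, h, h1.symm⟩
        · exact ⟨y, List.mem_cons_of_mem _ hy, h2⟩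
      · rintro ⟨y, hy, h2, h3⟩
        rcases List.mem_cons.mp hy with rfl | hy
        · exact Or.inl h3.symm
        · exact Or.inr ⟨y, hy, h2, h3⟩
    · rw [if_neg (by rw [Nat.beq_eq]; exact h), ih]
      constructor
      · rintro ⟨y, hy, h2⟩
        exact ⟨y, List.mem_cons_of_mem _ hy, h2⟩
      · rintro ⟨y, hy, h2, h3⟩
        rcases List.mem_cons.mp hy with rfl | hy
        · exact absurd h2 h
        · exact ⟨y, hy, h2, h3⟩

/-- the same type of letter -/
def sameTy (x y : Lt) : Bool := Nat.beq x.r1 y.r1 && (Nat.beq x.r2 y.r2 && Nat.beq x.r3 y.r3)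

/-- one step: every later type is either the type of `x` or blocked at `x` -/
def stepOK (H1 H2 H3 : List ℕ) (pre : List Lt) (x : Lt) (rest : List Lt) : Bool :=
  rest.all fun y => sameTy x y ||
    (Nat.ble (H1.getD x.c1 0) y.r1 || memb y.r1 (used Lt.r1 Lt.c1 x.c1 pre)) ||
    (Nat.ble (H2.getD x.c2 0) y.r2 || memb y.r2 (used Lt.r2 Lt.c2 x.c2 pre)) ||
    (Nat.ble (H3.getD x.c3 0) y.r3 || memb y.r3 (used Lt.r3 Lt.c3 x.c3 pre))


/-- distinctness and membership in a shape, given by its column heights -/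
def tabOK (f g : Lt → ℕ) (H : List ℕ) : List Lt → List Lt → Bool
  | _, [] => true
  | pre, x :: rest => Nat.blt (f x) (H.getD (g x) 0) && !(memb (f x) (used f g (g x) pre)) &&
      tabOK f g H (x :: pre) rest


theorem tabOK_spec {f g : Lt → ℕ} {H : List ℕ} : ∀ {pre ls : List Lt}, tabOK f g H pre ls = true →
    (∀ x ∈ ls, f x < H.getD (g x) 0) ∧ ls.Pairwise (fun x y => ¬ (g x = g y ∧ f x = f y)) ∧
      ∀ x ∈ ls, ∀ z ∈ pre, ¬ (g z = g x ∧ f z = f x) := by
  intro pre ls
  induction ls generalizing pre with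
  | nil => intro _; simp
  | cons x rest ih =>
    intro h
    unfold tabOK at h
    rw [Bool.and_eq_true, Bool.and_eq_true] at h
    obtain ⟨⟨h1, h2⟩, h3⟩ := h
    obtain ⟨i1, i2, i3⟩ := ih h3
    have h1' : f x < H.getD (g x) 0 := by
      unfold Nat.blt at h1
      exact Nat.le_of_ble_eq_true h1
    have h2' : ¬ f x ∈ used f g (g x) pre := by
      rw [← memb_iff]
      intro h4
      rw [h4] at h2
      exact absurd h2 (by decide)
    refine ⟨?_, ?_, ?_⟩
    · intro y hy
      rcases List.mem_cons.mp hy with rfl | hy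
      · exact h1'
      · exact i1 y hy
    · refine List.Pairwise.cons ?_ i2
      intro y hy
      exact i3 y hy x List.mem_cons_self
    · intro y hy z hz
      rcases List.mem_cons.mp hy with rfl | hy
      · rintro ⟨h4, h5⟩
        exact h2' (mem_used.mpr ⟨z, hz, h4, h5⟩)
      · exact i3 y hy z (List.mem_cons_of_mem _ hz)


theorem stepOK_spec {H1 H2 H3 : List ℕ} {pre : List Lt} {x : Lt} {rest : List Lt}
    (h : stepOK H1 H2 H3 pre x rest = true) {y : Lt} (hy : y ∈ rest) :
    (x.r1 = y.r1 ∧ x.r2 = y.r2 ∧ x.r3 = y.r3) ∨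
    (H1.getD x.c1 0 ≤ y.r1 ∨ ∃ z ∈ pre, z.c1 = x.c1 ∧ z.r1 = y.r1) ∨
    (H2.getD x.c2 0 ≤ y.r2 ∨ ∃ z ∈ pre, z.c2 = x.c2 ∧ z.r2 = y.r2) ∨
    (H3.getD x.c3 0 ≤ y.r3 ∨ ∃ z ∈ pre, z.c3 = x.c3 ∧ z.r3 = y.r3) := by
  unfold stepOK at h
  rw [List.all_eq_true] at h
  have := h y hy
  simp only [Bool.or_eq_true, sameTy, Bool.and_eq_true, Nat.beq_eq, Nat.ble_eq, memb_iff,
    mem_used] at this
  rcases this with ((h1 | h1) | h1) | h1
  · exact Or.inl h1
  · exact Or.inr (Or.inl h1)
  · exact Or.inr (Or.inr (Or.inl h1))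
  · exact Or.inr (Or.inr (Or.inr h1))

section sound

variable {T : Type*} [Fintype T] [DecidableEq T]

/-- the tableau on `T` read off from the list -/
def lsTab (ls : List Lt) (f g : Lt → ℕ) (θ : T ≃ Fin ls.length) (t : T) : ℕ × ℕ :=
  (f (ls.get (θ t)), g (ls.get (θ t)))

omit [Fintype T] [DecidableEq T] in
theorem lsTab_inj {ls : List Lt} {f g : Lt → ℕ} (θ : T ≃ Fin ls.length)
    (h : ls.Pairwise (fun x y => ¬ (g x = g y ∧ f x = f y))) : Injective (lsTab ls f g θ) := by
  intro s t hst
  unfold lsTab at hst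
  rw [Prod.mk.injEq] at hst
  rw [List.pairwise_iff_get] at h
  apply θ.injective
  rcases lt_trichotomy (θ s) (θ t) with hlt | heq | hlt
  · exact absurd ⟨hst.2, hst.1⟩ (h _ _ hlt)
  · exact heq
  · exact absurd ⟨hst.2.symm, hst.1.symm⟩ (h _ _ hlt)

theorem lsTab_isTab {ls : List Lt} {f g : Lt → ℕ} (θ : T ≃ Fin ls.length) {H : List ℕ}
    {D : Finset (ℕ × ℕ)} (hD : ∀ c, c ∈ D ↔ c.1 < H.getD c.2 0) (hcard : D.card = ls.length)
    (h : tabOK f g H [] ls = true) : IsTab D (lsTab ls f g θ) := by
  obtain ⟨h1, h2, -⟩ := tabOK_spec h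
  have hinj := lsTab_inj (f := f) (g := g) θ h2
  refine ⟨hinj, ?_⟩
  apply Finset.eq_of_subset_of_card_le
  · intro c hc
    obtain ⟨t, -, rfl⟩ := Finset.mem_image.mp hc
    rw [hD]
    exact h1 _ (List.get_mem _ _)
  · rw [Finset.card_image_of_injective _ hinj, Finset.card_univ, Fintype.card_congr θ,
      Fintype.card_fin, hcard]

omit [Fintype T] [DecidableEq T] in
/-- no earlier letter blocks -/
theorem not_blocked {τ : T → ℕ × ℕ} (hτ : Injective τ) {H : List ℕ}
    (hH : ∀ t, (τ t).1 < H.getD (τ t).2 0) {g : Equiv.Perm T} (hg : GoodAt τ g) {t : T} {r : ℕ}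
    (hr : r = (τ (g t)).1)
    (h : H.getD (τ t).2 0 ≤ r ∨ ∃ t', t' ≠ t ∧ (τ (g t')).1 = (τ t').1 ∧ (τ t').2 = (τ t).2 ∧
      (τ t').1 = r) : False := by
  rcases h with h | ⟨t', hne, h1, h2, h3⟩
  · obtain ⟨s, hs⟩ := hg.cell t
    have := hH s
    rw [hs] at this
    simp only at this
    rw [← hr] at this
    omega
  · apply hne
    exact hg.inj hτ h2 (by rw [h1, h3, hr])


end sound

end Crest.Agent.R195
private theorem rz_a71e1bfa42 : type_of% @_root_.Crest.Agent.R195.memb.eq_def := @_root_.Crest.Agent.R195.memb.eq_def -- L25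
private theorem rz_2a88eb94b9 : type_of% @_root_.Crest.Agent.R195.memb.eq_1 := @_root_.Crest.Agent.R195.memb.eq_1 -- L25
private theorem rz_a126c87282 : type_of% @_root_.Crest.Agent.R195.tabOK.eq_def := @_root_.Crest.Agent.R195.tabOK.eq_def -- L88
private theorem rz_12a083ad8c : type_of% @_root_.Crest.Agent.R195.used.eq_def := @_root_.Crest.Agent.R195.used.eq_def -- L43
private theorem rz_55078b6194 : type_of% @_root_.Crest.Agent.R195.used.eq_1 := @_root_.Crest.Agent.R195.used.eq_1 -- L43
end

-- ▼ part R195/CertShape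

/-!
Row 195.  Occurrence shape by shape, and reduction of `Full D D` to a finite list of shapes
(helper895).
-/

set_option autoImplicit false
set_option linter.unusedSectionVars false

namespace Crest.Agent.R195

open Finset Function

section sym

variable {T : Type*} [Fintype T] [DecidableEq T] {U : Type*} [AddCommGroup U] [Module ℂ U]


/-- If `w` is fixed by the row group and not killed by the column antisymmetrizer, then the row
symmetrizer does not kill the result. -/
theorem rowSym_colAsym_ne (ρ : Representation ℂ (Equiv.Perm T) U) (c d : T → ℕ) (w : U)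
    (hw : SwapFixed ρ c w) (h : colAsym ρ d w ≠ 0) : rowSym ρ c (colAsym ρ d w) ≠ 0 := by
  classical
  intro h0
  obtain ⟨l, hl⟩ : ∃ l : Module.Dual ℂ U, l (colAsym ρ d w) ≠ 0 := by
    by_contra hcon
    push Not at hcon
    exact h ((Module.forall_dual_apply_eq_zero_iff ℂ _).mp hcon)
  let R := Finset.univ.filter (fun σ : Equiv.Perm T => ∀ t, c (σ t) = c t)
  let C := Finset.univ.filter (fun σ : Equiv.Perm T => ∀ t, d (σ t) = d t)
  have hR : ∀ r, r ∈ R ↔ ∀ t, c (r t) = c t := fun r => by simp [R]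
  have hC : ∀ r, r ∈ C ↔ ∀ t, d (r t) = d t := fun r => by simp [C]
  let F : Equiv.Perm T → ℂ := fun g => l (ρ g w)
  let A : Equiv.Perm T → ℂ := fun g => l (ρ g (colAsym ρ d w))
  have hFr : ∀ r ∈ R, ∀ g, F (g * r) = F g := by
    intro r hr g
    rw [hR] at hr
    change l (ρ (g * r) w) = l (ρ g w)
    rw [← rho_mul, hw.perm r hr]
  have hAsum : ∀ g, A g = ∑ k ∈ C, (((Equiv.Perm.sign k : ℤˣ) : ℤ) : ℂ) * F (g * k) := by
    intro g
    change l (ρ g (colAsym ρ d w)) = _
    rw [colAsym_apply, map_sum, map_sum]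
    refine Finset.sum_congr rfl fun k _ => ?_
    rw [map_smul, map_smul, rho_mul, smul_eq_mul]
  have hAk : ∀ k ∈ C, ∀ g, A (g * k) = (((Equiv.Perm.sign k : ℤˣ) : ℤ) : ℂ) * A g := by
    intro k hk g
    rw [hC] at hk
    change l (ρ (g * k) (colAsym ρ d w)) = _
    rw [← rho_mul, (colAsym_alt ρ d w).perm k hk, map_smul, map_smul, smul_eq_mul]
  have hA0 : ∀ g, ∑ r ∈ R, A (g * r) = 0 := by
    intro g
    have := congrArg (fun u => l (ρ g u)) h0
    simp only [map_zero] at this
    rw [rowSym_apply, map_sum, map_sum] at this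
    rw [← this]
    refine Finset.sum_congr rfl fun r _ => ?_
    rw [rho_mul]
  have hAF : ∑ g, A g * (starRingEnd ℂ) (F g) = 0 := by
    have h1 : (R.card : ℂ) * ∑ g, A g * (starRingEnd ℂ) (F g) = 0 := by
      rw [← nsmul_eq_mul, ← Finset.sum_const]
      have : ∀ r ∈ R, ∑ g, A g * (starRingEnd ℂ) (F g)
          = ∑ g, A (g * r) * (starRingEnd ℂ) (F g) := by
        intro r hr
        rw [← Equiv.sum_comp (Equiv.mulRight r) (fun g => A g * (starRingEnd ℂ) (F g))]
        refine Finset.sum_congr rfl fun g _ => ?_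
        rw [Equiv.coe_mulRight, hFr r hr]
      rw [Finset.sum_congr rfl this, Finset.sum_comm]
      apply Finset.sum_eq_zero
      intro g _
      rw [← Finset.sum_mul, hA0, zero_mul]
    rcases mul_eq_zero.mp h1 with h2 | h2
    · exfalso
      have : R.card ≠ 0 := Finset.card_ne_zero.mpr ⟨1, by simp [R]⟩
      exact this (by exact_mod_cast h2)
    · exact h2
  have hAA : ∑ g, A g * (starRingEnd ℂ) (A g) = 0 := by
    have : ∀ g, A g * (starRingEnd ℂ) (A g)
        = ∑ k ∈ C, (((Equiv.Perm.sign k : ℤˣ) : ℤ) : ℂ) * (A g * (starRingEnd ℂ) (F (g * k))) := by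
      intro g
      have hc := congrArg (starRingEnd ℂ) (hAsum g)
      rw [hc, map_sum, Finset.mul_sum]
      refine Finset.sum_congr rfl fun k _ => ?_
      rw [map_mul, map_intCast]
      ring
    rw [Finset.sum_congr rfl (fun g _ => this g), Finset.sum_comm]
    apply Finset.sum_eq_zero
    intro k hk
    rw [← Finset.mul_sum]
    have h2 : ∑ g, A g * (starRingEnd ℂ) (F (g * k))
        = ∑ g, A (g * k⁻¹) * (starRingEnd ℂ) (F g) := by
      rw [← Equiv.sum_comp (Equiv.mulRight k) (fun g => A (g * k⁻¹) * (starRingEnd ℂ) (F g))]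
      refine Finset.sum_congr rfl fun g _ => ?_
      rw [Equiv.coe_mulRight, mul_inv_cancel_right]
    have hk' : k⁻¹ ∈ C := by
      rw [hC] at hk ⊢
      intro t
      exact cert_inv_fix d k hk t
    rw [h2, Finset.sum_congr rfl (fun g _ => by rw [hAk _ hk' g, mul_assoc]), ← Finset.mul_sum, hAF,
      mul_zero, mul_zero]
  have hA1 : A 1 = 0 := by
    have hcast : ∑ g, A g * (starRingEnd ℂ) (A g) = ((∑ g, Complex.normSq (A g) : ℝ) : ℂ) := by
      rw [Complex.ofReal_sum]
      exact Finset.sum_congr rfl fun g _ => Complex.mul_conj (A g)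
    rw [hcast] at hAA
    have h3 : ∑ g, Complex.normSq (A g) = 0 := by exact_mod_cast hAA
    have := (Finset.sum_eq_zero_iff_of_nonneg fun g _ => Complex.normSq_nonneg (A g)).mp h3 1
      (Finset.mem_univ _)
    exact Complex.normSq_eq_zero.mp this
  apply hl
  have : A 1 = l (colAsym ρ d w) := by
    change l (ρ 1 (colAsym ρ d w)) = _
    rw [map_one]; rfl
  rw [← this, hA1]

end sym

/-- `ρ` has a vector of shape `μ` (output of the shape lemma). -/
def HasShape {T : Type} [Fintype T] [DecidableEq T] {W : Type} [AddCommGroup W] [Module ℂ W]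
    (ρ : Representation ℂ (Equiv.Perm T) W) (μ : YoungDiagram) : Prop :=
  ∃ (e : T ≃ μ.cells) (w : W), SwapFixed ρ (fun t => (e t).1.1) w ∧
    colAsym ρ (fun t => (e t).1.2) w ≠ 0

section shapes

variable {T : Type} [Fintype T] [DecidableEq T] {W : Type} [AddCommGroup W] [Module ℂ W]
  {ρ : Representation ℂ (Equiv.Perm T) W} {μ : YoungDiagram}

theorem HasShape.card (h : HasShape ρ μ) : μ.card = Fintype.card T := by
  obtain ⟨e, -⟩ := h
  rw [Fintype.card_congr e]
  simp [YoungDiagram.card]

theorem HasShape.fixSizes (h : HasShape ρ μ) : FixSizes ρ μ.rowLen := by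
  obtain ⟨e, w, hw, hne⟩ := h
  refine ⟨_, card_fiber_row e, w, ?_, hw⟩
  rintro rfl
  exact hne (map_zero _)

/-- the transposed numbering -/
def transposeEquiv (e : T ≃ μ.cells) : T ≃ μ.transpose.cells where
  toFun t := ⟨(e t).1.swap, by
    rw [YoungDiagram.mem_cells, YoungDiagram.mem_transpose, Prod.swap_swap]
    exact (YoungDiagram.mem_cells _).mp (e t).2⟩
  invFun c := e.symm ⟨c.1.swap, by
    have := c.2
    rw [YoungDiagram.mem_cells, YoungDiagram.mem_transpose] at this
    exact (YoungDiagram.mem_cells _).mpr this⟩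
  left_inv t := by simp
  right_inv c := by simp

theorem HasShape.signTwist (h : HasShape ρ μ) : HasShape (signTwist ρ) μ.transpose := by
  obtain ⟨e, w, hw, hne⟩ := h
  refine ⟨transposeEquiv e, colAsym ρ (fun t => (e t).1.2) w, ?_, ?_⟩
  · exact (colAsym_alt ρ _ w).signTwist
  · have h2 := rowSym_colAsym_ne ρ _ _ w hw hne
    have h3 : colAsym (Crest.Agent.R195.signTwist ρ) (fun t => ((transposeEquiv e) t).1.2)
        (colAsym ρ (fun t => (e t).1.2) w)
        = rowSym ρ (fun t => (e t).1.1) (colAsym ρ (fun t => (e t).1.2) w) := by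
      rw [colAsym_apply, rowSym_apply]
      refine Finset.sum_congr rfl fun σ _ => ?_
      rw [signTwist_apply, smul_smul]
      have : ((((Equiv.Perm.sign σ : ℤˣ) : ℤ) : ℂ)) * ((((Equiv.Perm.sign σ : ℤˣ) : ℤ) : ℂ)) = 1 := by
        rcases Int.units_eq_one_or (Equiv.Perm.sign σ) with h | h <;> simp [h]
      rw [this, one_smul]
    rw [h3]
    exact h2


theorem exists_hasShape (ρ : Representation ℂ (Equiv.Perm T) W) [Nontrivial W] :
    ∃ μ : YoungDiagram, HasShape ρ μ := by
  obtain ⟨μ, e, w, h1, h2⟩ := shape_lemma ρ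
  exact ⟨μ, e, w, h1, h2⟩

end shapes

/-- All representations of shape `μ` occur in `Kr T D E`. -/
def OccSh (D E : Finset (ℕ × ℕ)) (μ : YoungDiagram) : Prop :=
  ∀ (T : Type) [Fintype T] [DecidableEq T] (W : Type) [AddCommGroup W] [Module ℂ W]
    (ρ : Representation ℂ (Equiv.Perm T) W), HasShape ρ μ → Occ ρ (Kr T D E)

theorem full_of_occSh {D E : Finset (ℕ × ℕ)} (h : ∀ μ : YoungDiagram, μ.card = D.card →
    OccSh D E μ) : Full D E := by
  intro T _ _ hT W _ _ ρ hv
  obtain ⟨v, hv⟩ := hv
  have : Nontrivial W := ⟨⟨v, 0, hv⟩⟩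
  obtain ⟨μ, hμ⟩ := exists_hasShape ρ
  exact h μ (by rw [hμ.card, hT]) T W ρ hμ

theorem OccSh.of_transpose {D E : Finset (ℕ × ℕ)} (hD : D.image Prod.swap = D)
    {μ : YoungDiagram} (h : OccSh D E μ.transpose) : OccSh D E μ := by
  intro T _ _ W _ _ ρ hρ
  exact Occ.of_signTwist hD (h T W _ hρ.signTwist)

/-- column lengths as a list -/
def colLens (μ : YoungDiagram) : List ℕ := μ.transpose.rowLens

theorem colLens_getD (μ : YoungDiagram) (j : ℕ) : (colLens μ).getD j 0 = μ.colLen j := by
  unfold colLens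
  rw [List.getD_eq_getElem?_getD]
  by_cases h : j < μ.transpose.rowLens.length
  · rw [List.getElem?_eq_getElem h, Option.getD_some, YoungDiagram.get_rowLens,
      YoungDiagram.rowLen_transpose]
  · rw [List.getElem?_eq_none (by omega), Option.getD_none]
    rw [YoungDiagram.length_rowLens, YoungDiagram.colLen_transpose] at h
    by_contra h0
    have h1 : (0, j) ∈ μ := YoungDiagram.mem_iff_lt_colLen.mpr (Nat.pos_of_ne_zero (Ne.symm h0))
    rw [YoungDiagram.mem_iff_lt_rowLen] at h1
    exact h h1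

theorem mem_cells_iff_colLens (μ : YoungDiagram) (c : ℕ × ℕ) :
    c ∈ μ.cells ↔ c.1 < (colLens μ).getD c.2 0 := by
  rw [colLens_getD, YoungDiagram.mem_cells, ← YoungDiagram.mem_iff_lt_colLen]


end Crest.Agent.R195
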