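import Mathlib

/-! Row 195, S0298: framework for the combinatorial coverage problem.
Column heights `H : ι → ℕ` of a Young diagram have to be written as a sum of rows `x`, one for every
piece (group of columns of the shape `λ`), of the allowed types:
* `pair c` : entries at most 4, sum `2 c - 1`;
* `rect c k` : entries at most 1, sum `c k`;
* `dup c` : entries at most 4, sum `2 c`, and the columns carry a fixed point free matching (on the
  support) with equal entries;
* `gap c` (columns `c`, `c - 2`) : as `dup (c - 1)`, and the entry 2 must occur. -/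

set_option autoImplicit false

namespace Crest.Agent.R195

open Finset

/-- pieces -/
inductive Pc
  | pair (c : ℕ)
  | rect (c k : ℕ)
  | dup (c : ℕ)
  | gap (c : ℕ)
  deriving DecidableEq

/-- number of cells of a piece -/
def Pc.size : Pc → ℕ
  | .pair c => 2 * c - 1
  | .rect c k => c * k
  | .dup c => 2 * c
  | .gap c => 2 * c - 2

/-- allowed rows -/
def RowOK {ι : Type*} [Fintype ι] : Pc → (ι → ℕ) → Prop
  | .pair c, x => (∀ j, x j ≤ 4) ∧ ∑ j, x j = 2 * c - 1
  | .rect c k, x => (∀ j, x j ≤ 1) ∧ ∑ j, x j = c * k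
  | .dup c, x => (∀ j, x j ≤ 4) ∧ ∑ j, x j = 2 * c ∧
      ∃ σ : Equiv.Perm ι, (∀ j, σ (σ j) = j) ∧ (∀ j, x j ≠ 0 → σ j ≠ j) ∧ ∀ j, x (σ j) = x j
  | .gap c, x => (∀ j, x j ≤ 4) ∧ ∑ j, x j = 2 * c - 2 ∧
      (∃ σ : Equiv.Perm ι, (∀ j, σ (σ j) = j) ∧ (∀ j, x j ≠ 0 → σ j ≠ j) ∧ ∀ j, x (σ j) = x j) ∧
      ∃ j, x j = 2

/-- decomposition of the heights `H` into allowed rows -/
def Decomp {ι : Type*} [Fintype ι] (L : List Pc) (H : ι → ℕ) : Prop :=
  ∃ xs : List (ι → ℕ), List.Forall₂ RowOK L xs ∧ ∀ j, (xs.map fun x => x j).sum = H j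

section basic

variable {ι κ : Type*} [Fintype ι] [Fintype κ]

theorem RowOK.sum_eq {p : Pc} {x : ι → ℕ} (h : RowOK p x) : ∑ j, x j = p.size := by
  cases p with
  | pair c => exact h.2
  | rect c k => exact h.2
  | dup c => exact h.2.1
  | gap c => exact h.2.1

theorem RowOK.comp {p : Pc} {x : ι → ℕ} (h : RowOK p x) (e : κ ≃ ι) : RowOK p (x ∘ e) := by
  have hs : ∑ j, (x ∘ e) j = ∑ j, x j := e.sum_comp x
  cases p with
  | pair c => exact ⟨fun j => h.1 _, by rw [hs]; exact h.2⟩
  | rect c k => exact ⟨fun j => h.1 _, by rw [hs]; exact h.2⟩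
  | dup c =>
    obtain ⟨h1, h2, σ, h3, h4, h5⟩ := h
    refine ⟨fun j => h1 _, by rw [hs]; exact h2, (e.trans σ).trans e.symm, ?_, ?_, ?_⟩
    · intro j; simp [h3]
    · intro j hj h
      apply h4 (e j) hj
      have := congrArg e h
      simpa using this
    · intro j
      simp [h5]
  | gap c =>
    obtain ⟨h1, h2, ⟨σ, h3, h4, h5⟩, j0, h6⟩ := h
    refine ⟨fun j => h1 _, by rw [hs]; exact h2, ⟨(e.trans σ).trans e.symm, ?_, ?_, ?_⟩,
      e.symm j0, by simpa using h6⟩
    · intro j; simp [h3]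
    · intro j hj h
      apply h4 (e j) hj
      have := congrArg e h
      simpa using this
    · intro j
      simp [h5]

theorem Decomp.comp {L : List Pc} {H : ι → ℕ} (h : Decomp L H) (e : κ ≃ ι) :
    Decomp L (H ∘ e) := by
  obtain ⟨xs, h1, h2⟩ := h
  refine ⟨xs.map fun x => x ∘ e, ?_, fun j => ?_⟩
  · rw [List.forall₂_map_right_iff]
    exact h1.imp fun p x hx => hx.comp e
  · rw [List.map_map]
    exact h2 (e j)

theorem Decomp.nil {H : ι → ℕ} (h : ∀ j, H j = 0) : Decomp [] H :=
  ⟨[], List.Forall₂.nil, fun j => by simp [h j]⟩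


theorem Decomp.cons {p : Pc} {L : List Pc} {H x : ι → ℕ} (hx : RowOK p x) (hle : ∀ j, x j ≤ H j)
    (h : Decomp L fun j => H j - x j) : Decomp (p :: L) H := by
  obtain ⟨xs, h1, h2⟩ := h
  refine ⟨x :: xs, List.Forall₂.cons hx h1, fun j => ?_⟩
  simp only [List.map_cons, List.sum_cons]
  rw [h2 j]
  exact Nat.add_sub_cancel' (hle j)

theorem Decomp.sum_eq {L : List Pc} {H : ι → ℕ} (h : Decomp L H) :
    ∑ j, H j = (L.map Pc.size).sum := by
  obtain ⟨xs, h1, h2⟩ := h
  induction h1 generalizing H with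
  | nil => simp only [List.map_nil, List.sum_nil] at h2 ⊢; simp [← h2]
  | @cons p x L xs hx h1 ih =>
    have h3 := ih (H := fun j => (xs.map fun x => x j).sum) fun j => rfl
    simp only [List.map_cons, List.sum_cons] at h2 ⊢
    rw [← h3, ← hx.sum_eq, ← Finset.sum_add_distrib]
    exact Finset.sum_congr rfl fun j _ => (h2 j).symm

theorem Decomp.perm {L L' : List Pc} (hL : L.Perm L') {H : ι → ℕ} (h : Decomp L H) :
    Decomp L' H := by
  obtain ⟨xs, h1, h2⟩ := h
  obtain ⟨ys, h3, h4⟩ := List.perm_comp_forall₂ hL.symm h1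
  refine ⟨ys, h3, fun j => ?_⟩
  rw [← h2 j]
  exact (h4.map _).sum_eq


end basic

section interpolation

variable {ι : Type*} [Fintype ι]

/-- discrete interpolation between two functions -/
theorem exists_between_sum {l u : ι → ℕ} (h : ∀ j, l j ≤ u j) {S : ℕ} (h1 : ∑ j, l j ≤ S)
    (h2 : S ≤ ∑ j, u j) : ∃ x : ι → ℕ, (∀ j, l j ≤ x j) ∧ (∀ j, x j ≤ u j) ∧ ∑ j, x j = S := by
  classical
  obtain ⟨d, rfl⟩ := Nat.exists_eq_add_of_le h1
  clear h1
  induction d with
  | zero => exact ⟨l, fun _ => le_rfl, h, by simp⟩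
  | succ d ih =>
    obtain ⟨x, hx1, hx2, hx3⟩ := ih (by omega)
    obtain ⟨j, hj⟩ : ∃ j, x j < u j := by
      by_contra hcon
      push Not at hcon
      have : ∑ j, u j ≤ ∑ j, x j := Finset.sum_le_sum fun j _ => hcon j
      omega
    refine ⟨Function.update x j (x j + 1), ?_, ?_, ?_⟩
    · intro i
      by_cases hi : i = j
      · subst hi; simp only [Function.update_self]; exact (hx1 i).trans (Nat.le_succ _)
      · simp only [Function.update_of_ne hi]; exact hx1 i
    · intro i
      by_cases hi : i = j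
      · subst hi; simp only [Function.update_self]; exact hj
      · simp only [Function.update_of_ne hi]; exact hx2 i
    · have h3 := Finset.add_sum_erase univ x (mem_univ j)
      have h4 := Finset.add_sum_erase univ (Function.update x j (x j + 1)) (mem_univ j)
      have h5 : ∑ i ∈ univ.erase j, Function.update x j (x j + 1) i = ∑ i ∈ univ.erase j, x i :=
        Finset.sum_congr rfl fun i hi => Function.update_of_ne (ne_of_mem_erase hi) _ _
      simp only [Function.update_self] at h4
      omega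





end interpolation

end Crest.Agent.R195
private theorem rz_134e6e7bb2 : type_of% @_root_.Crest.Agent.R195.Pc.size.eq_1 := @_root_.Crest.Agent.R195.Pc.size.eq_1 -- L27
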