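import Crest.Agent.R195.Zig4

/-! Row 195, L4.  Standard colourings for lists of groups; the staircase. -/

set_option autoImplicit false
set_option linter.unusedSectionVars false
set_option linter.unusedDecidableInType false

namespace Crest.Agent.R195

open Finset Function Crest.AlgebraR.Specht

/-- a colouring with prescribed fibre sizes -/
theorem exists_coloring_of_sizes {T K : Type*} [Fintype T] [DecidableEq T] [Fintype K]
    [DecidableEq K] (ν : K → ℕ) (h : Fintype.card T = ∑ a, ν a) :
    ∃ f : T → K, ∀ a, (univ.filter fun t => f t = a).card = ν a := by
  classical
  have e : T ≃ Σ a : K, Fin (ν a) := Fintype.equivOfCardEq (by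
    rw [h, Fintype.card_sigma]; simp)
  refine ⟨fun t => (e t).1, fun a => ?_⟩
  have : (univ.filter fun t => (e t).1 = a).card = Fintype.card (Fin (ν a)) := by
    rw [← Finset.card_univ]
    symm
    refine Finset.card_bij (fun i _ => e.symm ⟨a, i⟩) ?_ ?_ ?_
    · intro i _; simp
    · intro i _ j _ hij
      have := e.symm.injective hij
      simpa using this
    · intro t ht
      simp only [mem_filter, mem_univ, true_and] at ht
      subst ht
      refine ⟨(e t).2, mem_univ _, ?_⟩
      rw [show (⟨(e t).1, (e t).2⟩ : Σ a : K, Fin (ν a)) = e t from rfl, Equiv.symm_apply_apply]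
  rw [this, Fintype.card_fin]

namespace Grp

/-- part sizes of a group: near-equal quarters for a pair, one part for a rectangle -/
def part : Grp → Fin 4 → ℕ
  | pair c, a => (2 * c - 1 + a.1) / 4
  | rect c k, a => if a = 0 then c * k else 0

theorem sum_part (g : Grp) : ∑ a, g.part a = g.size := by
  cases g with
  | pair c => simp only [part, size, Fin.sum_univ_four, Fin.val_zero, Fin.val_one, Fin.val_two]
              have h3 : (3 : Fin 4).1 = 3 := rfl
              rw [h3]
              omega
  | rect c k => simp [part, size]

end Grp


/-- the groups of the staircase -/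
def stairL : ℕ → List Grp
  | 0 => []
  | 1 => [Grp.pair 1]
  | (m + 2) => Grp.pair (m + 2) :: stairL m

theorem stairL_top (m : ℕ) : ∀ g ∈ stairL m, g.top ≤ m := by
  induction m using Nat.strong_induction_on with
  | _ m ih =>
    match m with
    | 0 => intro g hg; simp [stairL] at hg
    | 1 => intro g hg; simp only [stairL, List.mem_singleton] at hg; subst hg; simp [Grp.top]
    | (m + 2) =>
      intro g hg
      simp only [stairL, List.mem_cons] at hg
      rcases hg with rfl | hg
      · simp [Grp.top]
      · exact (ih m (by omega) g hg).trans (by omega)

theorem validL_stairL (m : ℕ) : validL (stairL m) := by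
  induction m using Nat.strong_induction_on with
  | _ m ih =>
    match m with
    | 0 => trivial
    | 1 => exact ⟨by simp [Grp.top], by simp, trivial⟩
    | (m + 2) =>
      refine ⟨by simp [Grp.top], ?_, ih m (by omega)⟩
      intro g hg
      simpa [Grp.next] using stairL_top m g hg

theorem shapeL_stairL (m : ℕ) : shapeL (stairL m) = staircaseShape m := by
  induction m using Nat.strong_induction_on with
  | _ m ih =>
    match m with
    | 0 => simp [stairL, shapeL, staircaseShape]
    | 1 =>
      ext ⟨i, j⟩
      simp only [stairL, shapeL, addC, shiftC, Finset.image_empty, Finset.union_empty, Grp.shape,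
        pairShape, staircaseShape, mem_filter, mem_product, mem_range]
      omega
    | (m + 2) =>
      simp only [stairL, shapeL, addC, Grp.shape, Grp.width]
      rw [ih m (by omega)]
      ext ⟨i, j⟩
      simp only [pairShape, staircaseShape, shiftC, mem_union, mem_filter, mem_product, mem_range,
        mem_image, Prod.mk.injEq, Prod.exists]
      constructor
      · rintro (h | ⟨a, b, h, rfl, rfl⟩)
        · omega
        · omega
      · intro h
        by_cases hj : j < 2
        · left; omega
        · right
          exact ⟨i, j - 2, by omega, rfl, by omega⟩


theorem stairL_part (m : ℕ) : ∀ g ∈ stairL m, ∀ a, g.part a ≤ (m + 1) / 2 := by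
  induction m using Nat.strong_induction_on with
  | _ m ih =>
    match m with
    | 0 => intro g hg; simp [stairL] at hg
    | 1 =>
      intro g hg a
      simp only [stairL, List.mem_singleton] at hg; subst hg
      simp only [Grp.part]
      have := a.2
      omega
    | (m + 2) =>
      intro g hg a
      simp only [stairL, List.mem_cons] at hg
      rcases hg with rfl | hg
      · simp only [Grp.part]
        have := a.2
        omega
      · exact (ih m (by omega) g hg a).trans (by omega)


end Crest.Agent.R195
private theorem rz_aa18521abf : type_of% @_root_.Crest.Agent.R195.Grp.part.eq_1 := @_root_.Crest.Agent.R195.Grp.part.eq_1 -- L39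
private theorem rz_179b124c77 : type_of% @_root_.Crest.Agent.R195.stairL.eq_def := @_root_.Crest.Agent.R195.stairL.eq_def -- L110
private theorem rz_1996f2b99e : type_of% @_root_.Crest.Agent.R195.stairL.eq_1 := @_root_.Crest.Agent.R195.stairL.eq_1 -- L110
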