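import Crest.Agent.R195.ChainB1c
import Crest.Agent.R195.Major2
import Crest.Agent.R195.Zig5
import Crest.Agent.R195.Cover
import Crest.Agent.R195.CertShape

-- ▼ part R195/Vander
section

/-! Row 195 (T1): a nonzero vector alternating under the columns of a tableau and seen by the rows
is not killed by the symmetrizer of ANY labelling with distinct labels in every column. -/

set_option autoImplicit false

namespace Crest.Agent.R195

open Finset Function Equiv

section comb

variable {T : Type*} [Fintype T]

/-- rank of the label of `t` inside its column -/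
def colRank (col : T → ℕ) (n : T → ℕ) (t : T) : ℕ :=
  (univ.filter fun s => col s = col t ∧ n s < n t).card

theorem colRank_lt {col n : T → ℕ} {s t : T} (h : col s = col t) (hst : n s < n t) :
    colRank col n s < colRank col n t := by
  classical
  unfold colRank
  apply card_lt_card
  rw [Finset.ssubset_iff_of_subset]
  · exact ⟨s, by simp [h, hst], by simp⟩
  · intro x hx
    simp only [mem_filter, mem_univ, true_and] at hx ⊢
    exact ⟨hx.1.trans h, hx.2.trans hst⟩

theorem colRank_inj {col n : T → ℕ} (hn : ∀ s t, col s = col t → n s = n t → s = t) {s t : T}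
    (h : col s = col t) (hr : colRank col n s = colRank col n t) : s = t := by
  rcases lt_trichotomy (n s) (n t) with h1 | h1 | h1
  · exact absurd hr (colRank_lt h h1).ne
  · exact hn s t h h1
  · exact absurd hr (colRank_lt h.symm h1).ne'

theorem colRank_lt_card (col n : T → ℕ) (t : T) :
    colRank col n t < (univ.filter fun s => col s = col t).card := by
  unfold colRank
  apply card_lt_card
  rw [Finset.ssubset_iff_of_subset]
  · exact ⟨t, by simp, by simp⟩
  · intro x hx
    simp only [mem_filter, mem_univ, true_and] at hx ⊢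
    exact hx.1

/-- the ranks of a column: every value below the height occurs -/
theorem exists_colRank {col n : T → ℕ} (hn : ∀ s t, col s = col t → n s = n t → s = t) (t : T)
    {a : ℕ} (ha : a < (univ.filter fun s => col s = col t).card) :
    ∃ s, col s = col t ∧ colRank col n s = a := by
  classical
  have h1 : (univ.filter fun s => col s = col t).image (colRank col n) =
      range (univ.filter fun s => col s = col t).card := by
    apply eq_of_subset_of_card_le
    · intro x hx
      obtain ⟨s, hs, rfl⟩ := mem_image.mp hx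
      simp only [mem_filter, mem_univ, true_and] at hs
      rw [mem_range, ← hs]
      exact colRank_lt_card col n s
    · rw [card_range, card_image_of_injOn]
      intro x hx y hy hxy
      simp only [coe_filter, mem_univ, true_and, Set.mem_ofPred_eq] at hx hy
      exact colRank_inj hn (hx.trans hy.symm) hxy
  have h2 : a ∈ (univ.filter fun s => col s = col t).image (colRank col n) := by
    rw [h1, mem_range]; exact ha
  obtain ⟨s, hs, hsa⟩ := mem_image.mp h2
  simp only [mem_filter, mem_univ, true_and] at hs
  exact ⟨s, hs, hsa⟩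

/-- The word `colRank` is rigid: rearranging it inside the label classes never gives another word
that is injective and bounded on the columns. -/
theorem colRank_rigid {col n : T → ℕ} (hn : ∀ s t, col s = col t → n s = n t → s = t)
    (s : Perm T) (hs : ∀ t, n (s t) = n t)
    (hinj : ∀ a b, col a = col b → colRank col n (s a) = colRank col n (s b) → a = b)
    (hbd : ∀ t, colRank col n (s t) < (univ.filter fun x => col x = col t).card) (t : T) :
    colRank col n (s t) = colRank col n t := by
  classical
  -- descending induction on the label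
  obtain ⟨N, hN⟩ : ∃ N, ∀ x, n x ≤ N := by
    refine ⟨∑ x, n x, fun x => ?_⟩
    exact single_le_sum (f := n) (fun _ _ => Nat.zero_le _) (mem_univ x)
  have main : ∀ m, ∀ x, N - m ≤ n x → colRank col n (s x) = colRank col n x := by
    intro m
    induction m with
    | zero =>
      intro x hx
      have hx' : n x = N := le_antisymm (hN x) (by simpa using hx)
      -- all letters with label N
      have hle : ∀ y ∈ univ.filter (fun y => n y = N),
          colRank col n (s y) ≤ colRank col n y := by
        intro y hy
        simp only [mem_filter, mem_univ, true_and] at hy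
        have h1 := hbd y
        have h2 : (univ.filter fun z => col z = col y).card = colRank col n y + 1 := by
          unfold colRank
          have h3 : (univ.filter fun z => col z = col y) =
              insert y (univ.filter fun z => col z = col y ∧ n z < n y) := by
            ext z
            simp only [mem_filter, mem_univ, true_and, mem_insert]
            constructor
            · intro hz
              by_cases hzy : z = y
              · exact Or.inl hzy
              · right
                refine ⟨hz, lt_of_le_of_ne (by rw [hy]; exact hN z) ?_⟩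
                intro hnz
                exact hzy (hn z y hz hnz)
            · rintro (rfl | ⟨hz, -⟩)
              · rfl
              · exact hz
          rw [h3, card_insert_of_notMem (by simp)]
        omega
      have hsum : ∑ y ∈ univ.filter (fun y => n y = N), colRank col n (s y) =
          ∑ y ∈ univ.filter (fun y => n y = N), colRank col n y := by
        refine sum_bij (fun y _ => s y) ?_ (fun a _ b _ h => s.injective h) ?_ (fun _ _ => rfl)
        · intro y hy
          simp only [mem_filter, mem_univ, true_and] at hy ⊢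
          rw [hs, hy]
        · intro y hy
          simp only [mem_filter, mem_univ, true_and] at hy
          refine ⟨s.symm y, ?_, by simp⟩
          simp only [mem_filter, mem_univ, true_and]
          rw [← hs, apply_symm_apply, hy]
      exact (sum_eq_sum_iff_of_le hle).mp hsum x (by simp [hx'])
    | succ m ih =>
      intro x hx
      by_cases hxm : N - m ≤ n x
      · exact ih x hxm
      push Not at hxm
      have hx' : n x = N - (m + 1) := by omega
      have hle : ∀ y ∈ univ.filter (fun y => n y = n x),
          colRank col n (s y) ≤ colRank col n y := by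
        intro y hy
        simp only [mem_filter, mem_univ, true_and] at hy
        by_contra hcon
        push Not at hcon
        -- the letter of the column of `y` with rank `colRank (s y)` has a bigger label
        obtain ⟨z, hz1, hz2⟩ := exists_colRank hn y (hbd y)
        have hlab : n y < n z := by
          by_contra h
          push Not at h
          rcases h.lt_or_eq with h | h
          · have := colRank_lt hz1 h
            omega
          · have := hn z y hz1 h
            rw [this] at hz2
            omega
        have h3 := ih z (by omega)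
        have h4 := hinj z y hz1 (by rw [h3, hz2])
        rw [h4] at hlab
        exact lt_irrefl _ hlab
      have hsum : ∑ y ∈ univ.filter (fun y => n y = n x), colRank col n (s y) =
          ∑ y ∈ univ.filter (fun y => n y = n x), colRank col n y := by
        refine sum_bij (fun y _ => s y) ?_ (fun a _ b _ h => s.injective h) ?_ (fun _ _ => rfl)
        · intro y hy
          simp only [mem_filter, mem_univ, true_and] at hy ⊢
          rw [hs, hy]
        · intro y hy
          simp only [mem_filter, mem_univ, true_and] at hy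
          refine ⟨s.symm y, ?_, by simp⟩
          simp only [mem_filter, mem_univ, true_and]
          rw [← hs, apply_symm_apply, hy]
      exact (sum_eq_sum_iff_of_le hle).mp hsum x (by simp)
  exact main N t (by simp)

end comb

section rep

variable {T : Type*} [Fintype T] [DecidableEq T]
variable {U : Type*} [AddCommGroup U] [Module ℂ U]

/-- symmetrizer of a labelling (any label type) -/
noncomputable def labSum {ι : Type*} [DecidableEq ι] (ρ : Representation ℂ (Perm T) U)
    (n : T → ι) (v : U) : U :=
  ∑ g ∈ univ.filter (fun g : Perm T => ∀ t, n (g t) = n t), ρ g v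

theorem labSum_mul_left {ι : Type*} [DecidableEq ι] (ρ : Representation ℂ (Perm T) U)
    (n : T → ι) (v : U) (r : Perm T) (hr : ∀ t, n (r t) = n t) :
    ρ r (labSum ρ n v) = labSum ρ n v := by
  unfold labSum
  rw [map_sum]
  refine Finset.sum_bij' (fun σ _ => r * σ) (fun σ _ => r⁻¹ * σ) ?_ ?_ ?_ ?_ ?_
  · intro σ hσ
    simp only [Finset.mem_filter, Finset.mem_univ, true_and] at hσ ⊢
    intro t
    rw [Perm.mul_apply, hr, hσ]
  · intro σ hσ
    simp only [Finset.mem_filter, Finset.mem_univ, true_and] at hσ ⊢
    intro t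
    rw [Perm.mul_apply, ← hr, ← Perm.mul_apply, mul_inv_cancel, Perm.one_apply, hσ]
  · intro σ _; simp
  · intro σ _; simp
  · intro σ _
    rw [rho_mul]

theorem labSum_mul_right {ι : Type*} [DecidableEq ι] (ρ : Representation ℂ (Perm T) U)
    (n : T → ι) (v : U) (r : Perm T) (hr : ∀ t, n (r t) = n t) :
    labSum ρ n (ρ r v) = labSum ρ n v := by
  unfold labSum
  refine Finset.sum_bij' (fun σ _ => σ * r) (fun σ _ => σ * r⁻¹) ?_ ?_ ?_ ?_ ?_
  · intro σ hσ
    simp only [Finset.mem_filter, Finset.mem_univ, true_and] at hσ ⊢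
    intro t
    rw [Perm.mul_apply, hσ, hr]
  · intro σ hσ
    simp only [Finset.mem_filter, Finset.mem_univ, true_and] at hσ ⊢
    intro t
    have h1 : n (r⁻¹ t) = n t := by
      rw [← hr (r⁻¹ t), ← Perm.mul_apply, mul_inv_cancel, Perm.one_apply]
    rw [Perm.mul_apply, hσ, h1]
  · intro σ _; simp
  · intro σ _; simp
  · intro σ _
    rw [rho_mul]

/-- swapping two letters of the same column which are sent to the same row kills -/
theorem labSum_alt_eq_zero {ι : Type*} [DecidableEq ι] (ρ : Representation ℂ (Perm T) U)
    (row : T → ι) (col : T → ℕ) (v : U) (hv : SwapAlt ρ col v) (g : Perm T) {a b : T}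
    (hab : a ≠ b) (hc : col a = col b) (hr : row (g a) = row (g b)) :
    labSum ρ row (ρ g v) = 0 := by
  have h1 : labSum ρ row (ρ g v) = - labSum ρ row (ρ g v) := by
    have h2 : ρ g v = - ρ g (ρ (swap a b) v) := by
      rw [hv a b hab hc, map_neg, neg_neg]
    have h3 : ∀ x, labSum ρ row (-x) = - labSum ρ row x := by
      intro x
      unfold labSum
      simp
    conv_lhs => rw [h2]
    rw [rho_mul, swap_conj, ← rho_mul, h3, labSum_mul_right]
    intro t
    by_cases h1 : t = g a
    · rw [h1, swap_apply_left, hr]
    · by_cases h2 : t = g b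
      · rw [h2, swap_apply_right, hr]
      · rw [swap_apply_of_ne_of_ne h1 h2]
  have h2 : (2 : ℂ) • labSum ρ row (ρ g v) = 0 := by
    rw [two_smul]
    nth_rewrite 2 [h1]
    rw [add_neg_cancel]
  exact (smul_eq_zero.mp h2).resolve_left two_ne_zero

/-- **Lemma V** (labels in `ℕ`). -/
theorem labSum_ne_zero_nat (ρ : Representation ℂ (Perm T) U) (row col : T → ℕ)
    (hinj : ∀ s t, row s = row t → col s = col t → s = t)
    (htop : ∀ t a, a < row t → ∃ s, row s = a ∧ col s = col t)
    (n : T → ℕ) (hn : ∀ s t, col s = col t → n s = n t → s = t)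
    (v : U) (hv : SwapAlt ρ col v) (hRv : labSum ρ row v ≠ 0) : labSum ρ n v ≠ 0 := by
  classical
  -- heights
  have hht : ∀ t, ∀ a, a < (univ.filter fun s => col s = col t).card →
      ∃ s, row s = a ∧ col s = col t := by
    intro t a ha
    set C := univ.filter fun s => col s = col t with hC
    -- rows of the column form a lower set of cardinality `C.card`
    by_contra hcon
    push Not at hcon
    have hsub : C.image row ⊆ range a := by
      intro x hx
      obtain ⟨s, hs, rfl⟩ := mem_image.mp hx
      rw [mem_range]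
      by_contra hge
      push Not at hge
      have hs' : col s = col t := by simpa [hC] using hs
      rcases hge.eq_or_lt with h | h
      · exact hcon s h.symm hs'
      · obtain ⟨s', h1, h2⟩ := htop s a h
        exact hcon s' h1 (h2.trans hs')
    have h1 := card_le_card hsub
    rw [card_range, card_image_of_injOn] at h1
    · omega
    · intro x hx y hy hxy
      have hx' : col x = col t := by simpa [hC] using hx
      have hy' : col y = col t := by simpa [hC] using hy
      exact hinj x y hxy (hx'.trans hy'.symm)
  -- the column permutation `k₀` with `row ∘ k₀ = colRank`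
  have hex : ∀ t, ∃ s, row s = colRank col n t ∧ col s = col t := fun t =>
    hht t _ (colRank_lt_card col n t)
  choose k hk1 hk2 using hex
  have hkinj : Injective k := by
    intro x y hxy
    have h1 := hk1 x
    have h2 := hk2 x
    rw [hxy, hk1] at h1
    rw [hxy, hk2] at h2
    exact colRank_inj hn h2.symm h1.symm
  set k₀ : Perm T := Equiv.ofBijective k (Finite.injective_iff_bijective.1 hkinj) with hk₀
  have hk₀r : ∀ t, row (k₀ t) = colRank col n t := hk1
  have hk₀c : ∀ t, col (k₀ t) = col t := hk2
  have hrow_bd : ∀ t, row t < (univ.filter fun s => col s = col t).card := by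
    intro t
    -- rows `0..row t` all occur
    have hsub : range (row t + 1) ⊆ (univ.filter fun s => col s = col t).image row := by
      intro a ha
      rw [mem_range, Nat.lt_succ_iff] at ha
      rcases ha.eq_or_lt with h | h
      · exact mem_image.mpr ⟨t, by simp, h.symm⟩
      · obtain ⟨s, h1, h2⟩ := htop t a h
        exact mem_image.mpr ⟨s, by simp [h2], h1⟩
    have := (card_le_card hsub).trans card_image_le
    rw [card_range] at this
    omega
  intro h0
  apply hRv
  -- evaluate `labSum row (k₀ (labSum n v))`
  have hterm : ∀ s ∈ univ.filter (fun g : Perm T => ∀ t, n (g t) = n t),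
      (labSum ρ row (ρ (k₀ * s) v) =
        if (∀ t, colRank col n (s t) = colRank col n t) then
          ((((Perm.sign k₀ : ℤˣ) : ℤ) : ℂ)) • labSum ρ row v else 0) := by
    intro s hs
    simp only [mem_filter, mem_univ, true_and] at hs
    by_cases hinj' : ∀ a b, col a = col b → colRank col n (s a) = colRank col n (s b) → a = b
    · have hbd : ∀ t, colRank col n (s t) < (univ.filter fun x => col x = col t).card := by
        -- James: the word `colRank ∘ s` has the content of `row` and is injective on columns
        obtain ⟨κ, hκc, hκr⟩ := james row col (fun t => colRank col n (s t)) hinj htop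
          (by
            intro a
            have h1 : (univ.filter fun t => colRank col n (s t) = a).card =
                (univ.filter fun t => row t = a).card := by
              refine card_bij (fun t _ => k₀ (s t)) ?_ (fun x _ y _ h =>
                s.injective (k₀.injective h)) ?_
              · intro t ht
                simp only [mem_filter, mem_univ, true_and] at ht ⊢
                rw [hk₀r, ht]
              · intro t ht
                simp only [mem_filter, mem_univ, true_and] at ht
                refine ⟨s.symm (k₀.symm t), ?_, by simp⟩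
                simp only [mem_filter, mem_univ, true_and]
                rw [apply_symm_apply, ← hk₀r, apply_symm_apply, ht]
            exact h1)
          (fun a b h1 h2 => hinj' a b h1 h2)
        intro t
        have h1 := hrow_bd (κ t)
        rw [hκr t, hκc t] at h1
        exact h1
      have hfix := colRank_rigid hn s hs hinj' hbd
      rw [if_pos hfix]
      have hr : ∀ t, row ((k₀ * s * k₀⁻¹) t) = row t := by
        intro t
        rw [Perm.mul_apply, Perm.mul_apply, hk₀r, hfix, ← hk₀r, ← Perm.mul_apply, mul_inv_cancel,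
          Perm.one_apply]
      have h1 : k₀ * s = (k₀ * s * k₀⁻¹) * k₀ := by group
      rw [h1, ← rho_mul, labSum_mul_right ρ row _ _ hr, hv.perm k₀ hk₀c]
      unfold labSum
      simp [Finset.smul_sum]
    · push Not at hinj'
      obtain ⟨a, b, hc, hr, hab⟩ := hinj'
      rw [if_neg]
      · refine labSum_alt_eq_zero ρ row col v hv (k₀ * s) hab hc ?_
        rw [Perm.mul_apply, Perm.mul_apply, hk₀r, hk₀r, hr]
      · intro hfix
        rw [hfix, hfix] at hr
        exact hab (colRank_inj hn hc hr)
  have h1 : labSum ρ row (ρ k₀ (labSum ρ n v)) =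
      ∑ s ∈ univ.filter (fun g : Perm T => ∀ t, n (g t) = n t), labSum ρ row (ρ (k₀ * s) v) := by
    have hlin : ∀ (S : Finset (Perm T)) (f : Perm T → U),
        labSum ρ row (∑ s ∈ S, f s) = ∑ s ∈ S, labSum ρ row (f s) := by
      intro S f
      unfold labSum
      simp only [map_sum]
      exact sum_comm
    conv_lhs => rw [show labSum ρ n v = ∑ s ∈ univ.filter (fun g : Perm T => ∀ t, n (g t) = n t),
      ρ s v from rfl]
    rw [map_sum, hlin]
    refine sum_congr rfl fun s _ => ?_
    rw [rho_mul]
  rw [h0, map_zero, sum_congr rfl hterm, ← sum_filter, sum_const] at h1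
  have h2 : labSum ρ row (0 : U) = 0 := by unfold labSum; simp
  rw [h2] at h1
  have hcard : ((univ.filter (fun g : Perm T => ∀ t, n (g t) = n t)).filter
      (fun s => ∀ t, colRank col n (s t) = colRank col n t)).card ≠ 0 := by
    rw [card_ne_zero]
    exact ⟨1, by simp⟩
  rw [← Nat.cast_smul_eq_nsmul ℂ, smul_smul] at h1
  have hne : (((univ.filter (fun g : Perm T => ∀ t, n (g t) = n t)).filter
      (fun s => ∀ t, colRank col n (s t) = colRank col n t)).card : ℂ) *
      ((((Perm.sign k₀ : ℤˣ) : ℤ) : ℂ)) ≠ 0 := by
    apply mul_ne_zero (Nat.cast_ne_zero.mpr hcard)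
    rcases Int.units_eq_one_or (Perm.sign k₀) with h | h <;> simp [h]
  exact (smul_eq_zero.mp h1.symm).resolve_left hne

/-- **Lemma V** (any label type). -/
theorem labSum_ne_zero {ι : Type*} [DecidableEq ι] (ρ : Representation ℂ (Perm T) U)
    (row col : T → ℕ) (hinj : ∀ s t, row s = row t → col s = col t → s = t)
    (htop : ∀ t a, a < row t → ∃ s, row s = a ∧ col s = col t)
    (n : T → ι) (hn : ∀ s t, col s = col t → n s = n t → s = t)
    (v : U) (hv : SwapAlt ρ col v) (hRv : labSum ρ row v ≠ 0) : labSum ρ n v ≠ 0 := by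
  classical
  set S := univ.image n with hS
  have hmem : ∀ t, n t ∈ S := fun t => mem_image_of_mem n (mem_univ t)
  set f : T → ℕ := fun t => (S.equivFin ⟨n t, hmem t⟩ : ℕ) with hf
  have hfn : ∀ s t, f s = f t ↔ n s = n t := by
    intro s t
    simp only [hf]
    rw [Fin.val_inj, S.equivFin.injective.eq_iff, Subtype.mk.injEq]
  have h1 := labSum_ne_zero_nat ρ row col hinj htop f
    (fun s t hc hst => hn s t hc ((hfn s t).mp hst)) v hv hRv
  have h2 : labSum ρ f v = labSum ρ n v := by
    unfold labSum
    refine sum_congr ?_ fun _ _ => rfl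
    ext g
    simp only [mem_filter, mem_univ, true_and]
    exact forall_congr' fun t => hfn _ _
  rwa [h2] at h1

/-- **Lemma V** in the output form of the shape lemma. -/
theorem labSum_of_shape {ι : Type*} [DecidableEq ι] (ρ : Representation ℂ (Perm T) U)
    {μ : YoungDiagram} (e : T ≃ μ.cells) (w : U) (hw : SwapFixed ρ (fun t => (e t).1.1) w)
    (hA : colAsym ρ (fun t => (e t).1.2) w ≠ 0)
    (n : T → ι) (hn : ∀ s t, (e s).1.2 = (e t).1.2 → n s = n t → s = t) :
    labSum ρ n (colAsym ρ (fun t => (e t).1.2) w) ≠ 0 := by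
  refine labSum_ne_zero ρ (fun t => (e t).1.1) (fun t => (e t).1.2) ?_ ?_ n hn _
    (colAsym_alt ρ _ w) ?_
  · intro s t h1 h2
    exact e.injective (Subtype.ext (Prod.ext h1 h2))
  · intro t a ha
    have hmem : (a, (e t).1.2) ∈ μ.cells := μ.up_left_mem (le_of_lt ha) le_rfl (e t).2
    exact ⟨e.symm ⟨(a, (e t).1.2), hmem⟩, by simp, by simp⟩
  · exact rowSum_colAsym_ne_zero ρ (fun t => (e t).1.1) _ w (fun g hg => hw.perm g hg) hA

end rep

end Crest.Agent.R195
end

-- ▼ part R195/Matrix
section

/-! Row 195 (T1): splitting a shape into group tableaux with prescribed column heights. -/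

set_option autoImplicit false
set_option linter.unusedSectionVars false
set_option linter.unusedDecidableInType false

namespace Crest.Agent.R195

open Finset Function Equiv

section split

variable {T : Type*} [Fintype T] [DecidableEq T]
variable {U : Type*} [AddCommGroup U] [Module ℂ U]

/-- `e_n v ≠ 0` for `v` alternating under `c'` implies `f_{c'} e_n v ≠ 0`. -/
theorem colAsym_labSum_ne_zero {ι : Type*} [DecidableEq ι] (ρ : Representation ℂ (Perm T) U)
    (n : T → ι) (c' : T → ℕ) (v : U) (hv : SwapAlt ρ c' v) (h : labSum ρ n v ≠ 0) :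
    colAsym ρ c' (labSum ρ n v) ≠ 0 := by
  classical
  set S := univ.image n with hS
  have hmem : ∀ t, n t ∈ S := fun t => mem_image_of_mem n (mem_univ t)
  set f : T → ℕ := fun t => (S.equivFin ⟨n t, hmem t⟩ : ℕ) with hf
  have hfn : ∀ s t, f s = f t ↔ n s = n t := by
    intro s t
    simp only [hf]
    rw [Fin.val_inj, S.equivFin.injective.eq_iff, Subtype.mk.injEq]
  -- labSum = colAsym of the twist
  have h1 : colAsym (signTwist ρ) f v = labSum ρ n v := by
    rw [colAsym_apply]
    unfold labSum
    have hset : (univ.filter fun σ : Perm T => ∀ t, f (σ t) = f t) =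
        univ.filter fun g : Perm T => ∀ t, n (g t) = n t := by
      ext g
      simp only [mem_filter, mem_univ, true_and]
      exact forall_congr' fun t => hfn _ _
    rw [hset]
    refine sum_congr rfl fun σ _ => ?_
    rw [signTwist_apply, smul_smul]
    rcases Int.units_eq_one_or (Perm.sign σ) with h | h <;> simp [h]
  have h2 := rowSum_colAsym_ne_zero (signTwist ρ) c' f v
    (fun g hg => hv.signTwist.perm g hg) (by rw [h1]; exact h)
  rw [h1] at h2
  rw [colAsym_apply]
  exact h2

/-- **Split lemma**, general form. -/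
theorem split_general {ι : Type*} [DecidableEq ι] (ρ : Representation ℂ (Perm T) U)
    {μ : YoungDiagram} (e : T ≃ μ.cells) (w : U) (hw : SwapFixed ρ (fun t => (e t).1.1) w)
    (hA : colAsym ρ (fun t => (e t).1.2) w ≠ 0)
    (n : T → ι) (hn : ∀ s t, (e s).1.2 = (e t).1.2 → n s = n t → s = t)
    (c' : T → ℕ) (hc' : ∀ s t, c' s = c' t → (e s).1.2 = (e t).1.2) :
    ∃ x : U, SwapFixed ρ n x ∧ colAsym ρ c' x ≠ 0 := by
  refine ⟨labSum ρ n (colAsym ρ (fun t => (e t).1.2) w), ?_, ?_⟩
  · intro a b hab
    refine labSum_mul_left ρ n _ _ ?_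
    intro t
    by_cases h1 : t = a
    · rw [h1, swap_apply_left, hab]
    · by_cases h2 : t = b
      · rw [h2, swap_apply_right, hab]
      · rw [swap_apply_of_ne_of_ne h1 h2]
  · apply colAsym_labSum_ne_zero
    · intro a b hab h
      exact colAsym_alt ρ _ w a b hab (hc' a b h)
    · exact labSum_of_shape ρ e w hw hA n hn

end split

section comb

variable {T : Type*} [Fintype T] [DecidableEq T]

/-- from a matrix of heights to a colouring by groups -/
theorem exists_groups {ι : Type*} [Fintype ι] [DecidableEq ι] (col : T → ℕ) (h : ι → ℕ → ℕ)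
    (hh : ∀ j, ∑ g, h g j = (univ.filter fun t => col t = j).card) :
    ∃ γ : T → ι, ∀ g j, (univ.filter fun t => γ t = g ∧ col t = j).card = h g j := by
  classical
  have h1 : ∀ j, ∃ f : {t // col t = j} → ι, ∀ a, (univ.filter fun t => f t = a).card = h a j := by
    intro j
    apply exists_coloring_of_sizes
    rw [hh, Fintype.card_subtype]
  choose f hf using h1
  refine ⟨fun t => f (col t) ⟨t, rfl⟩, fun g j => ?_⟩
  rw [← hf j g]
  refine card_bij' (fun t ht => ⟨t, ?_⟩) (fun t _ => t.1) ?_ ?_ ?_ ?_
  · simp only [mem_filter, mem_univ, true_and] at ht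
    exact ht.2
  · intro t ht
    simp only [mem_filter, mem_univ, true_and] at ht ⊢
    obtain ⟨h1, h2⟩ := ht
    subst h2
    exact h1
  · rintro ⟨t, ht⟩ ht'
    simp only [mem_filter, mem_univ, true_and] at ht' ⊢
    refine ⟨?_, ht⟩
    subst ht
    exact ht'
  · intro t ht; rfl
  · intro t ht; rfl

/-- rank of a letter among the letters of its group in its column -/
def grpRank {ι : Type*} [DecidableEq ι] (γ : T → ι) (row col : T → ℕ) (t : T) : ℕ :=
  (univ.filter fun s => γ s = γ t ∧ col s = col t ∧ row s < row t).card

variable {ι : Type*} [DecidableEq ι] {γ : T → ι} {row col : T → ℕ}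

theorem grpRank_lt {s t : T} (hγ : γ s = γ t) (hc : col s = col t) (hr : row s < row t) :
    grpRank γ row col s < grpRank γ row col t := by
  unfold grpRank
  apply card_lt_card
  rw [Finset.ssubset_iff_of_subset]
  · exact ⟨s, by simp [hγ, hc, hr], by simp⟩
  · intro x hx
    simp only [mem_filter, mem_univ, true_and] at hx ⊢
    exact ⟨hx.1.trans hγ, hx.2.1.trans hc, hx.2.2.trans hr⟩

theorem grpRank_inj (hinj : ∀ s t, row s = row t → col s = col t → s = t) {s t : T}
    (hγ : γ s = γ t) (hr : grpRank γ row col s = grpRank γ row col t) (hc : col s = col t) :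
    s = t := by
  rcases lt_trichotomy (row s) (row t) with h | h | h
  · exact absurd hr (grpRank_lt hγ hc h).ne
  · exact hinj s t h hc
  · exact absurd hr (grpRank_lt hγ.symm hc.symm h).ne'

theorem grpRank_lt_card (t : T) :
    grpRank γ row col t < (univ.filter fun s => γ s = γ t ∧ col s = col t).card := by
  unfold grpRank
  apply card_lt_card
  rw [Finset.ssubset_iff_of_subset]
  · exact ⟨t, by simp, by simp⟩
  · intro x hx
    simp only [mem_filter, mem_univ, true_and] at hx ⊢
    exact ⟨hx.1, hx.2.1⟩

theorem exists_grpRank (hinj : ∀ s t, row s = row t → col s = col t → s = t) (t : T)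
    {a : ℕ} (ha : a < (univ.filter fun s => γ s = γ t ∧ col s = col t).card) :
    ∃ s, γ s = γ t ∧ grpRank γ row col s = a ∧ col s = col t := by
  classical
  have h1 : (univ.filter fun s => γ s = γ t ∧ col s = col t).image (grpRank γ row col) =
      range (univ.filter fun s => γ s = γ t ∧ col s = col t).card := by
    apply eq_of_subset_of_card_le
    · intro x hx
      obtain ⟨s, hs, rfl⟩ := mem_image.mp hx
      simp only [mem_filter, mem_univ, true_and] at hs
      rw [mem_range]
      refine lt_of_lt_of_le (grpRank_lt_card s) (le_of_eq ?_)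
      rw [hs.1, hs.2]
    · rw [card_range, card_image_of_injOn]
      intro x hx y hy hxy
      simp only [coe_filter, mem_univ, true_and, Set.mem_ofPred_eq] at hx hy
      exact grpRank_inj hinj (hx.1.trans hy.1.symm) hxy (hx.2.trans hy.2.symm)
  have h2 : a ∈ (univ.filter fun s => γ s = γ t ∧ col s = col t).image (grpRank γ row col) := by
    rw [h1, mem_range]; exact ha
  obtain ⟨s, hs, hsa⟩ := mem_image.mp h2
  simp only [mem_filter, mem_univ, true_and] at hs
  exact ⟨s, hs.1, hsa, hs.2⟩

end comb

section final

variable {T : Type*} [Fintype T] [DecidableEq T]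
variable {U : Type*} [AddCommGroup U] [Module ℂ U]

theorem card_col_eq {μ : YoungDiagram} (e : T ≃ μ.cells) (j : ℕ) :
    (univ.filter fun t => (e t).1.2 = j).card = μ.colLen j := by
  classical
  rw [← card_fiber_col e j]

/-- **Split lemma** for a matrix of heights: the letters are split into groups `γ`; inside the
group `g` the letters form a tableau (`rk` = row, `col` = column) whose column heights are
`h g j`; there is a vector fixed by the rows of all the group tableaux and not killed by the
column antisymmetrizer of all the group tableaux. -/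
theorem split_matrix (ρ : Representation ℂ (Perm T) U)
    {μ : YoungDiagram} (e : T ≃ μ.cells) (w : U) (hw : SwapFixed ρ (fun t => (e t).1.1) w)
    (hA : colAsym ρ (fun t => (e t).1.2) w ≠ 0)
    (N : ℕ) (h : Fin N → ℕ → ℕ) (hh : ∀ j, ∑ g, h g j = μ.colLen j) :
    ∃ (γ rk col : T → ℕ) (x : U), (∀ t, γ t < N) ∧
      (∀ (g : Fin N) (j : ℕ), (univ.filter fun t => γ t = g ∧ col t = j).card = h g j) ∧
      (∀ s t, γ s = γ t → rk s = rk t → col s = col t → s = t) ∧
      (∀ t a, a < rk t → ∃ s, γ s = γ t ∧ rk s = a ∧ col s = col t) ∧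
      (∀ (g : Fin N) t, γ t = g → rk t < h g (col t)) ∧
      SwapFixed ρ (fun t => (γ t, rk t)) x ∧
      colAsym ρ (fun t => Nat.pair (γ t) (col t)) x ≠ 0 := by
  classical
  set col : T → ℕ := fun t => (e t).1.2 with hcol
  set row : T → ℕ := fun t => (e t).1.1 with hrow
  have hinj : ∀ s t, row s = row t → col s = col t → s = t := fun s t h1 h2 =>
    e.injective (Subtype.ext (Prod.ext h1 h2))
  obtain ⟨γ, hγ⟩ := exists_groups col h (fun j => by rw [hh, card_col_eq e j])
  have hγc : ∀ t, (univ.filter fun s => γ s = γ t ∧ col s = col t).card = h (γ t) (col t) :=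
    fun t => hγ _ _
  obtain ⟨x, hx1, hx2⟩ := split_general ρ e w hw hA
    (fun t => ((γ t : ℕ), grpRank γ row col t))
    (fun s t h1 h2 => grpRank_inj hinj (Fin.ext (congrArg Prod.fst h2)) (congrArg Prod.snd h2) h1)
    (fun t => Nat.pair (γ t) (col t))
    (fun s t h1 => (Nat.pair_eq_pair.mp h1).2)
  refine ⟨fun t => γ t, grpRank γ row col, col, x, fun t => (γ t).2, ?_, ?_, ?_, ?_, hx1, hx2⟩
  · intro g j
    rw [← hγ g j]
    congr 1
    ext t
    simp only [mem_filter, mem_univ, true_and, Fin.val_inj]
  · intro s t h1 h2 h3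
    exact grpRank_inj hinj (Fin.ext h1) h2 h3
  · intro t a ha
    obtain ⟨s, h1, h2, h3⟩ := exists_grpRank (γ := γ) hinj t (a := a)
      (ha.trans (grpRank_lt_card t))
    exact ⟨s, congrArg Fin.val h1, h2, h3⟩
  · intro g t hg
    have hg' : γ t = g := Fin.ext hg
    rw [← hg', ← hγc t]
    exact grpRank_lt_card t

end final

end Crest.Agent.R195
end

-- ▼ part R195/MF

/-! Row 195 (T1): from a decomposition of the column heights (`Decomp`) to the block data of the
sequential engine. -/

set_option autoImplicit false
set_option linter.unusedSectionVars false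
set_option linter.unusedDecidableInType false

namespace Crest.Agent.R195

open Finset Function Equiv

section blocks

variable {T : Type*} [Fintype T] [DecidableEq T]

/-- the block condition for a piece on the letters of the group `i` -/
def PcBlock (γ rk col : T → ℕ) (i : ℕ) : Pc → Prop
  | .pair c => Fintype.card {t // γ t = i} = 2 * c - 1 ∧ ∀ t, γ t = i → rk t < 4
  | .rect c k => Fintype.card {t // γ t = i} = c * k ∧ ∀ t, γ t = i → rk t = 0
  | .dup c => Fintype.card {t // γ t = i} = 2 * c ∧ (∀ t, γ t = i → rk t < 4) ∧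
      ∃ π : {t // γ t = i} → {t // γ t = i}, (∀ t, π (π t) = t) ∧ (∀ t, π t ≠ t) ∧
        (∀ t, rk (π t) = rk t) ∧
        ∀ s t : {t // γ t = i}, col s = col t → col (π s) = col (π t)
  | .gap c => Fintype.card {t // γ t = i} = 2 * c - 2 ∧ (∀ t, γ t = i → rk t < 4) ∧
      (∃ π : {t // γ t = i} → {t // γ t = i}, (∀ t, π (π t) = t) ∧ (∀ t, π t ≠ t) ∧
        (∀ t, rk (π t) = rk t) ∧
        ∀ s t : {t // γ t = i}, col s = col t → col (π s) = col (π t)) ∧
      ∃ a0 a1 : {t // γ t = i}, rk a0 = 0 ∧ rk a1 = 1 ∧ col a1 = col a0 ∧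
        ∀ t : {t // γ t = i}, col t = col a0 → t = a0 ∨ t = a1

/-- ranks fill the columns -/
theorem exists_rank {γ rk col : T → ℕ} (h : ℕ → ℕ) (i : ℕ)
    (hc : ∀ j, (univ.filter fun t => γ t = i ∧ col t = j).card = h j)
    (hinj : ∀ s t, γ s = γ t → rk s = rk t → col s = col t → s = t)
    (hlt : ∀ t, γ t = i → rk t < h (col t)) (j a : ℕ) (ha : a < h j) :
    ∃ t, γ t = i ∧ rk t = a ∧ col t = j := by
  classical
  have h1 : (univ.filter fun t => γ t = i ∧ col t = j).image rk = range (h j) := by
    apply eq_of_subset_of_card_le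
    · intro x hx
      obtain ⟨s, hs, rfl⟩ := mem_image.mp hx
      simp only [mem_filter, mem_univ, true_and] at hs
      rw [mem_range, ← hs.2]
      exact hlt s hs.1
    · rw [card_range, card_image_of_injOn, hc]
      intro x hx y hy hxy
      simp only [coe_filter, mem_univ, true_and, Set.mem_ofPred_eq] at hx hy
      exact hinj x y (hx.1.trans hy.1.symm) hxy (hx.2.trans hy.2.symm)
  have h2 : a ∈ (univ.filter fun t => γ t = i ∧ col t = j).image rk := by
    rw [h1, mem_range]; exact ha
  obtain ⟨s, hs, hsa⟩ := mem_image.mp h2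
  simp only [mem_filter, mem_univ, true_and] at hs
  exact ⟨s, hs.1, hsa, hs.2⟩

/-- the matching of the columns gives a matching of the letters -/
theorem exists_letter_matching {γ rk col : T → ℕ} (h : ℕ → ℕ) (i : ℕ)
    (hc : ∀ j, (univ.filter fun t => γ t = i ∧ col t = j).card = h j)
    (hinj : ∀ s t, γ s = γ t → rk s = rk t → col s = col t → s = t)
    (hlt : ∀ t, γ t = i → rk t < h (col t)) (σ : ℕ → ℕ) (hσ : ∀ j, h j ≠ 0 → σ (σ j) = j)
    (hσ0 : ∀ j, h j ≠ 0 → σ j ≠ j) (hσh : ∀ j, h j ≠ 0 → h (σ j) = h j) :
    ∃ π : {t // γ t = i} → {t // γ t = i}, (∀ t, π (π t) = t) ∧ (∀ t, π t ≠ t) ∧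
        (∀ t, rk (π t) = rk t) ∧
        ∀ s t : {t // γ t = i}, col s = col t → col (π s) = col (π t) := by
  classical
  have hne : ∀ t : {t // γ t = i}, h (col t) ≠ 0 := fun t => by
    have := hlt t t.2
    omega
  have hex : ∀ t : {t // γ t = i}, ∃ s, γ s = i ∧ rk s = rk t ∧ col s = σ (col t) := fun t =>
    exists_rank h i hc hinj hlt _ _ (by rw [hσh _ (hne t)]; exact hlt t t.2)
  choose p hp1 hp2 hp3 using hex
  have hpc : ∀ t, col (p t) = σ (col t) := hp3
  refine ⟨fun t => ⟨p t, hp1 t⟩, ?_, ?_, ?_, ?_⟩
  · intro t
    apply Subtype.ext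
    refine hinj _ _ ?_ ?_ ?_
    · simp only [hp1, t.2]
    · simp only [hp2]
    · rw [hpc]
      simp only [hpc]
      exact hσ _ (hne t)
  · intro t h1
    have h2 : col (p t) = col t := by
      have := congrArg (fun s : {t // γ t = i} => col s) h1
      exact this
    rw [hpc] at h2
    exact hσ0 _ (hne t) h2
  · intro t
    exact hp2 t
  · intro s t h1
    change col (p s) = col (p t)
    rw [hpc, hpc, h1]

/-- a column of height two -/
theorem exists_letters_two {γ rk col : T → ℕ} (h : ℕ → ℕ) (i : ℕ)
    (hc : ∀ j, (univ.filter fun t => γ t = i ∧ col t = j).card = h j)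
    (hinj : ∀ s t, γ s = γ t → rk s = rk t → col s = col t → s = t)
    (hlt : ∀ t, γ t = i → rk t < h (col t)) (j : ℕ) (hj : h j = 2) :
    ∃ a0 a1 : {t // γ t = i}, rk a0 = 0 ∧ rk a1 = 1 ∧ col a1 = col a0 ∧
        ∀ t : {t // γ t = i}, col t = col a0 → t = a0 ∨ t = a1 := by
  obtain ⟨a0, h1, h2, h3⟩ := exists_rank h i hc hinj hlt j 0 (by omega)
  obtain ⟨a1, h4, h5, h6⟩ := exists_rank h i hc hinj hlt j 1 (by omega)
  refine ⟨⟨a0, h1⟩, ⟨a1, h4⟩, h2, h5, h6.trans h3.symm, ?_⟩
  rintro ⟨t, ht⟩ hct
  simp only at hct
  have h7 := hlt t ht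
  rw [hct, h3, hj] at h7
  have h8 : rk t = 0 ∨ rk t = 1 := by omega
  rcases h8 with h8 | h8
  · left
    exact Subtype.ext (hinj t a0 (ht.trans h1.symm) (h8.trans h2.symm) hct)
  · right
    exact Subtype.ext (hinj t a1 (ht.trans h4.symm) (h8.trans h5.symm)
      (hct.trans (h3.trans h6.symm)))

variable {U : Type*} [AddCommGroup U] [Module ℂ U]

theorem card_group {γ col : T → ℕ} (h : ℕ → ℕ) (i M : ℕ)
    (hc : ∀ j, (univ.filter fun t => γ t = i ∧ col t = j).card = h j)
    (hM : ∀ j, M ≤ j → h j = 0) :
    Fintype.card {t // γ t = i} = ∑ j : Fin M, h j := by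
  classical
  rw [Fintype.card_subtype, Finset.sum_range (fun j => h j) |>.symm,
    card_eq_sum_card_fiberwise (f := col) (t := range M)]
  · refine sum_congr rfl fun j _ => ?_
    rw [← hc j]
    congr 1
    ext t
    simp only [mem_filter, mem_univ, true_and]
  · intro t ht
    simp only [coe_filter, mem_univ, true_and, Set.mem_ofPred_eq] at ht
    simp only [coe_range, Set.mem_Iio]
    by_contra hcon
    push Not at hcon
    have h1 := hM _ hcon
    rw [← hc, card_eq_zero] at h1
    have h2 : t ∈ (univ.filter fun s => γ s = i ∧ col s = col t) := by simp [ht]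
    rw [h1] at h2
    exact absurd h2 (notMem_empty _)

/-- **Block data from a decomposition of the column heights** (any number `M` of columns). -/
theorem blocks_of_decomp' (ρ : Representation ℂ (Perm T) U)
    {μ : YoungDiagram} (e : T ≃ μ.cells) (w : U) (hw : SwapFixed ρ (fun t => (e t).1.1) w)
    (hA : colAsym ρ (fun t => (e t).1.2) w ≠ 0) (L : List Pc) (M : ℕ)
    (hcol0 : ∀ j, M ≤ j → μ.colLen j = 0)
    (hL : Decomp L fun j : Fin M => μ.colLen j) :
    ∃ (γ rk col : T → ℕ) (x : U), (∀ t, γ t < L.length) ∧
      (∀ s t, γ s = γ t → rk s = rk t → col s = col t → s = t) ∧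
      (∀ t a, a < rk t → ∃ s, γ s = γ t ∧ rk s = a ∧ col s = col t) ∧
      (∀ (i : ℕ) (hi : i < L.length), PcBlock γ rk col i L[i]) ∧
      SwapFixed ρ (fun t => (γ t, rk t)) x ∧
      colAsym ρ (fun t => Nat.pair (γ t) (col t)) x ≠ 0 := by
  classical
  obtain ⟨xs, hxs, hsum⟩ := hL
  have hlen : L.length = xs.length := hxs.length_eq
  set h : Fin L.length → ℕ → ℕ := fun g j =>
    if hj : j < M then (xs[g.1]'(lt_of_lt_of_eq g.2 hlen)) ⟨j, hj⟩ else 0 with hh
  have hrow : ∀ (g : Fin L.length) (j : Fin M),
      h g j = (xs[g.1]'(lt_of_lt_of_eq g.2 hlen)) j := by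
    intro g j
    simp only [hh, j.2, dif_pos]
  have hzero : ∀ g j, M ≤ j → h g j = 0 := by
    intro g j hj
    simp only [hh, dif_neg (not_lt.mpr hj)]
  obtain ⟨γ, rk, col, x, h1, h2, h3, h4, h5, h6, h7⟩ := split_matrix ρ e w hw hA L.length h (by
    intro j
    by_cases hj : j < M
    · have h8 := hsum ⟨j, hj⟩
      simp only at h8
      rw [← h8, ← Fin.sum_univ_fun_getElem xs (fun x => x ⟨j, hj⟩)]
      rw [← (finCongr hlen).sum_comp]
      refine sum_congr rfl fun g _ => ?_
      simp only [hh, hj, dif_pos]
      rfl
    · rw [hcol0 j (not_lt.mp hj)]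
      exact sum_eq_zero fun g _ => hzero g j (not_lt.mp hj))
  refine ⟨γ, rk, col, x, h1, h3, h4, ?_, h6, h7⟩
  intro i hi
  have hi' : i < xs.length := lt_of_lt_of_eq hi hlen
  have hrk : ∀ t, γ t = i → rk t < h ⟨i, hi⟩ (col t) := fun t ht => h5 ⟨i, hi⟩ t ht
  have hcc : ∀ j, (univ.filter fun t => γ t = i ∧ col t = j).card = h ⟨i, hi⟩ j :=
    fun j => h2 ⟨i, hi⟩ j
  have hcard : Fintype.card {t // γ t = i} = ∑ j : Fin M, (xs[i]'hi') j := by
    rw [card_group (h ⟨i, hi⟩) i M hcc (hzero _)]
    exact sum_congr rfl fun j _ => hrow ⟨i, hi⟩ j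
  have hok : RowOK L[i] (xs[i]'hi') := hxs.get hi hi'
  have hbound : ∀ m, (∀ j, (xs[i]'hi') j ≤ m) → ∀ t, γ t = i → rk t < m := by
    intro m hm t ht
    have h8 := hrk t ht
    by_cases hj : col t < M
    · have h9 := hrow ⟨i, hi⟩ ⟨col t, hj⟩
      simp only at h9
      rw [h9] at h8
      exact lt_of_lt_of_le h8 (hm _)
    · rw [hzero _ _ (not_lt.mp hj)] at h8
      omega
  cases hp : L[i] with
  | pair c =>
    rw [hp] at hok
    exact ⟨hcard.trans hok.2, hbound 4 hok.1⟩
  | rect c k =>
    rw [hp] at hok
    exact ⟨hcard.trans hok.2, fun t ht => by have := hbound 1 hok.1 t ht; omega⟩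
  | dup c =>
    rw [hp] at hok
    obtain ⟨ha, hb, σ, hσ1, hσ2, hσ3⟩ := hok
    refine ⟨hcard.trans hb, hbound 4 ha, ?_⟩
    have hlt' : ∀ j, h ⟨i, hi⟩ j ≠ 0 → j < M := by
      intro j hj
      by_contra hcon
      exact hj (hzero _ _ (not_lt.mp hcon))
    refine exists_letter_matching (h ⟨i, hi⟩) i hcc h3 hrk
      (fun j => if hj : j < M then (σ ⟨j, hj⟩ : ℕ) else j) ?_ ?_ ?_
    · intro j hj
      have hj' := hlt' j hj
      have := hσ1 ⟨j, hj'⟩
      simp only [dif_pos hj', dif_pos (σ ⟨j, hj'⟩).2, Fin.eta, this]
    · intro j hj h8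
      have hj' := hlt' j hj
      simp only [dif_pos hj'] at h8
      have h9 := hrow ⟨i, hi⟩ ⟨j, hj'⟩
      simp only at h9
      rw [h9] at hj
      exact hσ2 _ hj (Fin.ext h8)
    · intro j hj
      have hj' := hlt' j hj
      simp only [dif_pos hj']
      rw [hrow ⟨i, hi⟩, hσ3]
      exact (hrow ⟨i, hi⟩ ⟨j, hj'⟩).symm
  | gap c =>
    rw [hp] at hok
    obtain ⟨ha, hb, ⟨σ, hσ1, hσ2, hσ3⟩, j0, hj0⟩ := hok
    refine ⟨hcard.trans hb, hbound 4 ha, ?_, exists_letters_two (h ⟨i, hi⟩) i hcc h3 hrk j0
      ((hrow ⟨i, hi⟩ j0).trans hj0)⟩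
    have hlt' : ∀ j, h ⟨i, hi⟩ j ≠ 0 → j < M := by
      intro j hj
      by_contra hcon
      exact hj (hzero _ _ (not_lt.mp hcon))
    refine exists_letter_matching (h ⟨i, hi⟩) i hcc h3 hrk
      (fun j => if hj : j < M then (σ ⟨j, hj⟩ : ℕ) else j) ?_ ?_ ?_
    · intro j hj
      have hj' := hlt' j hj
      have := hσ1 ⟨j, hj'⟩
      simp only [dif_pos hj', dif_pos (σ ⟨j, hj'⟩).2, Fin.eta, this]
    · intro j hj h8
      have hj' := hlt' j hj
      simp only [dif_pos hj'] at h8
      have h9 := hrow ⟨i, hi⟩ ⟨j, hj'⟩
      simp only at h9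
      rw [h9] at hj
      exact hσ2 _ hj (Fin.ext h8)
    · intro j hj
      have hj' := hlt' j hj
      simp only [dif_pos hj']
      rw [hrow ⟨i, hi⟩, hσ3]
      exact (hrow ⟨i, hi⟩ ⟨j, hj'⟩).symm


end blocks

end Crest.Agent.R195
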