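import Crest.Agent.R195.HookStep
import Crest.Agent.R195.Major2
import Crest.Agent.R195.CertShape

-- ▼ part R195/TwoHook
section

/-! Row 195: Young diagram `hookY`, and removal of two hook layers, `[hh][ee]` and `[hh][hh]`. -/

set_option autoImplicit false
set_option linter.unusedSectionVars false
set_option linter.unusedDecidableInType false

namespace Crest.Agent.R195

open Finset Function

/-- `κ` surrounded by the hook `(p, 1^{p-1})`, as a Young diagram -/
def hookY (p : ℕ) (κ : YoungDiagram) (hr : κ.rowLen 0 ≤ p - 1) (hc : κ.colLen 0 ≤ p - 1) :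
    YoungDiagram where
  cells := hookS p κ.cells
  isLowerSet := by
    intro c d hdc hc'
    rw [Finset.mem_coe, mem_hookS] at hc' ⊢
    have h1 : d.1 ≤ c.1 := hdc.1
    have h2 : d.2 ≤ c.2 := hdc.2
    have hrow : ∀ i j, (i, j) ∈ κ.cells → j < κ.rowLen i :=
      fun i j h => YoungDiagram.mem_iff_lt_rowLen.1 h
    have hcol : ∀ i j, (i, j) ∈ κ.cells → i < κ.colLen j :=
      fun i j h => YoungDiagram.mem_iff_lt_colLen.1 h
    have hlow : ∀ i j i' j', (i, j) ∈ κ.cells → i' ≤ i → j' ≤ j → (i', j') ∈ κ.cells :=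
      fun i j i' j' h hi hj => κ.isLowerSet (a := (i, j)) (b := (i', j')) ⟨hi, hj⟩ h
    rcases hc' with ⟨h3, h4⟩ | ⟨h3, h4, h5⟩ | ⟨h3, h4, h5⟩
    · left; omega
    · rcases Nat.eq_zero_or_pos d.2 with h0 | h0
      · left; omega
      · right; left; omega
    · have h6 := hrow _ _ h5
      have h7 := hcol _ _ h5
      have h8 := κ.rowLen_anti 0 (c.1 - 1) (Nat.zero_le _)
      have h9 := κ.colLen_anti 0 (c.2 - 1) (Nat.zero_le _)
      rcases Nat.eq_zero_or_pos d.2 with h0 | h0
      · left; omega
      · rcases Nat.eq_zero_or_pos d.1 with h0' | h0'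
        · right; left; omega
        · right; right
          exact ⟨h0', h0, hlow _ _ _ _ h5 (by omega) (by omega)⟩







/-- the conditions under which the hook layer `p` around `κ` can be removed -/
structure HookOK (p : ℕ) (κ : YoungDiagram) : Prop where
  hp : 1 ≤ p
  row : κ.rowLen 0 ≤ p - 1
  col : κ.colLen 0 ≤ p - 1
  c1 : ∀ s, s < p - 1 → 2 * (κ.colLen s + 1) ≤ max p (2 * p - (s + 1))
  c2 : ∀ s, 2 * κ.rowLen s ≤ max (p - 1) (2 * (p - 1) - (s + 1))

theorem HookOK.of_selfconj {p : ℕ} {κ : YoungDiagram} (hp : 1 ≤ p) (hκ : κ.transpose = κ)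
    (h0 : κ.colLen 0 ≤ p - 1)
    (h1 : ∀ s, s < p - 1 → 2 * (κ.colLen s + 1) ≤ max p (2 * p - (s + 1))) : HookOK p κ := by
  have hrc : ∀ s, κ.rowLen s = κ.colLen s := by
    intro s
    conv_lhs => rw [← hκ]
    rw [YoungDiagram.rowLen_transpose]
  refine ⟨hp, by rw [hrc]; exact h0, h0, h1, fun s => ?_⟩
  rw [hrc]
  by_cases hs : s < p - 1
  · have := h1 s hs; omega
  · have h3 : κ.colLen s = 0 := by
      by_contra hne
      have h4 : (0, s) ∈ κ := YoungDiagram.mem_iff_lt_colLen.2 (by omega)
      have h5 := YoungDiagram.mem_iff_lt_rowLen.1 h4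
      rw [hrc] at h5
      omega
    omega

/-- the Young diagram of the layer -/
def HookOK.Y {p : ℕ} {κ : YoungDiagram} (h : HookOK p κ) : YoungDiagram := hookY p κ h.row h.col


section two

variable {T : Type} [Fintype T] [DecidableEq T] {W : Type} [AddCommGroup W] [Module ℂ W]

theorem hook_full' {p : ℕ} {κ : YoungDiagram} (ok : HookOK p κ)
    (hfull : Full κ.cells κ.cells) (hT : Fintype.card T = p + (p - 1) + κ.card)
    (K₁ K₂ : Finset T) (hK : Disjoint K₁ K₂) (hK₁ : K₁.card = p) (hK₂ : K₂.card = p - 1)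
    (ρ : Representation ℂ (Equiv.Perm T) W) (v : W) (hv0 : v ≠ 0)
    (hv₁ : ∀ x ∈ K₁, ∀ y ∈ K₁, ρ (Equiv.swap x y) v = v)
    (hv₂ : ∀ x ∈ K₂, ∀ y ∈ K₂, ρ (Equiv.swap x y) v = v) :
    Occ ρ (Kr T (hookS p κ.cells) (hookS p κ.cells)) :=
  hook_full κ ok.row ok.col ok.hp ok.c1 ok.c2 hfull hT K₁ K₂ hK hK₁ hK₂ ρ v hv0 hv₁ hv₂







end two

end Crest.Agent.R195
end

-- ▼ part R195/Rules

/-! Row 195 (helper563).  Packaged rules for `S0298`, on top of `HasShape`/`OccSh` (CertShape.lean):

* `FixSizes.blocks_fixed`: vectors fixed by several disjoint blocks, from dominance;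
* `occSh_hh`, `full_hook` (RULE 1: the inner shape `κ` is full);
* `occSh_hh_ee`, `occSh_hh_hh`, `full_hook_hook` (RULE 2: only `κ₂`, two layers down, is full). -/

set_option autoImplicit false
set_option linter.unusedSectionVars false
set_option linter.unusedDecidableInType false

namespace Crest.Agent.R195

open Finset Function

section shape

variable {T : Type*} [Fintype T] [DecidableEq T] {U : Type*} [AddCommGroup U] [Module ℂ U]

/-! ### Fixed vectors for prescribed disjoint blocks -/

theorem sum_le_sum_range_of_antitone {q : ℕ → ℕ} (hq : Antitone q) (s : Finset ℕ) :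
    ∑ i ∈ s, q i ≤ ∑ i ∈ range s.card, q i := by
  induction s using Finset.induction_on_max with
  | empty => simp
  | insert m s hm ih =>
    have hms : m ∉ s := fun h => lt_irrefl _ (hm m h)
    rw [Finset.sum_insert hms, Finset.card_insert_of_notMem hms, Finset.sum_range_succ]
    have hle : s.card ≤ m := by
      have h1 : s ⊆ range m := fun x hx => Finset.mem_range.2 (hm x hx)
      simpa using Finset.card_le_card h1
    have := hq hle
    omega


theorem sum_rowLen_eq_card {μ : YoungDiagram} {k : ℕ} (hk : μ.rowLen k = 0) :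
    ∑ l ∈ range k, μ.rowLen l = μ.card := by
  classical
  have h1 : ∑ l ∈ range k, μ.rowLen l = (μ.cells.filter fun c => c.1 < k).card := by
    rw [Finset.card_eq_sum_card_fiberwise (f := Prod.fst) (t := range k)]
    · refine Finset.sum_congr rfl fun l hl => ?_
      rw [YoungDiagram.rowLen_eq_card]
      congr 1
      ext c
      rw [YoungDiagram.mem_row_iff, Finset.mem_filter, Finset.mem_filter, YoungDiagram.mem_cells]
      constructor
      · rintro ⟨h1, h2⟩
        exact ⟨⟨h1, by rw [h2]; exact Finset.mem_range.1 hl⟩, h2⟩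
      · rintro ⟨⟨h1, -⟩, h2⟩
        exact ⟨h1, h2⟩
    · intro c hc
      simpa using (Finset.mem_filter.1 hc).2
  rw [h1, Finset.filter_true_of_mem]
  intro c hc
  by_contra hcon
  have h2 : (k, c.2) ∈ μ := μ.isLowerSet (a := c) (b := (k, c.2)) ⟨not_lt.1 hcon, le_rfl⟩ hc
  have h3 := YoungDiagram.mem_iff_lt_rowLen.1 h2
  omega

theorem min_le_sum_rowLen (μ : YoungDiagram) (k b : ℕ) :
    min μ.card ((∑ l ∈ range k, μ.rowLen l) + b) ≤ ∑ l ∈ range (k + b), μ.rowLen l := by
  induction b with
  | zero => simp
  | succ b ih =>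
    rw [← add_assoc k b 1, Finset.sum_range_succ]
    rcases Nat.eq_zero_or_pos (μ.rowLen (k + b)) with h0 | h0
    · rw [sum_rowLen_eq_card h0]; omega
    · omega

/-- Vectors fixed by the permutations of several disjoint blocks, from dominance. -/
theorem FixSizes.blocks_fixed {ρ : Representation ℂ (Equiv.Perm T) U} {μ : YoungDiagram}
    (h : FixSizes ρ μ.rowLen) (hcard : μ.card = Fintype.card T) {r : ℕ} (K : Fin r → Finset T)
    (hK : ∀ i j, i ≠ j → Disjoint (K i) (K j)) {q : ℕ → ℕ} (hq : Antitone q)
    (hKq : ∀ i, (K i).card ≤ q i) (hdom : ∀ j, j ≤ r → ∑ i ∈ range j, q i ≤ ∑ i ∈ range j, μ.rowLen i) :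
    ∃ w : U, w ≠ 0 ∧ ∀ i, ∀ x ∈ K i, ∀ y ∈ K i, ρ (Equiv.swap x y) w = w := by
  classical
  let c' : T → Fin r ⊕ T := fun t => if h : ∃ i, t ∈ K i then Sum.inl h.choose else Sum.inr t
  have hc1 : ∀ i, ∀ t ∈ K i, c' t = Sum.inl i := by
    intro i t ht
    have hex : ∃ i, t ∈ K i := ⟨i, ht⟩
    have h1 : c' t = Sum.inl hex.choose := dif_pos hex
    rw [h1]
    congr 1
    by_contra hne
    exact (Finset.disjoint_left.1 (hK _ _ hne) hex.choose_spec) ht
  have hc2 : ∀ t i, c' t = Sum.inl i → t ∈ K i := by
    intro t i hti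
    by_cases hex : ∃ i, t ∈ K i
    · have h1 : c' t = Sum.inl hex.choose := dif_pos hex
      rw [h1] at hti
      rw [← Sum.inl.inj hti]
      exact hex.choose_spec
    · have h1 : c' t = Sum.inr t := dif_neg hex
      rw [h1] at hti
      exact absurd hti (by simp)
  have hc3 : ∀ t s, c' t = Sum.inr s → t = s := by
    intro t s hts
    by_cases hex : ∃ i, t ∈ K i
    · have h1 : c' t = Sum.inl hex.choose := dif_pos hex
      rw [h1] at hts
      exact absurd hts (by simp)
    · have h1 : c' t = Sum.inr t := dif_neg hex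
      rw [h1] at hts
      exact Sum.inr.inj hts
  obtain ⟨w, hw, hfix⟩ := h.fixed_of_dominates c' (fun J => by
    set A : Finset (Fin r) := univ.filter fun i => Sum.inl i ∈ J with hA
    set B : Finset T := univ.filter fun t => Sum.inr t ∈ J with hB
    have hJ : J.card = A.card + B.card := by
      have h1 : J = A.image Sum.inl ∪ B.image Sum.inr := by
        ext x
        simp only [hA, hB, mem_union, mem_image, mem_filter, mem_univ, true_and]
        constructor
        · intro hx
          rcases x with i | t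
          · left; exact ⟨i, hx, rfl⟩
          · right; exact ⟨t, hx, rfl⟩
        · rintro (⟨i, hi, rfl⟩ | ⟨t, ht, rfl⟩)
          · exact hi
          · exact ht
      rw [h1, Finset.card_union_of_disjoint, Finset.card_image_of_injective _ Sum.inl_injective,
        Finset.card_image_of_injective _ Sum.inr_injective]
      rw [Finset.disjoint_left]
      intro x hx hx'
      obtain ⟨i, -, rfl⟩ := mem_image.1 hx
      obtain ⟨t, -, ht⟩ := mem_image.1 hx'
      exact absurd ht (by simp)
    have hle1 : (univ.filter fun t => c' t ∈ J).card ≤ μ.card := by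
      rw [hcard, ← Finset.card_univ]
      exact Finset.card_le_card (Finset.filter_subset _ _)
    have hle2 : (univ.filter fun t => c' t ∈ J).card ≤ (∑ l ∈ range A.card, μ.rowLen l) + B.card := by
      have h1 : (univ.filter fun t => c' t ∈ J) ⊆ (A.biUnion K) ∪ B := by
        intro t ht
        rw [mem_filter] at ht
        rcases hct : c' t with i | s
        · rw [hct] at ht
          exact mem_union_left _ (mem_biUnion.2 ⟨i, by simp [hA, ht.2], hc2 t i hct⟩)
        · rw [hct] at ht
          rw [hc3 t s hct]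
          exact mem_union_right _ (by simp [hB, ht.2])
      have h2 : (A.biUnion K).card ≤ ∑ i ∈ A, q i :=
        le_trans Finset.card_biUnion_le (Finset.sum_le_sum fun i _ => hKq i)
      have h3 : ∑ i ∈ A, q i ≤ ∑ i ∈ range A.card, q i := by
        have h4 := sum_le_sum_range_of_antitone hq (A.image (fun i : Fin r => (i : ℕ)))
        rw [Finset.card_image_of_injective _ Fin.val_injective,
          Finset.sum_image (fun x _ y _ hxy => Fin.val_injective hxy)] at h4
        exact h4
      have h5 := hdom A.card (by simpa using Finset.card_le_univ A)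
      have h6 := Finset.card_le_card h1
      have h7 := Finset.card_union_le (A.biUnion K) B
      omega
    rw [hJ]
    have h8 := min_le_sum_rowLen μ A.card B.card
    omega)
  refine ⟨w, hw, fun i x hx y hy => hfix x y ?_⟩
  rw [hc1 i x hx, hc1 i y hy]

end shape

/-! ### Rules -/

theorem card_transpose' (μ : YoungDiagram) : μ.transpose.card = μ.card := by
  show μ.transpose.cells.card = μ.cells.card
  rw [transpose_cells, card_image_swap]

/-- Hook step: long first two rows (`κ` full). -/
theorem occSh_hh {p : ℕ} {κ : YoungDiagram} (ok : HookOK p κ) (hfull : Full κ.cells κ.cells)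
    {μ : YoungDiagram} (hμ : μ.card = p + (p - 1) + κ.card)
    (h1 : 2 * p - 1 ≤ μ.rowLen 0 + μ.rowLen 1) :
    OccSh (hookS p κ.cells) (hookS p κ.cells) μ := by
  classical
  intro T _ _ W _ _ ρ hs
  have hp := ok.hp
  have hanti : μ.rowLen 1 ≤ μ.rowLen 0 := μ.rowLen_anti 0 1 (by norm_num)
  have hT : Fintype.card T = p + (p - 1) + κ.card := by rw [← hs.card, hμ]
  obtain ⟨K₁, -, hK₁⟩ := Finset.exists_subset_card_eq (s := (univ : Finset T)) (n := p)
    (by rw [card_univ, hT]; omega)
  obtain ⟨K₂, hK₂s, hK₂⟩ := Finset.exists_subset_card_eq (s := (univ \ K₁ : Finset T)) (n := p - 1)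
    (by rw [card_sdiff_of_subset (subset_univ _), card_univ, hT, hK₁]; omega)
  have hdis : Disjoint K₁ K₂ := by
    rw [Finset.disjoint_left]
    intro x hx hx2
    exact (mem_sdiff.1 (hK₂s hx2)).2 hx
  obtain ⟨w, hw, hfix⟩ := hs.fixSizes.blocks_fixed hs.card (r := 2) ![K₁, K₂] (by
      intro i j hij
      fin_cases i <;> fin_cases j <;> first | exact absurd rfl hij | exact hdis | exact hdis.symm)
    (q := fun i => if i = 0 then p else if i = 1 then p - 1 else 0) (by
      intro a b hab
      simp only
      split_ifs <;> omega)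
    (by
      intro i
      fin_cases i
      · simp [hK₁]
      · simp [hK₂])
    (by
      intro j hj
      interval_cases j
      · simp
      · rw [Finset.sum_range_one, Finset.sum_range_one]
        simp only [if_true]
        omega
      · rw [Finset.sum_range_succ, Finset.sum_range_one, Finset.sum_range_succ, Finset.sum_range_one]
        simp only [if_true, if_false, one_ne_zero]
        omega)
  exact hook_full' ok hfull hT K₁ K₂ hdis hK₁ hK₂ ρ w hw (hfix 0) (hfix 1)

/-- **RULE 1.**  If `κ` is self-conjugate and full and every `μ` which is short in both directions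
is covered (up to transposition), then `κ` surrounded by the hook is full. -/
theorem full_hook {p : ℕ} {κ : YoungDiagram} (ok : HookOK p κ)
    (hsym : κ.cells.image Prod.swap = κ.cells) (hfull : Full κ.cells κ.cells)
    (hcov : ∀ μ : YoungDiagram, μ.card = p + (p - 1) + κ.card →
      μ.rowLen 0 + μ.rowLen 1 ≤ 2 * p - 2 → μ.colLen 0 + μ.colLen 1 ≤ 2 * p - 2 →
      OccSh (hookS p κ.cells) (hookS p κ.cells) μ ∨
        OccSh (hookS p κ.cells) (hookS p κ.cells) μ.transpose) :
    Full (hookS p κ.cells) (hookS p κ.cells) := by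
  have hp := ok.hp
  have hself := hookS_swap (p := p) hsym
  refine full_of_occSh fun μ hμ => ?_
  rw [card_hookS] at hμ
  have hμ' : μ.card = p + (p - 1) + κ.card := hμ
  by_cases h1 : 2 * p - 1 ≤ μ.rowLen 0 + μ.rowLen 1
  · exact occSh_hh ok hfull hμ' h1
  by_cases h2 : 2 * p - 1 ≤ μ.colLen 0 + μ.colLen 1
  · refine OccSh.of_transpose hself (occSh_hh ok hfull ?_ ?_)
    · rw [card_transpose', hμ']
    · rw [YoungDiagram.rowLen_transpose, YoungDiagram.rowLen_transpose]; exact h2
  rcases hcov μ hμ' (by omega) (by omega) with h | h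
  · exact h
  · exact OccSh.of_transpose hself h





end Crest.Agent.R195
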