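import Crest.Agent.R195.Hit2
import Mathlib
import Crest.Agent.R195.DupGadget
import Crest.Agent.R195.MF
import Crest.Agent.R195.Transfer
import Crest.Agent.R195.HookStep
import Crest.Agent.R195.SaxlFull
import Crest.Agent.R195.Rules

-- ▼ part R195/Hit3
section

/-! Row 195.  The sequential engine: lists of blocks. -/

set_option autoImplicit false
set_option linter.unusedSectionVars false
set_option linter.unusedDecidableInType false

namespace Crest.Agent.R195

open Finset Function Equiv

section split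

variable {T : Type*} [Fintype T] [DecidableEq T]
variable {W : Type*} [AddCommGroup W] [Module ℂ W]

theorem colAsym_congr (ρ : Representation ℂ (Perm T) W) {d d' : T → ℕ}
    (h : ∀ s t, d s = d t ↔ d' s = d' t) : colAsym ρ d = colAsym ρ d' := by
  unfold colAsym
  have : (univ.filter fun σ : Perm T => ∀ t, d (σ t) = d t) =
      univ.filter fun σ : Perm T => ∀ t, d' (σ t) = d' t := by
    ext σ
    simp only [mem_filter, mem_univ, true_and]
    exact forall_congr' fun t => h _ _
  rw [this]

theorem colAsym_split (p : T → Prop) [DecidablePred p] (ρ : Representation ℂ (Perm T) W)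
    (d : T → ℕ) (hd : ∀ s t, d s = d t → (p s ↔ p t)) (x : W) :
    colAsym ρ d x = colAsym (resRepP p ρ) (resP p d) (colAsym (resRepN p ρ) (resN p d) x) := by
  classical
  rw [colAsym_apply, Finset.sum_filter, sum_perm_preserving p]
  · rw [colAsym_apply, Finset.sum_filter]
    refine Finset.sum_congr rfl fun a _ => ?_
    have hiff : ∀ b : Perm {t // ¬ p t}, (∀ t, d (Equiv.Perm.subtypeCongr a b t) = d t) ↔
        (∀ t, resP p d (a t) = resP p d t) ∧ (∀ t, resN p d (b t) = resN p d t) := by
      intro b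
      constructor
      · intro h
        refine ⟨fun t => ?_, fun t => ?_⟩
        · have := h t
          rwa [Equiv.Perm.subtypeCongr.left_apply _ _ t.2] at this
        · have := h t
          rwa [Equiv.Perm.subtypeCongr.right_apply _ _ t.2] at this
      · rintro ⟨h1, h2⟩ t
        by_cases ht : p t
        · rw [Equiv.Perm.subtypeCongr.left_apply _ _ ht]
          exact h1 ⟨t, ht⟩
        · rw [Equiv.Perm.subtypeCongr.right_apply _ _ ht]
          exact h2 ⟨t, ht⟩
    simp only [hiff]
    by_cases ha : ∀ t, resP p d (a t) = resP p d t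
    · rw [if_pos ha, colAsym_apply, map_sum, Finset.sum_filter, Finset.smul_sum]
      refine Finset.sum_congr rfl fun b _ => ?_
      by_cases hb : ∀ t, resN p d (b t) = resN p d t
      · rw [if_pos ⟨ha, hb⟩, if_pos hb, rho_subtypeCongr, Equiv.Perm.sign_subtypeCongr, map_smul,
          smul_smul]
        push_cast
        rfl
      · rw [if_neg (fun h => hb h.2), if_neg hb, smul_zero]
    · rw [if_neg ha]
      refine Finset.sum_eq_zero fun b _ => ?_
      rw [if_neg (fun h => ha h.1)]
  · intro g hg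
    rw [if_neg]
    intro h
    exact hg fun i => hd _ _ (h i)

theorem SwapFixed.resP {ι : Type*} {ρ : Representation ℂ (Perm T) W} {f : T → ι} {x : W}
    (h : SwapFixed ρ f x) (p : T → Prop) [DecidablePred p] :
    SwapFixed (resRepP p ρ) (fun t : {t // p t} => f t) x := by
  intro a b hab
  have hab' : f a = f b := hab
  rw [resRepP_apply]
  refine h.perm _ fun t => ?_
  by_cases ht : p t
  · rw [Equiv.Perm.subtypeCongr.left_apply _ _ ht]
    by_cases h1 : (⟨t, ht⟩ : {t // p t}) = a
    · rw [h1, swap_apply_left, ← hab', ← h1]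
    · by_cases h2 : (⟨t, ht⟩ : {t // p t}) = b
      · rw [h2, swap_apply_right, hab', ← h2]
      · rw [swap_apply_of_ne_of_ne h1 h2]
  · rw [Equiv.Perm.subtypeCongr.right_apply _ _ ht]
    rfl

theorem SwapFixed.resN {ι : Type*} {ρ : Representation ℂ (Perm T) W} {f : T → ι} {x : W}
    (h : SwapFixed ρ f x) (p : T → Prop) [DecidablePred p] :
    SwapFixed (resRepN p ρ) (fun t : {t // ¬ p t} => f t) x := by
  intro a b hab
  have hab' : f a = f b := hab
  rw [resRepN_apply]
  refine h.perm _ fun t => ?_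
  by_cases ht : p t
  · rw [Equiv.Perm.subtypeCongr.left_apply _ _ ht]
    rfl
  · rw [Equiv.Perm.subtypeCongr.right_apply _ _ ht]
    by_cases h1 : (⟨t, ht⟩ : {t // ¬ p t}) = a
    · rw [h1, swap_apply_left, ← hab', ← h1]
    · by_cases h2 : (⟨t, ht⟩ : {t // ¬ p t}) = b
      · rw [h2, swap_apply_right, hab', ← h2]
      · rw [swap_apply_of_ne_of_ne h1 h2]

theorem colAsymP_comm (p : T → Prop) [DecidablePred p] (ρ : Representation ℂ (Perm T) W)
    (d : {t // p t} → ℕ) (b : Perm {t // ¬ p t}) (x : W) :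
    resRepN p ρ b (colAsym (resRepP p ρ) d x) = colAsym (resRepP p ρ) d (resRepN p ρ b x) := by
  rw [colAsym_apply, colAsym_apply, map_sum]
  refine Finset.sum_congr rfl fun a _ => ?_
  rw [map_smul, resRep_comm]

theorem colAsymN_comm (p : T → Prop) [DecidablePred p] (ρ : Representation ℂ (Perm T) W)
    (d : {t // ¬ p t} → ℕ) (a : Perm {t // p t}) (x : W) :
    resRepP p ρ a (colAsym (resRepN p ρ) d x) = colAsym (resRepN p ρ) d (resRepP p ρ a x) := by
  rw [colAsym_apply, colAsym_apply, map_sum]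
  refine Finset.sum_congr rfl fun b _ => ?_
  rw [map_smul, resRep_comm]

theorem hitOpN_comm (p : T → Prop) [DecidablePred p] (ρ : Representation ℂ (Perm T) W)
    (G : ({t // ¬ p t} → ℕ × ℕ) → ℂ) (u : {t // ¬ p t} → ℕ × ℕ) (a : Perm {t // p t}) (x : W) :
    resRepP p ρ a (hitOp (resRepN p ρ) G u x) = hitOp (resRepN p ρ) G u (resRepP p ρ a x) := by
  rw [hitOp_apply, hitOp_apply, map_sum]
  refine Finset.sum_congr rfl fun b _ => ?_
  rw [map_smul, resRep_comm]

theorem colAsym_comm (p : T → Prop) [DecidablePred p] (ρ : Representation ℂ (Perm T) W)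
    (d : {t // p t} → ℕ) (d' : {t // ¬ p t} → ℕ) (x : W) :
    colAsym (resRepP p ρ) d (colAsym (resRepN p ρ) d' x) =
      colAsym (resRepN p ρ) d' (colAsym (resRepP p ρ) d x) := by
  rw [colAsym_apply, colAsym_apply (resRepP p ρ) d x, map_sum]
  refine Finset.sum_congr rfl fun a _ => ?_
  rw [map_smul, colAsymN_comm]

theorem colAsym_hitOp (p : T → Prop) [DecidablePred p] (ρ : Representation ℂ (Perm T) W)
    (d : {t // p t} → ℕ) (G : ({t // ¬ p t} → ℕ × ℕ) → ℂ) (u : {t // ¬ p t} → ℕ × ℕ) (x : W) :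
    colAsym (resRepP p ρ) d (hitOp (resRepN p ρ) G u x) =
      hitOp (resRepN p ρ) G u (colAsym (resRepP p ρ) d x) := by
  rw [colAsym_apply, colAsym_apply, map_sum]
  refine Finset.sum_congr rfl fun a _ => ?_
  rw [map_smul, hitOpN_comm]

/-- **Sequential step.** -/
theorem HitZ.step {p : T → Prop} [DecidablePred p] {ρ : Representation ℂ (Perm T) W}
    {D E D' E' : Finset (ℕ × ℕ)} {m n : ℕ} (hm : ∀ c ∈ D, c.2 < m) (hn : ∀ c ∈ D', c.2 < n)
    {Z' Z'' : Set (ℕ × ℕ)} (hZ : Disjoint Z' Z'') {d : T → ℕ}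
    (hd : ∀ s t, d s = d t → (p s ↔ p t)) {x : W} (hx : colAsym ρ d x ≠ 0)
    (h'' : colAsym (resRepN p ρ) (resN p d) (colAsym (resRepP p ρ) (resP p d) x) ≠ 0 →
      HitZ (resRepN p ρ) E E' Z'' (colAsym (resRepP p ρ) (resP p d) x))
    (h' : ∀ (G : ({t // ¬ p t} → ℕ × ℕ) → ℂ) (u : {t // ¬ p t} → ℕ × ℕ),
      colAsym (resRepP p ρ) (resP p d) (hitOp (resRepN p ρ) G u x) ≠ 0 →
      HitZ (resRepP p ρ) D D' Z' (hitOp (resRepN p ρ) G u x)) :
    HitZ ρ (addC m D E) (addC n D' E') (Z' ∪ Z'') x := by
  have h1 : colAsym (resRepN p ρ) (resN p d) (colAsym (resRepP p ρ) (resP p d) x) ≠ 0 := by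
    rw [← colAsym_comm, ← colAsym_split p ρ d hd]
    exact hx
  obtain ⟨c'', G'', hG'', hB'', u'', hu'', hZu'', hne''⟩ := h'' h1
  rw [← colAsym_hitOp] at hne''
  obtain ⟨c', G', hG', hB', u', hu', hZu', hne'⟩ := h' G'' u'' hne''
  refine ⟨c' + c'', mulG p G' G'', Kr_glue hm hn hG' hG'', hB'.mul hB'', glueW p u' u'', ?_, ?_, ?_⟩
  · rw [cost_res p, resP_glueW, resN_glueW, hu', hu'']
  · intro t
    by_cases ht : p t
    · left
      simpa [glueW, ht] using hZu' ⟨t, ht⟩
    · right
      simpa [glueW, ht] using hZu'' ⟨t, ht⟩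
  · rw [hitOp_mul ρ hB' hB'' hZ hu' hu'' hZu' hZu'']
    exact hne'

end split

/-- blocks: `pair c` = two columns `c, c - 1`; `rect c k` = `k` columns of length `c`, to be hit by
one-row arrangements; `dup c` = two columns of length `c`, to be hit by arrangements whose columns
are matched in pairs of equal height. -/
inductive Bk3
  | pair (c : ℕ)
  | rect (c k : ℕ)
  | dup (c : ℕ)
  deriving DecidableEq

namespace Bk3


/-- condition on the arrangement of the letters of one block: `rk` = row, `col` = column. -/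
def OK (κ : Bk3) (T : Type) [Fintype T] (rk col : T → ℕ) : Prop :=
  match κ with
  | pair c => Fintype.card T + 1 = 2 * c ∧ ∀ t, rk t < 4
  | rect c k => Fintype.card T = c * k ∧ ∀ t, rk t = 0
  | dup c => Fintype.card T = 2 * c ∧ (∀ t, rk t < 4) ∧ ∃ π : T → T, (∀ t, π (π t) = t) ∧
      (∀ t, π t ≠ t) ∧ (∀ t, rk (π t) = rk t) ∧ (∀ s t, col s = col t → col (π s) = col (π t))

theorem OK.congr {κ : Bk3} {S T : Type} [Fintype S] [Fintype T] (e : S ≃ T) {rk col : T → ℕ}
    (h : κ.OK T rk col) : κ.OK S (fun s => rk (e s)) (fun s => col (e s)) := by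
  cases κ with
  | pair c =>
    refine ⟨?_, fun s => h.2 _⟩
    rw [Fintype.card_congr e]; exact h.1
  | rect c k =>
    refine ⟨?_, fun s => h.2 _⟩
    rw [Fintype.card_congr e]; exact h.1
  | dup c =>
    obtain ⟨h1, h2, π, h3, h4, h5, h6⟩ := h
    refine ⟨?_, fun s => h2 _, fun s => e.symm (π (e s)), ?_, ?_, ?_, ?_⟩
    · rw [Fintype.card_congr e]; exact h1
    · intro s; simp [h3]
    · intro s hs
      apply h4 (e s)
      have := congrArg e hs
      simpa using this
    · intro s; simp [h5]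
    · intro s t hst; simpa using h6 _ _ hst


end Bk3



end Crest.Agent.R195
end

-- ▼ part R195/Eng4
section

/-! Row 195.  The sequential engine with four block types (pair, rectangle, duplicate, gap) and
shapes described by lists of column lengths. -/

set_option autoImplicit false
set_option linter.unusedSectionVars false
set_option linter.unusedDecidableInType false

namespace Crest.Agent.R195

open Finset Function Equiv

section colS

/-- the shape with given column lengths -/
def colS (cs : List ℕ) : Finset (ℕ × ℕ) :=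
  (range (cs.foldr max 0) ×ˢ range cs.length).filter fun q => q.1 < cs.getD q.2 0

theorem getD_le_foldr (cs : List ℕ) (j : ℕ) : cs.getD j 0 ≤ cs.foldr max 0 := by
  induction cs generalizing j with
  | nil => simp
  | cons a cs ih =>
    cases j with
    | zero => simp
    | succ j =>
      have := ih j
      simp only [List.getD_cons_succ, List.foldr_cons]
      exact this.trans (le_max_right _ _)

theorem mem_colS {cs : List ℕ} {q : ℕ × ℕ} : q ∈ colS cs ↔ q.1 < cs.getD q.2 0 := by
  unfold colS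
  simp only [mem_filter, mem_product, mem_range]
  constructor
  · exact fun h => h.2
  · intro h
    refine ⟨⟨lt_of_lt_of_le h (getD_le_foldr _ _), ?_⟩, h⟩
    by_contra hcon
    rw [List.getD_eq_default _ _ (not_lt.mp hcon)] at h
    exact absurd h (Nat.not_lt_zero _)

theorem colS_snd_lt {cs : List ℕ} {q : ℕ × ℕ} (h : q ∈ colS cs) : q.2 < cs.length := by
  by_contra hcon
  rw [mem_colS, List.getD_eq_default _ _ (not_lt.mp hcon)] at h
  exact absurd h (Nat.not_lt_zero _)

theorem colS_append (cs ds : List ℕ) : colS (cs ++ ds) = addC cs.length (colS cs) (colS ds) := by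
  ext ⟨i, j⟩
  simp only [addC, shiftC, mem_union, mem_image, mem_colS, Prod.mk.injEq, Prod.exists]
  constructor
  · intro h
    rcases Nat.lt_or_ge j cs.length with hj | hj
    · left
      rwa [List.getD_append _ _ _ _ hj] at h
    · right
      rw [List.getD_append_right _ _ _ _ hj] at h
      exact ⟨i, j - cs.length, h, rfl, by omega⟩
  · rintro (h | ⟨a, b, h, rfl, rfl⟩)
    · rcases Nat.lt_or_ge j cs.length with hj | hj
      · rwa [List.getD_append _ _ _ _ hj]
      · rw [List.getD_eq_default _ _ hj] at h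
        exact absurd h (Nat.not_lt_zero _)
    · rw [List.getD_append_right _ _ _ _ (by omega)]
      simpa using h

theorem colS_nil : colS [] = ∅ := by
  ext q
  simp [mem_colS]


theorem pairShape_eq (c : ℕ) : pairShape c = colS [c, c - 1] := by
  ext ⟨i, j⟩
  simp only [pairShape, mem_filter, mem_product, mem_range, mem_colS]
  match j with
  | 0 => simp
  | 1 => simp; omega
  | (j + 2) => simp

theorem rectShape_eq (c k : ℕ) : rectShape c k = colS (List.replicate k c) := by
  ext ⟨i, j⟩
  simp only [rectShape, mem_product, mem_range, mem_colS]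
  rcases Nat.lt_or_ge j k with hj | hj
  · rw [List.getD_eq_getElem _ _ (by simpa using hj), List.getElem_replicate]
    simp [hj]
  · rw [List.getD_eq_default _ _ (by simpa using hj)]
    simp only [not_lt_zero, iff_false, not_and, not_lt]
    exact fun _ => hj

end colS

/-- blocks: `pair c` = columns `c, c - 1`; `rect c k` = `k` columns `c` (one row arrangements);
`dup c` = columns `c, c` (columns matched); `gap c` = columns `c, c - 2` (columns matched, one pair
of height two). -/
inductive Bk4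
  | pair (c : ℕ)
  | rect (c k : ℕ)
  | dup (c : ℕ)
  | gap (c : ℕ)
  deriving DecidableEq

namespace Bk4

/-- columns -/
def cols : Bk4 → List ℕ
  | pair c => [c, c - 1]
  | rect c k => List.replicate k c
  | dup c => [c, c]
  | gap c => [c, c - 2]

/-- length of the first column -/
def top : Bk4 → ℕ
  | pair c => c
  | rect c _ => c
  | dup c => c
  | gap c => c

/-- minimal admissible length of the first column -/
def low : Bk4 → ℕ
  | pair _ => 1
  | rect _ _ => 1
  | dup _ => 1
  | gap _ => 3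

/-- bound for the later columns -/
def next : Bk4 → ℕ
  | pair c => c - 2
  | rect c _ => c - 1
  | dup c => c - 1
  | gap c => c - 2

/-- cells used at minimal cost -/
def Z : Bk4 → Set (ℕ × ℕ)
  | pair c => zigZ c
  | rect c _ => antiZ c
  | dup c => antiZ c
  | gap c => zigZ c

theorem Z_le (g : Bk4) : ∀ c ∈ g.Z, c.1 + c.2 + 1 ≤ g.top := by
  intro c hc
  cases g with
  | pair n =>
    simp only [Z, zigZ, Set.mem_ofPred_eq] at hc
    simp only [top]
    omega
  | rect n k =>
    simp only [Z, antiZ, Set.mem_ofPred_eq] at hc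
    simp only [top]
    omega
  | dup n =>
    simp only [Z, antiZ, Set.mem_ofPred_eq] at hc
    simp only [top]
    omega
  | gap n =>
    simp only [Z, zigZ, Set.mem_ofPred_eq] at hc
    simp only [top]
    omega

theorem Z_gt (g : Bk4) (hg : 1 ≤ g.top) : ∀ c ∈ g.Z, g.next < c.1 + c.2 + 1 := by
  intro c hc
  cases g with
  | pair n =>
    simp only [Z, zigZ, Set.mem_ofPred_eq] at hc
    simp only [next, top] at hg ⊢
    omega
  | rect n k =>
    simp only [Z, antiZ, Set.mem_ofPred_eq] at hc
    simp only [next, top] at hg ⊢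
    omega
  | dup n =>
    simp only [Z, antiZ, Set.mem_ofPred_eq] at hc
    simp only [next, top] at hg ⊢
    omega
  | gap n =>
    simp only [Z, zigZ, Set.mem_ofPred_eq] at hc
    simp only [next, top] at hg ⊢
    omega

theorem low_pos (g : Bk4) : 1 ≤ g.low := by cases g <;> simp [low]

/-- condition on the arrangement of the letters of one block: `rk` = row, `col` = column. -/
def OK (κ : Bk4) (T : Type) [Fintype T] (rk col : T → ℕ) : Prop :=
  match κ with
  | pair c => Fintype.card T + 1 = 2 * c ∧ ∀ t, rk t < 4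
  | rect c k => Fintype.card T = c * k ∧ ∀ t, rk t = 0
  | dup c => Fintype.card T = 2 * c ∧ (∀ t, rk t < 4) ∧ ∃ π : T → T, (∀ t, π (π t) = t) ∧
      (∀ t, π t ≠ t) ∧ (∀ t, rk (π t) = rk t) ∧ (∀ s t, col s = col t → col (π s) = col (π t))
  | gap c => Fintype.card T + 2 = 2 * c ∧ (∀ t, rk t < 4) ∧ (∃ π : T → T, (∀ t, π (π t) = t) ∧
      (∀ t, π t ≠ t) ∧ (∀ t, rk (π t) = rk t) ∧ (∀ s t, col s = col t → col (π s) = col (π t))) ∧
      ∃ a0 a1, col a0 = col a1 ∧ rk a0 = 0 ∧ rk a1 = 1 ∧ ∀ t, col t = col a0 → t = a0 ∨ t = a1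

theorem exists_pi_congr {S T : Type} (e : S ≃ T) {rk col : T → ℕ}
    (h : ∃ π : T → T, (∀ t, π (π t) = t) ∧
      (∀ t, π t ≠ t) ∧ (∀ t, rk (π t) = rk t) ∧ (∀ s t, col s = col t → col (π s) = col (π t))) :
    ∃ π : S → S, (∀ t, π (π t) = t) ∧ (∀ t, π t ≠ t) ∧ (∀ t, rk (e (π t)) = rk (e t)) ∧
      (∀ s t, col (e s) = col (e t) → col (e (π s)) = col (e (π t))) := by
  obtain ⟨π, h3, h4, h5, h6⟩ := h
  refine ⟨fun s => e.symm (π (e s)), ?_, ?_, ?_, ?_⟩
  · intro s; simp [h3]
  · intro s hs
    apply h4 (e s)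
    have := congrArg e hs
    simpa using this
  · intro s; simp [h5]
  · intro s t hst; simpa using h6 _ _ hst

theorem OK.congr {κ : Bk4} {S T : Type} [Fintype S] [Fintype T] (e : S ≃ T) {rk col : T → ℕ}
    (h : κ.OK T rk col) : κ.OK S (fun s => rk (e s)) (fun s => col (e s)) := by
  cases κ with
  | pair c =>
    refine ⟨?_, fun s => h.2 _⟩
    rw [Fintype.card_congr e]; exact h.1
  | rect c k =>
    refine ⟨?_, fun s => h.2 _⟩
    rw [Fintype.card_congr e]; exact h.1
  | dup c =>
    obtain ⟨h1, h2, h3⟩ := h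
    refine ⟨?_, fun s => h2 _, exists_pi_congr e h3⟩
    rw [Fintype.card_congr e]; exact h1
  | gap c =>
    obtain ⟨h1, h2, h3, a0, a1, h4, h5, h6, h7⟩ := h
    refine ⟨?_, fun s => h2 _, exists_pi_congr e h3, e.symm a0, e.symm a1, ?_, ?_, ?_, ?_⟩
    · rw [Fintype.card_congr e]; exact h1
    · simpa using h4
    · simpa using h5
    · simpa using h6
    · intro t ht
      have := h7 (e t) (by simpa using ht)
      rcases this with h | h
      · left; rw [← h]; simp
      · right; rw [← h]; simp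

end Bk4

/-- admissible lists -/
def validB : List Bk4 → Prop
  | [] => True
  | g :: L => g.low ≤ g.top ∧ (∀ h ∈ L, h.top ≤ g.next) ∧ validB L

/-- minimal cost cells -/
def ZB : List Bk4 → Set (ℕ × ℕ)
  | [] => ∅
  | g :: L => g.Z ∪ ZB L

/-- columns of a list of blocks -/
def colsB (L : List Bk4) : List ℕ := L.flatMap Bk4.cols

theorem ZB_le {L : List Bk4} {n : ℕ} (h : ∀ g ∈ L, g.top ≤ n) : ∀ c ∈ ZB L, c.1 + c.2 + 1 ≤ n := by
  induction L with
  | nil => intro c hc; exact hc.elim
  | cons g L ih =>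
    rintro c (hc | hc)
    · exact (g.Z_le c hc).trans (h g (by simp))
    · exact ih (fun g' hg' => h g' (by simp [hg'])) c hc

universe u

/-- the block `κ` is hit by all vectors with an admissible arrangement -/
def Hits (κ : Bk4) : Prop :=
  ∀ {T : Type} [Fintype T] [DecidableEq T] {W : Type u} [AddCommGroup W] [Module ℂ W]
    (ρ : Representation ℂ (Perm T) W) (rk col : T → ℕ)
    (_ : ∀ s t, rk s = rk t → col s = col t → s = t)
    (_ : ∀ t a, a < rk t → ∃ s, rk s = a ∧ col s = col t)
    (_ : κ.OK T rk col) (x : W) (_ : SwapFixed ρ rk x) (_ : colAsym ρ col x ≠ 0),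
    HitZ ρ (colS κ.cols) (colS κ.cols) κ.Z x

theorem hits_pair (c : ℕ) (hc : 1 ≤ c) : Hits.{u} (.pair c) := by
  intro T _ _ W _ _ ρ rk col hinj htop hok x hfix hA
  have hx : x ≠ 0 := by
    rintro rfl
    exact hA (map_zero _)
  obtain ⟨h1, h2⟩ := hok
  change HitZ ρ (colS [c, c - 1]) (colS [c, c - 1]) (zigZ c) x
  rw [← pairShape_eq]
  exact hitZ_pair c hc h1 ρ rk h2 x hx hfix

theorem hits_rect (c k : ℕ) : Hits.{u} (.rect c k) := by
  intro T _ _ W _ _ ρ rk col hinj htop hok x hfix hA
  have hx : x ≠ 0 := by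
    rintro rfl
    exact hA (map_zero _)
  obtain ⟨h1, h2⟩ := hok
  change HitZ ρ (colS (List.replicate k c)) (colS (List.replicate k c)) (antiZ c) x
  rw [← rectShape_eq]
  exact hitZ_rect c k h1 ρ rk h2 x hx hfix

theorem hits_dup (c : ℕ) : Hits.{u} (.dup c) := by
  intro T _ _ W _ _ ρ rk col hinj htop hok x hfix hA
  obtain ⟨h1, h2, π, h3, h4, h5, h6⟩ := hok
  change HitZ ρ (colS (List.replicate 2 c)) (colS (List.replicate 2 c)) (antiZ c) x
  rw [← rectShape_eq]
  exact hitZ_dup c h1 ρ rk col h2 hinj htop π h3 h4 h5 h6 x hfix hA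

/-- **The engine**: a list of blocks. -/
theorem hit4_list : ∀ (L : List Bk4), validB L → (∀ κ ∈ L, Hits.{u} κ) →
    ∀ {T : Type} [Fintype T] [DecidableEq T] {W : Type u} [AddCommGroup W] [Module ℂ W]
      (ρ : Representation ℂ (Perm T) W) (γ rk col : T → ℕ) (_ : ∀ t, γ t < L.length)
      (_ : ∀ s t, γ s = γ t → rk s = rk t → col s = col t → s = t)
      (_ : ∀ t a, a < rk t → ∃ s, γ s = γ t ∧ rk s = a ∧ col s = col t)
      (_ : ∀ (i : ℕ) (hi : i < L.length), (L[i]).OK {t // γ t = i} (fun t => rk t) (fun t => col t))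
      (x : W) (_ : SwapFixed ρ (fun t => (γ t, rk t)) x)
      (_ : colAsym ρ (fun t => Nat.pair (γ t) (col t)) x ≠ 0),
      HitZ ρ (colS (colsB L)) (colS (colsB L)) (ZB L) x := by
  intro L
  induction L with
  | nil =>
    intro _ _ T _ _ W _ _ ρ γ rk col hγ _ _ _ x _ hA
    have hT : IsEmpty T := ⟨fun t => by simpa using hγ t⟩
    have hx : x ≠ 0 := by
      rintro rfl
      exact hA (map_zero _)
    have htab : IsTab (∅ : Finset (ℕ × ℕ)) (fun _ : T => ((0, 0) : ℕ × ℕ)) := by
      constructor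
      · intro s; exact (hT.false s).elim
      · ext c
        simp
    have hnil : colS (colsB []) = ∅ := colS_nil
    rw [hnil]
    refine ⟨0, prodF (polyF fun _ : T => (0, 0)) (polyF fun _ : T => (0, 0)),
      Submodule.subset_span ⟨_, _, htab, htab, rfl⟩, ?_, fun _ => (0, 0), ?_, ?_, ?_⟩
    · intro v _
      exact ⟨Nat.zero_le _, fun _ t => (hT.false t).elim⟩
    · unfold cost
      simp
    · intro t; exact (hT.false t).elim
    · have hone : ∀ w : T → ℕ, polyF (fun _ : T => ((0, 0) : ℕ × ℕ)) w = 1 := by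
        intro w
        unfold polyF
        rw [Fintype.sum_unique]
        have : (default : Perm T) = 1 := Subsingleton.elim _ _
        rw [if_pos ⟨fun i => (hT.false i).elim, fun i => (hT.false i).elim⟩, this]
        simp
      rw [hitOp_apply, Fintype.sum_unique]
      have : (default : Perm T) = 1 := Subsingleton.elim _ _
      rw [this]
      unfold prodF
      rw [hone, hone]
      simpa using hx
  | cons κ L ih =>
    intro hL hHits T _ _ W _ _ ρ γ rk col hγ hinj htop hok x hfix hA
    obtain ⟨h1, h2, h3⟩ := hL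
    let p : T → Prop := fun t => γ t = 0
    have hd : ∀ s t, Nat.pair (γ s) (col s) = Nat.pair (γ t) (col t) → (p s ↔ p t) := by
      intro s t h
      have := (Nat.pair_eq_pair.1 h).1
      simp only [p, this]
    have hdis : Disjoint κ.Z (ZB L) := by
      rw [Set.disjoint_left]
      intro c hc1 hc2
      have h4 := κ.Z_gt (κ.low_pos.trans h1) c hc1
      have h5 := ZB_le h2 c hc2
      omega
    have hdP : ∀ s t : {t // p t}, resP p (fun t => Nat.pair (γ t) (col t)) s =
        resP p (fun t => Nat.pair (γ t) (col t)) t ↔ col s = col t := by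
      intro s t
      change Nat.pair (γ s) (col s) = Nat.pair (γ t) (col t) ↔ _
      rw [Nat.pair_eq_pair]
      have hs : γ s = 0 := s.2
      have ht : γ t = 0 := t.2
      rw [hs, ht]
      simp
    have hdN : ∀ s t : {t // ¬ p t}, resN p (fun t => Nat.pair (γ t) (col t)) s =
        resN p (fun t => Nat.pair (γ t) (col t)) t ↔
        Nat.pair (γ s - 1) (col s) = Nat.pair (γ t - 1) (col t) := by
      intro s t
      change Nat.pair (γ s) (col s) = Nat.pair (γ t) (col t) ↔ _
      rw [Nat.pair_eq_pair, Nat.pair_eq_pair]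
      have hs : γ s ≠ 0 := s.2
      have ht : γ t ≠ 0 := t.2
      constructor
      · rintro ⟨h, h'⟩; exact ⟨by omega, h'⟩
      · rintro ⟨h, h'⟩; exact ⟨by omega, h'⟩
    have hcols : colsB (κ :: L) = κ.cols ++ colsB L := rfl
    rw [hcols, colS_append]
    change HitZ ρ _ _ (κ.Z ∪ ZB L) x
    refine HitZ.step (p := p) (fun c hc => colS_snd_lt hc) (fun c hc => colS_snd_lt hc) hdis hd hA
      ?_ ?_
    · intro hne
      rw [colAsym_congr (resRepN p ρ) (d := resN p fun t => Nat.pair (γ t) (col t)) hdN] at hne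
      refine ih h3 (fun κ' hκ' => hHits κ' (List.mem_cons_of_mem _ hκ')) (resRepN p ρ)
        (fun t => γ t - 1) (fun t => rk t) (fun t => col t) ?_ ?_ ?_ ?_ _ ?_ hne
      · intro t
        have h4 := hγ t
        have h5 : γ t ≠ 0 := t.2
        simp only [List.length_cons] at h4
        omega
      · intro s t ha hb hc
        have hs : γ s ≠ 0 := s.2
        have ht : γ t ≠ 0 := t.2
        exact Subtype.ext (hinj _ _ (by omega) hb hc)
      · intro t a ha
        obtain ⟨s, hs1, hs2, hs3⟩ := htop t a ha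
        exact ⟨⟨s, fun h => t.2 (hs1.symm.trans h)⟩, by simp only [hs1], hs2, hs3⟩
      · intro i hi
        have h4 := hok (i + 1) (by simp only [List.length_cons]; omega)
        let e : {s : {t // ¬ p t} // γ s - 1 = i} ≃ {t // γ t = i + 1} :=
          { toFun := fun s => ⟨s.1.1, by
              have hs : γ s.1.1 ≠ 0 := s.1.2
              have := s.2
              omega⟩
            invFun := fun t => ⟨⟨t.1, by
              have := t.2
              change ¬ γ t.1 = 0
              omega⟩, by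
              have := t.2
              simp only
              omega⟩
            left_inv := fun s => rfl
            right_inv := fun t => rfl }
        exact Bk4.OK.congr e h4
      · intro a b hab
        have hs : γ a ≠ 0 := a.2
        have ht : γ b ≠ 0 := b.2
        rw [colAsymP_comm]
        congr 1
        have h5 : γ a - 1 = γ b - 1 := congrArg Prod.fst hab
        have h6 : rk a = rk b := congrArg Prod.snd hab
        refine hfix.resN p a b ?_
        change (γ a, rk a) = (γ b, rk b)
        rw [h6, show γ a = γ b by omega]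
    · intro G u hne
      rw [colAsym_congr (resRepP p ρ) (d := resP p fun t => Nat.pair (γ t) (col t)) hdP] at hne
      refine hHits κ List.mem_cons_self (resRepP p ρ) (fun t => rk t) (fun t => col t)
        ?_ ?_ ?_ _ ?_ hne
      · intro s t hb hc
        have hs : γ s = 0 := s.2
        have ht : γ t = 0 := t.2
        exact Subtype.ext (hinj _ _ (by rw [hs, ht]) hb hc)
      · intro t a ha
        obtain ⟨s, hs1, hs2, hs3⟩ := htop t a ha
        exact ⟨⟨s, by change γ s = 0; rw [hs1]; exact t.2⟩, hs2, hs3⟩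
      · exact hok 0 (by simp)
      · intro a b hab
        rw [hitOpN_comm]
        congr 1
        refine hfix.resP p a b ?_
        have hs : γ a = 0 := a.2
        have ht : γ b = 0 := b.2
        change (γ a, rk a) = (γ b, rk b)
        rw [hs, ht]
        exact congrArg _ hab

end Crest.Agent.R195
private theorem rz_dfe49fa1f2 : type_of% @_root_.Crest.Agent.R195.Bk4.Z.eq_1 := @_root_.Crest.Agent.R195.Bk4.Z.eq_1 -- L135
private theorem rz_34b29375ec : type_of% @_root_.Crest.Agent.R195.Bk4.low.eq_1 := @_root_.Crest.Agent.R195.Bk4.low.eq_1 -- L121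
private theorem rz_0b79af300d : type_of% @_root_.Crest.Agent.R195.Bk4.next.eq_1 := @_root_.Crest.Agent.R195.Bk4.next.eq_1 -- L128
private theorem rz_a889b11ff5 : type_of% @_root_.Crest.Agent.R195.Bk4.top.eq_1 := @_root_.Crest.Agent.R195.Bk4.top.eq_1 -- L114
end

-- ▼ part R195/GapGadget
section

/-! Row 195: the gadget for two columns `(c, c-2)`: tableaux with at most four rows whose columns are
matched in pairs of equal height, with at least one matched pair of columns of height exactly two. -/

set_option autoImplicit false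

namespace Crest.Agent.R195

open Finset Function Equiv

theorem sign_eq_one_of_comm {T : Type*} [Fintype T] [DecidableEq T] (π : T → T)
    (hπ : ∀ t, π (π t) = t) (col : T → ℕ) (hcπ : ∀ t, col (π t) ≠ col t) (κ : Perm T)
    (hκ : ∀ t, col (κ t) = col t) (hcomm : ∀ t, κ (π t) = π (κ t)) : Perm.sign κ = 1 := by
  classical
  let p : T → Prop := fun t => col t < col (π t)
  have hpκ : ∀ t, p (κ t) ↔ p t := by
    intro t
    show col (κ t) < col (π (κ t)) ↔ col t < col (π t)
    rw [hκ, ← hcomm, hκ]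
  have hpπ : ∀ t, p (π t) ↔ ¬ p t := by
    intro t
    show col (π t) < col (π (π t)) ↔ ¬ col t < col (π t)
    rw [hπ]
    have := hcπ t
    omega
  let πe : Perm T := ⟨π, π, hπ, hπ⟩
  have hπe : ∀ t, πe t = π t := fun t => rfl
  let κ1 : Perm T := Perm.ofSubtype (κ.subtypePerm (p := p) hpκ)
  have hκ1p : ∀ t, p t → κ1 t = κ t := by
    intro t ht
    simp only [κ1]
    rw [Perm.ofSubtype_apply_of_mem _ ht]
    rfl
  have hκ1n : ∀ t, ¬ p t → κ1 t = t := by
    intro t ht
    simp only [κ1]
    exact Perm.ofSubtype_apply_of_not_mem _ ht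
  have hfac : κ = κ1 * (πe * κ1 * πe⁻¹) := by
    ext t : 1
    have h2 : πe⁻¹ t = π t := by
      rw [Perm.inv_eq_iff_eq, hπe, hπ]
    rw [Perm.mul_apply, Perm.mul_apply, Perm.mul_apply, h2]
    by_cases ht : p t
    · have h3 : ¬ p (π t) := by rw [hpπ]; exact not_not.2 ht
      rw [hκ1n _ h3, hπe, hπ, hκ1p _ ht]
    · have h3 : p (π t) := (hpπ t).2 ht
      rw [hκ1p _ h3, hcomm, hπe, hπ, hκ1n]
      rw [hpκ]
      exact ht
  rw [hfac, Perm.sign_mul, Perm.sign_mul, Perm.sign_mul, Perm.sign_inv]
  rcases Int.units_eq_one_or (Perm.sign κ1) with h | h <;>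
    rcases Int.units_eq_one_or (Perm.sign πe) with h' | h' <;> simp [h, h']

/-- rotated orthonormal frame up to the factor `2` -/
noncomputable def qg (a : Fin 4) : Matrix (Fin 2) (Fin 2) ℂ :=
  match a with
  | 0 => !![1, 0; 0, 1]
  | 1 => !![0, 1; -1, 0]
  | 2 => !![Complex.I, 0; 0, -Complex.I]
  | 3 => !![0, Complex.I; Complex.I, 0]

/-- indicator of the label `0` -/
noncomputable def dl (a : Fin 2) : ℂ := if a = 0 then 1 else 0

/-- the weight of a pair of letters -/
noncomputable def gapW (n : ℕ) (i : Fin (n+2)) (y0 y1 : Fin 2 × Fin 2) : ℂ :=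
  (if i = Fin.last (n+1) then dl y0.1 * dl y1.1 else eps2 y0.1 y1.1) *
  (if i = 0 then dl y0.2 * dl y1.2 else eps2 y0.2 y1.2)

/-- the form of a pair of letters -/
noncomputable def gapF (n : ℕ) (i : Fin (n+2)) (a b : Fin 4) : ℂ :=
  ∑ y : Fin 2 → Fin 2 × Fin 2, (∏ k : Fin 2, qg (![a, b] k) (y k).1 (y k).2) *
    gapW n i (y 0) (y 1)

theorem gapF_eq (n : ℕ) (i : Fin (n+2)) (a b : Fin 4) : gapF n i a b =
    ∑ x1 : Fin 2, ∑ x2 : Fin 2, ∑ y1 : Fin 2, ∑ y2 : Fin 2,
      (qg a x1 x2 * qg b y1 y2) * gapW n i (x1, x2) (y1, y2) := by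
  unfold gapF
  rw [← Equiv.sum_comp (finTwoArrowEquiv (Fin 2 × Fin 2)).symm, Fintype.sum_prod_type]
  simp only [Fintype.sum_prod_type, Fin.prod_univ_two, finTwoArrowEquiv, Equiv.coe_fn_symm_mk,
    Matrix.cons_val_zero, Matrix.cons_val_one]

theorem gapF_mid (n : ℕ) (i : Fin (n+2)) (h0 : i ≠ 0) (h1 : i ≠ Fin.last (n+1)) (a b : Fin 4) :
    gapF n i a b = if a = b then 2 else 0 := by
  rw [gapF_eq]
  unfold gapW
  simp only [h0, h1, if_false, Fin.sum_univ_two]
  fin_cases a <;> fin_cases b <;> simp [qg, eps2] <;> norm_num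

theorem gapF_zero (n : ℕ) (a b : Fin 4) :
    gapF n 0 a b = qg a 0 0 * qg b 1 0 - qg a 1 0 * qg b 0 0 := by
  rw [gapF_eq]
  unfold gapW
  have h1 : (0 : Fin (n+2)) ≠ Fin.last (n+1) := by
    intro h
    have := congrArg Fin.val h
    simp at this
  simp only [h1, if_false, if_true, Fin.sum_univ_two, dl]
  simp [eps2]
  ring

theorem gapF_last (n : ℕ) (a b : Fin 4) :
    gapF n (Fin.last (n+1)) a b = qg a 0 0 * qg b 0 1 - qg a 0 1 * qg b 0 0 := by
  rw [gapF_eq]
  unfold gapW
  have h1 : Fin.last (n+1) ≠ 0 := by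
    intro h
    have := congrArg Fin.val h
    simp at this
  simp only [h1, if_false, if_true, Fin.sum_univ_two, dl]
  simp [eps2]
  ring

theorem gapF_zero_swap (n : ℕ) (a b : Fin 4) : gapF n 0 b a = - gapF n 0 a b := by
  rw [gapF_zero, gapF_zero]; ring

theorem gapF_last_swap (n : ℕ) (a b : Fin 4) :
    gapF n (Fin.last (n+1)) b a = - gapF n (Fin.last (n+1)) a b := by
  rw [gapF_last, gapF_last]; ring

theorem gapF_zero_01 (n : ℕ) : gapF n 0 0 1 = -1 := by
  rw [gapF_zero]; simp [qg]

theorem gapF_last_01 (n : ℕ) : gapF n (Fin.last (n+1)) 0 1 = 1 := by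
  rw [gapF_last]; simp [qg]

/-- the shape with columns `n + 3` and `n + 1` -/
def gapD (n : ℕ) : Finset (ℕ × ℕ) :=
  (range (n+3) ×ˢ range 2).filter fun x => x.1 + 2 * x.2 < n + 3

theorem mem_gapD {n : ℕ} {x : ℕ × ℕ} : x ∈ gapD n ↔ x.2 < 2 ∧ x.1 + 2 * x.2 < n + 3 := by
  unfold gapD
  rw [mem_filter, mem_product, mem_range, mem_range]
  constructor
  · rintro ⟨⟨-, h⟩, h'⟩; exact ⟨h, h'⟩
  · rintro ⟨h, h'⟩; exact ⟨⟨by omega, h⟩, h'⟩

section X

variable {T : Type} [Fintype T] [DecidableEq T] {n : ℕ}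

/-- first product -/
noncomputable def gapX1 (e : (Σ _ : Fin (n+2), Fin 2) ≃ T) (s : T → Fin 2) : ℂ :=
  ∏ i : Fin (n+2), if i = Fin.last (n+1) then dl (s (e ⟨i, 0⟩)) * dl (s (e ⟨i, 1⟩)) else
    eps2 (s (e ⟨i, 0⟩)) (s (e ⟨i, 1⟩))

/-- second product -/
noncomputable def gapX2 (e : (Σ _ : Fin (n+2), Fin 2) ≃ T) (s : T → Fin 2) : ℂ :=
  ∏ i : Fin (n+2), if i = 0 then dl (s (e ⟨i, 0⟩)) * dl (s (e ⟨i, 1⟩)) else
    eps2 (s (e ⟨i, 0⟩)) (s (e ⟨i, 1⟩))

/-- row word of a position -/
def gapR (p : Σ _ : Fin (n+2), Fin 2) : ℕ := (p.1 : ℕ) + if p.1 = Fin.last (n+1) then (p.2 : ℕ) else 0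

/-- label word of a position -/
def gapL (p : Σ _ : Fin (n+2), Fin 2) : ℕ := if p.1 = Fin.last (n+1) then 0 else (p.2 : ℕ)

/-- row word -/
def gapRow (e : (Σ _ : Fin (n+2), Fin 2) ≃ T) (t : T) : ℕ := gapR (e.symm t)

/-- label word -/
def gapCol (e : (Σ _ : Fin (n+2), Fin 2) ≃ T) (t : T) : ℕ := gapL (e.symm t)

/-- sizes of the rows -/
def gapSz (n : ℕ) : Fin (n+1) ⊕ Fin 2 → ℕ := Sum.elim (fun _ => 2) (fun _ => 1)

omit [DecidableEq T] in
theorem exists_gapE (e : (Σ _ : Fin (n+2), Fin 2) ≃ T) :
    ∃ e' : (Σ j : Fin (n+1) ⊕ Fin 2, Fin (gapSz n j)) ≃ T,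
      (∀ (j : Fin (n+1)) (x : Fin 2), e' ⟨Sum.inl j, x⟩ = e ⟨j.castSucc, x⟩) ∧
      ∀ (k : Fin 2) (x : Fin 1), e' ⟨Sum.inr k, x⟩ = e ⟨Fin.last (n+1), k⟩ := by
  let f : (Σ j : Fin (n+1) ⊕ Fin 2, Fin (gapSz n j)) → T := fun q => match q with
    | ⟨Sum.inl j, x⟩ => e ⟨j.castSucc, x⟩
    | ⟨Sum.inr k, _⟩ => e ⟨Fin.last (n+1), k⟩
  have hf : Bijective f := by
    rw [Fintype.bijective_iff_injective_and_card]
    constructor
    · rintro ⟨j | k, x⟩ ⟨j' | k', x'⟩ h
      · have h1 := e.injective h
        simp only [Sigma.mk.injEq, Fin.castSucc_inj, heq_eq_eq] at h1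
        obtain ⟨rfl, h2⟩ := h1
        have h3 : x = x' := h2
        rw [h3]
      · have h1 := e.injective h
        simp only [Sigma.mk.injEq] at h1
        exact absurd h1.1 (Fin.castSucc_lt_last j).ne
      · have h1 := e.injective h
        simp only [Sigma.mk.injEq] at h1
        exact absurd h1.1.symm (Fin.castSucc_lt_last j').ne
      · have h1 := e.injective h
        simp only [Sigma.mk.injEq, heq_eq_eq, true_and] at h1
        obtain rfl := h1
        have h3 : x = x' := Subsingleton.elim (α := Fin 1) x x'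
        rw [h3]
    · have h : Fintype.card (Σ j : Fin (n+1) ⊕ Fin 2, Fin (gapSz n j))
          = ∑ j : Fin (n+1) ⊕ Fin 2, gapSz n j := by
        rw [Fintype.card_sigma]
        exact Finset.sum_congr rfl fun b _ => Fintype.card_fin _
      rw [h, ← Fintype.card_congr e, Fintype.card_sigma, Fintype.sum_sum_type]
      show ∑ j : Fin (n+1), 2 + ∑ j : Fin 2, 1 = ∑ i : Fin (n+2), Fintype.card (Fin 2)
      simp only [Finset.sum_const, Finset.card_univ, Fintype.card_fin, smul_eq_mul]
      ring
  exact ⟨Equiv.ofBijective f hf, fun _ _ => rfl, fun _ _ => rfl⟩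

theorem gapX1_eq (e : (Σ _ : Fin (n+2), Fin 2) ≃ T) (s : T → Fin 2) :
    polyt (gapCol e) (gapRow e) (fun t => (s t : ℕ)) = gapX1 e s := by
  obtain ⟨e', he1, he2⟩ := exists_gapE e
  have hcast : ∀ j : Fin (n+1), j.castSucc ≠ Fin.last (n+1) := fun j => (Fin.castSucc_lt_last j).ne
  rw [← colFun_eq_polyt (c := gapSz n) e'
    (Sum.elim (fun j : Fin (n+1) => (j : ℕ)) (fun k : Fin 2 => n + 1 + (k : ℕ))) ?_
    (gapCol e) (gapRow e)]
  · unfold colFun gapX1
    rw [Fintype.prod_sum_type]
    conv_rhs => rw [Fin.prod_univ_castSucc, if_pos rfl]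
    congr 1
    · refine Finset.prod_congr rfl fun j _ => ?_
      rw [if_neg (hcast j)]
      have h1 := he1 j 0
      have h2 := he1 j 1
      have h3 := minor_two (fun x : Fin 2 => s (e' ⟨Sum.inl j, x⟩))
      exact h3.trans (congrArg₂ (fun a b => eps2 (s a) (s b)) h1 h2)
    · rw [Fin.prod_univ_two]
      have h1 := minor_one (fun x : Fin 1 => s (e' ⟨Sum.inr 0, x⟩))
      have h2 := minor_one (fun x : Fin 1 => s (e' ⟨Sum.inr 1, x⟩))
      exact congrArg₂ (· * ·) (h1.trans (congrArg (fun a => dl (s a)) (he2 0 0)))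
        (h2.trans (congrArg (fun a => dl (s a)) (he2 1 0)))
  · rintro (j | k) x
    · rw [he1 j x]
      simp [gapCol, gapL, hcast]
    · rw [he2 k x]
      have hx : x = (0 : Fin 1) := Subsingleton.elim (α := Fin 1) x 0
      subst hx
      simp [gapCol, gapL]
  · rintro (j | k) x
    · rw [he1 j x]
      simp [gapRow, gapR, hcast]
    · rw [he2 k x]
      simp [gapRow, gapR]
  · rintro (a | a) (b | b) h
    · simpa [Fin.ext_iff] using h
    · simp only [Sum.elim_inl, Sum.elim_inr] at h; have := a.2; omega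
    · simp only [Sum.elim_inl, Sum.elim_inr] at h; have := b.2; omega
    · simpa [Fin.ext_iff] using h

/-- the standard tableau -/
def gapTab (e : (Σ _ : Fin (n+2), Fin 2) ≃ T) (t : T) : ℕ × ℕ := (gapRow e t, gapCol e t)

omit [DecidableEq T] in
theorem isTab_gapTab (e : (Σ _ : Fin (n+2), Fin 2) ≃ T) : IsTab (gapD n) (gapTab e) := by
  constructor
  · intro s t h
    apply e.symm.injective
    have h1 := congrArg Prod.fst h
    have h2 := congrArg Prod.snd h
    simp only [gapTab, gapRow, gapCol, gapR, gapL] at h1 h2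
    rcases hs : e.symm s with ⟨i, x⟩
    rcases ht : e.symm t with ⟨j, y⟩
    rw [hs, ht] at h1 h2
    simp only at h1 h2
    have hi := i.2
    have hj := j.2
    have hx := x.2
    have hy := y.2
    by_cases hi1 : i = Fin.last (n+1) <;> by_cases hj1 : j = Fin.last (n+1)
    · subst hi1
      subst hj1
      simp only [if_true] at h1 h2
      have : x = y := Fin.ext (by omega)
      rw [this]
    · subst hi1
      simp only [hj1, if_true, if_false] at h1 h2
      have h3 : (j : ℕ) ≠ n + 1 := fun h => hj1 (Fin.ext h)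
      simp only [Fin.val_last] at h1
      omega
    · subst hj1
      simp only [hi1, if_true, if_false] at h1 h2
      have h3 : (i : ℕ) ≠ n + 1 := fun h => hi1 (Fin.ext h)
      simp only [Fin.val_last] at h1
      omega
    · simp only [hi1, hj1, if_false] at h1 h2
      have h3 : i = j := Fin.ext (by omega)
      have h4 : x = y := Fin.ext h2
      rw [h3, h4]
  · ext ⟨i, j⟩
    rw [mem_gapD]
    simp only [mem_image, mem_univ, true_and]
    constructor
    · rintro ⟨t, ht⟩
      have h1 := congrArg Prod.fst ht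
      have h2 := congrArg Prod.snd ht
      simp only [gapTab, gapRow, gapCol, gapR, gapL] at h1 h2
      have h3 := (e.symm t).1.2
      have h4 := (e.symm t).2.2
      by_cases h : (e.symm t).1 = Fin.last (n+1)
      · rw [if_pos h] at h1 h2
        omega
      · rw [if_neg h] at h1 h2
        have h5 : ((e.symm t).1 : ℕ) ≠ n + 1 := fun h' => h (Fin.ext h')
        omega
    · rintro ⟨hi, hj⟩
      by_cases h : i < n + 1
      · refine ⟨e ⟨⟨i, by omega⟩, ⟨j, hi⟩⟩, ?_⟩
        have h5 : (⟨i, by omega⟩ : Fin (n+2)) ≠ Fin.last (n+1) := by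
          intro h'
          have := congrArg Fin.val h'
          simp only [Fin.val_last] at this
          omega
        simp [gapTab, gapRow, gapCol, gapR, gapL, h5]
      · refine ⟨e ⟨Fin.last (n+1), ⟨i - (n+1), by omega⟩⟩, ?_⟩
        simp only [gapTab, gapRow, gapCol, gapR, gapL, Equiv.symm_apply_apply, if_true,
          Fin.val_last]
        ext
        · simp only; omega
        · simp only; omega

/-- evaluation of polytabloids at permuted row words -/
theorem polyF_word (row col : T → ℕ) (s : T → Fin 2)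
    (hs : ∃ g : Perm T, polyt col row (fun t => ((s (g t) : Fin 2) : ℕ)) ≠ 0) :
    ∃ θ : Perm T, ∀ g : Perm T, polyF ((fun t => (row t, col t)) ∘ θ.symm) (row ∘ g)
      = ((Perm.sign θ : ℤ) : ℂ) * (((Perm.sign g : ℤ) : ℂ) *
        polyt col row (fun t => ((s (g.symm t) : Fin 2) : ℕ))) := by
  obtain ⟨g1, h1⟩ := hs
  unfold polyt at h1
  obtain ⟨ρ, -, hρ'⟩ := Finset.exists_ne_zero_of_sum_ne_zero h1
  have hρ : ∀ t, ((s (g1 t) : Fin 2) : ℕ) = col (ρ t) := by
    by_contra hcon
    exact hρ' (if_neg (fun h => hcon h.2))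
  set θ : Perm T := g1 * ρ⁻¹ with hθ
  have hsθ : ∀ p, ((s (θ p) : Fin 2) : ℕ) = col p := by
    intro p
    have := hρ (ρ⁻¹ p)
    simpa [hθ] using this
  refine ⟨θ, fun g => ?_⟩
  rw [← polyF_act, polyF_eq_polyt]
  have h2 : ((row ∘ g) ∘ θ) = row ∘ (g * θ : Perm T) := rfl
  have h3 := polyt_dual row col (g * θ)
  rw [h2]
  change polyt row col _ = _
  rw [h3, Perm.sign_mul]
  have h4 : (col ∘ (g * θ : Perm T).symm) = fun p => ((s (g.symm p) : Fin 2) : ℕ) := by
    funext p
    have := hsθ ((g * θ : Perm T).symm p)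
    rw [comp_apply, ← this]
    have h5 : θ ((g * θ : Perm T).symm p) = g.symm p := by
      apply g.injective
      have : g (θ ((g * θ : Perm T).symm p)) = (g * θ) ((g * θ : Perm T).symm p) := rfl
      rw [this, Equiv.apply_symm_apply, Equiv.apply_symm_apply]
    rw [h5]
  rw [h4]
  push_cast
  ring

/-- reversal of the positions -/
def gapRevP (n : ℕ) : Perm (Σ _ : Fin (n+2), Fin 2) where
  toFun p := ⟨Fin.rev p.1, Fin.rev p.2⟩
  invFun p := ⟨Fin.rev p.1, Fin.rev p.2⟩
  left_inv p := by simp
  right_inv p := by simp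

/-- reversal of the letters -/
def gapRev (e : (Σ _ : Fin (n+2), Fin 2) ≃ T) : Perm T := (e.symm.trans (gapRevP n)).trans e

omit [Fintype T] [DecidableEq T] in
theorem gapRev_apply (e : (Σ _ : Fin (n+2), Fin 2) ≃ T) (i : Fin (n+2)) (k : Fin 2) :
    gapRev e (e ⟨i, k⟩) = e ⟨Fin.rev i, Fin.rev k⟩ := by
  simp [gapRev, gapRevP]

omit [Fintype T] [DecidableEq T] in
theorem gapRev_symm (e : (Σ _ : Fin (n+2), Fin 2) ≃ T) (t : T) :
    (gapRev e).symm t = gapRev e t := by
  rw [Equiv.symm_apply_eq]
  simp [gapRev, gapRevP]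

theorem eps2_swap (a b : Fin 2) : eps2 a b = -eps2 b a := by
  fin_cases a <;> fin_cases b <;> simp [eps2]

theorem exists_gapX_rev (n : ℕ) : ∃ C : ℂ, C ≠ 0 ∧
    ∀ {T : Type} [Fintype T] [DecidableEq T] (e : (Σ _ : Fin (n+2), Fin 2) ≃ T) (s : T → Fin 2),
      gapX1 e (fun t => s (gapRev e t)) = C * gapX2 e s := by
  refine ⟨∏ i : Fin (n+2), if i = 0 then (1 : ℂ) else -1, ?_, ?_⟩
  · rw [Finset.prod_ne_zero_iff]
    intro i _
    split_ifs <;> norm_num
  · intro T _ _ e s
    unfold gapX1 gapX2
    rw [← Finset.prod_mul_distrib, ← Equiv.prod_comp Fin.revPerm]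
    refine Finset.prod_congr rfl fun i _ => ?_
    have hr1 : Fin.rev (1 : Fin 2) = 0 := rfl
    have hr0 : Fin.rev (0 : Fin 2) = 1 := rfl
    simp only [Fin.revPerm_apply, gapRev_apply, Fin.rev_rev, hr0, hr1]
    have h1 : Fin.rev i = Fin.last (n+1) ↔ i = 0 := by
      rw [← Fin.rev_zero, Fin.rev_inj]
    by_cases h : i = 0
    · rw [if_pos (h1.2 h), if_pos h, if_pos h]
      ring
    · rw [if_neg (fun h' => h (h1.1 h')), if_neg h, if_neg h, eps2_swap]
      ring

theorem exists_gap_row1 (e : (Σ _ : Fin (n+2), Fin 2) ≃ T) (s : T → Fin 2)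
    (hs : ∃ g : Perm T, gapX1 e (fun t => s (g t)) ≠ 0) :
    ∃ τ : T → ℕ × ℕ, IsTab (gapD n) τ ∧ ∃ C : ℂ, C ≠ 0 ∧ ∀ g : Perm T,
      polyF τ (fun t => gapRow e (g t))
        = C * (((Perm.sign g : ℤ) : ℂ) * gapX1 e (fun t => s (g.symm t))) := by
  obtain ⟨g1, hg1⟩ := hs
  obtain ⟨θ, hθ⟩ := polyF_word (gapRow e) (gapCol e) s ⟨g1, by rw [gapX1_eq]; exact hg1⟩
  refine ⟨(fun t => (gapRow e t, gapCol e t)) ∘ θ.symm, (isTab_gapTab e).comp θ.symm,
    ((Perm.sign θ : ℤ) : ℂ), ?_, ?_⟩
  · rcases Int.units_eq_one_or (Perm.sign θ) with h | h <;> simp [h]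
  · intro g
    have := hθ g
    rw [gapX1_eq] at this
    exact this

theorem exists_gap_row2 (e : (Σ _ : Fin (n+2), Fin 2) ≃ T) (s : T → Fin 2)
    (hs : ∃ g : Perm T, gapX2 e (fun t => s (g t)) ≠ 0) :
    ∃ τ : T → ℕ × ℕ, IsTab (gapD n) τ ∧ ∃ C : ℂ, C ≠ 0 ∧ ∀ g : Perm T,
      polyF τ (fun t => gapRow e (gapRev e (g t)))
        = C * (((Perm.sign g : ℤ) : ℂ) * gapX2 e (fun t => s (g.symm t))) := by
  obtain ⟨g1, hg1⟩ := hs
  obtain ⟨C0, hC0, hrev⟩ := exists_gapX_rev n
  obtain ⟨τ, hτ, C, hC, hτC⟩ := exists_gap_row1 e s ⟨g1 * gapRev e, by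
    have h1 : (fun t => s ((g1 * gapRev e : Perm T) t)) = fun t => (fun x => s (g1 x)) (gapRev e t) :=
      rfl
    rw [h1, hrev e (fun x => s (g1 x))]
    exact mul_ne_zero hC0 hg1⟩
  refine ⟨τ, hτ, C * ((Perm.sign (gapRev e) : ℤ) : ℂ) * C0, ?_, ?_⟩
  · refine mul_ne_zero (mul_ne_zero hC ?_) hC0
    rcases Int.units_eq_one_or (Perm.sign (gapRev e)) with h | h <;> simp [h]
  · intro g
    have h1 := hτC (gapRev e * g)
    have h2 : (fun t => gapRow e ((gapRev e * g : Perm T) t)) =
      fun t => gapRow e (gapRev e (g t)) := rfl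
    have h3 : (fun t => s ((gapRev e * g : Perm T).symm t)) =
        fun t => (fun x => s (g.symm x)) (gapRev e t) := by
      funext t
      show s (g.symm ((gapRev e).symm t)) = s (g.symm (gapRev e t))
      rw [gapRev_symm]
    rw [h2, h3, hrev e (fun x => s (g.symm x)), Perm.sign_mul] at h1
    rw [h1]
    push_cast
    ring

/-- the functional of the gap piece -/
noncomputable def gapPsi0 (e : (Σ _ : Fin (n+2), Fin 2) ≃ T) (r : T → Fin 4) : ℂ :=
  ∏ i : Fin (n+2), gapF n i (r (e ⟨i, 0⟩)) (r (e ⟨i, 1⟩))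

theorem gap_expand (e : (Σ _ : Fin (n+2), Fin 2) ≃ T) (r : T → Fin 4) :
    ∑ z : T → Fin 2 × Fin 2, (∏ t, qg (r t) (z t).1 (z t).2) *
      (gapX1 e (fun t => (z t).1) * gapX2 e (fun t => (z t).2)) = gapPsi0 e r := by
  let φ : (T → Fin 2 × Fin 2) ≃ (Fin (n+2) → Fin 2 → Fin 2 × Fin 2) :=
    (Equiv.arrowCongr e.symm (Equiv.refl _)).trans
      (Equiv.piCurry (fun (_ : Fin (n+2)) (_ : Fin 2) => Fin 2 × Fin 2))
  have hφ : ∀ z i k, φ z i k = z (e ⟨i, k⟩) := fun z i k => rfl
  have h1 : ∀ z : T → Fin 2 × Fin 2, (∏ t, qg (r t) (z t).1 (z t).2) *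
      (gapX1 e (fun t => (z t).1) * gapX2 e (fun t => (z t).2))
      = ∏ i : Fin (n+2), ((∏ k : Fin 2, qg (![r (e ⟨i, 0⟩), r (e ⟨i, 1⟩)] k) (φ z i k).1
        (φ z i k).2) * gapW n i (φ z i 0) (φ z i 1)) := by
    intro z
    rw [Finset.prod_mul_distrib]
    congr 1
    · rw [← Equiv.prod_comp e, Fintype.prod_sigma]
      refine Finset.prod_congr rfl fun i _ => ?_
      rw [Fin.prod_univ_two, Fin.prod_univ_two]
      rfl
    · unfold gapX1 gapX2
      rw [← Finset.prod_mul_distrib]
      rfl
  simp only [h1]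
  rw [Equiv.sum_comp φ (fun y : Fin (n+2) → Fin 2 → Fin 2 × Fin 2 =>
    ∏ i : Fin (n+2), ((∏ k : Fin 2, qg (![r (e ⟨i, 0⟩), r (e ⟨i, 1⟩)] k) (y i k).1 (y i k).2) *
        gapW n i (y i 0) (y i 1)))]
  rw [← Fintype.prod_sum (fun (i : Fin (n+2)) (y : Fin 2 → Fin 2 × Fin 2) =>
    ((∏ k : Fin 2, qg (![r (e ⟨i, 0⟩), r (e ⟨i, 1⟩)] k) (y k).1 (y k).2) *
        gapW n i (y 0) (y 1)))]
  rfl

/-- antisymmetrised functional -/
noncomputable def gapPsi (e : (Σ _ : Fin (n+2), Fin 2) ≃ T) (col : T → ℕ) (r : T → Fin 4) : ℂ :=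
  ∑ κ : Perm T, if ∀ t, col (κ t) = col t then
    ((Perm.sign κ : ℤ) : ℂ) * gapPsi0 e (fun t => r (κ t)) else 0

theorem gapPsi_alt (e : (Σ _ : Fin (n+2), Fin 2) ≃ T) (col : T → ℕ) (κ : Perm T)
    (hκ : ∀ t, col (κ t) = col t) (r : T → Fin 4) :
    gapPsi e col (r ∘ κ) = ((Perm.sign κ : ℤ) : ℂ) * gapPsi e col r := by
  unfold gapPsi
  conv_rhs => rw [← Equiv.sum_comp (Equiv.mulLeft κ)]
  rw [Finset.mul_sum]
  refine Finset.sum_congr rfl fun g _ => ?_
  have h1 : (∀ t, col ((Equiv.mulLeft κ g) t) = col t) ↔ ∀ t, col (g t) = col t := by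
    simp only [Equiv.coe_mulLeft, Perm.mul_apply, hκ]
  have hs : ((Perm.sign κ : ℤ) : ℂ) * ((Perm.sign κ : ℤ) : ℂ) = 1 := by
    rcases Int.units_eq_one_or (Perm.sign κ) with h | h <;> simp [h]
  by_cases h : ∀ t, col (g t) = col t
  · rw [if_pos h, if_pos (h1.2 h)]
    have h2 : (fun t => r ((Equiv.mulLeft κ g) t)) = fun t => (r ∘ κ) (g t) := rfl
    rw [h2, Equiv.coe_mulLeft, Perm.sign_mul]
    push_cast
    linear_combination (-((Perm.sign g : ℤ) : ℂ) * gapPsi0 e (fun t => (r ∘ κ) (g t))) * hs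
  · rw [if_neg h, if_neg (fun h' => h (h1.1 h')), mul_zero]

omit [Fintype T] in
theorem gapPsi0_swap (e : (Σ _ : Fin (n+2), Fin 2) ≃ T) (i0 : Fin (n+2))
    (hi : ∀ a b, gapF n i0 b a = - gapF n i0 a b) (r : T → Fin 4) :
    gapPsi0 e (fun t => r (swap (e ⟨i0, 0⟩) (e ⟨i0, 1⟩) t)) = - gapPsi0 e r := by
  unfold gapPsi0
  rw [← Finset.mul_prod_erase univ _ (mem_univ i0), ← Finset.mul_prod_erase univ _ (mem_univ i0)]
  beta_reduce
  rw [swap_apply_left, swap_apply_right, hi, neg_mul]
  congr 2
  refine Finset.prod_congr rfl fun i hi' => ?_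
  have hne : i ≠ i0 := (mem_erase.1 hi').1
  have h1 : ∀ k k', e ⟨i, k⟩ ≠ e ⟨i0, k'⟩ := by
    intro k k' h
    exact hne (congrArg Sigma.fst (e.injective h))
  rw [swap_apply_of_ne_of_ne (h1 _ _) (h1 _ _), swap_apply_of_ne_of_ne (h1 _ _) (h1 _ _)]

theorem gapPsi_ne_zero (e : (Σ _ : Fin (n+2), Fin 2) ≃ T) (π : T → T)
    (hπ : ∀ t, π (π t) = t) (row : T → Fin 4) (col : T → ℕ)
    (hinj : ∀ s t, row s = row t → col s = col t → s = t)
    (hπr : ∀ t, row (π t) = row t) (hπ0 : ∀ t, π t ≠ t)
    (hπc : ∀ s t, col s = col t → col (π s) = col (π t))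
    (hmid : ∀ i : Fin (n+2), i ≠ 0 → i ≠ Fin.last (n+1) → π (e ⟨i, 0⟩) = e ⟨i, 1⟩)
    (hend : ∀ k, π (e ⟨0, k⟩) = e ⟨Fin.last (n+1), k⟩)
    (hr : ∀ k : Fin 2, row (e ⟨0, k⟩) = ⟨k, by omega⟩)
    (hcol : ∀ t, col t = col (e ⟨0, 0⟩) ↔ (t = e ⟨0, 0⟩ ∨ t = e ⟨0, 1⟩)) :
    gapPsi e col row ≠ 0 := by
  classical
  have h0l : (0 : Fin (n+2)) ≠ Fin.last (n+1) := by
    intro h
    have := congrArg Fin.val h
    simp at this
  have hend' : ∀ k, π (e ⟨Fin.last (n+1), k⟩) = e ⟨0, k⟩ := by
    intro k; rw [← hend, hπ]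
  have hrl : ∀ k : Fin 2, row (e ⟨Fin.last (n+1), k⟩) = ⟨k, by omega⟩ := by
    intro k; rw [← hend, hπr, hr]
  have hcolπ : ∀ t, col (π t) ≠ col t := by
    intro t h
    exact hπ0 t (hinj _ _ (hπr t) h)
  have hcol01 : col (e ⟨0, 1⟩) = col (e ⟨0, 0⟩) := (hcol _).2 (Or.inr rfl)
  have hcoll : ∀ t, col t = col (e ⟨Fin.last (n+1), 0⟩) ↔
      (t = e ⟨Fin.last (n+1), 0⟩ ∨ t = e ⟨Fin.last (n+1), 1⟩) := by
    intro t
    constructor
    · intro h
      have h1 := hπc _ _ h
      rw [hend', hcol] at h1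
      rcases h1 with h1 | h1
      · left; rw [← hend, ← h1, hπ]
      · right; rw [← hend, ← h1, hπ]
    · rintro (rfl | rfl)
      · rfl
      · rw [← hend, ← hend]
        exact hπc _ _ hcol01
  have hcoll01 : col (e ⟨Fin.last (n+1), 1⟩) = col (e ⟨Fin.last (n+1), 0⟩) :=
    (hcoll _).2 (Or.inr rfl)
  -- the value at the identity
  have hval : gapPsi0 e row = -2 ^ n := by
    unfold gapPsi0
    rw [Fin.prod_univ_castSucc, Fin.prod_univ_succ]
    have h1 : ∀ i : Fin n, gapF n (i.succ.castSucc) (row (e ⟨i.succ.castSucc, 0⟩))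
        (row (e ⟨i.succ.castSucc, 1⟩)) = 2 := by
      intro i
      have h2 : i.succ.castSucc ≠ 0 := by
        intro h
        have := congrArg Fin.val h
        simp at this
      have h3 : i.succ.castSucc ≠ Fin.last (n+1) := (Fin.castSucc_lt_last _).ne
      rw [gapF_mid n _ h2 h3, if_pos]
      rw [← hmid _ h2 h3, hπr]
    rw [Finset.prod_congr rfl fun i _ => h1 i, Fin.castSucc_zero, hr, hr, hrl, hrl]
    have h4 : gapF n 0 ⟨((0 : Fin 2) : ℕ), by omega⟩ ⟨((1 : Fin 2) : ℕ), by omega⟩ = -1 :=
      gapF_zero_01 n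
    have h5 : gapF n (Fin.last (n+1)) ⟨((0 : Fin 2) : ℕ), by omega⟩ ⟨((1 : Fin 2) : ℕ), by omega⟩
      = 1 := gapF_last_01 n
    rw [h4, h5]
    simp
  set tm : Perm T → ℂ := fun κ => ((Perm.sign κ : ℤ) : ℂ) * gapPsi0 e (fun t => row (κ t)) with htm
  -- invariance under the two swaps
  have hswap : ∀ i0 : Fin (n+2), (∀ a b, gapF n i0 b a = - gapF n i0 a b) → ∀ κ : Perm T,
      tm (κ * swap (e ⟨i0, 0⟩) (e ⟨i0, 1⟩)) = tm κ := by
    intro i0 hi κ
    simp only [htm]
    have hne : e ⟨i0, 0⟩ ≠ e ⟨i0, 1⟩ := by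
      intro h
      have := e.injective h
      simp at this
    have h1 := gapPsi0_swap e i0 hi (fun t => row (κ t))
    simp only [Perm.mul_apply] at h1 ⊢
    rw [h1, Perm.sign_mul, Perm.sign_swap hne]
    push_cast
    ring
  -- normalised permutations
  have hfixed : ∀ κ : Perm T, (∀ t, col (κ t) = col t) → (∀ k, κ (e ⟨0, k⟩) = e ⟨0, k⟩) →
      (∀ k, κ (e ⟨Fin.last (n+1), k⟩) = e ⟨Fin.last (n+1), k⟩) → tm κ = 0 ∨ tm κ = -2 ^ n := by
    intro κ hκ hf0 hfl
    by_cases hz : gapPsi0 e (fun t => row (κ t)) = 0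
    · left; simp only [htm]; rw [hz, mul_zero]
    · right
      have hfac : ∀ i, gapF n i (row (κ (e ⟨i, 0⟩))) (row (κ (e ⟨i, 1⟩))) ≠ 0 := by
        intro i h
        exact hz (Finset.prod_eq_zero (mem_univ i) h)
      have hrow : ∀ i : Fin (n+2), i ≠ 0 → i ≠ Fin.last (n+1) →
          row (κ (e ⟨i, 0⟩)) = row (κ (e ⟨i, 1⟩)) := by
        intro i h1 h2
        by_contra h3
        exact hfac i (by rw [gapF_mid n i h1 h2, if_neg h3])
      have hcomm : ∀ t, κ (π t) = π (κ t) := by
        intro t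
        obtain ⟨⟨i, k⟩, rfl⟩ := e.surjective t
        by_cases h1 : i = 0
        · subst h1
          rw [hf0, hend, hfl]
        · by_cases h2 : i = Fin.last (n+1)
          · subst h2
            rw [hfl, hend', hf0]
          · apply hinj
            · rw [hπr]
              have hk : k = 0 ∨ k = 1 := by omega
              rcases hk with rfl | rfl
              · rw [hmid i h1 h2, hrow i h1 h2]
              · rw [← hmid i h1 h2, hπ, hrow i h1 h2, hmid i h1 h2]
            · rw [hκ]
              exact hπc _ _ (hκ _).symm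
      have hsign := sign_eq_one_of_comm π hπ col hcolπ κ hκ hcomm
      simp only [htm]
      rw [hsign, Units.val_one, Int.cast_one, one_mul, ← hval]
      unfold gapPsi0
      refine Finset.prod_congr rfl fun i _ => ?_
      beta_reduce
      by_cases h1 : i = 0
      · subst h1
        rw [hf0, hf0]
      · by_cases h2 : i = Fin.last (n+1)
        · subst h2
          rw [hfl, hfl]
        · rw [gapF_mid n i h1 h2, gapF_mid n i h1 h2, if_pos (hrow i h1 h2), if_pos]
          rw [← hmid i h1 h2, hπr]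
  -- a permutation preserving the columns acts on a column of two letters
  have hnorm : ∀ (i0 : Fin (n+2)), (∀ a b, gapF n i0 b a = - gapF n i0 a b) →
      (∀ t, col t = col (e ⟨i0, 0⟩) ↔ (t = e ⟨i0, 0⟩ ∨ t = e ⟨i0, 1⟩)) →
      ∀ κ : Perm T, (∀ t, col (κ t) = col t) → ∃ κ' : Perm T, (∀ t, col (κ' t) = col t) ∧
        tm κ' = tm κ ∧ (∀ k, κ' (e ⟨i0, k⟩) = e ⟨i0, k⟩) ∧
        ∀ t, t ≠ e ⟨i0, 0⟩ → t ≠ e ⟨i0, 1⟩ → κ' t = κ t := by
    intro i0 hi hci κ hκ
    have hc01 : col (e ⟨i0, 1⟩) = col (e ⟨i0, 0⟩) := (hci _).2 (Or.inr rfl)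
    have hne : e ⟨i0, 0⟩ ≠ e ⟨i0, 1⟩ := by
      intro h
      have := e.injective h
      simp at this
    have h0 := (hci (κ (e ⟨i0, 0⟩))).1 (hκ _)
    have h1 := (hci (κ (e ⟨i0, 1⟩))).1 (by rw [hκ, hc01])
    rcases h0 with h0 | h0
    · have h1' : κ (e ⟨i0, 1⟩) = e ⟨i0, 1⟩ := by
        rcases h1 with h1 | h1
        · exact absurd (κ.injective (h0.trans h1.symm)) hne
        · exact h1
      refine ⟨κ, hκ, rfl, ?_, fun t _ _ => rfl⟩
      intro k
      have hk : k = 0 ∨ k = 1 := by omega
      rcases hk with rfl | rfl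
      · exact h0
      · exact h1'
    · have h1' : κ (e ⟨i0, 1⟩) = e ⟨i0, 0⟩ := by
        rcases h1 with h1 | h1
        · exact h1
        · exact absurd (κ.injective (h0.trans h1.symm)) hne
      refine ⟨κ * swap (e ⟨i0, 0⟩) (e ⟨i0, 1⟩), ?_, hswap i0 hi κ, ?_, ?_⟩
      · intro t
        rw [Perm.mul_apply, hκ]
        by_cases ht0 : t = e ⟨i0, 0⟩
        · rw [ht0, swap_apply_left, hc01]
        · by_cases ht1 : t = e ⟨i0, 1⟩
          · rw [ht1, swap_apply_right, hc01]
          · rw [swap_apply_of_ne_of_ne ht0 ht1]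
      · intro k
        have hk : k = 0 ∨ k = 1 := by omega
        rcases hk with rfl | rfl
        · rw [Perm.mul_apply, swap_apply_left, h1']
        · rw [Perm.mul_apply, swap_apply_right, h0]
      · intro t ht0 ht1
        rw [Perm.mul_apply, swap_apply_of_ne_of_ne ht0 ht1]
  have hterm : ∀ κ : Perm T, (∀ t, col (κ t) = col t) → tm κ = 0 ∨ tm κ = -2 ^ n := by
    intro κ hκ
    obtain ⟨κ1, h11, h12, h13, -⟩ := hnorm 0 (gapF_zero_swap n) hcol κ hκ
    obtain ⟨κ2, h21, h22, h23, h24⟩ := hnorm (Fin.last (n+1)) (gapF_last_swap n) hcoll κ1 h11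
    rw [← h12, ← h22]
    refine hfixed κ2 h21 ?_ h23
    intro k
    rw [h24, h13]
    · intro h
      exact h0l (congrArg Sigma.fst (e.injective h))
    · intro h
      exact h0l (congrArg Sigma.fst (e.injective h))
  let S : Finset (Perm T) := univ.filter fun κ => (∀ t, col (κ t) = col t) ∧ tm κ ≠ 0
  have hsum : gapPsi e col row = (S.card : ℂ) * (-2 ^ n) := by
    unfold gapPsi
    rw [← nsmul_eq_mul, ← Finset.sum_const, Finset.sum_filter]
    refine Finset.sum_congr rfl fun κ _ => ?_
    by_cases hκ : ∀ t, col (κ t) = col t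
    · rw [if_pos hκ]
      show tm κ = _
      rcases hterm κ hκ with h | h
      · rw [if_neg (fun h' => h'.2 h), h]
      · have h2 : tm κ ≠ 0 := by
          rw [h]; exact neg_ne_zero.2 (pow_ne_zero _ two_ne_zero)
        rw [if_pos ⟨hκ, h2⟩, h]
    · rw [if_neg hκ, if_neg (fun h' => hκ h'.1)]
  rw [hsum]
  refine mul_ne_zero ?_ (neg_ne_zero.2 (pow_ne_zero _ two_ne_zero))
  rw [Nat.cast_ne_zero, Finset.card_ne_zero]
  refine ⟨1, ?_⟩
  simp only [S, mem_filter, mem_univ, true_and, Perm.coe_one, id]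
  refine ⟨fun _ => trivial, ?_⟩
  have h1 : tm 1 = -2 ^ n := by
    simp only [htm, Perm.sign_one, Units.val_one, Int.cast_one, one_mul, Perm.coe_one, id]
    exact hval
  rw [h1]
  exact neg_ne_zero.2 (pow_ne_zero _ two_ne_zero)

theorem exists_gap_e (n : ℕ) (hT : Fintype.card T = 2 * (n+2)) (π : T → T)
    (hπ : ∀ t, π (π t) = t) (col : T → ℕ) (hcπ : ∀ t, col (π t) ≠ col t) (a0 a1 : T)
    (ha : a0 ≠ a1) (hac : col a0 = col a1) :
    ∃ e : (Σ _ : Fin (n+2), Fin 2) ≃ T,
      (∀ i : Fin (n+2), i ≠ 0 → i ≠ Fin.last (n+1) → π (e ⟨i, 0⟩) = e ⟨i, 1⟩) ∧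
      (∀ k, π (e ⟨0, k⟩) = e ⟨Fin.last (n+1), k⟩) ∧ e ⟨0, 0⟩ = a0 ∧ e ⟨0, 1⟩ = a1 := by
  classical
  have h0l : (0 : Fin (n+2)) ≠ Fin.last (n+1) := by
    intro h
    have := congrArg Fin.val h
    simp at this
  have hπinj : Injective π := fun s t h => by rw [← hπ s, ← hπ t, h]
  have hπa : ∀ k l : Fin 2, π (![a0, a1] k) ≠ ![a0, a1] l := by
    intro k l h
    have h1 := hcπ (![a0, a1] k)
    rw [h] at h1
    apply h1
    have hk : k = 0 ∨ k = 1 := by omega
    have hl : l = 0 ∨ l = 1 := by omega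
    rcases hk with rfl | rfl <;> rcases hl with rfl | rfl <;> simp [hac]
  let A : Finset T := {a0, a1, π a0, π a1}
  have hAc : A.card = 4 := by
    have h1 := hπa 0 0
    have h2 := hπa 0 1
    have h3 := hπa 1 0
    have h4 := hπa 1 1
    simp only [Matrix.cons_val_zero, Matrix.cons_val_one] at h1 h2 h3 h4
    have h5 : π a0 ≠ π a1 := fun h => ha (hπinj h)
    simp only [A]
    rw [card_insert_of_notMem, card_insert_of_notMem, card_insert_of_notMem, card_singleton]
    · simpa using h5
    · simp only [mem_insert, mem_singleton, not_or]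
      exact ⟨h2.symm, h4.symm⟩
    · simp only [mem_insert, mem_singleton, not_or]
      exact ⟨ha, h1.symm, h3.symm⟩
  have hAπ : ∀ t, t ∈ A → π t ∈ A := by
    intro t ht
    simp only [A, mem_insert, mem_singleton] at ht ⊢
    rcases ht with rfl | rfl | rfl | rfl
    · simp
    · simp
    · simp [hπ]
    · simp [hπ]
  let T' := {t : T // t ∉ A}
  let π' : T' → T' := fun t => ⟨π t, fun h => t.2 (by have := hAπ _ h; rwa [hπ] at this)⟩
  have hT' : Fintype.card T' = 2 * n := by
    have h1 : Fintype.card T' = Fintype.card T - A.card := by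
      rw [Fintype.card_subtype_compl, Fintype.card_coe]
    rw [h1, hT, hAc]
    omega
  obtain ⟨e', he'⟩ := exists_dup_e n hT' π' (fun t => Subtype.ext (hπ t))
    (fun t => col (t : T) < col (π t)) (by
      intro t
      show col (π (t : T)) < col (π (π t)) ↔ ¬ col (t : T) < col (π t)
      rw [hπ]
      have := hcπ (t : T)
      omega)
  let f : (Σ _ : Fin (n+2), Fin 2) → T := fun q =>
    if h0 : q.1 = 0 then ![a0, a1] q.2 else
      if h1 : q.1 = Fin.last (n+1) then π (![a0, a1] q.2) else
        (e' ⟨⟨(q.1 : ℕ) - 1, by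
          have := q.1.2
          have h2 : (q.1 : ℕ) ≠ 0 := fun h => h0 (Fin.ext h)
          have h3 : (q.1 : ℕ) ≠ n + 1 := fun h => h1 (Fin.ext h)
          omega⟩, q.2⟩ : T)
  have hf0 : ∀ k, f ⟨0, k⟩ = ![a0, a1] k := fun k => dif_pos rfl
  have hfl : ∀ k, f ⟨Fin.last (n+1), k⟩ = π (![a0, a1] k) := by
    intro k
    exact (dif_neg h0l.symm).trans (dif_pos rfl)
  have hfm : ∀ (i : Fin (n+2)) (h0 : i ≠ 0) (h1 : i ≠ Fin.last (n+1)), ∃ j : Fin n,
      (j : ℕ) + 1 = i ∧ ∀ k, f ⟨i, k⟩ = (e' ⟨j, k⟩ : T) := by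
    intro i h0 h1
    have h2 : (i : ℕ) ≠ 0 := fun h => h0 (Fin.ext h)
    have h3 : (i : ℕ) ≠ n + 1 := fun h => h1 (Fin.ext h)
    refine ⟨⟨(i : ℕ) - 1, by have := i.2; omega⟩, by simp only; omega, fun k => ?_⟩
    exact (dif_neg h0).trans (dif_neg h1)
  have haA : ∀ k : Fin 2, ![a0, a1] k ∈ A := by
    intro k
    have hk : k = 0 ∨ k = 1 := by omega
    rcases hk with rfl | rfl <;> simp [A]
  have hainj : ∀ k l : Fin 2, ![a0, a1] k = ![a0, a1] l → k = l := by
    intro k l h
    have hk : k = 0 ∨ k = 1 := by omega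
    have hl : l = 0 ∨ l = 1 := by omega
    rcases hk with rfl | rfl <;> rcases hl with rfl | rfl
    · rfl
    · exact absurd h ha
    · exact absurd h.symm ha
    · rfl
  have hfinj : Injective f := by
    rintro ⟨i, k⟩ ⟨j, l⟩ h
    by_cases hi0 : i = 0
    · subst hi0
      rw [hf0] at h
      by_cases hj0 : j = 0
      · subst hj0
        rw [hf0] at h
        rw [hainj _ _ h]
      · by_cases hjl : j = Fin.last (n+1)
        · subst hjl
          rw [hfl] at h
          exact absurd h.symm (hπa _ _)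
        · obtain ⟨j', -, hj'⟩ := hfm j hj0 hjl
          rw [hj'] at h
          exact absurd (h ▸ haA k) (e' ⟨j', l⟩).2
    · by_cases hil : i = Fin.last (n+1)
      · subst hil
        rw [hfl] at h
        by_cases hj0 : j = 0
        · subst hj0
          rw [hf0] at h
          exact absurd h (hπa _ _)
        · by_cases hjl : j = Fin.last (n+1)
          · subst hjl
            rw [hfl] at h
            rw [hainj _ _ (hπinj h)]
          · obtain ⟨j', -, hj'⟩ := hfm j hj0 hjl
            rw [hj'] at h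
            exact absurd (h ▸ hAπ _ (haA k)) (e' ⟨j', l⟩).2
      · obtain ⟨i', hi1, hi'⟩ := hfm i hi0 hil
        rw [hi'] at h
        by_cases hj0 : j = 0
        · subst hj0
          rw [hf0] at h
          exact absurd (h ▸ haA l) (e' ⟨i', k⟩).2
        · by_cases hjl : j = Fin.last (n+1)
          · subst hjl
            rw [hfl] at h
            exact absurd (h ▸ hAπ _ (haA l)) (e' ⟨i', k⟩).2
          · obtain ⟨j', hj1, hj'⟩ := hfm j hj0 hjl
            rw [hj'] at h
            have h2 := e'.injective (Subtype.ext h)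
            simp only [Sigma.mk.injEq, heq_eq_eq] at h2
            obtain ⟨h3, h4⟩ := h2
            have h5 : i = j := Fin.ext (by rw [← hi1, ← hj1, h3])
            rw [h5, h4]
  refine ⟨Equiv.ofBijective f ((Fintype.bijective_iff_injective_and_card f).2 ⟨hfinj, ?_⟩),
    ?_, ?_, ?_, ?_⟩
  · rw [Fintype.card_sigma, hT]
    simp
    ring
  · intro i h0 h1
    show π (f ⟨i, 0⟩) = f ⟨i, 1⟩
    obtain ⟨j, -, hj⟩ := hfm i h0 h1
    rw [hj, hj, ← he']
  · intro k
    show π (f ⟨0, k⟩) = f ⟨Fin.last (n+1), k⟩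
    rw [hf0, hfl]
  · exact hf0 0
  · exact hf0 1

/-- **gap gadget** (columns `n + 3` and `n + 1`) -/
theorem gap_gadget_aux (n : ℕ) (hT : Fintype.card T = 2 * (n + 2))
    {U : Type*} [AddCommGroup U] [Module ℂ U] (ρ : Representation ℂ (Perm T) U)
    (row : T → Fin 4) (col : T → ℕ)
    (hinj : ∀ s t, row s = row t → col s = col t → s = t)
    (htop : ∀ t a, a < row t → ∃ s, row s = a ∧ col s = col t)
    (π : T → T) (hπ : ∀ t, π (π t) = t) (hπ0 : ∀ t, π t ≠ t) (hπr : ∀ t, row (π t) = row t)
    (hπc : ∀ s t, col s = col t → col (π s) = col (π t))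
    (a0 a1 : T) (ha0 : row a0 = 0) (ha1 : row a1 = 1) (hac : col a1 = col a0)
    (haa : ∀ t, col t = col a0 → t = a0 ∨ t = a1)
    (x : U) (hfix : ∀ g : Perm T, (∀ t, row (g t) = row t) → ρ g x = x)
    (hA : colAsym ρ col x ≠ 0) :
    ∃ E ∈ Kr T (gapD n) (gapD n), ∃ u : T → ℕ × ℕ,
      (∀ t, (u t).1 + (u t).2 + 1 = n + 3 ∨ (u t).1 + (u t).2 + 2 = n + 3) ∧
      ∃ x : U, ∑ g : Perm T, E (u ∘ g) • ρ g⁻¹ x ≠ 0 := by
  classical
  have hcπ : ∀ t, col (π t) ≠ col t := by
    intro t h
    exact hπ0 t (hinj _ _ (hπr t) h)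
  have haane : a0 ≠ a1 := by
    intro h
    rw [h, ha1] at ha0
    exact absurd ha0 (by decide)
  obtain ⟨e, hmid, hend, he0, he1⟩ := exists_gap_e n hT π hπ col hcπ a0 a1 haane hac.symm
  set y := colAsym ρ col x with hy
  have hne : gapPsi e col row ≠ 0 := by
    refine gapPsi_ne_zero e π hπ row col hinj hπr hπ0 hπc hmid hend ?_ ?_
    · intro k
      have hk : k = 0 ∨ k = 1 := by omega
      rcases hk with rfl | rfl
      · rw [he0, ha0]; rfl
      · rw [he1, ha1]; rfl
    · intro t
      rw [he0, he1]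
      constructor
      · exact haa t
      · rintro (rfl | rfl)
        · rfl
        · exact hac
  have hcore := core_abs ρ row col hinj htop (gapPsi e col)
    (fun κ hκ r _ => gapPsi_alt e col κ hκ r) hne x hfix hA
  rw [← hy] at hcore
  -- the plain functional
  have h0 : ∑ g : Perm T, gapPsi0 e (fun t => row (g t)) • ρ g y ≠ 0 := by
    intro h0
    apply hcore
    have h1 : ∀ g : Perm T, gapPsi e col (row ∘ g) • ρ g y = ∑ κ : Perm T,
        (if ∀ t, col (κ t) = col t then (gapPsi0 e (fun t => row ((g * κ : Perm T) t))) •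
          ρ (g * κ) y else 0) := by
      intro g
      unfold gapPsi
      rw [Finset.sum_smul]
      refine Finset.sum_congr rfl fun κ _ => ?_
      split_ifs with hκ
      · rw [map_mul, Module.End.mul_apply, (colAsym_alt ρ col x).perm κ hκ, map_smul, smul_smul,
          mul_comm]
        rfl
      · rw [zero_smul]
    rw [Finset.sum_congr rfl fun g _ => h1 g, Finset.sum_comm]
    refine Finset.sum_eq_zero fun κ _ => ?_
    split_ifs with hκ
    · rw [← h0]
      exact Equiv.sum_comp (Equiv.mulRight κ)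
        (fun g : Perm T => gapPsi0 e (fun t => row (g t)) • ρ g y)
    · exact Finset.sum_const_zero
  -- the expansion
  set χ : (T → Fin 2 × Fin 2) → ℂ := fun z =>
    gapX1 e (fun t => (z t).1) * gapX2 e (fun t => (z t).2) with hχ
  have hz : ∃ z : T → Fin 2 × Fin 2, ∑ g : Perm T, χ (z ∘ g) • ρ g y ≠ 0 := by
    by_contra hcon
    push Not at hcon
    apply h0
    calc ∑ g : Perm T, gapPsi0 e (fun t => row (g t)) • ρ g y
        = ∑ g : Perm T, ∑ z : T → Fin 2 × Fin 2,
            ((∏ t, qg (row t) (z t).1 (z t).2) * χ (z ∘ g)) • ρ g y := by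
          refine Finset.sum_congr rfl fun g _ => ?_
          rw [← gap_expand, Finset.sum_smul]
          refine (Equiv.sum_comp (Equiv.arrowCongr g.symm (Equiv.refl (Fin 2 × Fin 2)))
            (fun z : T → Fin 2 × Fin 2 => ((∏ t, qg (row (g t)) (z t).1 (z t).2) * χ z) •
              ρ g y)).symm.trans ?_
          refine Finset.sum_congr rfl fun z _ => ?_
          have h4 : (Equiv.arrowCongr g.symm (Equiv.refl (Fin 2 × Fin 2))) z = z ∘ g := by
            funext t
            rfl
          rw [h4, ← Equiv.prod_comp g (fun t => qg (row t) (z t).1 (z t).2)]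
          rfl
      _ = ∑ z : T → Fin 2 × Fin 2, (∏ t, qg (row t) (z t).1 (z t).2) •
          ∑ g : Perm T, χ (z ∘ g) • ρ g y := by
        rw [Finset.sum_comm]
        refine Finset.sum_congr rfl fun z _ => ?_
        rw [Finset.smul_sum]
        refine Finset.sum_congr rfl fun g _ => ?_
        rw [smul_smul]
      _ = 0 := Finset.sum_eq_zero fun z _ => by rw [hcon z, smul_zero]
  obtain ⟨z, hz⟩ := hz
  obtain ⟨g0, -, hg0⟩ := Finset.exists_ne_zero_of_sum_ne_zero hz
  have hg0' : χ (z ∘ g0) ≠ 0 := by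
    intro h
    exact hg0 (by rw [h, zero_smul])
  obtain ⟨τ, hτ, C, hC, hτC⟩ := exists_gap_row1 e (fun t => (z t).1)
    ⟨g0, left_ne_zero_of_mul hg0'⟩
  obtain ⟨τ', hτ', C', hC', hτC'⟩ := exists_gap_row2 e (fun t => (z t).2)
    ⟨g0, right_ne_zero_of_mul hg0'⟩
  refine ⟨prodF (polyF τ) (polyF τ'), Submodule.subset_span ⟨_, _, hτ, hτ', rfl⟩,
    fun t => (gapRow e t, gapRow e (gapRev e t)), ?_, y, ?_⟩
  · intro t
    obtain ⟨⟨i, k⟩, rfl⟩ := e.surjective t
    show gapRow e (e ⟨i, k⟩) + gapRow e (gapRev e (e ⟨i, k⟩)) + 1 = n + 3 ∨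
      gapRow e (e ⟨i, k⟩) + gapRow e (gapRev e (e ⟨i, k⟩)) + 2 = n + 3
    rw [gapRev_apply]
    simp only [gapRow, gapR, Equiv.symm_apply_apply]
    have hi := i.2
    have hk := k.2
    have h1 : (Fin.rev i : ℕ) = n + 1 - i := by rw [Fin.val_rev]; omega
    have h2 : (Fin.rev k : ℕ) = 1 - k := by rw [Fin.val_rev]; omega
    have h3 : (Fin.rev i = Fin.last (n+1)) ↔ i = 0 := by rw [← Fin.rev_zero, Fin.rev_inj]
    rw [h1, h2]
    by_cases hi0 : i = 0
    · have h4 : (0 : Fin (n+2)) ≠ Fin.last (n+1) := by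
        intro h
        have := congrArg Fin.val h
        simp at this
      rw [if_pos (h3.2 hi0), hi0, if_neg h4]
      simp only [Fin.val_zero]
      omega
    · rw [if_neg (fun h => hi0 (h3.1 h))]
      by_cases hil : i = Fin.last (n+1)
      · rw [if_pos hil, hil]
        simp only [Fin.val_last]
        omega
      · rw [if_neg hil]
        omega
  · have hE : ∀ g : Perm T, prodF (polyF τ) (polyF τ')
        ((fun t => (gapRow e t, gapRow e (gapRev e t))) ∘ g) = (C * C') * χ (z ∘ g.symm) := by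
      intro g
      unfold prodF
      have h5 := hτC g
      have h6 := hτC' g
      have h7 : polyF τ (fun t => (((fun t => (gapRow e t, gapRow e (gapRev e t))) ∘ g) t).1)
        = polyF τ (fun t => gapRow e (g t)) := rfl
      have h8 : polyF τ' (fun t => (((fun t => (gapRow e t, gapRow e (gapRev e t))) ∘ g) t).2)
        = polyF τ' (fun t => gapRow e (gapRev e (g t))) := rfl
      rw [h7, h8, h5, h6]
      have hs : ((Perm.sign g : ℤ) : ℂ) * ((Perm.sign g : ℤ) : ℂ) = 1 := by
        rcases Int.units_eq_one_or (Perm.sign g) with h | h <;> simp [h]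
      have h9 : χ (z ∘ g.symm) = gapX1 e (fun t => (z (g.symm t)).1) *
        gapX2 e (fun t => (z (g.symm t)).2) := rfl
      rw [h9]
      linear_combination (C * C' * gapX1 e (fun t => (z (g.symm t)).1) *
        gapX2 e (fun t => (z (g.symm t)).2)) * hs
    have h10 : ∑ g : Perm T, prodF (polyF τ) (polyF τ')
        ((fun t => (gapRow e t, gapRow e (gapRev e t))) ∘ g) • ρ g⁻¹ y
        = (C * C') • ∑ g : Perm T, χ (z ∘ g) • ρ g y := by
      rw [Finset.smul_sum, ← Equiv.sum_comp (Equiv.inv (Perm T))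
        (fun g : Perm T => (C * C') • χ (z ∘ g) • ρ g y)]
      refine Finset.sum_congr rfl fun g _ => ?_
      rw [hE, smul_smul]
      rfl
    rw [h10]
    exact smul_ne_zero (mul_ne_zero hC hC') hz

end X

end Crest.Agent.R195
private theorem rz_6a7e6e66ae : type_of% @_root_.Crest.Agent.R195.qg.eq_1 := @_root_.Crest.Agent.R195.qg.eq_1 -- L57
end

-- ▼ part R195/Eng4b
section

/-! Row 195.  The gap block and the final form of the engine with four block types. -/

set_option autoImplicit false
set_option linter.unusedSectionVars false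
set_option linter.unusedDecidableInType false

namespace Crest.Agent.R195

open Finset Function Equiv

universe u

theorem gapD_eq (n : ℕ) : gapD n = colS [n + 3, n + 3 - 2] := by
  ext ⟨i, j⟩
  rw [mem_gapD, mem_colS]
  match j with
  | 0 => simp
  | 1 => simp
  | (j + 2) => simp

theorem hits_gap (c : ℕ) (hc : 3 ≤ c) : Hits.{u} (.gap c) := by
  intro T _ _ W _ _ ρ rk col hinj htop hok x hfix hA
  classical
  obtain ⟨n, rfl⟩ : ∃ n, c = n + 3 := ⟨c - 3, by omega⟩
  obtain ⟨h1, h2, ⟨π, h3, h4, h5, h6⟩, a0, a1, h7, h8, h9, h10⟩ := hok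
  change HitZ ρ (colS [n + 3, n + 3 - 2]) (colS [n + 3, n + 3 - 2]) (zigZ (n + 3)) x
  rw [← gapD_eq]
  refine hitZ_of_cert (N := 2) (by norm_num) _ _ (zig_le (n + 3)) (zig_eq (n + 3)) ?_
  obtain ⟨G, hG, u, hu, hex⟩ := gap_gadget_aux n (by omega) (subRep ρ (cyc ρ x) (cyc_stable ρ x))
    (fun t => (⟨rk t, h2 t⟩ : Fin 4)) col (fun s t h1 h2 => hinj s t (congrArg Fin.val h1) h2)
    (fun t a ha => by
      obtain ⟨s, h1, h2⟩ := htop t a.1 ha
      exact ⟨s, Fin.ext h1, h2⟩)
    π h3 h4 (fun t => Fin.ext (h5 t)) h6 a0 a1 (Fin.ext h8) (Fin.ext h9) h7.symm h10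
    ⟨x, mem_cyc ρ x⟩ (by
      intro g hg
      apply Subtype.ext
      rw [subRep_coe]
      exact hfix.perm g fun t => congrArg Fin.val (hg t)) (by
      intro h0
      apply hA
      have h1 := congrArg Subtype.val h0
      rw [colAsym_apply, Submodule.coe_sum] at h1
      rw [colAsym_apply]
      simpa [subRep_coe] using h1)
  obtain ⟨k, hk⟩ := hit_cyc ρ x G u hex
  exact ⟨G, hG, u ∘ k, fun t => hu (k t), hk⟩

theorem hits_all (κ : Bk4) (h : κ.low ≤ κ.top) : Hits.{u} κ := by
  cases κ with
  | pair c => exact hits_pair c h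
  | rect c k => exact hits_rect c k
  | dup c => exact hits_dup c
  | gap c => exact hits_gap c h

theorem validB.low_le {L : List Bk4} (h : validB L) : ∀ g ∈ L, g.low ≤ g.top := by
  induction L with
  | nil => intro g hg; simp at hg
  | cons a L ih =>
    obtain ⟨h1, -, h3⟩ := h
    intro g hg
    rcases List.mem_cons.1 hg with rfl | hg
    · exact h1
    · exact ih h3 g hg

/-- **Matrix form, letters version, four block types.** -/
theorem occ_of_blocks4 (L : List Bk4) (hL : validB L)
    {T : Type} [Fintype T] [DecidableEq T] {W : Type u} [AddCommGroup W] [Module ℂ W]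
    (ρ : Representation ℂ (Perm T) W) (γ rk col : T → ℕ) (hγ : ∀ t, γ t < L.length)
    (hinj : ∀ s t, γ s = γ t → rk s = rk t → col s = col t → s = t)
    (htop : ∀ t a, a < rk t → ∃ s, γ s = γ t ∧ rk s = a ∧ col s = col t)
    (hok : ∀ (i : ℕ) (hi : i < L.length),
      (L[i]).OK {t // γ t = i} (fun t => rk t) (fun t => col t))
    (x : W) (hfix : SwapFixed ρ (fun t => (γ t, rk t)) x)
    (hA : colAsym ρ (fun t => Nat.pair (γ t) (col t)) x ≠ 0) :
    Occ ρ (Kr T (colS (colsB L)) (colS (colsB L))) :=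
  (hit4_list L hL (fun κ hκ => hits_all κ (hL.low_le κ hκ)) ρ γ rk col hγ hinj htop hok x hfix
    hA).occ

end Crest.Agent.R195
end

-- ▼ part R195/MFinal
section

/-! Row 195.  **Matrix form of (B')**: a decomposition of the column heights of `μ` into rows of the
allowed types gives the occurrence of all representations of shape `μ` in `Kr T λ λ`, `λ` the shape
of the list of pieces. -/

set_option autoImplicit false

namespace Crest.Agent.R195

open Finset Function Equiv

namespace Pc

/-- the block of a piece -/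
def bk : Pc → Bk4
  | pair c => .pair c
  | rect c k => .rect c k
  | dup c => .dup c
  | gap c => .gap c

/-- the columns of a piece -/
def cols : Pc → List ℕ
  | pair c => [c, c - 1]
  | rect c k => List.replicate k c
  | dup c => [c, c]
  | gap c => [c, c - 2]

/-- length of the first column -/
def top : Pc → ℕ
  | pair c => c
  | rect c _ => c
  | dup c => c
  | gap c => c

/-- minimal admissible length of the first column -/
def low : Pc → ℕ
  | pair _ => 1
  | rect _ _ => 1
  | dup _ => 1
  | gap _ => 3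

/-- bound for the later columns -/
def next : Pc → ℕ
  | pair c => c - 2
  | rect c _ => c - 1
  | dup c => c - 1
  | gap c => c - 2

theorem bk_cols (p : Pc) : p.bk.cols = p.cols := by cases p <;> rfl
theorem bk_top (p : Pc) : p.bk.top = p.top := by cases p <;> rfl
theorem bk_low (p : Pc) : p.bk.low = p.low := by cases p <;> rfl
theorem bk_next (p : Pc) : p.bk.next = p.next := by cases p <;> rfl


end Pc

/-- admissible lists of pieces -/
def validP : List Pc → Prop
  | [] => True
  | g :: L => g.low ≤ g.top ∧ (∀ h ∈ L, h.top ≤ g.next) ∧ validP L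

/-- the columns of a list of pieces -/
def colsP (L : List Pc) : List ℕ := L.flatMap Pc.cols

theorem colsP_nil : colsP [] = [] := rfl

theorem colsP_cons (p : Pc) (L : List Pc) : colsP (p :: L) = p.cols ++ colsP L := rfl

theorem colsP_append (L L' : List Pc) : colsP (L ++ L') = colsP L ++ colsP L' := by
  simp [colsP]

theorem validP_append {L L' : List Pc} (h : validP L) (h' : validP L')
    (hn : ∀ p ∈ L, ∀ q ∈ L', q.top ≤ p.next) : validP (L ++ L') := by
  induction L with
  | nil => exact h'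
  | cons g L ih =>
    obtain ⟨h1, h2, h3⟩ := h
    refine ⟨h1, ?_, ih h3 fun p hp => hn p (List.mem_cons_of_mem _ hp)⟩
    intro q hq
    rcases List.mem_append.1 hq with hq | hq
    · exact h2 q hq
    · exact hn g List.mem_cons_self q hq

theorem colsB_map (L : List Pc) : colsB (L.map Pc.bk) = colsP L := by
  induction L with
  | nil => rfl
  | cons p L ih =>
    change p.bk.cols ++ colsB (L.map Pc.bk) = p.cols ++ colsP L
    rw [ih, Pc.bk_cols]

theorem validP.toB {L : List Pc} (h : validP L) : validB (L.map Pc.bk) := by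
  induction L with
  | nil => trivial
  | cons p L ih =>
    obtain ⟨h1, h2, h3⟩ := h
    refine ⟨by rw [Pc.bk_low, Pc.bk_top]; exact h1, ?_, ih h3⟩
    intro g hg
    obtain ⟨q, hq, rfl⟩ := List.mem_map.1 hg
    rw [Pc.bk_top, Pc.bk_next]
    exact h2 q hq

theorem validP.low_le {L : List Pc} (h : validP L) : ∀ g ∈ L, g.low ≤ g.top := by
  induction L with
  | nil => intro g hg; simp at hg
  | cons a L ih =>
    obtain ⟨h1, -, h3⟩ := h
    intro g hg
    rcases List.mem_cons.1 hg with rfl | hg
    · exact h1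
    · exact ih h3 g hg

theorem PcBlock.ok {T : Type} [Fintype T] [DecidableEq T] {γ rk col : T → ℕ} {i : ℕ} {p : Pc}
    (h : PcBlock γ rk col i p) (hp : p.low ≤ p.top) :
    p.bk.OK {t // γ t = i} (fun t => rk t) (fun t => col t) := by
  cases p with
  | pair c =>
    refine ⟨?_, fun t => h.2 t t.2⟩
    have h1 := h.1
    simp only [Pc.low, Pc.top] at hp
    omega
  | rect c k => exact ⟨h.1, fun t => h.2 t t.2⟩
  | dup c => exact ⟨h.1, fun t => h.2.1 t t.2, h.2.2⟩
  | gap c =>
    obtain ⟨h1, h2, h3, a0, a1, h4, h5, h6, h7⟩ := h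
    simp only [Pc.low, Pc.top] at hp
    refine ⟨?_, fun t => h2 t t.2, h3, a0, a1, h6.symm, h4, h5, h7⟩
    omega

universe u

/-- **Matrix form** for one representation (any number `M` of columns). -/
theorem occ_of_decompP (L : List Pc) (hL : validP L) {T : Type} [Fintype T]
    [DecidableEq T] {W : Type u} [AddCommGroup W] [Module ℂ W] (ρ : Representation ℂ (Perm T) W)
    {μ : YoungDiagram} (e : T ≃ μ.cells) (w : W) (hw : SwapFixed ρ (fun t => (e t).1.1) w)
    (hA : colAsym ρ (fun t => (e t).1.2) w ≠ 0) (M : ℕ) (hcol0 : ∀ j, M ≤ j → μ.colLen j = 0)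
    (hD : Decomp L fun j : Fin M => μ.colLen j) :
    Occ ρ (Kr T (colS (colsP L)) (colS (colsP L))) := by
  obtain ⟨γ, rk, col, x, h1, h2, h3, h4, h5, h6⟩ := blocks_of_decomp' ρ e w hw hA L M hcol0 hD
  have := occ_of_blocks4 (L.map Pc.bk) hL.toB ρ γ rk col
    (by simpa using h1) h2 h3 (by
      intro i hi
      have hi' : i < L.length := by simpa using hi
      rw [List.getElem_map]
      exact (h4 i hi').ok (hL.low_le _ (List.getElem_mem hi'))) x h5 h6
  rwa [colsB_map] at this

theorem colLen_eq_zero_of_rowLen {μ : YoungDiagram} (j : ℕ) (hj : μ.rowLen 0 ≤ j) :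
    μ.colLen j = 0 := by
  by_contra hne
  have h1 : (0, j) ∈ μ := by
    rw [YoungDiagram.mem_iff_lt_colLen]; omega
  rw [YoungDiagram.mem_iff_lt_rowLen] at h1
  omega

/-- **Matrix form** for one shape. -/
theorem occSh_of_decompP (L : List Pc) (hL : validP L) {μ : YoungDiagram}
    (hD : Decomp L fun j : Fin (μ.rowLen 0) => μ.colLen j) :
    OccSh (colS (colsP L)) (colS (colsP L)) μ := by
  intro T _ _ W _ _ ρ hρ
  obtain ⟨e, w, hw, hA⟩ := hρ
  exact occ_of_decompP L hL ρ e w hw hA (μ.rowLen 0) colLen_eq_zero_of_rowLen hD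


/-! ### The same for lists without gap pieces, in terms of `validL`, `shapeL` -/







end Crest.Agent.R195
private theorem rz_ac153256be : type_of% @_root_.Crest.Agent.R195.Pc.cols.eq_1 := @_root_.Crest.Agent.R195.Pc.cols.eq_1 -- L25
private theorem rz_a9098ab1ef : type_of% @_root_.Crest.Agent.R195.Pc.low.eq_1 := @_root_.Crest.Agent.R195.Pc.low.eq_1 -- L39
private theorem rz_f9ef064a53 : type_of% @_root_.Crest.Agent.R195.Pc.next.eq_1 := @_root_.Crest.Agent.R195.Pc.next.eq_1 -- L46
private theorem rz_f112416f88 : type_of% @_root_.Crest.Agent.R195.Pc.top.eq_1 := @_root_.Crest.Agent.R195.Pc.top.eq_1 -- L32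
private theorem rz_2b7e92eba3 : type_of% @_root_.Crest.Agent.R195.validP.eq_def := @_root_.Crest.Agent.R195.validP.eq_def -- L67
private theorem rz_28d7fddddb : type_of% @_root_.Crest.Agent.R195.validP.eq_1 := @_root_.Crest.Agent.R195.validP.eq_1 -- L67
end

-- ▼ part R195/Irred
section

/-! Row 195: James's submodule theorem, irreducibility of the Specht modules of
`Def_SpechtModule` for shapes whose columns are justified at the top. -/

set_option autoImplicit false

namespace Crest.Agent.R195

open Finset Function Crest.AlgebraR.Specht Representation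

section nat

theorem sum_range_card_le (A : Finset ℕ) :
    ∑ k ∈ range A.card, k ≤ ∑ k ∈ A, k ∧ (∑ k ∈ A, k = ∑ k ∈ range A.card, k → A = range A.card) := by
  classical
  induction hn : A.card generalizing A with
  | zero =>
    rw [Finset.card_eq_zero] at hn
    subst hn
    simp
  | succ n ih =>
    have hne : A.Nonempty := by
      rw [← Finset.card_pos, hn]; omega
    set M := A.max' hne with hM
    have hMA : M ∈ A := A.max'_mem hne
    have hsub : A ⊆ range (M + 1) := fun k hk => by
      rw [mem_range, Nat.lt_succ_iff]; exact A.le_max' k hk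
    have hMn : n ≤ M := by
      have := card_le_card hsub
      rw [hn, card_range] at this
      omega
    have hcard : (A.erase M).card = n := by rw [card_erase_of_mem hMA, hn]; rfl
    obtain ⟨h1, h2⟩ := ih (A.erase M) hcard
    have hsum : ∑ k ∈ A, k = M + ∑ k ∈ A.erase M, k := (add_sum_erase A (fun k => k) hMA).symm
    rw [sum_range_succ]
    refine ⟨by rw [hsum]; omega, fun h => ?_⟩
    rw [hsum] at h
    have hMeq : M = n := by omega
    apply eq_of_subset_of_card_le
    · rw [← hMeq]; exact hsub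
    · rw [card_range, hn]

end nat

theorem perm_apply_inv {T : Type*} (g : Equiv.Perm T) (i : T) : g (g⁻¹ i) = i :=
  Equiv.apply_symm_apply g i

section main

variable {D : Finset (ℕ × ℕ)}

/-- row of a letter -/
def rowOf (t : D ≃ Fin D.card) (i : Fin D.card) : ℕ := (t.symm i).1.1

/-- column of a letter -/
def colOf (t : D ≃ Fin D.card) (i : Fin D.card) : ℕ := (t.symm i).1.2

theorem mem_columnGroup (t : D ≃ Fin D.card) (σ : Equiv.Perm (Fin D.card)) :
    σ ∈ columnGroup t ↔ ∀ i, colOf t (σ i) = colOf t i := by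
  unfold columnGroup colOf
  simp

/-- signed column sum -/
noncomputable def kap (t : D ≃ Fin D.card) :
    (RowWord D.card →₀ ℂ) →ₗ[ℂ] (RowWord D.card →₀ ℂ) :=
  ∑ σ ∈ columnGroup t, (((Equiv.Perm.sign σ : ℤˣ) : ℤ) : ℂ) • rowWordRep D.card σ

theorem kap_apply (t : D ≃ Fin D.card) (f : RowWord D.card →₀ ℂ) :
    kap t f = ∑ σ ∈ columnGroup t,
      (((Equiv.Perm.sign σ : ℤˣ) : ℤ) : ℂ) • rowWordRep D.card σ f := by
  unfold kap
  simp [LinearMap.sum_apply]

theorem rowWordRep_single (n : ℕ) (g : Equiv.Perm (Fin n)) (w : RowWord n) :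
    rowWordRep n g (Finsupp.single w 1) = Finsupp.single (g • w) 1 := by
  change Finsupp.mapDomain _ _ = _
  rw [Finsupp.mapDomain_single]

theorem kap_single (t : D ≃ Fin D.card) :
    kap t (Finsupp.single (rowWord t) 1) = polytabloid t := by
  rw [kap_apply]
  unfold polytabloid
  refine Finset.sum_congr rfl fun σ _ => ?_
  rw [rowWordRep_single]

theorem kap_rep (t : D ≃ Fin D.card) (g : Equiv.Perm (Fin D.card)) (hg : g ∈ columnGroup t)
    (f : RowWord D.card →₀ ℂ) :
    kap t (rowWordRep D.card g f) = (((Equiv.Perm.sign g : ℤˣ) : ℤ) : ℂ) • kap t f := by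
  rw [mem_columnGroup] at hg
  have hg' : ∀ i, colOf t (g⁻¹ i) = colOf t i := by
    intro i
    have := hg (g⁻¹ i)
    rw [perm_apply_inv] at this
    exact this.symm
  rw [kap_apply, kap_apply, Finset.smul_sum]
  refine Finset.sum_bij' (fun σ _ => σ * g) (fun σ _ => σ * g⁻¹) ?_ ?_ ?_ ?_ ?_
  · intro σ hσ
    rw [mem_columnGroup] at hσ ⊢
    intro i
    rw [Equiv.Perm.mul_apply, hσ, hg]
  · intro σ hσ
    rw [mem_columnGroup] at hσ ⊢
    intro i
    rw [Equiv.Perm.mul_apply, hσ, hg']
  · intro σ _; simp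
  · intro σ _; simp
  · intro σ _
    rw [← Module.End.mul_apply, ← map_mul, smul_smul]
    congr 1
    rw [Equiv.Perm.sign_mul]
    have h1 : ((Equiv.Perm.sign g : ℤˣ) : ℤ) * ((Equiv.Perm.sign g : ℤˣ) : ℤ) = 1 := by
      rw [← Units.val_mul, Int.units_mul_self, Units.val_one]
    push_cast
    have h2 : (((Equiv.Perm.sign g : ℤˣ) : ℤ) : ℂ) * (((Equiv.Perm.sign g : ℤˣ) : ℤ) : ℂ) = 1 := by
      exact_mod_cast h1
    linear_combination -(((Equiv.Perm.sign σ : ℤˣ) : ℤ) : ℂ) * h2

/-- The image of a row word of the right content under the signed column sum. -/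
theorem kap_word (hD : ∀ i j i', (i, j) ∈ D → i' ≤ i → (i', j) ∈ D) (t : D ≃ Fin D.card)
    (g : Equiv.Perm (Fin D.card)) :
    ∃ c : ℂ, kap t (Finsupp.single (g • rowWord t) 1) = c • polytabloid t := by
  classical
  set w : Fin D.card → ℕ := fun i => rowOf t (g.symm i) with hw
  have hww : (g • rowWord t : RowWord D.card) = w := rfl
  by_cases hinj : ∀ i j, colOf t i = colOf t j → w i = w j → i = j
  · -- the letters of each column have distinct rows
    have hcell : ∀ i, (w i, colOf t i) ∈ D := by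
      -- compare sums column by column
      set C : ℕ → Finset (Fin D.card) := fun j => univ.filter fun i => colOf t i = j with hC
      have hr : ∀ j, (C j).image (rowOf t) = range (C j).card := by
        intro j
        have hrinj : Set.InjOn (rowOf t) (C j) := by
          intro a ha b hb hab
          have ha' : colOf t a = j := by simpa [hC] using ha
          have hb' : colOf t b = j := by simpa [hC] using hb
          apply t.symm.injective
          apply Subtype.ext
          exact Prod.ext hab (ha'.trans hb'.symm)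
        have hcard : ((C j).image (rowOf t)).card = (C j).card := card_image_of_injOn hrinj
        have hlow : ∀ a b, a ∈ (C j).image (rowOf t) → b ≤ a → b ∈ (C j).image (rowOf t) := by
          intro a b ha hba
          rw [mem_image] at ha ⊢
          obtain ⟨i, hi, rfl⟩ := ha
          have hi' : colOf t i = j := by simpa [hC] using hi
          have hmem : (rowOf t i, j) ∈ D := by
            rw [← hi']; exact (t.symm i).2
          have hmem' : (b, j) ∈ D := hD _ _ _ hmem hba
          refine ⟨t ⟨(b, j), hmem'⟩, ?_, ?_⟩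
          · have : colOf t (t ⟨(b, j), hmem'⟩) = j := by
              unfold colOf
              rw [Equiv.symm_apply_apply]
            simpa [hC] using this
          · change (t.symm (t ⟨(b, j), hmem'⟩)).1.1 = b
            rw [Equiv.symm_apply_apply]
        -- a lower set of naturals is a range
        have hkey : (C j).image (rowOf t) = range ((C j).image (rowOf t)).card := by
          by_cases hemp : (C j).image (rowOf t) = ∅
          · rw [hemp]; rfl
          · have hne : ((C j).image (rowOf t)).Nonempty := Finset.nonempty_iff_ne_empty.mpr hemp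
            set M := ((C j).image (rowOf t)).max' hne with hM
            have heq : (C j).image (rowOf t) = range (M + 1) := by
              ext a
              rw [mem_range, Nat.lt_succ_iff]
              exact ⟨fun ha => Finset.le_max' _ a ha,
                fun ha => hlow M a (Finset.max'_mem _ hne) ha⟩
            rw [heq, card_range]
        rw [hkey, hcard]
      have hwinj : ∀ j, Set.InjOn w (C j) := by
        intro j a ha b hb hab
        have ha' : colOf t a = j := by simpa [hC] using ha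
        have hb' : colOf t b = j := by simpa [hC] using hb
        exact hinj a b (ha'.trans hb'.symm) hab
      have hrinj : ∀ j, Set.InjOn (rowOf t) (C j) := by
        intro j
        rw [← Finset.card_image_iff, hr j, card_range]
      have hle : ∀ j, ∑ i ∈ C j, rowOf t i ≤ ∑ i ∈ C j, w i := by
        intro j
        have h1 : ∑ i ∈ C j, rowOf t i = ∑ k ∈ range (C j).card, k := by
          rw [← hr j, sum_image (hrinj j)]
        have h2 : ∑ i ∈ C j, w i = ∑ k ∈ (C j).image w, k := by
          rw [sum_image (hwinj j)]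
        rw [h1, h2]
        have := (sum_range_card_le ((C j).image w)).1
        rwa [card_image_of_injOn (hwinj j)] at this
      set J : Finset ℕ := univ.image (colOf t) with hJ
      have hfib : ∀ f : Fin D.card → ℕ, ∑ i, f i = ∑ j ∈ J, ∑ i ∈ C j, f i := by
        intro f
        rw [hJ, ← Finset.sum_fiberwise_of_maps_to (s := univ) (t := univ.image (colOf t))
          (g := colOf t) (fun i _ => mem_image_of_mem _ (mem_univ i))]
      have htot : ∑ i, rowOf t i = ∑ i, w i := by
        rw [hw]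
        exact (Equiv.sum_comp g.symm (rowOf t)).symm
      have heq : ∀ j ∈ J, ∑ i ∈ C j, rowOf t i = ∑ i ∈ C j, w i := by
        rw [hfib, hfib] at htot
        exact (Finset.sum_eq_sum_iff_of_le (fun j _ => hle j)).mp htot
      intro i
      set j := colOf t i with hj
      have hjJ : j ∈ J := mem_image_of_mem _ (mem_univ i)
      have h1 : ∑ i ∈ C j, rowOf t i = ∑ k ∈ range (C j).card, k := by
        rw [← hr j, sum_image (hrinj j)]
      have h2 : ∑ i ∈ C j, w i = ∑ k ∈ (C j).image w, k := by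
        rw [sum_image (hwinj j)]
      have h3 := (sum_range_card_le ((C j).image w)).2
      rw [card_image_of_injOn (hwinj j)] at h3
      have h4 := h3 (by rw [← h1, ← h2, heq j hjJ])
      have h5 : w i ∈ (C j).image (rowOf t) := by
        rw [hr j, ← h4]
        exact mem_image_of_mem _ (by simp [hC, hj])
      obtain ⟨i', hi', hi''⟩ := mem_image.mp h5
      have hi3 : colOf t i' = j := by simpa [hC] using hi'
      rw [← hi'', ← hi3]
      exact (t.symm i').2
    -- the permutation
    set β : Fin D.card → D := fun i => ⟨(w i, colOf t i), hcell i⟩ with hβ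
    have hβinj : Injective β := by
      intro a b hab
      have h : (w a, colOf t a) = (w b, colOf t b) := congrArg Subtype.val hab
      have h1 : w a = w b := (Prod.mk.inj h).1
      have h2 : colOf t a = colOf t b := (Prod.mk.inj h).2
      exact hinj a b h2 h1
    have hβbij : Bijective β := by
      rw [Fintype.bijective_iff_injective_and_card]
      exact ⟨hβinj, by simp⟩
    set B := Equiv.ofBijective β hβbij with hB
    -- π with w ∘ π = rowWord t, col ∘ π = col
    set π : Equiv.Perm (Fin D.card) := t.symm.trans B.symm with hπ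
    have hBπ : ∀ i, β (π i) = t.symm i := by
      intro i
      change B (B.symm (t.symm i)) = _
      rw [Equiv.apply_symm_apply]
    have hπcol : π ∈ columnGroup t := by
      rw [mem_columnGroup]
      intro i
      have := congrArg (fun c : D => c.1.2) (hBπ i)
      exact this
    have hπw : (g • rowWord t : RowWord D.card) = π • rowWord t := by
      rw [hww]
      funext i
      change w i = rowOf t (π.symm i)
      have := congrArg (fun c : D => c.1.1) (hBπ (π.symm i))
      rw [Equiv.apply_symm_apply] at this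
      exact this
    refine ⟨(((Equiv.Perm.sign π : ℤˣ) : ℤ) : ℂ), ?_⟩
    rw [hπw, ← rowWordRep_single, kap_rep t π hπcol, kap_single]
  · push Not at hinj
    obtain ⟨a, b, hab, hwab, hne⟩ := hinj
    refine ⟨0, ?_⟩
    have hs : Equiv.swap a b ∈ columnGroup t := by
      rw [mem_columnGroup]
      intro i
      rcases eq_or_ne i a with rfl | hia
      · rw [Equiv.swap_apply_left, hab]
      · rcases eq_or_ne i b with rfl | hib
        · rw [Equiv.swap_apply_right, hab]
        · rw [Equiv.swap_apply_of_ne_of_ne hia hib]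
    have hfix : (Equiv.swap a b • (g • rowWord t) : RowWord D.card) = g • rowWord t := by
      rw [hww]
      funext i
      change w ((Equiv.swap a b).symm i) = w i
      rw [Equiv.symm_swap]
      rcases eq_or_ne i a with rfl | hia
      · rw [Equiv.swap_apply_left, hwab]
      · rcases eq_or_ne i b with rfl | hib
        · rw [Equiv.swap_apply_right, hwab]
        · rw [Equiv.swap_apply_of_ne_of_ne hia hib]
    have h1 := kap_rep t (Equiv.swap a b) hs (Finsupp.single (g • rowWord t) 1)
    rw [rowWordRep_single, hfix, Equiv.Perm.sign_swap hne] at h1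
    rw [zero_smul]
    have h2 : (2 : ℂ) • kap t (Finsupp.single (g • rowWord t) 1) = 0 := by
      rw [two_smul]
      nth_rewrite 1 [h1]
      simp
    exact (smul_eq_zero.mp h2).resolve_left two_ne_zero

theorem kap_mem (hD : ∀ i j i', (i, j) ∈ D → i' ≤ i → (i', j) ∈ D) (t : D ≃ Fin D.card)
    (f : RowWord D.card →₀ ℂ) (hf : f ∈ (spechtSubrep D).toSubmodule) :
    ∃ c : ℂ, kap t f = c • polytabloid t := by
  rw [spechtSubrep_toSubmodule] at hf
  induction hf using Submodule.span_induction with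
  | mem x hx =>
    obtain ⟨t', rfl⟩ := hx
    have h : ∀ σ : Equiv.Perm (Fin D.card), ∃ c : ℂ,
        kap t (Finsupp.single (σ • rowWord t') 1) = c • polytabloid t := by
      intro σ
      have h1 : (σ • rowWord t' : RowWord D.card) = (σ * (t.symm.trans t')) • rowWord t := by
        rw [mul_smul]
        congr 1
        funext i
        change (t'.symm i).1.1 = (t.symm ((t.symm.trans t').symm i)).1.1
        simp
      rw [h1]
      exact kap_word hD t _
    choose c hc using h
    refine ⟨∑ σ ∈ columnGroup t', (((Equiv.Perm.sign σ : ℤˣ) : ℤ) : ℂ) * c σ, ?_⟩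
    simp only [polytabloid, map_sum, map_smul]
    rw [Finset.sum_smul]
    refine Finset.sum_congr rfl fun σ _ => ?_
    rw [hc σ, smul_smul]
    rfl
  | zero => exact ⟨0, by simp⟩
  | add x y _ _ hx hy =>
    obtain ⟨a, ha⟩ := hx
    obtain ⟨b, hb⟩ := hy
    exact ⟨a + b, by rw [map_add, ha, hb, add_smul]⟩
  | smul a x _ hx =>
    obtain ⟨b, hb⟩ := hx
    exact ⟨a * b, by rw [map_smul, hb, smul_smul]⟩

/-- pairing with a polytabloid -/
theorem linearCombination_polytabloid (t : D ≃ Fin D.card) (u : RowWord D.card →₀ ℂ) :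
    Finsupp.linearCombination ℂ (fun w => u w) (polytabloid t) = kap t u (rowWord t) := by
  rw [kap_apply, Finsupp.finsetSum_apply]
  unfold polytabloid
  rw [map_sum]
  refine Finset.sum_bij' (fun σ _ => σ⁻¹) (fun σ _ => σ⁻¹) ?_ ?_ ?_ ?_ ?_
  · intro σ hσ
    rw [mem_columnGroup] at hσ ⊢
    intro i
    have := hσ (σ⁻¹ i)
    rw [perm_apply_inv] at this
    exact this.symm
  · intro σ hσ
    rw [mem_columnGroup] at hσ ⊢
    intro i
    have := hσ (σ⁻¹ i)
    rw [perm_apply_inv] at this
    exact this.symm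
  · intro σ _; exact inv_inv σ
  · intro σ _; exact inv_inv σ
  · intro σ _
    rw [map_smul, Finsupp.linearCombination_single, Finsupp.smul_apply, Equiv.Perm.sign_inv,
      one_smul]
    congr 1
    exact (rowWordRep_apply _ σ⁻¹ u (rowWord t)).symm

/-- complex conjugation preserves the Specht module -/
theorem conj_mem (u : RowWord D.card →₀ ℂ) (hu : u ∈ (spechtSubrep D).toSubmodule) :
    Finsupp.mapRange (starRingEnd ℂ) (map_zero _) u ∈ (spechtSubrep D).toSubmodule := by
  rw [spechtSubrep_toSubmodule] at hu ⊢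
  induction hu using Submodule.span_induction with
  | mem x hx =>
    obtain ⟨t, rfl⟩ := hx
    have : Finsupp.mapRange (starRingEnd ℂ) (map_zero _) (polytabloid t) = polytabloid t := by
      refine Finsupp.ext fun w => ?_
      rw [Finsupp.mapRange_apply]
      have h := polytabloid_apply t w
      rw [h]
      unfold polyF
      rw [map_sum]
      refine Finset.sum_congr rfl fun σ _ => ?_
      split_ifs
      · exact map_intCast _ _
      · exact map_zero _
    rw [this]
    exact Submodule.subset_span ⟨t, rfl⟩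
  | zero => rw [Finsupp.mapRange_zero]; exact Submodule.zero_mem _
  | add x y _ _ hx hy =>
    rw [Finsupp.mapRange_add (fun a b => map_add _ a b)]
    exact Submodule.add_mem _ hx hy
  | smul a x _ hx =>
    have : Finsupp.mapRange (starRingEnd ℂ) (map_zero _) (a • x) =
        (starRingEnd ℂ a) • Finsupp.mapRange (starRingEnd ℂ) (map_zero _) x := by
      refine Finsupp.ext fun w => ?_
      rw [Finsupp.mapRange_apply, Finsupp.smul_apply, Finsupp.smul_apply, Finsupp.mapRange_apply,
        smul_eq_mul, smul_eq_mul, map_mul]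
    rw [this]
    exact Submodule.smul_mem _ _ hx

theorem eq_zero_of_kap (u : RowWord D.card →₀ ℂ) (hu : u ∈ (spechtSubrep D).toSubmodule)
    (h : ∀ t : D ≃ Fin D.card, kap t u = 0) : u = 0 := by
  classical
  have h1 : ∀ v ∈ (spechtSubrep D).toSubmodule,
      Finsupp.linearCombination ℂ (fun w => u w) v = 0 := by
    intro v hv
    rw [spechtSubrep_toSubmodule] at hv
    induction hv using Submodule.span_induction with
    | mem x hx =>
      obtain ⟨t, rfl⟩ := hx
      rw [linearCombination_polytabloid, h t, Finsupp.zero_apply]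
    | zero => exact map_zero _
    | add x y _ _ hx hy => rw [map_add, hx, hy, add_zero]
    | smul a x _ hx => rw [map_smul, hx, smul_zero]
  have h2 := h1 _ (conj_mem u hu)
  rw [Finsupp.linearCombination_apply, Finsupp.sum_mapRange_index (fun a => by simp)] at h2
  have h3 : ∑ w ∈ u.support, ((Complex.normSq (u w) : ℝ) : ℂ) = 0 := by
    rw [← h2]
    unfold Finsupp.sum
    refine Finset.sum_congr rfl fun w _ => ?_
    change _ = (starRingEnd ℂ) (u w) * u w
    rw [mul_comm, Complex.mul_conj]
  have h4 : ∑ w ∈ u.support, Complex.normSq (u w) = 0 := by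
    exact_mod_cast h3
  rw [Finset.sum_eq_zero_iff_of_nonneg (fun w _ => Complex.normSq_nonneg _)] at h4
  refine Finsupp.ext fun w => ?_
  rw [Finsupp.zero_apply]
  by_contra hw
  exact hw (Complex.normSq_eq_zero.mp (h4 w (Finsupp.mem_support_iff.mpr hw)))

theorem polytabloid_ne_zero (t : D ≃ Fin D.card) : polytabloid t ≠ 0 := by
  intro h
  have h1 := polytabloid_apply t (rowWord t)
  rw [h, Finsupp.zero_apply] at h1
  unfold polyF at h1
  rw [Finset.sum_eq_single (1 : Equiv.Perm (Fin D.card))] at h1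
  · simp [rowWord] at h1
  · intro σ _ hσ
    rw [if_neg]
    rintro ⟨ha, hb⟩
    apply hσ
    ext i
    have h2 : t.symm (σ i) = t.symm i := Subtype.ext (Prod.ext (hb i) (ha i))
    rw [t.symm.injective h2]
    rfl
  · intro h; exact absurd (mem_univ _) h

/-- Irreducibility of the Specht module of a column-justified shape. -/
theorem spechtIrred (hD : ∀ i j i', (i, j) ∈ D → i' ≤ i → (i', j) ∈ D) : SpechtIrred D := by
  classical
  have t0 : D ≃ Fin D.card := D.equivFin
  set e0 : (spechtSubrep D).toSubmodule := ⟨polytabloid t0, polytabloid_mem t0⟩ with he0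
  have hnt : (⊥ : Subrepresentation (spechtRep D)) ≠ ⊤ := by
    intro h
    have h1 : e0 ∈ (⊤ : Subrepresentation (spechtRep D)).toSubmodule := trivial
    rw [← h] at h1
    have h2 : e0 = 0 := h1
    exact polytabloid_ne_zero t0 (congrArg Subtype.val h2)
  unfold SpechtIrred
  have : Nontrivial (Subrepresentation (spechtRep D)) := ⟨⟨_, _, hnt⟩⟩
  refine ⟨fun U => ?_⟩
  by_cases hU : ∃ u ∈ U.toSubmodule, ∃ t : D ≃ Fin D.card, kap t u.1 ≠ 0
  · right
    obtain ⟨u, huU, t, hkt⟩ := hU
    obtain ⟨c, hc⟩ := kap_mem hD t u.1 u.2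
    have hc0 : c ≠ 0 := by
      rintro rfl
      rw [zero_smul] at hc
      exact hkt hc
    have hmemU : (⟨polytabloid t, polytabloid_mem t⟩ : (spechtSubrep D).toSubmodule) ∈
        U.toSubmodule := by
      have h1 : (⟨polytabloid t, polytabloid_mem t⟩ : (spechtSubrep D).toSubmodule) =
          c⁻¹ • ∑ σ ∈ columnGroup t,
            (((Equiv.Perm.sign σ : ℤˣ) : ℤ) : ℂ) • spechtRep D σ u := by
        apply Subtype.ext
        rw [Submodule.coe_smul, Submodule.coe_sum]
        have h2 : ∀ σ : Equiv.Perm (Fin D.card),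
            ((((((Equiv.Perm.sign σ : ℤˣ) : ℤ) : ℂ) • spechtRep D σ u :
              (spechtSubrep D).toSubmodule)) : RowWord D.card →₀ ℂ) =
            (((Equiv.Perm.sign σ : ℤˣ) : ℤ) : ℂ) • rowWordRep D.card σ u.1 := fun σ => rfl
        simp only [h2]
        rw [← kap_apply, hc, smul_smul, inv_mul_cancel₀ hc0, one_smul]
      rw [h1]
      refine Submodule.smul_mem _ _ (Submodule.sum_mem _ fun σ _ => Submodule.smul_mem _ _ ?_)
      exact U.apply_mem_toSubmodule σ huU
    apply top_unique
    intro x _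
    -- all polytabloids are in `U`
    have hall : ∀ t' : D ≃ Fin D.card,
        (⟨polytabloid t', polytabloid_mem t'⟩ : (spechtSubrep D).toSubmodule) ∈
          U.toSubmodule := by
      intro t'
      have h1 : (⟨polytabloid t', polytabloid_mem t'⟩ : (spechtSubrep D).toSubmodule) =
          spechtRep D (t.symm.trans t') ⟨polytabloid t, polytabloid_mem t⟩ := by
        apply Subtype.ext
        change polytabloid t' = rowWordRep D.card (t.symm.trans t') (polytabloid t)
        rw [rowWordRep_polytabloid]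
        congr 1
        ext i
        simp
      rw [h1]
      exact U.apply_mem_toSubmodule _ hmemU
    have hsub : (spechtSubrep D).toSubmodule ≤ U.toSubmodule.map (Submodule.subtype _) := by
      refine le_trans (le_of_eq (spechtSubrep_toSubmodule D)) ?_
      rw [Submodule.span_le]
      rintro f ⟨t', rfl⟩
      exact ⟨_, hall t', rfl⟩
    obtain ⟨y, hy, hyx⟩ := hsub x.2
    have : y = x := Subtype.ext hyx
    rw [← this]
    exact hy
  · left
    push Not at hU
    apply bot_unique
    intro x hx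
    have h0 := eq_zero_of_kap x.1 x.2 (fun t => hU x hx t)
    have : x = 0 := Subtype.ext h0
    rw [this]
    exact Submodule.zero_mem _

end main

end Crest.Agent.R195
end

-- ▼ part R195/HookList
section

/-! Row 195, S0298: self-conjugate shapes given by the list of their principal hooks
`p₁ > p₂ > …` (the `i`-th principal hook has arm and leg `p_i`, `2 p_i - 1` cells). -/

set_option autoImplicit false
set_option linter.unusedSectionVars false
set_option linter.unusedDecidableInType false

namespace Crest.Agent.R195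

open Finset Function Crest.AlgebraR.Specht

/-- the shape with principal hooks `ps` -/
def hk : List ℕ → Finset (ℕ × ℕ)
  | [] => ∅
  | p :: ps => hookS p (hk ps)

/-- column lengths of `hk ps` (valid lists) -/
def cl : List ℕ → ℕ → ℕ
  | [], _ => 0
  | p :: _, 0 => p
  | p :: ps, s + 1 => if s + 1 < p then cl ps s + 1 else 0

/-- strictly decreasing lists of positive numbers -/
def ValidH : List ℕ → Prop
  | [] => True
  | p :: ps => ps.headD 0 < p ∧ ValidH ps

instance decValidH : ∀ ps, Decidable (ValidH ps)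
  | [] => isTrue trivial
  | _ :: ps => @instDecidableAnd _ _ _ (decValidH ps)

/-- number of cells -/
def hsize : List ℕ → ℕ
  | [] => 0
  | p :: ps => p + (p - 1) + hsize ps

theorem card_hk (ps : List ℕ) : (hk ps).card = hsize ps := by
  induction ps with
  | nil => rfl
  | cons p ps ih => rw [hk, card_hookS, hsize, ih]

theorem hk_swap (ps : List ℕ) : (hk ps).image Prod.swap = hk ps := by
  induction ps with
  | nil => rfl
  | cons p ps ih => exact hookS_swap ih

theorem cl_zero (ps : List ℕ) : cl ps 0 = ps.headD 0 := by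
  cases ps <;> rfl

theorem cl_succ (p : ℕ) (ps : List ℕ) (s : ℕ) :
    cl (p :: ps) (s + 1) = if s + 1 < p then cl ps s + 1 else 0 := rfl

theorem cl_eq_zero {ps : List ℕ} (h : ValidH ps) : ∀ {s : ℕ}, cl ps 0 ≤ s → cl ps s = 0 := by
  induction ps with
  | nil => intro s _; cases s <;> rfl
  | cons p ps ih =>
    intro s hs
    cases s with
    | zero => exact Nat.le_zero.mp hs
    | succ s =>
      have h1 : p ≤ s + 1 := hs
      rw [cl_succ, if_neg (by omega)]


theorem mem_hk {ps : List ℕ} (h : ValidH ps) : ∀ {c : ℕ × ℕ}, c ∈ hk ps ↔ c.1 < cl ps c.2 := by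
  induction ps with
  | nil =>
    intro c
    simp [hk, cl]
  | cons p ps ih =>
    intro c
    obtain ⟨h1, h2⟩ := h
    rw [← cl_zero] at h1
    rw [hk, mem_hookS, ih h2]
    obtain ⟨i, j⟩ := c
    simp only
    cases j with
    | zero =>
      have h3 : cl (p :: ps) 0 = p := rfl
      rw [h3]
      simp
    | succ j =>
      rw [cl_succ]
      constructor
      · rintro (⟨-, h3⟩ | ⟨h3, h4, -⟩ | ⟨h3, -, h4⟩)
        · omega
        · rw [if_pos h3]; omega
        · simp only [Nat.add_sub_cancel] at h4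
          have h5 : j < cl ps 0 := by
            by_contra hcon
            rw [cl_eq_zero h2 (by omega)] at h4
            omega
          rw [if_pos (by omega)]; omega
      · intro h3
        right
        by_cases hj : j + 1 < p
        · rw [if_pos hj] at h3
          rcases Nat.eq_zero_or_pos i with h0 | h0
          · left; exact ⟨hj, h0, by omega⟩
          · right; exact ⟨h0, by omega, by simp only [Nat.add_sub_cancel]; omega⟩
        · rw [if_neg hj] at h3; omega

theorem cl_anti {ps : List ℕ} (h : ValidH ps) : Antitone (cl ps) := by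
  induction ps with
  | nil => intro a b _; exact (by simp [cl] : cl [] b ≤ cl [] a)
  | cons p ps ih =>
    obtain ⟨h1, h2⟩ := h
    rw [← cl_zero] at h1
    refine antitone_nat_of_succ_le fun s => ?_
    cases s with
    | zero =>
      have h3 : cl (p :: ps) 0 = p := rfl
      rw [h3, cl_succ]
      split_ifs <;> omega
    | succ s =>
      rw [cl_succ, cl_succ]
      have h3 := ih h2 (Nat.le_succ s)
      rw [Nat.succ_eq_add_one] at h3
      split_ifs <;> omega

/-- the Young diagram with principal hooks `ps` -/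
def hkY (ps : List ℕ) (h : ValidH ps) : YoungDiagram where
  cells := hk ps
  isLowerSet := by
    intro c d hdc hc
    rw [Finset.mem_coe, mem_hk h] at hc ⊢
    have h1 : d.1 ≤ c.1 := hdc.1
    have h2 := cl_anti h (show d.2 ≤ c.2 from hdc.2)
    omega


theorem hkY_colLen (ps : List ℕ) (h : ValidH ps) (s : ℕ) : (hkY ps h).colLen s = cl ps s := by
  have key : ∀ i, i < (hkY ps h).colLen s ↔ i < cl ps s := by
    intro i
    rw [← YoungDiagram.mem_iff_lt_colLen]
    exact mem_hk h
  have h1 := key ((hkY ps h).colLen s)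
  have h2 := key (cl ps s)
  omega

theorem hkY_transpose (ps : List ℕ) (h : ValidH ps) : (hkY ps h).transpose = hkY ps h := by
  apply YoungDiagram.ext
  rw [transpose_cells]
  exact hk_swap ps


theorem hkY_card (ps : List ℕ) (h : ValidH ps) : (hkY ps h).card = hsize ps := card_hk ps

theorem hk_young {ps : List ℕ} (h : ValidH ps) (i j i' : ℕ) (hij : (i, j) ∈ hk ps) (hi : i' ≤ i) :
    (i', j) ∈ hk ps := by
  rw [mem_hk h] at hij ⊢
  simp only at hij ⊢
  omega

/-- fullness of the self-conjugate shape with hooks `ps` -/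
def FullH (ps : List ℕ) : Prop := Full (hk ps) (hk ps)

/-- hooks of the staircase with `m` rows: `m, m-2, m-4, …` -/
def stairH : ℕ → List ℕ
  | 0 => []
  | 1 => [1]
  | m + 2 => (m + 2) :: stairH m

theorem stairH_head (m : ℕ) : (stairH m).headD 0 = m := by
  match m with
  | 0 => rfl
  | 1 => rfl
  | m + 2 => rfl

theorem validH_stairH (m : ℕ) : ValidH (stairH m) := by
  induction m using Nat.twoStepInduction with
  | zero => trivial
  | one => exact ⟨by decide, trivial⟩
  | more m ih _ => exact ⟨by rw [stairH_head]; omega, ih⟩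

theorem hk_stairH (m : ℕ) : hk (stairH m) = staircaseShape m := by
  induction m using Nat.twoStepInduction with
  | zero =>
    ext c
    rw [mem_stair]; simp [stairH, hk]
  | one =>
    ext c
    rw [mem_stair]
    simp only [stairH, hk]
    rw [mem_hookS]
    simp only [Finset.notMem_empty, and_false, or_false]
    omega
  | more m ih _ =>
    ext c
    rw [stairH, hk, mem_hookS, ih, mem_stair, mem_stair]
    omega

theorem fullH_stair (m : ℕ) : FullH (stairH m) := by
  unfold FullH
  rw [hk_stairH]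
  exact full_stair m

/-- The conclusion of S0298 for `n`. -/
def Good298 (n : ℕ) : Prop :=
  ∃ (V : Type) (_ : AddCommGroup V) (_ : Module ℂ V) (_ : FiniteDimensional ℂ V)
      (ρ : Representation ℂ (Equiv.Perm (Fin n)) V), Representation.IsIrreducible ρ ∧
      ∀ (W : Type) [AddCommGroup W] [Module ℂ W] [FiniteDimensional ℂ W]
        (σ : Representation ℂ (Equiv.Perm (Fin n)) W), Representation.IsIrreducible σ →
        Nontrivial (Representation.IntertwiningMap σ (Representation.tprod ρ ρ))

theorem good_of_fullH {n : ℕ} (ps : List ℕ) (h : ValidH ps) (hn : hsize ps = n)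
    (hf : FullH ps) : Good298 n :=
  exists_of_full n (hk ps) ((card_hk ps).trans hn) (spechtIrred (hk_young h)) hf

end Crest.Agent.R195
private theorem rz_0ec4c00f43 : type_of% @_root_.Crest.Agent.R195.cl.eq_def := @_root_.Crest.Agent.R195.cl.eq_def -- L22
private theorem rz_baeb1d146a : type_of% @_root_.Crest.Agent.R195.cl.eq_1 := @_root_.Crest.Agent.R195.cl.eq_1 -- L22
private theorem rz_c802bcc5d4 : type_of% @_root_.Crest.Agent.R195.hk.eq_def := @_root_.Crest.Agent.R195.hk.eq_def -- L17
private theorem rz_5cf64f5750 : type_of% @_root_.Crest.Agent.R195.hk.eq_1 := @_root_.Crest.Agent.R195.hk.eq_1 -- L17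
private theorem rz_77e716b386 : type_of% @_root_.Crest.Agent.R195.hsize.eq_def := @_root_.Crest.Agent.R195.hsize.eq_def -- L37
private theorem rz_e6fd4ed63e : type_of% @_root_.Crest.Agent.R195.hsize.eq_1 := @_root_.Crest.Agent.R195.hsize.eq_1 -- L37
private theorem rz_d885299146 : type_of% @_root_.Crest.Agent.R195.stairH.eq_def := @_root_.Crest.Agent.R195.stairH.eq_def -- L176
private theorem rz_fd811e5c4f : type_of% @_root_.Crest.Agent.R195.stairH.eq_1 := @_root_.Crest.Agent.R195.stairH.eq_1 -- L176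
end

-- ▼ part R195/RulesL

/-! Row 195 (helper563).  RULE 1 and RULE 2 for shapes given by the list of their principal hooks. -/

set_option autoImplicit false

namespace Crest.Agent.R195

open Finset Function

/-- numerical condition of the hook step -/
def HC (p : ℕ) (ps : List ℕ) : Prop :=
  ∀ s, s < p - 1 → 2 * (cl ps s + 1) ≤ max p (2 * p - (s + 1))

theorem HC.ok {p : ℕ} {ps : List ℕ} (hv : ValidH (p :: ps)) (h : HC p ps) :
    HookOK p (hkY ps hv.2) := by
  have h1 := hv.1
  rw [← cl_zero] at h1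
  refine HookOK.of_selfconj (by omega) (hkY_transpose ps hv.2) ?_ ?_
  · rw [hkY_colLen]; omega
  · intro s hs
    rw [hkY_colLen]
    exact h s hs

/-- The heights `H` of the columns of a diagram with `n` cells, `w` columns, `w₂` columns of height
at least two, short in both directions, not higher than wide. -/
structure Region (n B w w₂ : ℕ) (H : ℕ → ℕ) : Prop where
  anti : Antitone H
  pos : ∀ j, j < w ↔ 0 < H j
  two : ∀ j, j < w₂ ↔ 1 < H j
  sum : ∑ j ∈ range w, H j = n
  col : H 0 + H 1 ≤ 2 * B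
  row : w + w₂ ≤ 2 * B
  wlog : H 0 ≤ w

theorem sum_colLen (μ : YoungDiagram) : ∑ j ∈ range (μ.rowLen 0), μ.colLen j = μ.card := by
  have h1 := sum_rowLen_eq_card (μ := μ.transpose) (k := μ.rowLen 0) (by
    rw [YoungDiagram.rowLen_transpose]
    by_contra hne
    have h2 := YoungDiagram.mem_iff_lt_colLen.2 (Nat.pos_of_ne_zero hne)
    have h3 := YoungDiagram.mem_iff_lt_rowLen.1 h2
    omega)
  rw [card_transpose'] at h1
  rw [← h1]
  exact Finset.sum_congr rfl fun j _ => (YoungDiagram.rowLen_transpose μ j).symm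

theorem region_of_young {μ : YoungDiagram} {n B : ℕ} (hn : μ.card = n)
    (h1 : μ.rowLen 0 + μ.rowLen 1 ≤ 2 * B) (h2 : μ.colLen 0 + μ.colLen 1 ≤ 2 * B)
    (h3 : μ.colLen 0 ≤ μ.rowLen 0) : Region n B (μ.rowLen 0) (μ.rowLen 1) μ.colLen where
  anti := fun _ _ h => μ.colLen_anti _ _ h
  pos := fun j => by
    rw [← YoungDiagram.mem_iff_lt_rowLen, YoungDiagram.mem_iff_lt_colLen]
  two := fun j => by
    rw [← YoungDiagram.mem_iff_lt_rowLen, YoungDiagram.mem_iff_lt_colLen]
  sum := by rw [sum_colLen, hn]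
  col := h2
  row := h1
  wlog := h3


/-- **RULE 1** for hook lists. -/
theorem rule1 {p : ℕ} {ps : List ℕ} (hv : ValidH (p :: ps)) (hc : HC p ps) (hf : FullH ps)
    (hcov : ∀ μ : YoungDiagram, μ.card = hsize (p :: ps) →
      Region (hsize (p :: ps)) (p - 1) (μ.rowLen 0) (μ.rowLen 1) μ.colLen →
      OccSh (hk (p :: ps)) (hk (p :: ps)) μ) : FullH (p :: ps) := by
  have hcard : hsize (p :: ps) = p + (p - 1) + (hkY ps hv.2).card := by
    rw [hkY_card]; rfl
  refine full_hook (κ := hkY ps hv.2) (hc.ok hv) (hk_swap ps) hf ?_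
  intro μ hμ h1 h2
  have h3 : 2 * p - 2 = 2 * (p - 1) := by omega
  rw [h3] at h1 h2
  have hμ' : μ.card = hsize (p :: ps) := hμ.trans hcard.symm
  rcases le_total (μ.colLen 0) (μ.rowLen 0) with h | h
  · left
    exact hcov μ hμ' (region_of_young hμ' h1 h2 h)
  · right
    refine hcov μ.transpose (by rw [card_transpose']; exact hμ')
      (region_of_young (by rw [card_transpose']; exact hμ') ?_ ?_ ?_)
    · rw [YoungDiagram.rowLen_transpose, YoungDiagram.rowLen_transpose]; exact h2
    · rw [YoungDiagram.colLen_transpose, YoungDiagram.colLen_transpose]; exact h1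
    · rw [YoungDiagram.rowLen_transpose, YoungDiagram.colLen_transpose]; exact h



end Crest.Agent.R195
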