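import Crest.Agent.R195.CertLin

/-!
Row 195.  Linear coverage check for tables of all diagrams up to transposition (helper895).
-/

set_option autoImplicit false

namespace Crest.Agent.R195

/-- lexicographic order -/
def lexLe : List ℕ → List ℕ → Bool
  | [], _ => true
  | _ :: _, [] => false
  | x :: l, y :: l' => Nat.blt x y || (Nat.beq x y && lexLe l l')

theorem lexLe_total : ∀ (l l' : List ℕ), lexLe l l' = true ∨ lexLe l' l = true := by
  intro l
  induction l with
  | nil => intro l'; exact Or.inl rfl
  | cons x l ih =>
    intro l'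
    cases l' with
    | nil => exact Or.inr rfl
    | cons y l' =>
      simp only [lexLe, Bool.or_eq_true, Bool.and_eq_true, Nat.blt_eq, Nat.beq_eq]
      rcases Nat.lt_trichotomy x y with h | h | h
      · exact Or.inl (Or.inl h)
      · rcases ih l' with h1 | h1
        · exact Or.inl (Or.inr ⟨h, h1⟩)
        · exact Or.inr (Or.inr ⟨h.symm, h1⟩)
      · exact Or.inr (Or.inl h)

/-- one diagram of each pair of transposed diagrams -/
def keepL (p : List ℕ) : Bool :=
  Nat.blt (p.headD 0) p.length || (Nat.beq (p.headD 0) p.length && lexLe p (conjL p))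

theorem colLens_headD (μ : YoungDiagram) : (colLens μ).headD 0 = μ.colLen 0 := by
  rw [← colLens_getD]
  cases colLens μ <;> rfl

theorem keepL_total (μ : YoungDiagram) :
    keepL (colLens μ) = true ∨ keepL (colLens μ.transpose) = true := by
  unfold keepL
  rw [← colLens_transpose, ← colLens_transpose, YoungDiagram.transpose_transpose, colLens_headD,
    colLens_headD, colLens_length, colLens_length, YoungDiagram.rowLen_transpose,
    YoungDiagram.colLen_transpose]
  simp only [Bool.or_eq_true, Bool.and_eq_true, Nat.blt_eq, Nat.beq_eq]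
  rcases Nat.lt_trichotomy (μ.colLen 0) (μ.rowLen 0) with h | h | h
  · exact Or.inl (Or.inl h)
  · rcases lexLe_total (colLens μ) (colLens μ.transpose) with h1 | h1
    · exact Or.inl (Or.inr ⟨h, h1⟩)
    · exact Or.inr (Or.inr ⟨h.symm, h1⟩)
  · exact Or.inr (Or.inl h)

/-- Fullness from a table for all shapes up to transposition, linear coverage check. -/
theorem fullH_of_tableL {ps : List ℕ} {n : ℕ} (hn : hsize ps = n)
    {tb : List Entry} (h1 : TabOK ps n tb)
    (h2 : covL ((parts n n n).filter keepL) tb = true) : FullH ps := by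
  apply full_of_occSh
  intro μ hμ
  rw [card_hk, hn] at hμ
  rcases keepL_total μ with h | h
  · exact occ_of_covL h1 h2 hμ (List.mem_filter.mpr ⟨colLens_mem_parts μ hμ, h⟩)
  · apply OccSh.of_transpose (hk_swap ps)
    have hμ' : μ.transpose.card = n := by rw [Crest.Agent.R195.card_transpose, hμ]
    exact occ_of_covL h1 h2 hμ' (List.mem_filter.mpr ⟨colLens_mem_parts _ hμ', h⟩)

end Crest.Agent.R195
private theorem rz_6faafc65c6 : type_of% @_root_.Crest.Agent.R195.lexLe.eq_def := @_root_.Crest.Agent.R195.lexLe.eq_def -- L12
private theorem rz_98b18d0484 : type_of% @_root_.Crest.Agent.R195.lexLe.eq_1 := @_root_.Crest.Agent.R195.lexLe.eq_1 -- L12
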