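import Crest.Agent.R195.Major2
import Crest.Agent.R195.Cover

-- ▼ part R195/Gale
section

/-! Row 195 (helper563).  Gale–Ryser with capacities: existence of the matrix `h g j` with row sums
`S g`, column sums `H j` and entries at most `k g`, and a convenient numerical criterion. -/

set_option autoImplicit false

namespace Crest.Agent.R195

open Finset

/-- Muirhead chain for an abstract predicate closed under unit transfers. -/
theorem dominance_abs (P : (ℕ → ℕ) → Prop) (N : ℕ)
    (htr : ∀ f i j, i < N → j < N → i ≠ j → f j < f i → P f →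
      P (Function.update (Function.update f i (f i - 1)) j (f j + 1)))
    {f g : ℕ → ℕ} (h : P f) (hf : ∀ k, N ≤ k → f k = 0) (hg : ∀ k, N ≤ k → g k = 0)
    (hanti : Antitone g) (hle : ∀ k, ∑ l ∈ range k, g l ≤ ∑ l ∈ range k, f l)
    (htot : ∑ l ∈ range N, g l = ∑ l ∈ range N, f l) : P g := by
  induction hD : ∑ l ∈ range N, (f l - g l) using Nat.strong_induction_on generalizing f with
  | _ D ih =>
    by_cases hfg : f = g
    · rw [← hfg]; exact h
    have hex : ∃ j, f j < g j := by
      by_contra hcon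
      push Not at hcon
      apply hfg
      funext k
      by_cases hk : k < N
      · by_contra hne
        have : ∑ l ∈ range N, g l < ∑ l ∈ range N, f l :=
          Finset.sum_lt_sum (fun l _ => hcon l) ⟨k, mem_range.mpr hk, lt_of_le_of_ne (hcon k) (Ne.symm hne)⟩
        omega
      · push Not at hk
        rw [hf k hk, hg k hk]
    classical
    let j := Nat.find hex
    have hj : f j < g j := Nat.find_spec hex
    have hjmin : ∀ l, l < j → g l ≤ f l := fun l hl => not_lt.mp (Nat.find_min hex hl)
    have hjN : j < N := by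
      by_contra hcon
      push Not at hcon
      rw [hf j hcon, hg j hcon] at hj
      exact lt_irrefl _ hj
    have hexi : ∃ i, i < j ∧ g i < f i := by
      by_contra hcon
      push Not at hcon
      have h1 : ∑ l ∈ range (j + 1), f l < ∑ l ∈ range (j + 1), g l := by
        rw [Finset.sum_range_succ, Finset.sum_range_succ]
        have : ∑ l ∈ range j, f l ≤ ∑ l ∈ range j, g l :=
          Finset.sum_le_sum (fun l hl => hcon l (mem_range.mp hl))
        omega
      exact absurd (hle (j + 1)) (not_le.mpr h1)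
    obtain ⟨i, hij, hi⟩ := hexi
    have hgij : g j ≤ g i := hanti hij.le
    have hlt : f j < f i := by omega
    have hne : i ≠ j := hij.ne
    have htr' := htr f i j (by omega) hjN hne hlt h
    set f' := Function.update (Function.update f i (f i - 1)) j (f j + 1) with hf'
    have hsum := sum_transfer f hne (by omega)
    rw [← hf'] at hsum
    have hf'j : f' j = f j + 1 := by rw [hf']; simp
    have hf'i : f' i = f i - 1 := by rw [hf', Function.update_of_ne hne]; simp
    have hf'o : ∀ k, k ≠ i → k ≠ j → f' k = f k := by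
      intro k hki hkj
      rw [hf', Function.update_of_ne hkj, Function.update_of_ne hki]
    refine ih (∑ l ∈ range N, (f' l - g l)) ?_ htr' ?_ ?_ ?_ rfl
    · rw [← hD]
      apply Finset.sum_lt_sum
      · intro l _
        by_cases hl : l = j
        · rw [hl, hf'j]; omega
        · by_cases hl2 : l = i
          · rw [hl2, hf'i]; omega
          · rw [hf'o l hl2 hl]
      · exact ⟨i, mem_range.mpr (by omega), by rw [hf'i]; omega⟩
    · intro k hk
      rw [hf'o k (by omega) (by omega)]
      exact hf k hk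
    · intro k
      have hs := hsum k
      have hk := hle k
      by_cases h1 : i < k
      · by_cases h2 : j < k
        · simp only [h1, h2, if_true] at hs; omega
        · simp only [h1, h2, if_true, if_false] at hs
          have hstrict : ∑ l ∈ range k, g l < ∑ l ∈ range k, f l :=
            Finset.sum_lt_sum (fun l hl => hjmin l (by have := mem_range.mp hl; omega))
              ⟨i, mem_range.mpr h1, hi⟩
          omega
      · by_cases h2 : j < k
        · omega
        · simp only [h1, h2, if_false] at hs; omega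
    · have hs := hsum N
      have h1 : i < N := by omega
      simp only [h1, hjN, if_true] at hs
      omega

/-- the 0-1 matrices with row sums `f`, column sums `H` -/
def MatP (N M : ℕ) (H : ℕ → ℕ) (f : ℕ → ℕ) : Prop :=
  ∃ A : ℕ → Finset ℕ, (∀ i, A i ⊆ range N) ∧ (∀ i, (A i).card = f i) ∧
    ∀ j, j < N → ((range M).filter fun i => j ∈ A i).card = H j

theorem MatP.transfer {N M : ℕ} {H : ℕ → ℕ} (f : ℕ → ℕ) (i j : ℕ) (hi : i < M) (hj : j < M)
    (hij : i ≠ j) (hlt : f j < f i) (h : MatP N M H f) :
    MatP N M H (Function.update (Function.update f i (f i - 1)) j (f j + 1)) := by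
  classical
  obtain ⟨A, hA1, hA2, hA3⟩ := h
  obtain ⟨x, hx, hxj⟩ : ∃ x ∈ A i, x ∉ A j := by
    by_contra hcon
    push Not at hcon
    have := Finset.card_le_card (show A i ⊆ A j from hcon)
    rw [hA2, hA2] at this
    omega
  refine ⟨Function.update (Function.update A i ((A i).erase x)) j (insert x (A j)), ?_, ?_, ?_⟩
  · intro k
    by_cases hkj : k = j
    · subst hkj
      rw [Function.update_self]
      exact Finset.insert_subset (hA1 i hx) (hA1 k)
    · rw [Function.update_of_ne hkj]
      by_cases hki : k = i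
      · subst hki
        rw [Function.update_self]
        exact (Finset.erase_subset _ _).trans (hA1 k)
      · rw [Function.update_of_ne hki]
        exact hA1 k
  · intro k
    by_cases hkj : k = j
    · subst hkj
      rw [Function.update_self, Function.update_self, Finset.card_insert_of_notMem hxj, hA2]
    · rw [Function.update_of_ne hkj, Function.update_of_ne hkj]
      by_cases hki : k = i
      · subst hki
        rw [Function.update_self, Function.update_self, Finset.card_erase_of_mem hx, hA2]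
      · rw [Function.update_of_ne hki, Function.update_of_ne hki, hA2]
  · intro y hy
    rw [← hA3 y hy]
    by_cases hyx : y = x
    · subst hyx
      have h1 : ((range M).filter fun k =>
          y ∈ Function.update (Function.update A i ((A i).erase y)) j (insert y (A j)) k)
          = insert j (((range M).filter fun k => y ∈ A k).erase i) := by
        ext k
        rw [mem_insert, mem_erase, mem_filter, mem_filter]
        by_cases hkj : k = j
        · subst hkj
          simp [hj]
        · by_cases hki : k = i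
          · subst hki
            rw [Function.update_of_ne hkj, Function.update_self]
            simp [hkj]
          · rw [Function.update_of_ne hkj, Function.update_of_ne hki]
            simp [hkj, hki]
      rw [h1, Finset.card_insert_of_notMem, Finset.card_erase_of_mem, Nat.sub_add_cancel]
      · rw [Nat.succ_le_iff, Finset.card_pos]
        exact ⟨i, by rw [mem_filter, mem_range]; exact ⟨hi, hx⟩⟩
      · rw [mem_filter, mem_range]; exact ⟨hi, hx⟩
      · rw [mem_erase, mem_filter]
        rintro ⟨-, -, h⟩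
        exact hxj h
    · congr 1
      ext k
      rw [mem_filter, mem_filter]
      by_cases hkj : k = j
      · subst hkj
        rw [Function.update_self, mem_insert]
        simp [hyx]
      · by_cases hki : k = i
        · subst hki
          rw [Function.update_of_ne hkj, Function.update_self, mem_erase]
          simp [hyx]
        · rw [Function.update_of_ne hkj, Function.update_of_ne hki]

theorem sum_conj (N k : ℕ) (H : ℕ → ℕ) :
    ∑ l ∈ range k, ((range N).filter fun j => l < H j).card = ∑ j ∈ range N, min (H j) k := by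
  simp_rw [Finset.card_filter]
  rw [Finset.sum_comm]
  refine Finset.sum_congr rfl fun j _ => ?_
  rw [← Finset.card_filter]
  have : (range k).filter (fun l => l < H j) = range (min (H j) k) := by
    ext l
    rw [mem_filter, mem_range, mem_range]
    omega
  rw [this, card_range]

/-- **Gale–Ryser**, columns unsorted. -/
theorem exists_matrix01 {κ : Type*} [Fintype κ] [DecidableEq κ] (d : κ → ℕ) (N : ℕ) (H : ℕ → ℕ)
    (htot : ∑ j ∈ range N, H j = ∑ i, d i)
    (hcond : ∀ J ⊆ range N, ∑ j ∈ J, H j ≤ ∑ i, min (d i) J.card) :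
    ∃ A : κ → Finset ℕ, (∀ i, A i ⊆ range N) ∧ (∀ i, (A i).card = d i) ∧
      ∀ j, j < N → (univ.filter fun i => j ∈ A i).card = H j := by
  classical
  obtain ⟨n1, e, he⟩ : ∃ (n1 : ℕ) (e : Fin n1 ≃ κ), Antitone (fun k => d (e k)) :=
    ⟨_, exists_sorted d⟩
  let g' : ℕ → ℕ := fun k => if hk : k < n1 then d (e ⟨k, hk⟩) else 0
  have hg'anti : Antitone g' := by
    intro a b hab
    simp only [g']
    by_cases hb : b < n1
    · rw [dif_pos hb, dif_pos (lt_of_le_of_lt hab hb)]
      exact he (show (⟨a, lt_of_le_of_lt hab hb⟩ : Fin n1) ≤ ⟨b, hb⟩ from hab)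
    · rw [dif_neg hb]; exact Nat.zero_le _
  have hg'0 : ∀ k, n1 ≤ k → g' k = 0 := by
    intro k hk
    simp only [g']
    rw [dif_neg (by omega)]
  -- sums over `κ` as sums over `range`
  have hφ : ∀ φ : ℕ → ℕ, ∑ i, φ (d i) = ∑ l ∈ range n1, φ (g' l) := by
    intro φ
    rw [← Equiv.sum_comp e, ← Fin.sum_univ_eq_sum_range (fun l => φ (g' l)) n1]
    refine Finset.sum_congr rfl fun i _ => ?_
    simp only [g']
    rw [dif_pos i.2]
  let f : ℕ → ℕ := fun l => ((range N).filter fun j => l < H j).card
  let M : ℕ := max n1 ((range N).sup H)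
  have hHM : ∀ j, j < N → H j ≤ M := fun j hj =>
    le_trans (Finset.le_sup (f := H) (mem_range.2 hj)) (le_max_right _ _)
  have hP : MatP N M H f := by
    refine ⟨fun l => (range N).filter fun j => l < H j, fun i => Finset.filter_subset _ _,
      fun i => rfl, ?_⟩
    intro j hj
    have : (range M).filter (fun l => j ∈ (range N).filter fun j => l < H j) = range (H j) := by
      ext l
      rw [mem_filter, mem_filter, mem_range, mem_range, mem_range]
      have := hHM j hj
      constructor
      · rintro ⟨-, -, h⟩; exact h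
      · intro h; exact ⟨by omega, hj, h⟩
    rw [this, card_range]
  have hfM : ∀ k, M ≤ k → f k = 0 := by
    intro k hk
    show ((range N).filter fun j => k < H j).card = 0
    rw [Finset.card_eq_zero, Finset.filter_eq_empty_iff]
    intro j hj
    have := hHM j (mem_range.1 hj)
    omega
  have hle : ∀ k, ∑ l ∈ range k, g' l ≤ ∑ l ∈ range k, f l := by
    intro k
    show ∑ l ∈ range k, g' l ≤ ∑ l ∈ range k, ((range N).filter fun j => l < H j).card
    rw [sum_conj]
    set J := (range N).filter fun j => k < H j with hJ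
    have h1 := hcond J (Finset.filter_subset _ _)
    have h2 : ∑ j ∈ range N, min (H j) k + ∑ j ∈ J, H j = ∑ j ∈ range N, H j + J.card * k := by
      have e1 : ∑ j ∈ J, H j = ∑ j ∈ range N, if k < H j then H j else 0 := by
        rw [hJ, Finset.sum_filter]
      have e2 : J.card * k = ∑ j ∈ range N, if k < H j then k else 0 := by
        rw [← Finset.sum_filter, Finset.sum_const, smul_eq_mul, hJ]
      rw [e1, e2, ← Finset.sum_add_distrib, ← Finset.sum_add_distrib]
      refine Finset.sum_congr rfl fun j _ => ?_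
      split_ifs with h
      · omega
      · omega
    have h3 : ∑ i, d i = ∑ i, min (d i) J.card + ∑ i, (d i - J.card) := by
      rw [← Finset.sum_add_distrib]
      refine Finset.sum_congr rfl fun i _ => ?_
      omega
    have h4 : ∑ l ∈ range k, (g' l - J.card) ≤ ∑ i, (d i - J.card) := by
      rw [hφ (fun x => x - J.card)]
      have e3 : ∑ l ∈ range k, (g' l - J.card) ≤ ∑ l ∈ range (max k n1), (g' l - J.card) :=
        Finset.sum_le_sum_of_subset (Finset.range_mono (le_max_left _ _))
      have e4 : ∑ l ∈ range (max k n1), (g' l - J.card) = ∑ l ∈ range n1, (g' l - J.card) := by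
        symm
        apply Finset.sum_subset (Finset.range_mono (le_max_right _ _))
        intro l _ hl
        rw [mem_range, not_lt] at hl
        rw [hg'0 l hl]
        simp
      exact e3.trans e4.le
    have h5 : ∑ l ∈ range k, g' l ≤ ∑ l ∈ range k, (g' l - J.card) + J.card * k := by
      have : ∑ l ∈ range k, (g' l - J.card) + J.card * k = ∑ l ∈ range k, (g' l - J.card + J.card) := by
        rw [Finset.sum_add_distrib, Finset.sum_const, card_range, smul_eq_mul, mul_comm]
      rw [this]
      exact Finset.sum_le_sum fun l _ => by omega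
    omega
  have hgtot : ∑ l ∈ range M, g' l = ∑ i, d i := by
    rw [hφ (fun x => x)]
    symm
    apply Finset.sum_subset (Finset.range_mono (le_max_left _ _))
    intro l _ hl
    rw [mem_range, not_lt] at hl
    exact hg'0 l hl
  have hftot : ∑ l ∈ range M, f l = ∑ j ∈ range N, H j := by
    show ∑ l ∈ range M, ((range N).filter fun j => l < H j).card = _
    rw [sum_conj]
    exact Finset.sum_congr rfl fun j hj => min_eq_left (hHM j (mem_range.1 hj))
  obtain ⟨A, hA1, hA2, hA3⟩ := dominance_abs (MatP N M H) M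
    (fun f i j hi hj hij hlt h => h.transfer f i j hi hj hij hlt) hP hfM
    (fun k hk => hg'0 k (le_trans (le_max_left _ _) hk)) hg'anti hle (by rw [hgtot, hftot, htot])
  refine ⟨fun i => A (e.symm i), fun i => hA1 _, ?_, ?_⟩
  · intro i
    rw [hA2]
    simp only [g']
    rw [dif_pos (e.symm i).2]
    simp
  · intro j hj
    rw [← hA3 j hj]
    symm
    refine Finset.card_bij' (fun l hl => e ⟨l, ?_⟩) (fun i _ => (e.symm i : ℕ)) ?_ ?_ ?_ ?_
    · rw [mem_filter] at hl
      by_contra hcon
      have h1 := hA2 l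
      rw [hg'0 l (not_lt.1 hcon), Finset.card_eq_zero] at h1
      rw [h1] at hl
      simp at hl
    · intro l hl
      rw [mem_filter] at hl ⊢
      refine ⟨mem_univ _, ?_⟩
      simpa using hl.2
    · intro i hi
      rw [mem_filter] at hi ⊢
      refine ⟨mem_range.2 ?_, hi.2⟩
      exact lt_of_lt_of_le (e.symm i).2 (le_max_left _ _)
    · intro l hl
      simp
    · intro i hi
      simp

/-- near-equal parts -/
theorem sum_parts (S k : ℕ) (hk : 0 < k) : ∑ a : Fin k, (S + a) / k = S := by
  rw [Fin.sum_univ_eq_sum_range (fun a => (S + a) / k) k]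
  induction S with
  | zero =>
    apply Finset.sum_eq_zero
    intro a ha
    rw [zero_add]
    exact Nat.div_eq_of_lt (mem_range.1 ha)
  | succ S ih =>
    have h1 : ∑ a ∈ range k, (S + 1 + a) / k + S / k = ∑ a ∈ range k, (S + a) / k + (S + k) / k := by
      have e1 := Finset.sum_range_succ (fun a => (S + a) / k) k
      have e2 := Finset.sum_range_succ' (fun a => (S + a) / k) k
      rw [e1] at e2
      simp only [Nat.add_zero] at e2
      rw [e2]
      congr 1
      refine Finset.sum_congr rfl fun a _ => ?_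
      congr 1
      omega
    rw [Nat.add_div_right S hk] at h1
    omega

theorem min_parts (S k J : ℕ) (hk : 0 < k) :
    min S (k * J) ≤ ∑ a : Fin k, min ((S + a) / k) J := by
  by_cases h : S ≤ k * J
  · have : ∀ a : Fin k, min ((S + a) / k) J = (S + a) / k := by
      intro a
      apply min_eq_left
      rw [Nat.div_le_iff_le_mul_add_pred hk]
      have := a.2
      omega
    simp_rw [this]
    rw [sum_parts S k hk]
    exact min_le_left _ _
  · have : ∀ a : Fin k, min ((S + a) / k) J = J := by
      intro a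
      apply min_eq_right
      rw [Nat.le_div_iff_mul_le hk]
      have h2 : J * k = k * J := mul_comm _ _
      omega
    simp_rw [this]
    rw [Finset.sum_const, Finset.card_univ, Fintype.card_fin, smul_eq_mul]
    exact min_le_right _ _

/-- **Gale–Ryser with capacities.** -/
theorem exists_matrix {ι : Type*} [Fintype ι] [DecidableEq ι] (S k : ι → ℕ) (hk : ∀ g, 0 < k g)
    (N : ℕ) (H : ℕ → ℕ) (htot : ∑ j ∈ range N, H j = ∑ g, S g)
    (hcond : ∀ J ⊆ range N, ∑ j ∈ J, H j ≤ ∑ g, min (S g) (k g * J.card)) :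
    ∃ h : ι → ℕ → ℕ, (∀ g j, h g j ≤ k g) ∧ (∀ g, ∑ j ∈ range N, h g j = S g) ∧
      (∀ g j, N ≤ j → h g j = 0) ∧ ∀ j, j < N → ∑ g, h g j = H j := by
  classical
  obtain ⟨A, hA1, hA2, hA3⟩ := exists_matrix01 (κ := Σ g : ι, Fin (k g))
    (fun x => (S x.1 + x.2) / k x.1) N H
    (by
      rw [htot, Fintype.sum_sigma]
      exact Finset.sum_congr rfl fun g _ => (sum_parts (S g) (k g) (hk g)).symm)
    (by
      intro J hJ
      refine (hcond J hJ).trans ?_
      rw [Fintype.sum_sigma]
      exact Finset.sum_le_sum fun g _ => min_parts (S g) (k g) J.card (hk g))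
  refine ⟨fun g j => (univ.filter fun a : Fin (k g) => j ∈ A ⟨g, a⟩).card, ?_, ?_, ?_, ?_⟩
  · intro g j
    refine (Finset.card_filter_le _ _).trans ?_
    rw [Finset.card_univ, Fintype.card_fin]
  · intro g
    simp_rw [Finset.card_filter]
    rw [Finset.sum_comm]
    have h1 : ∀ a : Fin (k g), ∑ j ∈ range N, (if j ∈ A ⟨g, a⟩ then 1 else 0) = (S g + a) / k g := by
      intro a
      rw [← hA2 ⟨g, a⟩, ← Finset.card_filter]
      congr 1
      ext j
      rw [mem_filter]
      constructor
      · rintro ⟨-, h⟩; exact h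
      · intro h; exact ⟨hA1 _ h, h⟩
    rw [Finset.sum_congr rfl fun a _ => h1 a]
    exact sum_parts (S g) (k g) (hk g)
  · intro g j hj
    show (univ.filter fun a : Fin (k g) => j ∈ A ⟨g, a⟩).card = 0
    rw [Finset.card_eq_zero, Finset.filter_eq_empty_iff]
    intro a _ h
    have := mem_range.1 (hA1 _ h)
    omega
  · intro j hj
    rw [← hA3 j hj]
    have : (univ.filter fun x : (Σ g : ι, Fin (k g)) => j ∈ A x).card
        = ∑ x : (Σ g : ι, Fin (k g)), if j ∈ A x then 1 else 0 := Finset.card_filter _ _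
    rw [this, Fintype.sum_sigma]
    exact Finset.sum_congr rfl fun g _ => Finset.card_filter _ _

/-- **Numerical criterion.**  `B` bounds the average of any two columns, `J₁` is the critical number
of columns. -/
theorem exists_matrix_crit {ι : Type*} [Fintype ι] [DecidableEq ι] (S k : ι → ℕ)
    (hk : ∀ g, 0 < k g) (N : ℕ) (H : ℕ → ℕ) (htot : ∑ j ∈ range N, H j = ∑ g, S g)
    (B J₁ : ℕ) (hB : ∀ i j, i < N → j < N → i ≠ j → H i + H j ≤ 2 * B)
    (h1 : ∀ j, j < N → H j ≤ ∑ g, min (S g) (k g))
    (hJ : J₁ * B ≤ ∑ g, min (S g) (k g * J₁)) (hJ' : ∀ g, S g ≤ k g * (J₁ + 1)) :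
    ∃ h : ι → ℕ → ℕ, (∀ g j, h g j ≤ k g) ∧ (∀ g, ∑ j ∈ range N, h g j = S g) ∧
      (∀ g j, N ≤ j → h g j = 0) ∧ ∀ j, j < N → ∑ g, h g j = H j := by
  classical
  refine exists_matrix S k hk N H htot fun J hJN => ?_
  rcases Nat.lt_or_ge 1 J.card with hc | hc
  · rcases Nat.lt_or_ge J₁ J.card with hJ1 | hJ1
    · -- everything fits
      have h2 : ∑ g, min (S g) (k g * J.card) = ∑ g, S g := by
        refine Finset.sum_congr rfl fun g _ => min_eq_left ?_
        exact (hJ' g).trans (Nat.mul_le_mul_left _ hJ1)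
      rw [h2, ← htot]
      exact Finset.sum_le_sum_of_subset hJN
    · -- concavity
      have h3 : ∑ j ∈ J, H j ≤ J.card * B := by
        -- sum over pairs
        obtain ⟨m, hm⟩ : ∃ m ∈ J, ∀ j ∈ J, H j ≤ H m :=
          Finset.exists_max_image J H (Finset.card_pos.1 (by omega))
        obtain ⟨hmJ, hmax⟩ := hm
        by_cases hmB : H m ≤ B
        · calc ∑ j ∈ J, H j ≤ ∑ _j ∈ J, B := Finset.sum_le_sum fun j hj => (hmax j hj).trans hmB
            _ = J.card * B := by rw [Finset.sum_const, smul_eq_mul]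
        · obtain ⟨b, hb, hbm⟩ : ∃ b ∈ J, b ≠ m := by
            by_contra hcon
            push Not at hcon
            have : J ⊆ {m} := fun x hx => Finset.mem_singleton.2 (hcon x hx)
            have := Finset.card_le_card this
            simp at this
            omega
          have h4 : ∀ j ∈ (J.erase m).erase b, H j ≤ B := by
            intro j hj
            rw [mem_erase, mem_erase] at hj
            have := hB j m (mem_range.1 (hJN hj.2.2)) (mem_range.1 (hJN hmJ)) hj.2.1
            omega
          have h5 := hB b m (mem_range.1 (hJN hb)) (mem_range.1 (hJN hmJ)) hbm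
          have h6 : ∑ j ∈ (J.erase m).erase b, H j ≤ ((J.erase m).erase b).card * B := by
            calc ∑ j ∈ (J.erase m).erase b, H j ≤ ∑ _j ∈ (J.erase m).erase b, B :=
                  Finset.sum_le_sum h4
              _ = _ := by rw [Finset.sum_const, smul_eq_mul]
          have h7 : ((J.erase m).erase b).card = J.card - 2 := by
            rw [card_erase_of_mem (mem_erase.2 ⟨hbm, hb⟩), card_erase_of_mem hmJ]
            omega
          have h8 := Finset.add_sum_erase J H hmJ
          have h9 := Finset.add_sum_erase (J.erase m) H (mem_erase.2 ⟨hbm, hb⟩)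
          rw [h7] at h6
          have h10 : (J.card - 2) * B + 2 * B = J.card * B := by
            rw [← add_mul]; congr 1; omega
          omega
      refine h3.trans ?_
      -- J.card * F J₁ ≤ J₁ * F J
      have h4 : ∀ g, J.card * min (S g) (k g * J₁) ≤ J₁ * min (S g) (k g * J.card) := by
        intro g
        rcases le_total (S g) (k g * J.card) with ha | ha
        · rw [min_eq_left ha]
          exact Nat.mul_le_mul hJ1 (min_le_left _ _)
        · rw [min_eq_right ha]
          calc J.card * min (S g) (k g * J₁) ≤ J.card * (k g * J₁) :=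
                Nat.mul_le_mul_left _ (min_le_right _ _)
            _ = J₁ * (k g * J.card) := by ring
      have h5 : J.card * ∑ g, min (S g) (k g * J₁) ≤ J₁ * ∑ g, min (S g) (k g * J.card) := by
        rw [Finset.mul_sum, Finset.mul_sum]
        exact Finset.sum_le_sum fun g _ => h4 g
      have h6 : J₁ * (J.card * B) ≤ J₁ * ∑ g, min (S g) (k g * J.card) := by
        calc J₁ * (J.card * B) = J.card * (J₁ * B) := by ring
          _ ≤ J.card * ∑ g, min (S g) (k g * J₁) := Nat.mul_le_mul_left _ hJ
          _ ≤ _ := h5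
      exact Nat.le_of_mul_le_mul_left h6 (by omega)
  · rcases Nat.eq_zero_or_pos J.card with h0 | h0
    · rw [Finset.card_eq_zero] at h0
      subst h0
      simp
    · have hc1 : J.card = 1 := by omega
      obtain ⟨a, rfl⟩ := Finset.card_eq_one.1 hc1
      rw [Finset.sum_singleton]
      simpa using h1 a (mem_range.1 (hJN (mem_singleton_self a)))

end Crest.Agent.R195
end

-- ▼ part R195/Pick

/-! Row 195, S0298 (T3): rows of even type (pieces `dup` and `gap`), and the numerical criterion for
the pieces `pair` and `rect`, in `Decomp` form. -/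

set_option autoImplicit false

namespace Crest.Agent.R195

open Finset Function

section adj

/-- exchange `2 i` and `2 i + 1` below `w` -/
def adj (w j : ℕ) : ℕ := if 2 * (j / 2) + 1 < w then (if j % 2 = 0 then j + 1 else j - 1) else j

theorem adj_lt {w j : ℕ} (h : j < w) : adj w j < w := by
  unfold adj; split_ifs <;> omega

theorem adj_div (w j : ℕ) : adj w j / 2 = j / 2 := by
  unfold adj; split_ifs <;> omega

theorem adj_adj (w j : ℕ) : adj w (adj w j) = j := by
  have h := adj_div w j
  have h1 : adj w (adj w j) = if 2 * (j / 2) + 1 < w then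
      (if adj w j % 2 = 0 then adj w j + 1 else adj w j - 1) else adj w j := by
    conv_lhs => unfold adj
    rw [show (if 2 * (j / 2) + 1 < w then (if j % 2 = 0 then j + 1 else j - 1) else j)
      = adj w j from rfl, h]
  rw [h1]
  unfold adj
  split_ifs <;> omega

theorem adj_ne {w j : ℕ} (h : 2 * (j / 2) + 1 < w) : adj w j ≠ j := by
  unfold adj; rw [if_pos h]; split_ifs <;> omega

/-- the matching of neighbouring columns -/
def adjPerm (w : ℕ) : Equiv.Perm (Fin w) :=
  Involutive.toPerm (fun j => ⟨adj w j, adj_lt j.2⟩) fun j => Fin.ext (adj_adj w j)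

theorem adjPerm_val (w : ℕ) (j : Fin w) : (adjPerm w j : ℕ) = adj w j := rfl

theorem sum_half (y : ℕ → ℕ) (m : ℕ) :
    ∑ j ∈ range (2 * m), y (j / 2) = 2 * ∑ i ∈ range m, y i := by
  induction m with
  | zero => simp
  | succ m ih =>
    rw [show 2 * (m + 1) = 2 * m + 1 + 1 by ring, sum_range_succ, sum_range_succ, ih,
      sum_range_succ, show (2 * m) / 2 = m by omega, show (2 * m + 1) / 2 = m by omega]
    ring

theorem sum_half_fin (w : ℕ) (y : ℕ → ℕ) (h0 : ∀ i, w ≤ 2 * i + 1 → y i = 0) :
    ∑ j : Fin w, y (j / 2) = 2 * ∑ i ∈ range (w / 2), y i := by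
  rw [Fin.sum_univ_eq_sum_range (fun j => y (j / 2)) w, ← sum_half]
  rcases Nat.even_or_odd' w with ⟨m, h | h⟩
  · rw [show w / 2 = m by omega, h]
  · rw [show w / 2 = m by omega, h, sum_range_succ, h0 ((2 * m) / 2) (by omega), add_zero]

theorem even_row {w : ℕ} {y : ℕ → ℕ} (h0 : ∀ i, w ≤ 2 * i + 1 → y i = 0) :
    ∃ σ : Equiv.Perm (Fin w), (∀ j, σ (σ j) = j) ∧ (∀ j : Fin w, y (j / 2) ≠ 0 → σ j ≠ j) ∧
      ∀ j, y ((σ j : ℕ) / 2) = y (j / 2) := by
  refine ⟨adjPerm w, fun j => Fin.ext ?_, fun j hj h => ?_, fun j => ?_⟩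
  · rw [adjPerm_val, adjPerm_val, adj_adj]
  · have h1 := congrArg Fin.val h
    rw [adjPerm_val] at h1
    exact adj_ne (by by_contra hcon; exact hj (h0 _ (not_lt.mp hcon))) h1
  · rw [adjPerm_val, adj_div]

/-- row of even type for the piece `dup` -/
theorem rowOK_dup {w c : ℕ} {y : ℕ → ℕ} (h4 : ∀ i, y i ≤ 4) (h0 : ∀ i, w ≤ 2 * i + 1 → y i = 0)
    (hs : ∑ i ∈ range (w / 2), y i = c) : RowOK (.dup c) fun j : Fin w => y (j / 2) :=
  ⟨fun _ => h4 _, by rw [sum_half_fin w y h0, hs], even_row h0⟩

/-- row of even type for the piece `gap` -/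
theorem rowOK_gap {w c : ℕ} {y : ℕ → ℕ} (h4 : ∀ i, y i ≤ 4) (h0 : ∀ i, w ≤ 2 * i + 1 → y i = 0)
    (hs : ∑ i ∈ range (w / 2), y i = c - 1) (h2 : ∃ i, 2 * i + 1 < w ∧ y i = 2) :
    RowOK (.gap c) fun j : Fin w => y (j / 2) := by
  obtain ⟨i, hi, hy⟩ := h2
  refine ⟨fun _ => h4 _, by rw [sum_half_fin w y h0, hs, Nat.mul_sub], even_row h0,
    ⟨2 * i, by omega⟩, ?_⟩
  simp only
  rw [show 2 * i / 2 = i by omega, hy]

end adj

section pick

/-- discrete interpolation on `range m` -/
theorem exists_pick (m c : ℕ) (l u : ℕ → ℕ) (hlu : ∀ i, i < m → l i ≤ u i)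
    (h1 : ∑ i ∈ range m, l i ≤ c) (h2 : c ≤ ∑ i ∈ range m, u i) :
    ∃ y : ℕ → ℕ, (∀ i, i < m → l i ≤ y i) ∧ (∀ i, i < m → y i ≤ u i) ∧ (∀ i, m ≤ i → y i = 0) ∧
      ∑ i ∈ range m, y i = c := by
  obtain ⟨x, hx1, hx2, hx3⟩ := exists_between_sum (ι := Fin m) (l := fun i => l i)
    (u := fun i => u i) (fun i => hlu i i.2) (S := c)
    (by rw [Fin.sum_univ_eq_sum_range (fun i => l i) m]; exact h1)
    (by rw [Fin.sum_univ_eq_sum_range (fun i => u i) m]; exact h2)
  refine ⟨fun i => if h : i < m then x ⟨i, h⟩ else 0, ?_, ?_, ?_, ?_⟩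
  · intro i hi; simp only [dif_pos hi]; exact hx1 ⟨i, hi⟩
  · intro i hi; simp only [dif_pos hi]; exact hx2 ⟨i, hi⟩
  · intro i hi; simp only [dif_neg (not_lt.mpr hi)]
  · rw [← Fin.sum_univ_eq_sum_range (fun i => if h : i < m then x ⟨i, h⟩ else 0) m, ← hx3]
    refine sum_congr rfl fun i _ => ?_
    simp only [dif_pos i.2]

/-- a piece `dup c` can be removed: `y i` from each of the columns `2 i`, `2 i + 1`, where
`l i ≤ y i ≤ u i`. -/
theorem exists_dup {w c : ℕ} {H : ℕ → ℕ} (l u : ℕ → ℕ) (hlu : ∀ i, 2 * i + 1 < w → l i ≤ u i)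
    (h4 : ∀ i, 2 * i + 1 < w → u i ≤ 4) (hH : ∀ i, 2 * i + 1 < w → u i ≤ H (2 * i) ∧ u i ≤ H (2 * i + 1))
    (h1 : ∑ i ∈ range (w / 2), l i ≤ c) (h2 : c ≤ ∑ i ∈ range (w / 2), u i) :
    ∃ y : ℕ → ℕ, (∀ i, 2 * i + 1 < w → l i ≤ y i ∧ y i ≤ u i) ∧ (∀ i, w ≤ 2 * i + 1 → y i = 0) ∧
      (∀ j, y (j / 2) ≤ H j) ∧ ∑ i ∈ range (w / 2), y i = c ∧
      ∀ L : List Pc, Decomp L (fun j : Fin w => H j - y (j / 2)) →
        Decomp (.dup c :: L) fun j : Fin w => H j := by
  obtain ⟨y, hy1, hy2, hy3, hy4⟩ := exists_pick (w / 2) c l u (fun i hi => hlu i (by omega)) h1 h2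
  have h0 : ∀ i, w ≤ 2 * i + 1 → y i = 0 := fun i hi => hy3 i (by omega)
  have hle : ∀ j, y (j / 2) ≤ H j := by
    intro j
    by_cases hj : 2 * (j / 2) + 1 < w
    · have h5 := hH (j / 2) hj
      have h6 := hy2 (j / 2) (by omega)
      rcases Nat.mod_two_eq_zero_or_one j with h | h
      · rw [show 2 * (j / 2) = j by omega] at h5; omega
      · rw [show 2 * (j / 2) + 1 = j by omega] at h5; omega
    · rw [h0 _ (not_lt.mp hj)]; exact Nat.zero_le _
  refine ⟨y, fun i hi => ⟨hy1 i (by omega), hy2 i (by omega)⟩, h0, hle, hy4, fun L hL => ?_⟩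
  refine Decomp.cons (rowOK_dup (fun i => ?_) h0 hy4) (fun j => hle j) hL
  by_cases hi : 2 * i + 1 < w
  · exact (hy2 i (by omega)).trans (h4 i hi)
  · rw [h0 i (not_lt.mp hi)]; exact Nat.zero_le _

/-- a piece `gap c` can be removed; the pair of columns `2 i₀`, `2 i₀ + 1` gives 2. -/
theorem exists_gap {w c : ℕ} {H : ℕ → ℕ} (l u : ℕ → ℕ) (hlu : ∀ i, 2 * i + 1 < w → l i ≤ u i)
    (h4 : ∀ i, 2 * i + 1 < w → u i ≤ 4) (hH : ∀ i, 2 * i + 1 < w → u i ≤ H (2 * i) ∧ u i ≤ H (2 * i + 1))
    (i₀ : ℕ) (hi₀ : 2 * i₀ + 1 < w) (hl : l i₀ = 2) (hu : u i₀ = 2)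
    (h1 : ∑ i ∈ range (w / 2), l i ≤ c - 1) (h2 : c - 1 ≤ ∑ i ∈ range (w / 2), u i) :
    ∃ y : ℕ → ℕ, (∀ i, 2 * i + 1 < w → l i ≤ y i ∧ y i ≤ u i) ∧ (∀ i, w ≤ 2 * i + 1 → y i = 0) ∧
      (∀ j, y (j / 2) ≤ H j) ∧ ∑ i ∈ range (w / 2), y i = c - 1 ∧
      ∀ L : List Pc, Decomp L (fun j : Fin w => H j - y (j / 2)) →
        Decomp (.gap c :: L) fun j : Fin w => H j := by
  obtain ⟨y, hy1, h0, hle, hy4, -⟩ := exists_dup l u hlu h4 hH h1 h2
  refine ⟨y, hy1, h0, hle, hy4, fun L hL => ?_⟩
  refine Decomp.cons (rowOK_gap (fun i => ?_) h0 hy4 ⟨i₀, hi₀, ?_⟩) (fun j => hle j) hL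
  · by_cases hi : 2 * i + 1 < w
    · exact (hy1 i hi).2.trans (h4 i hi)
    · rw [h0 i (not_lt.mp hi)]; exact Nat.zero_le _
  · have := hy1 i₀ hi₀
    omega

/-- total of the remaining columns -/
theorem sum_sub_half {w : ℕ} {H y : ℕ → ℕ} (h0 : ∀ i, w ≤ 2 * i + 1 → y i = 0)
    (hle : ∀ j, y (j / 2) ≤ H j) :
    ∑ j ∈ range w, (H j - y (j / 2)) + 2 * ∑ i ∈ range (w / 2), y i = ∑ j ∈ range w, H j := by
  rw [← sum_half_fin w y h0, Fin.sum_univ_eq_sum_range (fun j => y (j / 2)) w,
    ← sum_add_distrib]
  exact sum_congr rfl fun j _ => Nat.sub_add_cancel (hle j)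

end pick

section crit

/-- maximal entry of a row of the piece -/
def Pc.cap : Pc → ℕ
  | .pair _ => 4
  | .rect _ _ => 1
  | .dup _ => 4
  | .gap _ => 4

/-- pieces without parity condition -/
def Pc.free : Pc → Prop
  | .pair _ => True
  | .rect _ _ => True
  | .dup _ => False
  | .gap _ => False

/-- what the pieces can take from `J` columns -/
def FL (L : List Pc) (J : ℕ) : ℕ := (L.map fun p => min p.size (p.cap * J)).sum

theorem FL_nil (J : ℕ) : FL [] J = 0 := rfl

theorem FL_cons (p : Pc) (L : List Pc) (J : ℕ) : FL (p :: L) J = min p.size (p.cap * J) + FL L J :=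
  by simp [FL]

theorem FL_append (L L' : List Pc) (J : ℕ) : FL (L ++ L') J = FL L J + FL L' J := by
  simp [FL]

theorem Pc.cap_pos (p : Pc) : 0 < p.cap := by cases p <;> simp [Pc.cap]

/-- a matrix gives a decomposition -/
theorem decomp_of_matrix (L : List Pc) (w : ℕ) (H : ℕ → ℕ) (h : Fin L.length → ℕ → ℕ)
    (hok : ∀ g, RowOK L[g] fun j : Fin w => h g j) (hsum : ∀ j, j < w → ∑ g, h g j = H j) :
    Decomp L fun j : Fin w => H j := by
  refine ⟨List.ofFn fun g => fun j : Fin w => h g j, ?_, fun j => ?_⟩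
  · rw [List.forall₂_iff_get]
    refine ⟨by simp, fun i h1 h2 => ?_⟩
    simp only [List.get_eq_getElem, List.getElem_ofFn]
    exact hok ⟨i, h1⟩
  · change (List.map (fun x => x j) (List.ofFn fun g => fun j : Fin w => h g j)).sum = H j
    rw [← hsum j j.2, List.map_ofFn, List.sum_ofFn]
    rfl

/-- **Numerical criterion** for lists of pairs and rectangles. -/
theorem decomp_crit (L : List Pc) (hL : ∀ p ∈ L, p.free) (w : ℕ) (H : ℕ → ℕ)
    (htot : ∑ j ∈ range w, H j = (L.map Pc.size).sum) (B J₁ : ℕ)
    (hB : ∀ i j, i < w → j < w → i ≠ j → H i + H j ≤ 2 * B) (h1 : ∀ j, j < w → H j ≤ FL L 1)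
    (hJ : J₁ * B ≤ FL L J₁) (hJ' : ∀ p ∈ L, p.size ≤ p.cap * (J₁ + 1)) :
    Decomp L fun j : Fin w => H j := by
  have hFL : ∀ J, ∑ g : Fin L.length, min (L[g].size) (L[g].cap * J) = FL L J := by
    intro J
    rw [FL, ← Fin.sum_univ_fun_getElem]
    rfl
  obtain ⟨h, hh1, hh2, hh3, hh4⟩ := exists_matrix_crit (ι := Fin L.length)
    (fun g => L[g].size) (fun g => L[g].cap) (fun g => Pc.cap_pos _) w H
    (by rw [htot, ← Fin.sum_univ_fun_getElem]; rfl) B J₁ hB
    (by
      intro j hj
      refine (h1 j hj).trans (le_of_eq ?_)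
      rw [← hFL]
      simp only [mul_one])
    (by rw [hFL]; exact hJ) (fun g => hJ' _ (List.getElem_mem _))
  refine decomp_of_matrix L w H h (fun g => ?_) hh4
  have hfree := hL _ (List.getElem_mem g.2)
  have h5 := hh1 g
  have h6 := hh2 g
  rw [← Fin.sum_univ_eq_sum_range (fun j => h g j) w] at h6
  have key : ∀ p : Pc, p.free → (∀ j, h g j ≤ p.cap) → ∑ j : Fin w, h g j = p.size →
      RowOK p fun j : Fin w => h g j := by
    intro p hp h7 h8
    cases p with
    | pair c => exact ⟨fun j => h7 j, h8⟩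
    | rect c k => exact ⟨fun j => h7 j, h8⟩
    | dup c => exact absurd hp (by simp [Pc.free])
    | gap c => exact absurd hp (by simp [Pc.free])
  exact key _ hfree h5 h6

end crit

end Crest.Agent.R195
private theorem rz_99ffdb1508 : type_of% @_root_.Crest.Agent.R195.Pc.cap.eq_1 := @_root_.Crest.Agent.R195.Pc.cap.eq_1 -- L163
private theorem rz_92c40c094b : type_of% @_root_.Crest.Agent.R195.Pc.free.eq_1 := @_root_.Crest.Agent.R195.Pc.free.eq_1 -- L170
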