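import Crest.Agent.R195.RulesL
import Crest.Agent.R195.Pick

/-! Row 195, S0298.  Runs: lists of pairs of consecutive columns, and hook lists `a, a-2, …`. -/

set_option autoImplicit false
set_option linter.unusedSectionVars false
set_option linter.unusedDecidableInType false

namespace Crest.Agent.R195

open Finset

/-! ### Lists of pairs -/

/-- `k` pairs of columns: `(m, m-1), (m-2, m-3), …` -/
def runP : ℕ → ℕ → List Pc
  | _, 0 => []
  | m, k + 1 => .pair m :: runP (m - 2) k

theorem runP_zero (m : ℕ) : runP m 0 = [] := rfl

theorem runP_succ (m k : ℕ) : runP m (k + 1) = .pair m :: runP (m - 2) k := rfl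

theorem length_colsP_runP (m k : ℕ) : (colsP (runP m k)).length = 2 * k := by
  induction k generalizing m with
  | zero => rfl
  | succ k ih =>
    rw [runP_succ, colsP_cons, List.length_append, ih]
    simp only [Pc.cols, List.length_cons, List.length_nil]
    omega

theorem getD_colsP_runP (m k s : ℕ) :
    (colsP (runP m k)).getD s 0 = if s < 2 * k then m - s else 0 := by
  induction k generalizing m s with
  | zero => simp [runP_zero, colsP_nil]
  | succ k ih =>
    rw [runP_succ, colsP_cons]
    match s with
    | 0 => simp [Pc.cols]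
    | 1 =>
      simp only [Pc.cols, List.cons_append, List.nil_append, List.getD_cons_succ,
        List.getD_cons_zero]
      rw [if_pos (by omega)]
    | s + 2 =>
      simp only [Pc.cols, List.cons_append, List.nil_append, List.getD_cons_succ]
      rw [ih]
      split_ifs <;> omega

/-- columns of a list starting with a run of pairs -/
theorem getD_runP_append (m k : ℕ) (L : List Pc) (s : ℕ) :
    (colsP (runP m k ++ L)).getD s 0 = if s < 2 * k then m - s else (colsP L).getD (s - 2 * k) 0 := by
  rw [colsP_append]
  rcases Nat.lt_or_ge s (2 * k) with h | h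
  · rw [List.getD_append _ _ _ _ (by rw [length_colsP_runP]; exact h), getD_colsP_runP,
      if_pos h, if_pos h]
  · rw [List.getD_append_right _ _ _ _ (by rw [length_colsP_runP]; exact h), length_colsP_runP,
      if_neg (not_lt.mpr h)]

theorem getD_gap_cons (c : ℕ) (L : List Pc) (s : ℕ) :
    (colsP (.gap c :: L)).getD s 0 =
      if s = 0 then c else if s = 1 then c - 2 else (colsP L).getD (s - 2) 0 := by
  rw [colsP_cons]
  match s with
  | 0 => rfl
  | 1 => rfl
  | s + 2 => simp [Pc.cols]


theorem getD_dup_cons (c : ℕ) (L : List Pc) (s : ℕ) :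
    (colsP (.dup c :: L)).getD s 0 = if s < 2 then c else (colsP L).getD (s - 2) 0 := by
  rw [colsP_cons]
  match s with
  | 0 => rfl
  | 1 => rfl
  | s + 2 => simp [Pc.cols]

theorem getD_rect_cons (c k : ℕ) (L : List Pc) (s : ℕ) :
    (colsP (.rect c k :: L)).getD s 0 = if s < k then c else (colsP L).getD (s - k) 0 := by
  rw [colsP_cons]
  change (List.replicate k c ++ colsP L).getD s 0 = _
  rcases Nat.lt_or_ge s k with h | h
  · rw [List.getD_append _ _ _ _ (by simpa using h), if_pos h,
      List.getD_eq_getElem _ _ (by simpa using h), List.getElem_replicate]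
  · rw [List.getD_append_right _ _ _ _ (by simpa using h), List.length_replicate,
      if_neg (not_lt.mpr h)]

theorem top_runP {m k : ℕ} : ∀ p ∈ runP m k, p.top ≤ m := by
  induction k generalizing m with
  | zero => intro p hp; simp [runP_zero] at hp
  | succ k ih =>
    intro p hp
    rw [runP_succ, List.mem_cons] at hp
    rcases hp with rfl | hp
    · exact le_rfl
    · exact (ih p hp).trans (Nat.sub_le _ _)

theorem next_runP {m k : ℕ} : ∀ p ∈ runP m k, m - 2 * k ≤ p.next := by
  induction k generalizing m with
  | zero => intro p hp; simp [runP_zero] at hp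
  | succ k ih =>
    intro p hp
    rw [runP_succ, List.mem_cons] at hp
    rcases hp with rfl | hp
    · simp only [Pc.next]; omega
    · have := ih p hp; omega

theorem validP_runP {m k : ℕ} (h : 2 * k ≤ m + 1) : validP (runP m k) := by
  induction k generalizing m with
  | zero => trivial
  | succ k ih =>
    rw [runP_succ]
    refine ⟨by simp only [Pc.low, Pc.top]; omega, fun p hp => ?_, ih (by omega)⟩
    exact top_runP p hp

/-- a run of pairs followed by an admissible list -/
theorem validP_runP_append {m k : ℕ} {L : List Pc} (h : 2 * k ≤ m + 1) (hL : validP L)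
    (htop : ∀ q ∈ L, q.top ≤ m - 2 * k) : validP (runP m k ++ L) :=
  validP_append (validP_runP h) hL fun p hp q hq => (htop q hq).trans (next_runP p hp)

theorem free_runP {m k : ℕ} : ∀ p ∈ runP m k, p.free := by
  induction k generalizing m with
  | zero => intro p hp; simp [runP_zero] at hp
  | succ k ih =>
    intro p hp
    rw [runP_succ, List.mem_cons] at hp
    rcases hp with rfl | hp
    · trivial
    · exact ih p hp

theorem mem_runP {m k : ℕ} {p : Pc} (h : p ∈ runP m k) : ∃ i < k, p = .pair (m - 2 * i) := by
  induction k generalizing m with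
  | zero => simp [runP_zero] at h
  | succ k ih =>
    rw [runP_succ, List.mem_cons] at h
    rcases h with rfl | h
    · exact ⟨0, by omega, by simp⟩
    · obtain ⟨i, hi, rfl⟩ := ih h
      exact ⟨i + 1, by omega, by congr 1; omega⟩

/-- number of cells of a run -/
theorem sum_size_runP {m k : ℕ} (h : 2 * k ≤ m + 1) :
    ((runP m k).map Pc.size).sum + 2 * k * (k - 1) + k = 2 * k * m := by
  induction k generalizing m with
  | zero => simp [runP_zero]
  | succ k ih =>
    rw [runP_succ, List.map_cons, List.sum_cons]
    rcases Nat.eq_zero_or_pos k with rfl | hk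
    · simp only [runP_zero, List.map_nil, List.sum_nil, Pc.size]
      omega
    · obtain ⟨m', rfl⟩ : ∃ m', m = m' + 2 := ⟨m - 2, by omega⟩
      have := ih (m := m') (by omega)
      simp only [Pc.size, Nat.add_sub_cancel]
      obtain ⟨k', rfl⟩ : ∃ k', k = k' + 1 := ⟨k - 1, by omega⟩
      simp only [Nat.add_sub_cancel] at this ⊢
      have h2 : 2 * (m' + 2) - 1 = 2 * m' + 3 := by omega
      rw [h2]
      nlinarith

/-- what a run of pairs can take from `J` columns if all pairs are tall -/
theorem FL_runP_tall {m k J : ℕ} (h : 2 * k + 2 * J ≤ m + 1) : FL (runP m k) J = 4 * J * k := by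
  induction k generalizing m with
  | zero => simp [runP_zero, FL_nil]
  | succ k ih =>
    rw [runP_succ, FL_cons, ih (by omega)]
    simp only [Pc.size, Pc.cap]
    rw [min_eq_right (by omega)]
    ring



theorem runP_append (m k l : ℕ) : runP m (k + l) = runP m k ++ runP (m - 2 * k) l := by
  induction k generalizing m with
  | zero => simp [runP_zero]
  | succ k ih =>
    rw [show k + 1 + l = (k + l) + 1 by ring, runP_succ, ih, runP_succ, List.cons_append]
    congr 2
    congr 1
    omega

/-! ### Hook lists -/

/-- `k` hooks `a, a-2, …` around `ps` -/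
def runH : ℕ → ℕ → List ℕ → List ℕ
  | _, 0, ps => ps
  | a, k + 1, ps => a :: runH (a - 2) k ps

theorem runH_zero (a : ℕ) (ps : List ℕ) : runH a 0 ps = ps := rfl

theorem runH_succ (a k : ℕ) (ps : List ℕ) : runH a (k + 1) ps = a :: runH (a - 2) k ps := rfl

theorem headD_runH (a k : ℕ) (ps : List ℕ) :
    (runH a k ps).headD 0 = if k = 0 then ps.headD 0 else a := by
  cases k <;> rfl

theorem validH_runH {a k : ℕ} {ps : List ℕ} (hps : ValidH ps)
    (h : 1 ≤ k → ps.headD 0 + 2 * k < a + 2) : ValidH (runH a k ps) := by
  induction k generalizing a with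
  | zero => exact hps
  | succ k ih =>
    have h1 := h (by omega)
    rw [runH_succ]
    refine ⟨?_, ih fun hk => by omega⟩
    rw [headD_runH]
    split_ifs with h0
    · omega
    · omega

theorem hsize_runH {a k : ℕ} {ps : List ℕ} (h : 2 * k ≤ a + 1) :
    hsize (runH a k ps) + 2 * k * (k - 1) + k = 2 * k * a + hsize ps := by
  induction k generalizing a with
  | zero => simp [runH_zero]
  | succ k ih =>
    rw [runH_succ]
    change a + (a - 1) + hsize (runH (a - 2) k ps) + _ + _ = _
    rcases Nat.eq_zero_or_pos k with rfl | hk
    · simp only [runH_zero]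
      omega
    · obtain ⟨a', rfl⟩ : ∃ a', a = a' + 2 := ⟨a - 2, by omega⟩
      have := ih (a := a') (by omega)
      simp only [Nat.add_sub_cancel]
      obtain ⟨k', rfl⟩ : ∃ k', k = k' + 1 := ⟨k - 1, by omega⟩
      simp only [Nat.add_sub_cancel] at this ⊢
      have h2 : a' + 2 - 1 = a' + 1 := by omega
      rw [h2]
      nlinarith

/-- column lengths of `k` hooks around `ps` -/
theorem cl_runH {a k : ℕ} {ps : List ℕ} (hps : ValidH ps)
    (h : 1 ≤ k → ps.headD 0 + 2 * k < a + 2) (s : ℕ) :
    cl (runH a k ps) s = if s < k then a - s else min k (a - s) + cl ps (s - k) := by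
  induction k generalizing a s with
  | zero => simp [runH_zero]
  | succ k ih =>
    have h1 := h (by omega)
    rw [runH_succ]
    cases s with
    | zero => simp [cl]
    | succ s =>
      rw [cl_succ, ih (fun hk => by omega)]
      by_cases hs : s + 1 < a
      · rw [if_pos hs]
        split_ifs with h2 h3 h3
        · omega
        · omega
        · omega
        · rw [show s + 1 - (k + 1) = s - k by omega]
          omega
      · rw [if_neg hs]
        split_ifs with h3
        · omega
        · have h4 : cl ps (s + 1 - (k + 1)) = 0 := by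
            apply cl_eq_zero hps
            rw [cl_zero]
            omega
          omega

theorem cl_stairH (m s : ℕ) : cl (stairH m) s = m - s := by
  induction m using Nat.twoStepInduction generalizing s with
  | zero => cases s <;> simp [stairH, cl]
  | one =>
    match s with
    | 0 => rfl
    | s + 1 => simp [stairH, cl_succ]
  | more m ih _ =>
    cases s with
    | zero => rfl
    | succ s =>
      rw [stairH, cl_succ, ih]
      split_ifs <;> omega

theorem hsize_stairH (m : ℕ) : 2 * hsize (stairH m) = m * (m + 1) := by
  induction m using Nat.twoStepInduction with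
  | zero => rfl
  | one => rfl
  | more m ih _ =>
    have : hsize (stairH (m + 2)) = m + 2 + (m + 2 - 1) + hsize (stairH m) := rfl
    rw [this]
    have h2 : m + 2 - 1 = m + 1 := by omega
    rw [h2]
    nlinarith

/-- a list of pieces has the shape with principal hooks `ps` -/
theorem colS_eq_hk {L : List Pc} {ps : List ℕ} (hv : ValidH ps)
    (h : ∀ s, (colsP L).getD s 0 = cl ps s) : colS (colsP L) = hk ps := by
  ext q
  rw [mem_colS, mem_hk hv, h]

/-- **RULE 1** in terms of lists of pieces with gaps. -/
theorem rule1_pieces {p : ℕ} {ps : List ℕ} (hv : ValidH (p :: ps)) (hc : HC p ps) (hf : FullH ps)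
    (hcov : ∀ (H : ℕ → ℕ) (w w₂ : ℕ), Region (hsize (p :: ps)) (p - 1) w w₂ H →
      ∃ L : List Pc, validP L ∧ (∀ s, (colsP L).getD s 0 = cl (p :: ps) s) ∧
        Decomp L fun j : Fin w => H j) : FullH (p :: ps) := by
  refine rule1 hv hc hf fun μ _ hr => ?_
  obtain ⟨L, h1, h2, h3⟩ := hcov _ _ _ hr
  rw [← colS_eq_hk hv h2]
  exact occSh_of_decompP L h1 h3

end Crest.Agent.R195
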