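import Crest.Agent.R195.Pick
import Crest.Agent.R195.Runs

-- ▼ part R195/Gale2
section

/-! Row 195 (helper797).  Numerical criterion with half-integral bound `B2 / 2` for the average of two
columns, and with free values `J > J₁` (covered by the number of nonzero columns). -/

set_option autoImplicit false

namespace Crest.Agent.R195

open Finset

/-- averaging over pairs -/
theorem two_mul_sum_le {J : Finset ℕ} {H : ℕ → ℕ} {B2 : ℕ} (hc : 2 ≤ J.card)
    (hB : ∀ i ∈ J, ∀ j ∈ J, i ≠ j → H i + H j ≤ B2) : 2 * ∑ j ∈ J, H j ≤ J.card * B2 := by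
  classical
  obtain ⟨m, hmJ, hmax⟩ : ∃ m ∈ J, ∀ j ∈ J, H j ≤ H m :=
    Finset.exists_max_image J H (Finset.card_pos.1 (by omega))
  rw [Finset.mul_sum]
  by_cases hmB : 2 * H m ≤ B2
  · calc ∑ j ∈ J, 2 * H j ≤ ∑ _j ∈ J, B2 :=
          Finset.sum_le_sum fun j hj => (Nat.mul_le_mul_left 2 (hmax j hj)).trans hmB
      _ = J.card * B2 := by rw [Finset.sum_const, smul_eq_mul]
  · obtain ⟨b, hb, hbm⟩ : ∃ b ∈ J, b ≠ m := by
      by_contra hcon
      push Not at hcon
      have : J ⊆ {m} := fun x hx => Finset.mem_singleton.2 (hcon x hx)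
      have := Finset.card_le_card this
      simp at this
      omega
    have h4 : ∀ j ∈ (J.erase m).erase b, 2 * H j ≤ B2 := by
      intro j hj
      rw [mem_erase, mem_erase] at hj
      have := hB j hj.2.2 m hmJ hj.2.1
      omega
    have h5 := hB b hb m hmJ hbm
    have h6 : ∑ j ∈ (J.erase m).erase b, 2 * H j ≤ ((J.erase m).erase b).card * B2 := by
      calc ∑ j ∈ (J.erase m).erase b, 2 * H j ≤ ∑ _j ∈ (J.erase m).erase b, B2 :=
            Finset.sum_le_sum h4
        _ = _ := by rw [Finset.sum_const, smul_eq_mul]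
    have h7 : ((J.erase m).erase b).card = J.card - 2 := by
      rw [card_erase_of_mem (mem_erase.2 ⟨hbm, hb⟩), card_erase_of_mem hmJ]
      omega
    have h8 := Finset.add_sum_erase J (fun j => 2 * H j) hmJ
    have h9 := Finset.add_sum_erase (J.erase m) (fun j => 2 * H j) (mem_erase.2 ⟨hbm, hb⟩)
    rw [h7] at h6
    have h10 : (J.card - 2) * B2 + 2 * B2 = J.card * B2 := by
      rw [← add_mul]; congr 1; omega
    omega

/-- columns outside of `J` -/
theorem sum_add_le {J : Finset ℕ} {N w' : ℕ} {H : ℕ → ℕ} (hJN : J ⊆ range N)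
    (hw : w' ≤ ((range N).filter fun j => H j ≠ 0).card) :
    ∑ j ∈ J, H j + (w' - J.card) ≤ ∑ j ∈ range N, H j := by
  classical
  have h1 : ((range N).filter fun j => H j ≠ 0).card ≤ J.card +
      (((range N) \ J).filter fun j => H j ≠ 0).card := by
    calc ((range N).filter fun j => H j ≠ 0).card
        ≤ (J ∪ ((range N) \ J).filter fun j => H j ≠ 0).card := by
          refine Finset.card_le_card fun j hj => ?_
          rw [mem_filter] at hj
          by_cases hjJ : j ∈ J
          · exact mem_union_left _ hjJ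
          · exact mem_union_right _ (mem_filter.2 ⟨mem_sdiff.2 ⟨hj.1, hjJ⟩, hj.2⟩)
      _ ≤ _ := Finset.card_union_le _ _
  have h2 : (((range N) \ J).filter fun j => H j ≠ 0).card ≤ ∑ j ∈ (range N) \ J, H j := by
    rw [Finset.card_filter]
    refine Finset.sum_le_sum fun j _ => ?_
    split_ifs with h
    · omega
    · exact Nat.zero_le _
  have h3 := Finset.sum_sdiff hJN (f := H)
  omega

/-- **Numerical criterion, sharper form.**  `B2` bounds the sum of any two columns; for `J > J₁` the
condition is implied by the number `w'` of nonzero columns. -/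
theorem exists_matrix_crit2 {ι : Type*} [Fintype ι] [DecidableEq ι] (S k : ι → ℕ)
    (hk : ∀ g, 0 < k g) (N : ℕ) (H : ℕ → ℕ) (htot : ∑ j ∈ range N, H j = ∑ g, S g)
    (B2 J₁ w' : ℕ) (hB : ∀ i j, i < N → j < N → i ≠ j → H i + H j ≤ B2)
    (h1 : ∀ j, j < N → H j ≤ ∑ g, min (S g) (k g))
    (hJ : J₁ * B2 ≤ 2 * ∑ g, min (S g) (k g * J₁))
    (hw : w' ≤ ((range N).filter fun j => H j ≠ 0).card)
    (hfree : ∀ J, J₁ < J → ∑ g, S g ≤ ∑ g, min (S g) (k g * J) + (w' - J)) :
    ∃ h : ι → ℕ → ℕ, (∀ g j, h g j ≤ k g) ∧ (∀ g, ∑ j ∈ range N, h g j = S g) ∧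
      (∀ g j, N ≤ j → h g j = 0) ∧ ∀ j, j < N → ∑ g, h g j = H j := by
  classical
  refine exists_matrix S k hk N H htot fun J hJN => ?_
  rcases Nat.lt_or_ge 1 J.card with hc | hc
  · rcases Nat.lt_or_ge J₁ J.card with hJ1 | hJ1
    · have h2 := hfree J.card hJ1
      have h3 := sum_add_le hJN hw
      omega
    · have h3 : 2 * ∑ j ∈ J, H j ≤ J.card * B2 := two_mul_sum_le hc fun i hi j hj hij =>
        hB i j (mem_range.1 (hJN hi)) (mem_range.1 (hJN hj)) hij
      -- J.card * F J₁ ≤ J₁ * F J
      have h4 : ∀ g, J.card * min (S g) (k g * J₁) ≤ J₁ * min (S g) (k g * J.card) := by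
        intro g
        rcases le_total (S g) (k g * J.card) with ha | ha
        · rw [min_eq_left ha]
          exact Nat.mul_le_mul hJ1 (min_le_left _ _)
        · rw [min_eq_right ha]
          calc J.card * min (S g) (k g * J₁) ≤ J.card * (k g * J₁) :=
                Nat.mul_le_mul_left _ (min_le_right _ _)
            _ = J₁ * (k g * J.card) := by ring
      have h5 : J.card * ∑ g, min (S g) (k g * J₁) ≤ J₁ * ∑ g, min (S g) (k g * J.card) := by
        rw [Finset.mul_sum, Finset.mul_sum]
        exact Finset.sum_le_sum fun g _ => h4 g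
      have h6 : (2 * J₁) * ∑ j ∈ J, H j ≤ (2 * J₁) * ∑ g, min (S g) (k g * J.card) := by
        calc (2 * J₁) * ∑ j ∈ J, H j = J₁ * (2 * ∑ j ∈ J, H j) := by ring
          _ ≤ J₁ * (J.card * B2) := Nat.mul_le_mul_left _ h3
          _ = J.card * (J₁ * B2) := by ring
          _ ≤ J.card * (2 * ∑ g, min (S g) (k g * J₁)) := Nat.mul_le_mul_left _ hJ
          _ = 2 * (J.card * ∑ g, min (S g) (k g * J₁)) := by ring
          _ ≤ 2 * (J₁ * ∑ g, min (S g) (k g * J.card)) := Nat.mul_le_mul_left _ h5
          _ = _ := by ring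
      exact Nat.le_of_mul_le_mul_left h6 (by omega)
  · rcases Nat.eq_zero_or_pos J.card with h0 | h0
    · rw [Finset.card_eq_zero] at h0
      subst h0
      simp
    · have hc1 : J.card = 1 := by omega
      obtain ⟨a, rfl⟩ := Finset.card_eq_one.1 hc1
      rw [Finset.sum_singleton]
      simpa using h1 a (mem_range.1 (hJN (mem_singleton_self a)))

/-- **Numerical criterion, sharper form**, for lists of pairs and rectangles. -/
theorem decomp_crit2 (L : List Pc) (hL : ∀ p ∈ L, p.free) (w : ℕ) (H : ℕ → ℕ)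
    (htot : ∑ j ∈ range w, H j = (L.map Pc.size).sum) (B2 J₁ w' : ℕ)
    (hB : ∀ i j, i < w → j < w → i ≠ j → H i + H j ≤ B2) (h1 : ∀ j, j < w → H j ≤ FL L 1)
    (hJ : J₁ * B2 ≤ 2 * FL L J₁) (hw : w' ≤ ((range w).filter fun j => H j ≠ 0).card)
    (hfree : ∀ J, J₁ < J → (L.map Pc.size).sum ≤ FL L J + (w' - J)) :
    Decomp L fun j : Fin w => H j := by
  have hFL : ∀ J, ∑ g : Fin L.length, min (L[g].size) (L[g].cap * J) = FL L J := by
    intro J
    rw [FL, ← Fin.sum_univ_fun_getElem]
    rfl
  have hS : ∑ g : Fin L.length, L[g].size = (L.map Pc.size).sum := by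
    rw [← Fin.sum_univ_fun_getElem]; rfl
  obtain ⟨h, hh1, hh2, hh3, hh4⟩ := exists_matrix_crit2 (ι := Fin L.length)
    (fun g => L[g].size) (fun g => L[g].cap) (fun g => Pc.cap_pos _) w H
    (by rw [htot, ← hS]) B2 J₁ w' hB
    (by
      intro j hj
      refine (h1 j hj).trans (le_of_eq ?_)
      rw [← hFL]
      simp only [mul_one])
    (by rw [hFL]; exact hJ) hw (by
      intro J hJ
      rw [hFL, hS]
      exact hfree J hJ)
  refine decomp_of_matrix L w H h (fun g => ?_) hh4
  have hfree := hL _ (List.getElem_mem g.2)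
  have h5 := hh1 g
  have h6 := hh2 g
  rw [← Fin.sum_univ_eq_sum_range (fun j => h g j) w] at h6
  have key : ∀ p : Pc, p.free → (∀ j, h g j ≤ p.cap) → ∑ j : Fin w, h g j = p.size →
      RowOK p fun j : Fin w => h g j := by
    intro p hp h7 h8
    cases p with
    | pair c => exact ⟨fun j => h7 j, h8⟩
    | rect c k => exact ⟨fun j => h7 j, h8⟩
    | dup c => exact absurd hp (by simp [Pc.free])
    | gap c => exact absurd hp (by simp [Pc.free])
  exact key _ hfree h5 h6



end Crest.Agent.R195
end

-- ▼ part R195/CovTools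

/-! Row 195, S0298.  Tools for the coverage of the large families: removal of `dup` pieces without
killing columns, numerical consequences of `Region`, deficits of runs of pairs. -/

set_option autoImplicit false
set_option linter.unusedSectionVars false
set_option linter.unusedDecidableInType false

namespace Crest.Agent.R195

open Finset

/-! ### States -/

/-- State of the column heights `H` (on `range w`) during the removal of pieces: neighbouring columns
`2i, 2i+1` are ordered, all columns are nonempty, odd columns are at most `B`, any two columns have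
at most `B2` cells, there are `N` cells, and the odd columns carry at least `Q` cells besides the
bottom ones. -/
structure St (B B2 w N Q : ℕ) (H : ℕ → ℕ) : Prop where
  ord : ∀ i, 2 * i + 1 < w → H (2 * i + 1) ≤ H (2 * i)
  pos : ∀ j, j < w → 1 ≤ H j
  odd : ∀ i, 2 * i + 1 < w → H (2 * i + 1) ≤ B
  two : ∀ i j, i < w → j < w → i ≠ j → H i + H j ≤ B2
  sum : ∑ j ∈ range w, H j = N
  mass : Q ≤ ∑ i ∈ range (w / 2), (H (2 * i + 1) - 1)

variable {B B2 w N Q : ℕ} {H : ℕ → ℕ}

/-- removal of an even row that kills no column -/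
theorem St.sub {c : ℕ} (h : St B B2 w N Q H) {y : ℕ → ℕ}
    (hy : ∀ i, 2 * i + 1 < w → y i ≤ H (2 * i + 1) - 1) (h0 : ∀ i, w ≤ 2 * i + 1 → y i = 0)
    (hle : ∀ j, y (j / 2) ≤ H j) (hs : ∑ i ∈ range (w / 2), y i = c) :
    St B B2 w (N - 2 * c) (Q - c) fun j => H j - y (j / 2) where
  ord i hi := by
    have e1 : (2 * i + 1) / 2 = i := by omega
    have e2 : 2 * i / 2 = i := by omega
    simp only [e1, e2]
    exact Nat.sub_le_sub_right (h.ord i hi) _
  pos j hj := by
    rcases Nat.lt_or_ge (2 * (j / 2) + 1) w with h1 | h1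
    · have h2 := hy (j / 2) h1
      have h3 := h.pos _ h1
      have h4 := h.ord (j / 2) h1
      rcases Nat.mod_two_eq_zero_or_one j with h5 | h5
      · have e : 2 * (j / 2) = j := by omega
        rw [e] at h2 h3 h4
        omega
      · have e : 2 * (j / 2) + 1 = j := by omega
        rw [e] at h2 h3
        omega
    · have := h0 _ h1
      have h3 := h.pos j hj
      rw [this]
      omega
  odd i hi := (Nat.sub_le _ _).trans (h.odd i hi)
  two i j hi hj hij := by
    have := h.two i j hi hj hij
    omega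
  sum := by
    have h1 := sum_sub_half h0 hle
    rw [hs, h.sum] at h1
    omega
  mass := by
    have h1 : ∑ i ∈ range (w / 2), (H (2 * i + 1) - y ((2 * i + 1) / 2) - 1) +
        ∑ i ∈ range (w / 2), y i = ∑ i ∈ range (w / 2), (H (2 * i + 1) - 1) := by
      rw [← sum_add_distrib]
      refine sum_congr rfl fun i hi => ?_
      have h2 : 2 * i + 1 < w := by rw [mem_range] at hi; omega
      have h3 := hy i h2
      rw [show (2 * i + 1) / 2 = i by omega]
      omega
    have h2 := h.mass
    rw [hs] at h1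
    omega

/-- **Removal of a `dup` piece** without killing columns. -/
theorem St.dup {c : ℕ} (h : St B B2 w N Q H) (hB : 5 ≤ B) (hc : (B - 1) * c ≤ 4 * Q) :
    ∃ H' : ℕ → ℕ, St B B2 w (N - 2 * c) (Q - c) H' ∧ (∀ j, H' j ≤ H j) ∧
      ∀ L : List Pc, Decomp L (fun j : Fin w => H' j) → Decomp (.dup c :: L) fun j : Fin w => H j := by
  obtain ⟨y, hy1, hy2, hy3, hy4, hy5⟩ := exists_dup (w := w) (c := c) (H := H) (fun _ => 0)
    (fun i => min 4 (H (2 * i + 1) - 1)) (fun i _ => Nat.zero_le _) (fun i _ => min_le_left _ _)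
    (fun i hi => by
      have h1 := h.ord i hi
      have h2 : min 4 (H (2 * i + 1) - 1) ≤ H (2 * i + 1) - 1 := min_le_right _ _
      omega) (by simp) (by
      have h1 : 4 * ∑ i ∈ range (w / 2), (H (2 * i + 1) - 1) ≤
          (B - 1) * ∑ i ∈ range (w / 2), min 4 (H (2 * i + 1) - 1) := by
        rw [mul_sum, mul_sum]
        refine sum_le_sum fun i hi => ?_
        have h2 : 2 * i + 1 < w := by rw [mem_range] at hi; omega
        have h3 := h.odd i h2
        rcases le_total 4 (H (2 * i + 1) - 1) with h4 | h4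
        · rw [min_eq_left h4, mul_comm]
          exact Nat.mul_le_mul_right _ (by omega)
        · rw [min_eq_right h4]
          exact Nat.mul_le_mul_right _ (by omega)
      have h2 := h.mass
      have h3 : (B - 1) * c ≤ (B - 1) * ∑ i ∈ range (w / 2), min 4 (H (2 * i + 1) - 1) := by
        omega
      exact Nat.le_of_mul_le_mul_left h3 (by omega))
  exact ⟨fun j => H j - y (j / 2), h.sub (fun i hi => (hy1 i hi).2.trans (min_le_right _ _)) hy2 hy3
    hy4, fun j => Nat.sub_le _ _, hy5⟩

/-! ### Consequences of `Region` -/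

variable {n M w₂ : ℕ}

theorem Region.le_H0 (h : Region n M w w₂ H) (j : ℕ) : H j ≤ H 0 := h.anti (Nat.zero_le j)

theorem Region.H_le (h : Region n M w w₂ H) {j : ℕ} (hj : 1 ≤ j) : H j ≤ M := by
  have h1 := h.anti hj
  have h2 := h.anti (Nat.zero_le 1)
  have h3 := h.col
  omega

theorem Region.pair_le (h : Region n M w w₂ H) {i j : ℕ} (hij : i ≠ j) : H i + H j ≤ 2 * M := by
  rcases Nat.lt_or_gt_of_ne hij with h1 | h1
  · have h2 := h.anti (Nat.zero_le i)
    have h3 := h.anti (show 1 ≤ j by omega)
    have h4 := h.col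
    omega
  · have h2 := h.anti (Nat.zero_le j)
    have h3 := h.anti (show 1 ≤ i by omega)
    have h4 := h.col
    omega

/-- `n ≤ w²` -/
theorem Region.le_sq (h : Region n M w w₂ H) : n ≤ w * w := by
  rw [← h.sum]
  calc ∑ j ∈ range w, H j ≤ ∑ _j ∈ range w, w :=
        sum_le_sum fun j _ => (h.le_H0 j).trans h.wlog
    _ = w * w := by rw [sum_const, card_range, smul_eq_mul]

theorem Region.w₂_le (h : Region n M w w₂ H) : w₂ ≤ w := by
  by_contra hcon
  push Not at hcon
  have h1 := (h.two w).1 hcon
  have h2 := (h.pos w).2 (by omega)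
  omega

/-- many columns of height at least two: `n ≤ 2M + (w₂ - 2) M + (w - w₂)` -/
theorem Region.le_two (h : Region n M w w₂ H) (h2 : 2 ≤ w₂) : n + 2 * w₂ ≤ w₂ * M + 2 * M := by
  have h3 := h.w₂_le
  have e : ∑ j ∈ range w, H j = H 0 + H 1 + ∑ j ∈ Ico 2 w₂, H j + ∑ j ∈ Ico w₂ w, H j := by
    have a1 : ∑ j ∈ range w, H j = ∑ j ∈ range w₂, H j + ∑ j ∈ Ico w₂ w, H j := by
      rw [sum_range_add_sum_Ico _ h3]
    have a2 : ∑ j ∈ range w₂, H j = ∑ j ∈ range 2, H j + ∑ j ∈ Ico 2 w₂, H j := by
      rw [sum_range_add_sum_Ico _ h2]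
    rw [a1, a2, sum_range_succ, sum_range_one]
  have e2 : ∑ j ∈ Ico 2 w₂, H j ≤ (w₂ - 2) * M := by
    calc ∑ j ∈ Ico 2 w₂, H j ≤ ∑ _j ∈ Ico 2 w₂, M :=
          sum_le_sum fun j hj => h.H_le (by rw [mem_Ico] at hj; omega)
      _ = (w₂ - 2) * M := by rw [sum_const, Nat.card_Ico, smul_eq_mul]
  have e3 : ∑ j ∈ Ico w₂ w, H j ≤ w - w₂ := by
    calc ∑ j ∈ Ico w₂ w, H j ≤ ∑ _j ∈ Ico w₂ w, 1 := sum_le_sum fun j hj => by
          rw [mem_Ico] at hj
          by_contra hcon
          push Not at hcon
          have := (h.two j).2 hcon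
          omega
      _ = w - w₂ := by rw [sum_const, Nat.card_Ico, smul_eq_mul, mul_one]
  have h4 := h.sum
  have h5 := h.col
  have h6 := h.row
  obtain ⟨v, rfl⟩ : ∃ v, w₂ = v + 2 := ⟨w₂ - 2, by omega⟩
  have h7 : (v + 2) * M = v * M + 2 * M := by ring
  simp only [Nat.add_sub_cancel] at e2
  omega

/-- at most `M + w` cells if there is at most one column of height at least two -/
theorem Region.two_le (h : Region n M w w₂ H) (hn : 4 * M < n) : 2 ≤ w₂ := by
  by_contra hcon
  push Not at hcon
  have h4 := h.sum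
  have h5 := h.col
  have h6 := h.row
  have h7 : ∀ j, w₂ ≤ j → H j ≤ 1 := by
    intro j hj
    by_contra hc
    push Not at hc
    have := (h.two j).2 hc
    omega
  have h8 : ∑ j ∈ range w, H j ≤ H 0 + w := by
    rcases Nat.eq_zero_or_pos w with rfl | hw
    · simp
    · rw [← sum_range_add_sum_Ico _ (show 1 ≤ w from hw), sum_range_one]
      have : ∑ j ∈ Ico 1 w, H j ≤ ∑ _j ∈ Ico 1 w, 1 :=
        sum_le_sum fun j hj => h7 j (by rw [mem_Ico] at hj; omega)
      rw [sum_const, Nat.card_Ico, smul_eq_mul, mul_one] at this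
      omega
  omega

/-- half of the cells outside column `0` are in odd columns -/
theorem sum_odd (hH : Antitone H) (w : ℕ) :
    ∑ j ∈ range w, H j ≤ H 0 + 2 * ∑ i ∈ range (w / 2), H (2 * i + 1) := by
  have key : ∀ m, ∑ j ∈ range (2 * m + 1), H j ≤ H 0 + 2 * ∑ i ∈ range m, H (2 * i + 1) := by
    intro m
    induction m with
    | zero => simp
    | succ m ih =>
      rw [show 2 * (m + 1) + 1 = 2 * m + 1 + 1 + 1 by ring, sum_range_succ, sum_range_succ,
        sum_range_succ _ m]
      have := hH (show 2 * m + 1 ≤ 2 * m + 1 + 1 by omega)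
      have e : H (2 * m + 1 + 1) = H (2 * m + 2) := rfl
      omega
  rcases Nat.even_or_odd' w with ⟨m, h | h⟩
  · subst h
    rw [show 2 * m / 2 = m by omega]
    refine le_trans ?_ (key m)
    rw [sum_range_succ]
    omega
  · subst h
    rw [show (2 * m + 1) / 2 = m by omega]
    exact key m

/-- the initial state -/
theorem St.of_region (h : Region n M w w₂ H) (hQ : 2 * Q + H 0 + w ≤ n) :
    St M (2 * M) w n Q H where
  ord i _ := h.anti (by omega)
  pos j hj := (h.pos j).1 hj
  odd i _ := h.H_le (by omega)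
  two i j _ _ hij := h.pair_le hij
  sum := h.sum
  mass := by
    have h1 := sum_odd h.anti w
    rw [h.sum] at h1
    have h2 : ∑ i ∈ range (w / 2), H (2 * i + 1) =
        ∑ i ∈ range (w / 2), (H (2 * i + 1) - 1) + w / 2 := by
      have : ∑ i ∈ range (w / 2), H (2 * i + 1) =
          ∑ i ∈ range (w / 2), ((H (2 * i + 1) - 1) + 1) := by
        refine sum_congr rfl fun i hi => ?_
        have h3 : 2 * i + 1 < w := by rw [mem_range] at hi; omega
        have := (h.pos _).1 h3
        omega
      rw [this, sum_add_distrib, sum_const, card_range, smul_eq_mul, mul_one]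
    omega

/-! ### Deficits of runs -/

/-- triangular numbers -/
def tri (r : ℕ) : ℕ := r * (r + 1) / 2

theorem tri_succ_succ (r : ℕ) : tri (r + 2) = tri r + (2 * r + 3) := by
  unfold tri
  have h1 : (r + 2) * (r + 2 + 1) = r * (r + 1) + 2 * (2 * r + 3) := by ring
  rw [h1, Nat.add_mul_div_left _ _ (by norm_num)]

theorem tri_zero : tri 0 = 0 := rfl
theorem tri_one : tri 1 = 1 := rfl
theorem tri_two : tri 2 = 3 := rfl
theorem tri_three : tri 3 = 6 := rfl
theorem tri_four : tri 4 = 10 := rfl
theorem tri_five : tri 5 = 15 := rfl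

/-- what `J` columns cannot give to a run -/
theorem size_le_FL_runP (m k J : ℕ) :
    ((runP m k).map Pc.size).sum ≤ FL (runP m k) J + tri (m - 2 * J) := by
  induction k generalizing m with
  | zero => simp [runP_zero]
  | succ k ih =>
    rw [runP_succ, List.map_cons, List.sum_cons, FL_cons]
    have h1 := ih (m - 2)
    simp only [Pc.size, Pc.cap]
    rcases Nat.lt_or_ge (2 * J + 2) m with h | h
    · obtain ⟨r, hr⟩ : ∃ r, m - 2 * J = r + 2 := ⟨m - 2 * J - 2, by omega⟩
      have h2 : m - 2 - 2 * J = r := by omega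
      rw [h2] at h1
      rw [hr, tri_succ_succ, min_eq_right (by omega)]
      omega
    · have h2 : m - 2 - 2 * J = 0 := by omega
      rw [h2, tri_zero] at h1
      rcases Nat.lt_or_ge (2 * J + 1) m with h3 | h3
      · have h4 : m = 2 * J + 2 := by omega
        have h5 : m - 2 * J = 2 := by omega
        rw [h5, tri_two, min_eq_right (by omega)]
        omega
      · rcases Nat.lt_or_ge (2 * J) m with h4 | h4
        · have h5 : m = 2 * J + 1 := by omega
          have h6 : m - 2 * J = 1 := by omega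
          rw [h6, tri_one, min_eq_right (by omega)]
          omega
        · rw [min_eq_left (by omega)]
          omega

/-- each pair takes 4 cells from one column if all columns of the run have at least 3 cells -/
theorem FL_one_runP {m k : ℕ} (h : 2 * k + 1 ≤ m) : FL (runP m k) 1 = 4 * k := by
  rw [FL_runP_tall (J := 1) (by omega)]

/-- same, the last pair may be short -/
theorem FL_one_runP' {m k : ℕ} (h : 2 * k ≤ m + 1) : 4 * k ≤ FL (runP m k) 1 + 3 := by
  rcases Nat.eq_zero_or_pos k with rfl | hk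
  · omega
  · obtain ⟨k', rfl⟩ : ∃ k', k = k' + 1 := ⟨k - 1, by omega⟩
    rw [runP_append m k' 1, FL_append, FL_one_runP (by omega), runP_succ, FL_cons]
    simp only [Pc.size, Pc.cap]
    have : 1 ≤ min (2 * (m - 2 * k') - 1) (4 * 1) := by
      rw [le_min_iff]; omega
    omega

theorem FL_rect (c J : ℕ) (L : List Pc) : FL (.rect c 1 :: L) J = min c J + FL L J := by
  rw [FL_cons]
  simp [Pc.size, Pc.cap]

/-! ### Sizes from columns -/

theorem card_colS (cs : List ℕ) : (colS cs).card = cs.sum := by
  induction cs with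
  | nil => rw [colS_nil]; rfl
  | cons c cs ih =>
    have h1 : colS [c] = (range c).image fun i => (i, 0) := by
      ext ⟨i, j⟩
      rw [mem_colS]
      simp only [mem_image, mem_range, Prod.mk.injEq]
      match j with
      | 0 => simp
      | j + 1 => simp
    have h2 : (colS [c]).card = c := by
      rw [h1, card_image_of_injective _ (fun a b h => (Prod.mk.inj h).1), card_range]
    rw [show c :: cs = [c] ++ cs from rfl, colS_append, card_addC, h2, ih, List.sum_append]
    · simp
    · exact fun q hq => colS_snd_lt hq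

theorem Pc.size_eq {p : Pc} (h : p.low ≤ p.top) : p.size = p.cols.sum := by
  cases p with
  | pair c => simp only [Pc.low, Pc.top] at h; simp only [Pc.size, Pc.cols, List.sum_cons,
      List.sum_nil]; omega
  | rect c k => simp [Pc.size, Pc.cols, mul_comm]
  | dup c => simp only [Pc.size, Pc.cols, List.sum_cons, List.sum_nil]; omega
  | gap c => simp only [Pc.low, Pc.top] at h; simp only [Pc.size, Pc.cols, List.sum_cons,
      List.sum_nil]; omega

/-- the number of cells of a list of pieces with the columns of `hk ps` -/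
theorem sum_size_of_cols {L : List Pc} {ps : List ℕ} (hv : ValidH ps) (hL : validP L)
    (h : ∀ s, (colsP L).getD s 0 = cl ps s) : (L.map Pc.size).sum = hsize ps := by
  have h1 : (L.map Pc.size).sum = (colsP L).sum := by
    have h2 := hL.low_le
    clear hL h
    induction L with
    | nil => rfl
    | cons p L ih =>
      rw [List.map_cons, List.sum_cons, colsP_cons, List.sum_append,
        ih fun q hq => h2 q (List.mem_cons_of_mem _ hq), Pc.size_eq (h2 p List.mem_cons_self)]
  rw [h1, ← card_colS, colS_eq_hk hv h, card_hk]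

/-- final step: free pieces -/
theorem St.free (h : St B B2 w N Q H) (L : List Pc) (hL : ∀ p ∈ L, p.free)
    (hN : N = (L.map Pc.size).sum) (J₁ : ℕ) (h1 : ∀ j, j < w → H j ≤ FL L 1)
    (hJ : J₁ * B2 ≤ 2 * FL L J₁)
    (hfree : ∀ J, J₁ < J → (L.map Pc.size).sum ≤ FL L J + (w - J)) :
    Decomp L fun j : Fin w => H j := by
  refine decomp_crit2 L hL w H (h.sum.trans hN) B2 J₁ w h.two h1 hJ ?_ hfree
  have : (range w).filter (fun j => H j ≠ 0) = range w := by
    refine filter_true_of_mem fun j hj => ?_
    have := h.pos j (mem_range.1 hj)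
    omega
  rw [this, card_range]

end Crest.Agent.R195
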