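import Crest.Agent.R195.Runs

/-! Row 195, S0298 (helper545).  The families of hook lists, their sizes, the hook condition, and the
reduction of "all `n`" to coverage statements. -/

set_option autoImplicit false

namespace Crest.Agent.R195

open Finset

/-! ### The hook condition -/

/-- maximal antidiagonal (one based) -/
def ad : List ℕ → ℕ
  | [] => 0
  | p :: ps => max p (if ps = [] then 0 else ad ps + 2)

theorem ad_cons_le (p : ℕ) (ps : List ℕ) : ad (p :: ps) ≤ max p (ad ps + 2) := by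
  rw [ad]; split_ifs <;> omega

theorem cl_add_le_ad (ps : List ℕ) : ∀ s, 0 < cl ps s → cl ps s + s ≤ ad ps := by
  induction ps with
  | nil => intro s h; simp [cl] at h
  | cons p ps ih =>
    intro s h
    cases s with
    | zero => simp [cl, ad]
    | succ s =>
      rw [cl_succ] at h ⊢
      rw [ad]
      by_cases hps : ps = []
      · subst hps
        rw [if_pos rfl]
        have h3 : cl [] s = 0 := rfl
        rw [h3] at h ⊢
        split_ifs at h ⊢ <;> omega
      rw [if_neg hps]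
      split_ifs with h1
      · rcases Nat.eq_zero_or_pos (cl ps s) with h2 | h2
        · rw [h2]; omega
        · have := ih s h2; omega
      · rw [if_neg h1] at h
        have := ih s (by omega)
        omega

theorem HC_of {p : ℕ} {ps : List ℕ} (h0 : ps.headD 0 + 2 ≤ p) (h1 : ad ps + 1 ≤ p) : HC p ps := by
  intro s hs
  rw [← cl_zero] at h0
  rcases Nat.eq_zero_or_pos s with rfl | hs0
  · exact le_max_of_le_right (by omega)
  · rcases Nat.eq_zero_or_pos (cl ps s) with h2 | h2
    · rw [h2]; exact le_max_of_le_right (by omega)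
    · have := cl_add_le_ad ps s h2
      exact le_max_of_le_right (by omega)

theorem ad_runH_le {a k K : ℕ} {ps : List ℕ} (h1 : 1 ≤ k → a ≤ K) (h2 : ad ps + 2 * k ≤ K) :
    ad (runH a k ps) ≤ K := by
  induction k generalizing a K with
  | zero => exact h2
  | succ k ih =>
    rw [runH_succ]
    have h3 := h1 (by omega)
    have h4 := ad_cons_le a (runH (a - 2) k ps)
    have : ad (runH (a - 2) k ps) ≤ K - 2 := ih (fun hk => by omega) (by omega)
    omega

/-! ### Coverage and fullness -/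

/-- the diagrams which are short in both directions are covered -/
def CovH (ps : List ℕ) : Prop :=
  ∀ (H : ℕ → ℕ) (w w₂ : ℕ), Region (hsize ps) (ps.headD 0 - 1) w w₂ H →
    ∃ L : List Pc, validP L ∧ (∀ s, (colsP L).getD s 0 = cl ps s) ∧ Decomp L fun j : Fin w => H j

theorem fullH_of_cov {p : ℕ} {ps : List ℕ} (hv : ValidH ps) (h0 : ps.headD 0 + 2 ≤ p)
    (h1 : ad ps + 1 ≤ p) (hf : FullH ps) (hc : CovH (p :: ps)) : FullH (p :: ps) :=
  rule1_pieces ⟨by omega, hv⟩ (HC_of h0 h1) hf hc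

/-! ### The families -/

/-- `M+1, M-1, …` (`e` hooks), then `M-2e, M-2e-2, …` down to `1` or `2` -/
def hA (M e : ℕ) : List ℕ := runH (M + 1) e (runH (M - 2 * e) ((M + 1) / 2 - e) [])

/-- `M` even: as `hA`, and a last hook `1` after the hook `2` -/
def hB (M e : ℕ) : List ℕ := runH (M + 1) e (runH (M - 2 * e) (M / 2 - e) [1])

/-- `M` odd: as `hA` without the last hook `1` -/
def hC (M e : ℕ) : List ℕ := runH (M + 1) e (runH (M - 2 * e) ((M - 1) / 2 - e) [])

/-- `P` even: `P+1+2e, …, P+3`, then `P, P-2, …, 6`, then `3` -/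
def hV (P e : ℕ) : List ℕ := runH (P + 1 + 2 * e) e (runH P ((P - 4) / 2) [3])

theorem hA_succ {M e : ℕ} (h : 2 ≤ M) : hA M (e + 1) = (M + 1) :: hA (M - 2) e := by
  unfold hA
  rw [runH_succ, show M + 1 - 2 = M - 2 + 1 by omega, show M - 2 * (e + 1) = M - 2 - 2 * e by omega,
    show (M + 1) / 2 - (e + 1) = (M - 2 + 1) / 2 - e by omega]

theorem hB_succ {M e : ℕ} (h : 2 ≤ M) : hB M (e + 1) = (M + 1) :: hB (M - 2) e := by
  unfold hB
  rw [runH_succ, show M + 1 - 2 = M - 2 + 1 by omega, show M - 2 * (e + 1) = M - 2 - 2 * e by omega,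
    show M / 2 - (e + 1) = (M - 2) / 2 - e by omega]

theorem hC_succ {M e : ℕ} (h : 2 ≤ M) : hC M (e + 1) = (M + 1) :: hC (M - 2) e := by
  unfold hC
  rw [runH_succ, show M + 1 - 2 = M - 2 + 1 by omega, show M - 2 * (e + 1) = M - 2 - 2 * e by omega,
    show (M - 1) / 2 - (e + 1) = (M - 2 - 1) / 2 - e by omega]

theorem hV_succ (P e : ℕ) : hV P (e + 1) = (P + 3 + 2 * e) :: hV P e := by
  unfold hV
  rw [runH_succ, show P + 1 + 2 * (e + 1) = P + 3 + 2 * e by ring,
    show P + 3 + 2 * e - 2 = P + 1 + 2 * e by omega]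

theorem hB_zero {M : ℕ} (h : 2 ≤ M) : hB M 0 = M :: hB (M - 2) 0 := by
  unfold hB
  obtain ⟨k, hk⟩ : ∃ k, M / 2 - 0 = k + 1 := ⟨M / 2 - 1, by omega⟩
  rw [runH_zero, runH_zero, hk, runH_succ, show M - 2 * 0 = M by omega,
    show M - 2 - 2 * 0 = M - 2 by omega, show (M - 2) / 2 - 0 = k by omega]

theorem hC_zero {M : ℕ} (h : 3 ≤ M) : hC M 0 = M :: hC (M - 2) 0 := by
  unfold hC
  obtain ⟨k, hk⟩ : ∃ k, (M - 1) / 2 - 0 = k + 1 := ⟨(M - 1) / 2 - 1, by omega⟩
  rw [runH_zero, runH_zero, hk, runH_succ, show M - 2 * 0 = M by omega,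
    show M - 2 - 2 * 0 = M - 2 by omega, show (M - 2 - 1) / 2 - 0 = k by omega]

theorem hA_zero (M : ℕ) : hA M 0 = stairH M := by
  induction M using Nat.twoStepInduction with
  | zero => rfl
  | one => rfl
  | more M ih _ =>
    unfold hA at ih ⊢
    obtain ⟨k, hk⟩ : ∃ k, (M + 2 + 1) / 2 - 0 = k + 1 := ⟨(M + 1) / 2, by omega⟩
    rw [stairH, runH_zero, hk, runH_succ, show M + 2 - 2 * 0 = M + 2 by omega,
      show M + 2 - 2 = M by omega, ← ih, runH_zero, show M - 2 * 0 = M by omega,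
      show (M + 1) / 2 - 0 = k by omega]


theorem hV_zero {P : ℕ} (hP : P % 2 = 0) (h : 6 ≤ P) : hV P 0 = hC (P - 1) ((P - 4) / 2) := by
  unfold hV hC
  rw [runH_zero, show P - 1 + 1 = P by omega, show (P - 1 - 1) / 2 - (P - 4) / 2 = 1 by omega,
    runH_succ, runH_zero, show P - 1 - 2 * ((P - 4) / 2) = 3 by omega]

/-! ### Admissibility -/

theorem validH_hA {M e : ℕ} (h : 2 * e ≤ M) : ValidH (hA M e) := by
  unfold hA
  refine validH_runH (validH_runH trivial fun _ => ?_) fun _ => ?_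
  · simp only [List.headD_nil]; omega
  · rw [headD_runH]; split_ifs
    · simp only [List.headD_nil]; omega
    · omega

theorem validH_hB {M e : ℕ} (hM : M % 2 = 0) (h : 2 * e + 2 ≤ M) : ValidH (hB M e) := by
  unfold hB
  refine validH_runH (validH_runH ⟨by simp, trivial⟩ fun _ => ?_) fun _ => ?_
  · simp only [List.headD_cons]; omega
  · rw [headD_runH]; split_ifs
    · simp only [List.headD_cons]; omega
    · omega

theorem validH_hC {M e : ℕ} (h : 2 * e + 1 ≤ M) : ValidH (hC M e) := by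
  unfold hC
  refine validH_runH (validH_runH trivial fun _ => ?_) fun _ => ?_
  · simp only [List.headD_nil]; omega
  · rw [headD_runH]; split_ifs
    · simp only [List.headD_nil]; omega
    · omega

theorem validH_hV {P e : ℕ} (hP : P % 2 = 0) (h : 4 ≤ P) : ValidH (hV P e) := by
  unfold hV
  refine validH_runH (validH_runH ⟨by simp, trivial⟩ fun _ => ?_) fun _ => ?_
  · simp only [List.headD_cons]; omega
  · rw [headD_runH]; split_ifs
    · simp only [List.headD_cons]; omega
    · omega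

/-! ### Sizes -/

theorem hsize_cons (p : ℕ) (ps : List ℕ) : hsize (p :: ps) = p + (p - 1) + hsize ps := rfl

theorem hsize_hA {M e : ℕ} (h : 2 * e ≤ M) : 2 * hsize (hA M e) = M * (M + 1) + 4 * e := by
  induction e generalizing M with
  | zero => rw [hA_zero, hsize_stairH]; ring
  | succ e ih =>
    obtain ⟨M, rfl⟩ : ∃ m, M = m + 2 := ⟨M - 2, by omega⟩
    have := ih (M := M) (by omega)
    rw [hA_succ (by omega), hsize_cons]
    simp only [Nat.add_sub_cancel]
    nlinarith

theorem hsize_hB {M e : ℕ} (hM : M % 2 = 0) (h : 2 * e + 2 ≤ M) :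
    2 * hsize (hB M e) = M * (M + 1) + 4 * e + 2 := by
  have h0 : ∀ m, 2 * hsize (hB (2 * m) 0) = 2 * m * (2 * m + 1) + 2 := by
    intro m
    induction m with
    | zero => rfl
    | succ m ih =>
      rw [hB_zero (by omega), hsize_cons, show 2 * (m + 1) - 2 = 2 * m by omega,
        show 2 * (m + 1) - 1 = 2 * m + 1 by omega]
      nlinarith
  induction e generalizing M with
  | zero =>
    obtain ⟨m, rfl⟩ : ∃ m, M = 2 * m := ⟨M / 2, by omega⟩
    rw [h0]
  | succ e ih =>
    obtain ⟨M, rfl⟩ : ∃ m, M = m + 2 := ⟨M - 2, by omega⟩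
    have := ih (M := M) (by omega) (by omega)
    rw [hB_succ (by omega), hsize_cons]
    simp only [Nat.add_sub_cancel]
    nlinarith

theorem hsize_hC {M e : ℕ} (hM : M % 2 = 1) (h : 2 * e + 1 ≤ M) :
    2 * hsize (hC M e) + 2 = M * (M + 1) + 4 * e := by
  have h0 : ∀ m, 2 * hsize (hC (2 * m + 1) 0) + 2 = (2 * m + 1) * (2 * m + 2) := by
    intro m
    induction m with
    | zero => rfl
    | succ m ih =>
      rw [hC_zero (by omega), hsize_cons, show 2 * (m + 1) + 1 - 2 = 2 * m + 1 by omega,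
        show 2 * (m + 1) + 1 - 1 = 2 * m + 2 by omega]
      nlinarith
  induction e generalizing M with
  | zero =>
    obtain ⟨m, rfl⟩ : ∃ m, M = 2 * m + 1 := ⟨M / 2, by omega⟩
    rw [h0]; ring
  | succ e ih =>
    obtain ⟨M, rfl⟩ : ∃ m, M = m + 2 := ⟨M - 2, by omega⟩
    have := ih (M := M) (by omega) (by omega)
    rw [hC_succ (by omega), hsize_cons]
    simp only [Nat.add_sub_cancel]
    nlinarith

theorem hsize_hV0 {P : ℕ} (hP : P % 2 = 0) (h : 6 ≤ P) : 2 * hsize (hV P 0) + 10 = P * (P + 1) := by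
  rw [hV_zero hP h]
  have h1 := hsize_hC (M := P - 1) (e := (P - 4) / 2) (by omega) (by omega)
  obtain ⟨m, rfl⟩ : ∃ m, P = 2 * m + 4 := ⟨(P - 4) / 2, by omega⟩
  rw [show 2 * m + 4 - 1 = 2 * m + 3 by omega, show (2 * m + 4 - 4) / 2 = m by omega] at *
  nlinarith

theorem hsize_hV1 {P : ℕ} (hP : P % 2 = 0) (h : 6 ≤ P) :
    2 * hsize (hV P 1) + 6 = (P + 2) * (P + 3) := by
  have h1 := hsize_hV0 hP h
  have h2 : hV P 1 = (P + 3) :: hV P 0 := hV_succ P 0
  rw [h2, hsize_cons, show P + 3 - 1 = P + 2 by omega]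
  nlinarith

theorem hsize_hV2 {P : ℕ} (hP : P % 2 = 0) (h : 6 ≤ P) :
    2 * hsize (hV P 2) + 2 = (P + 4) * (P + 5) := by
  have h1 := hsize_hV1 hP h
  have h2 : hV P 2 = (P + 5) :: hV P 1 := hV_succ P 1
  rw [h2, hsize_cons, show P + 5 - 1 = P + 4 by omega]
  nlinarith

/-! ### Fullness of the families from coverage -/

theorem headD_hA {M e : ℕ} (h : 2 * e ≤ M) : (hA M e).headD 0 ≤ M + 1 := by
  unfold hA
  rw [headD_runH]
  split_ifs
  · rw [headD_runH]; split_ifs
    · simp
    · omega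
  · omega




/-- `hV P 1` and `hV P 2` -/
theorem fullV {P : ℕ} (hP : P % 2 = 0) (h : 6 ≤ P)
    (hf : FullH (hC (P - 1) ((P - 4) / 2))) (c1 : CovH (hV P 1)) : FullH (hV P 1) := by
  rw [show hV P 1 = (P + 3) :: hV P 0 from hV_succ P 0] at c1 ⊢
  rw [← hV_zero hP h] at hf
  have had : ad (hV P 0) ≤ P := by
    unfold hV
    rw [runH_zero]
    have h3 : ad [3] = 3 := rfl
    exact ad_runH_le (fun _ => by omega) (by omega)
  refine fullH_of_cov (validH_hV hP (by omega)) ?_ (by omega) hf c1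
  unfold hV
  rw [runH_zero, headD_runH]; split_ifs
  · simp only [List.headD_cons]; omega
  · omega

theorem fullV2 {P : ℕ} (hP : P % 2 = 0) (h : 6 ≤ P) (hf : FullH (hV P 1)) (c2 : CovH (hV P 2)) :
    FullH (hV P 2) := by
  rw [show hV P 2 = (P + 5) :: hV P 1 from hV_succ P 1] at c2 ⊢
  have had : ad (hV P 0) ≤ P := by
    unfold hV
    rw [runH_zero]
    have h3 : ad [3] = 3 := rfl
    exact ad_runH_le (fun _ => by omega) (by omega)
  have had1 : ad (hV P 1) ≤ P + 3 := by
    rw [show hV P 1 = (P + 3) :: hV P 0 from hV_succ P 0]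
    have := ad_cons_le (P + 3) (hV P 0)
    omega
  refine fullH_of_cov (validH_hV hP (by omega)) ?_ (by omega) hf c2
  rw [show hV P 1 = (P + 3) :: hV P 0 from hV_succ P 0, List.headD_cons]

/-! ### All `n` -/


theorem exists_tri (n : ℕ) : ∃ M r, r ≤ M ∧ 2 * n = M * (M + 1) + 2 * r := by
  induction n with
  | zero => exact ⟨0, 0, by omega, by omega⟩
  | succ n ih =>
    obtain ⟨M, r, h1, h2⟩ := ih
    rcases Nat.lt_or_ge r M with h | h
    · exact ⟨M, r + 1, h, by omega⟩
    · refine ⟨M + 1, 0, by omega, ?_⟩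
      have : r = M := by omega
      subst this
      nlinarith

end Crest.Agent.R195
private theorem rz_09b2501ac8 : type_of% @_root_.Crest.Agent.R195.ad.eq_def := @_root_.Crest.Agent.R195.ad.eq_def -- L15
private theorem rz_58e1125019 : type_of% @_root_.Crest.Agent.R195.ad.eq_1 := @_root_.Crest.Agent.R195.ad.eq_1 -- L15
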