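import Crest.Agent.R195.RegionL
import Crest.Agent.R195.CovTools
import Crest.Agent.R195.Fam

-- ▼ part R195/CovA1
section

/-! Row 195, S0298 (T3), family A: the free part (pairs and at most one single). -/

set_option autoImplicit false

namespace Crest.Agent.R195

open Finset Function

section sgl

/-- `r` single columns of height `c` (used with `r ≤ 1`) -/
def sgl (r c : ℕ) : List Pc := List.replicate r (.rect c 1)

theorem sgl_zero (c : ℕ) : sgl 0 c = [] := rfl

theorem FL_sgl (r c J : ℕ) : FL (sgl r c) J = r * min c J := by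
  induction r with
  | zero => simp [sgl_zero, FL_nil]
  | succ r ih =>
    rw [sgl, List.replicate_succ, FL_rect, ← sgl, ih]
    ring

theorem size_sgl (r c : ℕ) : ((sgl r c).map Pc.size).sum = r * c := by
  induction r with
  | zero => simp [sgl_zero]
  | succ r ih =>
    rw [sgl, List.replicate_succ, List.map_cons, List.sum_cons, ← sgl, ih]
    simp only [Pc.size]
    ring

theorem free_sgl {r c : ℕ} : ∀ p ∈ sgl r c, p.free := by
  intro p hp
  rw [List.eq_of_mem_replicate hp]
  trivial

theorem getD_sgl_append (r c : ℕ) (L : List Pc) (s : ℕ) :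
    (colsP (sgl r c ++ L)).getD s 0 = if s < r then c else (colsP L).getD (s - r) 0 := by
  induction r generalizing s with
  | zero => simp [sgl_zero]
  | succ r ih =>
    rw [sgl, List.replicate_succ, List.cons_append, getD_rect_cons, ← sgl]
    rcases Nat.eq_zero_or_pos s with rfl | hs
    · simp
    · rw [if_neg (by omega), ih, show s - 1 - r = s - (r + 1) by omega]
      by_cases h : s < r + 1
      · rw [if_pos h, if_pos (by omega)]
      · rw [if_neg h, if_neg (by omega)]

end sgl

section free4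

/-- the free pieces: three runs and at most one single -/
def fr4 (m1 k1 m2 k2 r c m3 k3 : ℕ) : List Pc :=
  runP m1 k1 ++ (runP m2 k2 ++ (sgl r c ++ runP m3 k3))

variable {m1 k1 m2 k2 r c m3 k3 : ℕ}

theorem FL_fr4 (J : ℕ) : FL (fr4 m1 k1 m2 k2 r c m3 k3) J =
    FL (runP m1 k1) J + (FL (runP m2 k2) J + (r * min c J + FL (runP m3 k3) J)) := by
  rw [fr4, FL_append, FL_append, FL_append, FL_sgl]

theorem size_fr4 : ((fr4 m1 k1 m2 k2 r c m3 k3).map Pc.size).sum =
    ((runP m1 k1).map Pc.size).sum + (((runP m2 k2).map Pc.size).sum +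
      (r * c + ((runP m3 k3).map Pc.size).sum)) := by
  rw [fr4, List.map_append, List.map_append, List.map_append, List.sum_append, List.sum_append,
    List.sum_append, size_sgl]

theorem size_runP_int {m k : ℕ} (h : 2 * k ≤ m + 1) :
    ((((runP m k).map Pc.size).sum : ℕ) : ℤ) = k * (2 * m - 2 * k + 1) := by
  have h1 := sum_size_runP h
  rcases Nat.eq_zero_or_pos k with rfl | hk
  · simp [runP_zero]
  · obtain ⟨k', rfl⟩ : ∃ k', k = k' + 1 := ⟨k - 1, by omega⟩
    rw [Nat.add_sub_cancel] at h1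
    have h2 : ((((runP m (k' + 1)).map Pc.size).sum : ℕ) : ℤ) + 2 * (k' + 1) * k' + (k' + 1) =
        2 * (k' + 1) * m := by exact_mod_cast h1
    push_cast
    linarith

theorem free_fr4 : ∀ p ∈ fr4 m1 k1 m2 k2 r c m3 k3, p.free := by
  intro p hp
  rw [fr4, List.mem_append, List.mem_append, List.mem_append] at hp
  rcases hp with h | h | h | h
  · exact free_runP p h
  · exact free_runP p h
  · exact free_sgl p h
  · exact free_runP p h

theorem runP_cap {m k J : ℕ} (h : m ≤ 2 * J + 2) : ∀ p ∈ runP m k, p.size ≤ p.cap * (J + 1) := by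
  intro p hp
  obtain ⟨i, -, rfl⟩ := mem_runP hp
  simp only [Pc.size, Pc.cap]
  omega

/-- criterion for the free pieces -/
theorem decomp_fr4 {w : ℕ} {H : ℕ → ℕ} (h1 : 2 * k1 + 1 ≤ m1) (h2 : 2 * k2 + 1 ≤ m2)
    (h3 : 2 * k3 ≤ m3 + 1) (hc : 1 ≤ c)
    (htot : ∑ j ∈ range w, H j = ((fr4 m1 k1 m2 k2 r c m3 k3).map Pc.size).sum) (B J₁ : ℕ)
    (hB : ∀ i j, i < w → j < w → i ≠ j → H i + H j ≤ 2 * B)
    (hH : ∀ j, j < w → H j + 3 ≤ 4 * (k1 + k2 + k3) + r)
    (hJ : J₁ * B + (tri (m1 - 2 * J₁) + tri (m2 - 2 * J₁) + r * (c - J₁) + tri (m3 - 2 * J₁)) ≤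
      ((fr4 m1 k1 m2 k2 r c m3 k3).map Pc.size).sum)
    (hm1 : m1 ≤ 2 * J₁ + 2) (hm2 : m2 ≤ 2 * J₁ + 2) (hm3 : m3 ≤ 2 * J₁ + 2)
    (hcr : r = 0 ∨ c ≤ J₁ + 1) :
    Decomp (fr4 m1 k1 m2 k2 r c m3 k3) fun j : Fin w => H j := by
  refine decomp_crit _ free_fr4 w H htot B J₁ hB ?_ ?_ ?_
  · intro j hj
    rw [FL_fr4, FL_one_runP h1, FL_one_runP h2]
    have h4 := FL_one_runP' h3
    have h5 := hH j hj
    have h6 : r * min c 1 = r := by rw [min_eq_right hc, mul_one]
    omega
  · rw [FL_fr4]
    rw [size_fr4] at hJ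
    have e1 := size_le_FL_runP m1 k1 J₁
    have e2 := size_le_FL_runP m2 k2 J₁
    have e3 := size_le_FL_runP m3 k3 J₁
    have e4 : r * c = r * min c J₁ + r * (c - J₁) := by
      rw [← mul_add]; congr 1; omega
    omega
  · intro p hp
    rw [fr4, List.mem_append, List.mem_append, List.mem_append] at hp
    rcases hp with h | h | h | h
    · exact runP_cap hm1 p h
    · exact runP_cap hm2 p h
    · have h7 := List.eq_of_mem_replicate h
      rcases hcr with h8 | h8
      · subst h8
        simp [sgl_zero] at h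
      · rw [h7]
        simp only [Pc.size, Pc.cap]
        omega
    · exact runP_cap hm3 p h

end free4

end Crest.Agent.R195
end

-- ▼ part R195/CovA2
section

/-! Row 195, S0298 (T3), family A: the lists of pieces (shape, admissibility, sizes). -/

set_option autoImplicit false

namespace Crest.Agent.R195

open Finset Function

theorem hA_eq {M e : ℕ} (h : 2 * e ≤ M) : hA M e = runH (M + 1) e (stairH (M - 2 * e)) := by
  have h1 := hA_zero (M - 2 * e)
  unfold hA at h1 ⊢
  rw [← h1, runH_zero, Nat.mul_zero, Nat.sub_zero, Nat.sub_zero]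
  congr 2
  omega

theorem cl_hA {M e : ℕ} (h : 2 * e ≤ M) (s : ℕ) :
    cl (hA M e) s = if s < e then M + 1 - s else min e (M + 1 - s) + (M - 2 * e - (s - e)) := by
  rw [hA_eq h, cl_runH (validH_stairH _) (fun _ => by rw [stairH_head]; omega), cl_stairH]

section lists

variable {M e k q r : ℕ}

/-- pieces: family A, `e` even -/
def LAe (M e k q r : ℕ) : List Pc :=
  runP (M + 1) k ++ (runP (M - e) q ++ (sgl r (e + 1) ++ (.dup e :: runP (e - 1) k)))

/-- pieces: family A, `e` odd, wide diagrams -/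
def LAo (M e k q r : ℕ) : List Pc :=
  runP (M + 1) k ++ (.rect (M + 2 - e) 1 ::
    (runP (M - e) q ++ (sgl r (e + 1) ++ (.dup e :: runP (e - 1) k))))

/-- pieces: family A, `e` odd, narrow diagrams -/
def LAg (M e k q r : ℕ) : List Pc :=
  runP (M + 1) k ++ (.gap (M + 2 - e) ::
    (runP (M - e - 1) q ++ (sgl r (e + 1) ++ (.dup e :: runP (e - 1) k))))

theorem validP_sgl_append {c : ℕ} {L : List Pc} (hr : r < 2) (hc : 1 ≤ c) (hL : validP L)
    (htop : ∀ p ∈ L, p.top ≤ c - 1) : validP (sgl r c ++ L) := by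
  interval_cases r
  · exact hL
  · exact ⟨hc, htop, hL⟩

theorem top_sgl_append {c t : ℕ} {L : List Pc} (hc : r = 0 ∨ c ≤ t) (htop : ∀ p ∈ L, p.top ≤ t) :
    ∀ p ∈ sgl r c ++ L, p.top ≤ t := by
  intro p hp
  rcases List.mem_append.1 hp with h | h
  · have h1 := List.eq_of_mem_replicate h
    rcases hc with hc | hc
    · subst hc; simp [sgl_zero] at h
    · rw [h1]; exact hc
  · exact htop p h

theorem top_runP_append {m c t : ℕ} {L : List Pc} (hm : m ≤ t) (htop : ∀ p ∈ L, p.top ≤ t) :
    ∀ p ∈ runP m c ++ L, p.top ≤ t := by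
  intro p hp
  rcases List.mem_append.1 hp with h | h
  · exact (top_runP p h).trans hm
  · exact htop p h

theorem top_cons {t : ℕ} {p : Pc} {L : List Pc} (hp : p.top ≤ t) (htop : ∀ p ∈ L, p.top ≤ t) :
    ∀ q ∈ p :: L, q.top ≤ t := by
  intro q hq
  rcases List.mem_cons.1 hq with rfl | h
  · exact hp
  · exact htop q h

/-- the last part: `dup e` and the low run -/
theorem validP_low (he : 1 ≤ e) (hk : 2 * k ≤ e) : validP (.dup e :: runP (e - 1) k) := by
  refine ⟨he, fun p hp => ?_, validP_runP (by omega)⟩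
  exact top_runP p hp

theorem top_low : ∀ p ∈ Pc.dup e :: runP (e - 1) k, p.top ≤ e :=
  top_cons le_rfl fun p hp => (top_runP p hp).trans (Nat.sub_le _ _)

theorem validP_LAe (he : 1 ≤ e) (hk : e = 2 * k) (hM : M = 2 * e + 2 * q + r) (hr : r < 2) :
    validP (LAe M e k q r) := by
  refine validP_runP_append (by omega) (validP_runP_append (by omega)
    (validP_sgl_append hr (by omega) (validP_low he (by omega)) fun p hp => ?_) ?_) ?_
  · exact (top_low p hp).trans (by omega)
  · exact top_sgl_append (by omega) fun p hp => (top_low p hp).trans (by omega)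
  · exact top_runP_append (by omega) (top_sgl_append (by omega)
      fun p hp => (top_low p hp).trans (by omega))

theorem validP_LAo (hk : e = 2 * k + 1) (hM : M = 2 * e + 2 * q + r) (hr : r < 2) :
    validP (LAo M e k q r) := by
  refine validP_runP_append (by omega) ⟨by simp only [Pc.low, Pc.top]; omega, ?_,
    validP_runP_append (by omega)
      (validP_sgl_append hr (by omega) (validP_low (by omega) (by omega)) fun p hp => ?_) ?_⟩ ?_
  · simp only [Pc.next]
    exact top_runP_append (by omega) (top_sgl_append (by omega)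
      fun p hp => (top_low p hp).trans (by omega))
  · exact (top_low p hp).trans (by omega)
  · exact top_sgl_append (by omega) fun p hp => (top_low p hp).trans (by omega)
  · refine top_cons (by simp only [Pc.top]; omega) (top_runP_append (by omega)
      (top_sgl_append (by omega) fun p hp => (top_low p hp).trans (by omega)))

theorem validP_LAg (hk : e = 2 * k + 1) (hM : M = 2 * e + 1 + 2 * q + r) (hr : r < 2) :
    validP (LAg M e k q r) := by
  refine validP_runP_append (by omega) ⟨by simp only [Pc.low, Pc.top]; omega, ?_,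
    validP_runP_append (by omega)
      (validP_sgl_append hr (by omega) (validP_low (by omega) (by omega)) fun p hp => ?_) ?_⟩ ?_
  · simp only [Pc.next]
    exact top_runP_append (by omega) (top_sgl_append (by omega)
      fun p hp => (top_low p hp).trans (by omega))
  · exact (top_low p hp).trans (by omega)
  · exact top_sgl_append (by omega) fun p hp => (top_low p hp).trans (by omega)
  · refine top_cons (by simp only [Pc.top]; omega) (top_runP_append (by omega)
      (top_sgl_append (by omega) fun p hp => (top_low p hp).trans (by omega)))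

theorem cols_LAe (hk : e = 2 * k) (hM : M = 2 * e + 2 * q + r) (hr : r < 2) (s : ℕ) :
    (colsP (LAe M e k q r)).getD s 0 = cl (hA M e) s := by
  rw [cl_hA (by omega), LAe, getD_runP_append, getD_runP_append, getD_sgl_append, getD_dup_cons,
    getD_colsP_runP]
  split_ifs <;> omega

theorem cols_LAo (hk : e = 2 * k + 1) (hM : M = 2 * e + 2 * q + r) (hr : r < 2) (s : ℕ) :
    (colsP (LAo M e k q r)).getD s 0 = cl (hA M e) s := by
  rw [cl_hA (by omega), LAo, getD_runP_append, getD_rect_cons, getD_runP_append, getD_sgl_append,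
    getD_dup_cons, getD_colsP_runP]
  split_ifs <;> omega

theorem cols_LAg (hk : e = 2 * k + 1) (hM : M = 2 * e + 1 + 2 * q + r) (hr : r < 2) (s : ℕ) :
    (colsP (LAg M e k q r)).getD s 0 = cl (hA M e) s := by
  rw [cl_hA (by omega), LAg, getD_runP_append, getD_gap_cons, getD_runP_append, getD_sgl_append,
    getD_dup_cons, getD_colsP_runP]
  split_ifs <;> omega

end lists

section sizes

variable {M e k q r : ℕ}

theorem size_frAe (hk : e = 2 * k) (hk1 : 1 ≤ k) (hM : M = 2 * e + 2 * q + r) (hr : r < 2) :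
    2 * ((fr4 (M + 1) k (M - e) q r (e + 1) (e - 1) k).map Pc.size).sum = M * (M + 1) := by
  have h1 := size_runP_int (m := M + 1) (k := k) (by omega)
  have h2 := size_runP_int (m := M - e) (k := q) (by omega)
  have h3 := size_runP_int (m := e - 1) (k := k) (by omega)
  rw [size_fr4]
  have h4 : ((M - e : ℕ) : ℤ) = M - e := by rw [Nat.cast_sub (by omega)]
  have h5 : ((e - 1 : ℕ) : ℤ) = e - 1 := by rw [Nat.cast_sub (by omega)]; simp
  rw [h4] at h2
  rw [h5] at h3
  generalize ((runP (M + 1) k).map Pc.size).sum = S1 at h1 ⊢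
  generalize ((runP (M - e) q).map Pc.size).sum = S2 at h2 ⊢
  generalize ((runP (e - 1) k).map Pc.size).sum = S3 at h3 ⊢
  clear h4 h5
  subst hk
  subst hM
  zify
  rw [h1, h2, h3]
  interval_cases r <;> push_cast <;> ring

theorem size_frAo (hk : e = 2 * k + 1) (hM : M = 2 * e + 2 * q + r) (hr : r < 2) :
    2 * ((fr4 (M + 1) k (M - e) q r (e + 1) (e - 1) k).map Pc.size).sum + 2 * M + 4 =
      M * (M + 1) + 2 * e := by
  have h1 := size_runP_int (m := M + 1) (k := k) (by omega)
  have h2 := size_runP_int (m := M - e) (k := q) (by omega)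
  have h3 := size_runP_int (m := e - 1) (k := k) (by omega)
  rw [size_fr4]
  have h4 : ((M - e : ℕ) : ℤ) = M - e := by rw [Nat.cast_sub (by omega)]
  have h5 : ((e - 1 : ℕ) : ℤ) = e - 1 := by rw [Nat.cast_sub (by omega)]; simp
  rw [h4] at h2
  rw [h5] at h3
  generalize ((runP (M + 1) k).map Pc.size).sum = S1 at h1 ⊢
  generalize ((runP (M - e) q).map Pc.size).sum = S2 at h2 ⊢
  generalize ((runP (e - 1) k).map Pc.size).sum = S3 at h3 ⊢
  clear h4 h5
  subst hk
  subst hM
  zify
  rw [h1, h2, h3]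
  interval_cases r <;> push_cast <;> ring

theorem size_frAg (hk : e = 2 * k + 1) (hM : M = 2 * e + 1 + 2 * q + r) (hr : r < 2) :
    2 * ((fr4 (M + 1) k (M - e - 1) q r (e + 1) (e - 1) k).map Pc.size).sum + 4 * M + 4 =
      M * (M + 1) + 4 * e := by
  have h1 := size_runP_int (m := M + 1) (k := k) (by omega)
  have h2 := size_runP_int (m := M - e - 1) (k := q) (by omega)
  have h3 := size_runP_int (m := e - 1) (k := k) (by omega)
  rw [size_fr4]
  have h4 : ((M - e - 1 : ℕ) : ℤ) = M - e - 1 := by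
    rw [Nat.cast_sub (by omega), Nat.cast_sub (by omega)]; simp
  have h5 : ((e - 1 : ℕ) : ℤ) = e - 1 := by rw [Nat.cast_sub (by omega)]; simp
  rw [h4] at h2
  rw [h5] at h3
  generalize ((runP (M + 1) k).map Pc.size).sum = S1 at h1 ⊢
  generalize ((runP (M - e - 1) q).map Pc.size).sum = S2 at h2 ⊢
  generalize ((runP (e - 1) k).map Pc.size).sum = S3 at h3 ⊢
  clear h4 h5
  subst hk
  subst hM
  zify
  rw [h1, h2, h3]
  interval_cases r <;> push_cast <;> ring

end sizes

end Crest.Agent.R195
end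

-- ▼ part R195/CovA3
section

/-! Row 195, S0298 (T3), family A: the decompositions. -/

set_option autoImplicit false

namespace Crest.Agent.R195

open Finset Function

theorem H0_aux {n B x y : ℕ} (hB : 9 ≤ B) (hn : B * (B + 1) ≤ 2 * n)
    (h : n + 3 + x + y ≤ 4 * B + x * y) (hx : x ≤ 4) (hy : y ≤ 4) : False := by
  have h1 : x * y ≤ 4 * y := Nat.mul_le_mul_right _ hx
  have h3 : x * y + 0 ≤ x + y + 8 := by
    interval_cases x <;> omega
  nlinarith

namespace Region

variable {n B w w₂ : ℕ} {H : ℕ → ℕ}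

theorem mul_le_n (h : Region n B w w₂ H) {j : ℕ} (hj : j < w) : (j + 1) * H j ≤ n := by
  rw [← h.sum]
  calc (j + 1) * H j = ∑ _i ∈ range (j + 1), H j := by rw [sum_const, card_range, smul_eq_mul]
    _ ≤ ∑ i ∈ range (j + 1), H i :=
        sum_le_sum fun i hi => h.anti (by have := mem_range.1 hi; omega)
    _ ≤ ∑ i ∈ range w, H i := sum_le_sum_of_subset (range_subset_range.2 hj)

/-- capacity for `dup e`, leaving a cell in every column -/
theorem cap_e (h : Region n B w w₂ H) {e : ℕ} (hn : 2 * n = B * (B + 1) + 4 * e) (hB : 9 ≤ B)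
    (he : 2 * e ≤ B) : e ≤ ∑ i ∈ range (w / 2), min 4 (H (2 * i + 1) - 1) := by
  have h1 := h.cap_pred (by omega)
  have h2 := h.H0_add_w (by omega) hB
  by_contra hcon
  push Not at hcon
  have h3 : (B - 1) * (∑ i ∈ range (w / 2), min 4 (H (2 * i + 1) - 1)) + (B - 1) ≤ (B - 1) * e := by
    rw [← Nat.mul_succ]; exact Nat.mul_le_mul_left _ hcon
  obtain ⟨b, rfl⟩ : ∃ b, B = b + 9 := ⟨B - 9, by omega⟩
  rw [show b + 9 - 1 = b + 8 by omega] at h1 h3
  nlinarith

/-- the first column is not very long -/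
theorem H0_le (h : Region n B w w₂ H) (hn : B * (B + 1) ≤ 2 * n) (hB : 9 ≤ B) :
    H 0 + 6 ≤ 2 * B := by
  by_contra hcon
  push Not at hcon
  have hn0 : 0 < n := by nlinarith
  have h1 := h.n_le_hook hn0
  have h2 := h.col
  have h3 := h.row
  have h4 := h.wlog
  have h5 := h.two_H1_ge hn hB
  have h6 := h.two_w2_ge hn hB
  exact H0_aux hB hn (x := H 1 - 1) (y := w₂ - 1) (by omega) (by omega) (by omega)

end Region

section even

variable {M e k q r n w w₂ : ℕ} {H : ℕ → ℕ}

theorem perm_LAe : (Pc.dup e :: fr4 (M + 1) k (M - e) q r (e + 1) (e - 1) k).Perm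
    (LAe M e k q r) := by
  have h1 : LAe M e k q r = (runP (M + 1) k ++ (runP (M - e) q ++ sgl r (e + 1))) ++
      Pc.dup e :: runP (e - 1) k := by simp [LAe]
  have h2 : fr4 (M + 1) k (M - e) q r (e + 1) (e - 1) k =
      (runP (M + 1) k ++ (runP (M - e) q ++ sgl r (e + 1))) ++ runP (e - 1) k := by simp [fr4]
  rw [h1, h2]
  exact List.perm_middle.symm

theorem decomp_LAe (hk : e = 2 * k) (hk1 : 1 ≤ k) (hM : M = 2 * e + 2 * q + r) (hr : r < 2)
    (hM9 : 9 ≤ M) (hn : 2 * n = M * (M + 1) + 4 * e) (R : Region n M w w₂ H) :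
    Decomp (LAe M e k q r) fun j : Fin w => H j := by
  obtain ⟨y, -, hy0, hyle, hysum, hy⟩ := exists_dup (w := w) (c := e) (H := H) (fun _ => 0)
    (fun i => min 4 (H (2 * i + 1) - 1)) (fun i _ => Nat.zero_le _) (fun i _ => min_le_left _ _)
    (fun i _ => by
      have h1 := R.anti (show 2 * i ≤ 2 * i + 1 by omega)
      have h2 : min 4 (H (2 * i + 1) - 1) ≤ H (2 * i + 1) - 1 := min_le_right _ _
      omega) (by simp) (R.cap_e hn (by omega) (by omega))
  refine (hy _ ?_).perm perm_LAe
  have hsz := size_frAe (M := M) hk hk1 hM hr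
  have hs := sum_sub_half (w := w) hy0 hyle
  rw [hysum, R.sum] at hs
  have hH1 := R.two_H1_ge (by omega) (by omega)
  have hcol := R.col
  have hH1' := R.H1_le
  have htot : ∑ j ∈ range w, (H j - y (j / 2)) =
      ((fr4 (M + 1) k (M - e) q r (e + 1) (e - 1) k).map Pc.size).sum := by omega
  refine decomp_fr4 (H := fun j => H j - y (j / 2)) (by omega) (by omega) (by omega) (by omega)
    htot M (M / 2) ?_ ?_ ?_ (by omega) (by omega) (by omega) (by omega)
  · intro i j _ _ hij
    have := R.pair_sum_le hij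
    omega
  · intro j _
    have := R.H_le_zero j
    omega
  · interval_cases r
    · have e1 : M + 1 - 2 * (M / 2) = 1 := by omega
      have e2 : M - e - 2 * (M / 2) = 0 := by omega
      have e3 : e - 1 - 2 * (M / 2) = 0 := by omega
      rw [e1, e2, e3, tri_one, tri_zero, zero_mul]
      have e4 : 2 * (M / 2 * M) = M * M := by
        rw [← mul_assoc]; congr 1; omega
      nlinarith
    · have e1 : M + 1 - 2 * (M / 2) = 2 := by omega
      have e2 : M - e - 2 * (M / 2) = 0 := by omega
      have e3 : e - 1 - 2 * (M / 2) = 0 := by omega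
      have e5 : e + 1 - M / 2 ≤ 1 := by omega
      rw [e1, e2, e3, tri_two, tri_zero, one_mul]
      have e4 : 2 * (M / 2 * M) = (M - 1) * M := by
        rw [← mul_assoc]; congr 1; omega
      obtain ⟨b, rfl⟩ : ∃ b, M = b + 9 := ⟨M - 9, by omega⟩
      rw [show b + 9 - 1 = b + 8 by omega] at e4
      nlinarith

end even

section odd1

variable {M e k q r n w w₂ : ℕ} {H : ℕ → ℕ}

theorem perm_LAo : (Pc.dup e :: Pc.rect (M + 2 - e) 1 ::
    fr4 (M + 1) k (M - e) q r (e + 1) (e - 1) k).Perm (LAo M e k q r) := by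
  have h1 : LAo M e k q r = runP (M + 1) k ++ Pc.rect (M + 2 - e) 1 ::
      ((runP (M - e) q ++ sgl r (e + 1)) ++ Pc.dup e :: runP (e - 1) k) := by simp [LAo]
  have h2 : fr4 (M + 1) k (M - e) q r (e + 1) (e - 1) k =
      runP (M + 1) k ++ ((runP (M - e) q ++ sgl r (e + 1)) ++ runP (e - 1) k) := by simp [fr4]
  rw [h1, h2]
  refine List.Perm.trans ?_ List.perm_middle.symm
  refine List.Perm.trans (List.Perm.swap _ _ _) (List.Perm.cons _ ?_)
  refine List.Perm.trans ?_ (List.Perm.append_left _ List.perm_middle.symm)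
  exact List.perm_middle.symm

/-- a single can be removed from the first columns -/
theorem Decomp.cons_single {w c : ℕ} {L : List Pc} {H : ℕ → ℕ} (hc : c ≤ w)
    (hH : ∀ j, j < c → 1 ≤ H j)
    (h : Decomp L fun j : Fin w => H j - if (j : ℕ) < c then 1 else 0) :
    Decomp (.rect c 1 :: L) fun j : Fin w => H j := by
  refine Decomp.cons (x := fun j : Fin w => if (j : ℕ) < c then 1 else 0) ⟨fun j => ?_, ?_⟩
    (fun j => ?_) h
  · show (if (j : ℕ) < c then 1 else 0) ≤ 1
    split_ifs <;> omega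
  · rw [Fin.sum_univ_eq_sum_range (fun j => if j < c then 1 else 0) w, ← sum_filter, sum_const,
      smul_eq_mul, mul_one, mul_one]
    have : (range w).filter (fun j => j < c) = range c := by
      ext j; simp only [mem_filter, mem_range]; omega
    rw [this, card_range]
  · show (if (j : ℕ) < c then 1 else 0) ≤ H j
    split_ifs with h1
    · exact hH j h1
    · exact Nat.zero_le _

theorem sum_sub_single {w c : ℕ} {H : ℕ → ℕ} (hc : c ≤ w) (hH : ∀ j, j < c → 1 ≤ H j) :
    ∑ j ∈ range w, (H j - if j < c then 1 else 0) + c = ∑ j ∈ range w, H j := by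
  have h1 : ∑ j ∈ range w, (if j < c then 1 else 0) = c := by
    rw [← sum_filter, sum_const, smul_eq_mul, mul_one]
    have : (range w).filter (fun j => j < c) = range c := by
      ext j; simp only [mem_filter, mem_range]; omega
    rw [this, card_range]
  conv_lhs => arg 2; rw [← h1]
  rw [← sum_add_distrib]
  refine sum_congr rfl fun j _ => ?_
  split_ifs with h2
  · have := hH j h2; omega
  · omega

theorem aux_low {M e n : ℕ} (hM : 9 ≤ M) (he : 2 * e ≤ M) (hn : 2 * n = M * (M + 1) + 4 * e)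
    (h : (M + 3 - e) * (M - 1) ≤ n) : False := by
  have h2 : (M + 6) * (M - 1) ≤ 2 * ((M + 3 - e) * (M - 1)) := by
    rw [← mul_assoc]; exact Nat.mul_le_mul_right _ (by omega)
  obtain ⟨b, rfl⟩ : ∃ b, M = b + 9 := ⟨M - 9, by omega⟩
  rw [show b + 9 - 1 = b + 8 by omega] at h h2
  generalize (b + 9 + 3 - e) * (b + 8) = X at h h2
  nlinarith

/-- `2 J (M - a) + 2 t ≤ ...` arithmetic -/
theorem aux_J {M e S J a b t : ℕ} (hS : 2 * S + 2 * M + 4 = M * (M + 1) + 2 * e)
    (hJ : 2 * J + a = M) (hM : 9 ≤ M) (hb : b ≤ M)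
    (h : (M - a) * (M - b) + 2 * t + 2 * M + 4 ≤ M * (M + 1) + 2 * e) :
    J * (M - b) + t ≤ S := by
  have e4 : 2 * (J * (M - b)) = (M - a) * (M - b) := by
    rw [← mul_assoc]; congr 1; omega
  omega

set_option maxHeartbeats 1000000 in
theorem decomp_LAo (hk : e = 2 * k + 1) (hM : M = 2 * e + 2 * q + r) (hr : r < 2)
    (hM9 : 9 ≤ M) (hn : 2 * n = M * (M + 1) + 4 * e) (R : Region n M w w₂ H)
    (hw : M + 2 ≤ w + e) : Decomp (LAo M e k q r) fun j : Fin w => H j := by
  have hH1 := R.two_H1_ge (by omega) (by omega)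
  have hH0 := R.H0_le (by omega) (by omega)
  have hcol := R.col
  have hH1' := R.H1_le
  obtain ⟨y, hyl, hy0, hyle, hysum, hy⟩ := exists_dup (w := w) (c := e) (H := H)
    (fun i => if i = 0 then 1 else 0)
    (fun i => min 4 (H (2 * i + 1) - 1)) (fun i hi => by
      split_ifs with h0
      · subst h0
        rw [show 2 * 0 + 1 = 1 by rfl, le_min_iff]
        omega
      · exact Nat.zero_le _) (fun i _ => min_le_left _ _)
    (fun i _ => by
      have h1 := R.anti (show 2 * i ≤ 2 * i + 1 by omega)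
      have h2 : min 4 (H (2 * i + 1) - 1) ≤ H (2 * i + 1) - 1 := min_le_right _ _
      omega) (by
      rw [← sum_filter, sum_const, smul_eq_mul, mul_one]
      have : (range (w / 2)).filter (fun i => i = 0) ⊆ {0} := by
        intro i hi
        rw [mem_filter] at hi
        rw [mem_singleton]; exact hi.2
      have := card_le_card this
      rw [card_singleton] at this
      omega) (R.cap_e hn (by omega) (by omega))
  have hpos : ∀ j, j < w → 1 ≤ H j - y (j / 2) := by
    intro j hj
    by_cases h1 : 2 * (j / 2) + 1 < w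
    · have h2 := (hyl _ h1).2
      have h3 : min 4 (H (2 * (j / 2) + 1) - 1) ≤ H (2 * (j / 2) + 1) - 1 := min_le_right _ _
      have h4 := R.anti (show j ≤ 2 * (j / 2) + 1 by omega)
      have h5 := (R.pos (2 * (j / 2) + 1)).1 h1
      omega
    · rw [hy0 _ (not_lt.mp h1)]
      have := (R.pos j).1 hj
      omega
  have hy00 : 1 ≤ y 0 := by
    have h1 := (hyl 0 (by omega)).1
    simpa using h1
  refine (hy _ (Decomp.cons_single (H := fun j => H j - y (j / 2)) (by omega)
    (fun j hj => hpos j (by omega)) ?_)).perm perm_LAo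
  have hsz := size_frAo (M := M) hk hM hr
  have hs := sum_sub_half (w := w) hy0 hyle
  have hs2 := sum_sub_single (w := w) (c := M + 2 - e) (H := fun j => H j - y (j / 2)) (by omega)
    (fun j hj => hpos j (by omega))
  rw [hysum, R.sum] at hs
  have htot : ∑ j ∈ range w, (H j - y (j / 2) - if j < M + 2 - e then 1 else 0) =
      ((fr4 (M + 1) k (M - e) q r (e + 1) (e - 1) k).map Pc.size).sum := by omega
  -- columns behind the single are low
  have hlow : ∀ j, j < w → M + 2 - e ≤ j → H j + 2 ≤ M := by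
    intro j hj hjc
    by_contra hcon
    push Not at hcon
    have h1 := R.mul_le_n hj
    have h2 : (M + 3 - e) * (M - 1) ≤ (j + 1) * H j := Nat.mul_le_mul (by omega) (by omega)
    exact aux_low hM9 (by omega) hn (h2.trans h1)
  have hB : ∀ i j, i < w → j < w → i ≠ j →
      (H i - y (i / 2) - if i < M + 2 - e then 1 else 0) +
      (H j - y (j / 2) - if j < M + 2 - e then 1 else 0) ≤ 2 * (M - 1) := by
    have key : ∀ i j, i < j → j < w →
        (H i - y (i / 2) - if i < M + 2 - e then 1 else 0) +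
        (H j - y (j / 2) - if j < M + 2 - e then 1 else 0) ≤ 2 * (M - 1) := by
      intro i j hij hj
      have h1 := R.pair_sum_le (show i ≠ j by omega)
      have h2 := hpos i (by omega)
      have h3 := hpos j hj
      by_cases hjc : j < M + 2 - e
      · rw [if_pos hjc, if_pos (by omega)]
        omega
      · rw [if_neg hjc]
        have h4 := hlow j hj (not_lt.mp hjc)
        rcases Nat.eq_zero_or_pos i with rfl | hi
        · rw [if_pos (by omega), Nat.zero_div]
          omega
        · have h5 := R.le_B hi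
          omega
    intro i j hi hj hij
    rcases Nat.lt_or_gt_of_ne hij with h | h
    · exact key i j h hj
    · rw [add_comm]; exact key j i h hi
  have hH : ∀ j, j < w → (H j - y (j / 2) - if j < M + 2 - e then 1 else 0) + 3 ≤
      4 * (k + q + k) + r := by
    intro j hj
    have h1 := R.H_le_zero j
    rcases Nat.eq_zero_or_pos j with rfl | hj0
    · rw [if_pos (by omega), Nat.zero_div]
      omega
    · have := R.le_B hj0
      omega
  rcases Nat.eq_zero_or_pos k with hk0 | hk1
  · -- `e = 1`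
    subst hk0
    have he : e = 1 := by omega
    have hfr : fr4 (M + 1) 0 (M - e) q r (e + 1) (e - 1) 0 =
        fr4 1 0 (M - e) q r (e + 1) (e - 1) 0 := rfl
    rw [hfr] at htot ⊢
    have hsz' : 2 * ((fr4 1 0 (M - e) q r (e + 1) (e - 1) 0).map Pc.size).sum + 2 * M + 4 =
      M * (M + 1) + 2 * e := by rw [← hfr]; exact hsz
    refine decomp_fr4 (by omega) (by omega) (by omega) (by omega) htot (M - 1) (M / 2 - 1) hB hH ?_
      (by omega) (by omega) (by omega) (by omega)
    have hP : ∀ a t, 2 * (M / 2 - 1) + a = M → (M - a) * (M - 1) + 2 * t + 2 * M + 4 ≤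
        M * (M + 1) + 2 * e → (M / 2 - 1) * (M - 1) + t ≤
        ((fr4 1 0 (M - e) q r (e + 1) (e - 1) 0).map Pc.size).sum := fun a t h1 h2 =>
      aux_J hsz' h1 hM9 (by omega) h2
    subst he
    interval_cases r
    · have e1 : 1 - 2 * (M / 2 - 1) = 0 := by omega
      have e2 : M - 1 - 2 * (M / 2 - 1) = 1 := by omega
      have e3 : 1 - 1 - 2 * (M / 2 - 1) = 0 := by omega
      rw [e1, e2, e3, tri_one, tri_zero, zero_mul]
      refine hP 2 _ (by omega) ?_
      obtain ⟨b, hb⟩ : ∃ b, M = b + 9 := ⟨M - 9, by omega⟩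
      rw [hb, show b + 9 - 1 = b + 8 by omega, show b + 9 - 2 = b + 7 by omega]
      nlinarith
    · have e1 : 1 - 2 * (M / 2 - 1) = 0 := by omega
      have e2 : M - 1 - 2 * (M / 2 - 1) = 2 := by omega
      have e3 : 1 - 1 - 2 * (M / 2 - 1) = 0 := by omega
      have e5 : 1 + 1 - (M / 2 - 1) = 0 := by omega
      rw [e1, e2, e3, e5, tri_two, tri_zero, mul_zero]
      refine hP 3 _ (by omega) ?_
      obtain ⟨b, hb⟩ : ∃ b, M = b + 9 := ⟨M - 9, by omega⟩
      rw [hb, show b + 9 - 1 = b + 8 by omega, show b + 9 - 3 = b + 6 by omega]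
      nlinarith
  · refine decomp_fr4 (by omega) (by omega) (by omega) (by omega) htot (M - 1) (M / 2) hB hH ?_
      (by omega) (by omega) (by omega) (by omega)
    have hP : ∀ a t, 2 * (M / 2) + a = M → (M - a) * (M - 1) + 2 * t + 2 * M + 4 ≤
        M * (M + 1) + 2 * e → (M / 2) * (M - 1) + t ≤
        ((fr4 (M + 1) k (M - e) q r (e + 1) (e - 1) k).map Pc.size).sum := fun a t h1 h2 =>
      aux_J hsz h1 hM9 (by omega) h2
    interval_cases r
    · have e1 : M + 1 - 2 * (M / 2) = 1 := by omega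
      have e2 : M - e - 2 * (M / 2) = 0 := by omega
      have e3 : e - 1 - 2 * (M / 2) = 0 := by omega
      rw [e1, e2, e3, tri_one, tri_zero, zero_mul]
      refine hP 0 _ (by omega) ?_
      have he3 : 3 ≤ e := by omega
      obtain ⟨b, hb⟩ : ∃ b, M = b + 9 := ⟨M - 9, by omega⟩
      rw [hb, show b + 9 - 1 = b + 8 by omega, Nat.sub_zero]
      nlinarith
    · have e1 : M + 1 - 2 * (M / 2) = 2 := by omega
      have e2 : M - e - 2 * (M / 2) = 0 := by omega
      have e3 : e - 1 - 2 * (M / 2) = 0 := by omega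
      have e5 : e + 1 - M / 2 ≤ 1 := by omega
      rw [e1, e2, e3, tri_two, tri_zero, one_mul]
      refine hP 1 _ (by omega) ?_
      have he3 : 3 ≤ e := by omega
      generalize e + 1 - M / 2 = X at e5 ⊢
      obtain ⟨b, hb⟩ : ∃ b, M = b + 9 := ⟨M - 9, by omega⟩
      rw [hb, show b + 9 - 1 = b + 8 by omega]
      nlinarith

end odd1

end Crest.Agent.R195
end

-- ▼ part R195/CovA4

/-! Row 195, S0298 (T3), family A: `e` odd, narrow diagrams (`w ≤ M + 1 - e`), with the gap piece. -/

set_option autoImplicit false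

namespace Crest.Agent.R195

open Finset Function

namespace Region

variable {n B w w₂ : ℕ} {H : ℕ → ℕ}

/-- capacity of a row of even type which leaves four cells in every column it uses -/
theorem cap_four (h : Region n B w w₂ H) (hw : 8 ≤ w) :
    2 * n ≤ (w - 4) * (∑ i ∈ range (w / 2), min 4 (H (2 * i + 1) - 4)) + 10 * w := by
  have h1 : 4 * ∑ i ∈ range (w / 2), (H (2 * i + 1) - 4) ≤
      (w - 4) * ∑ i ∈ range (w / 2), min 4 (H (2 * i + 1) - 4) := by
    rw [mul_sum, mul_sum]
    refine sum_le_sum fun i _ => ?_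
    have h2 := h.le_w (2 * i + 1)
    rcases le_total 4 (H (2 * i + 1) - 4) with h3 | h3
    · rw [min_eq_left h3]; omega
    · rw [min_eq_right h3]; exact Nat.mul_le_mul_right _ (by omega)
  have h2 : ∑ i ∈ range (w / 2), H (2 * i + 1) ≤
      ∑ i ∈ range (w / 2), (H (2 * i + 1) - 4) + 4 * (w / 2) := by
    have h5 : ∑ i ∈ range (w / 2), H (2 * i + 1) ≤
        ∑ i ∈ range (w / 2), ((H (2 * i + 1) - 4) + 4) := sum_le_sum fun i _ => by omega
    rw [sum_add_distrib, sum_const, card_range, smul_eq_mul] at h5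
    omega
  have h3 := h.sum_odd_ge
  have h4 := h.wlog
  omega

theorem w_ge (h : Region n B w w₂ H) (hn : 50 ≤ n) : 8 ≤ w := by
  by_contra hcon
  push Not at hcon
  have h1 := h.n_le_sq
  have h2 : w * w ≤ 7 * 7 := Nat.mul_le_mul (by omega) (by omega)
  omega

end Region

section odd2

variable {M e k q r n w w₂ : ℕ} {H : ℕ → ℕ}

theorem perm_LAg : (Pc.dup e :: Pc.gap (M + 2 - e) ::
    fr4 (M + 1) k (M - e - 1) q r (e + 1) (e - 1) k).Perm (LAg M e k q r) := by
  have h1 : LAg M e k q r = runP (M + 1) k ++ Pc.gap (M + 2 - e) ::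
      ((runP (M - e - 1) q ++ sgl r (e + 1)) ++ Pc.dup e :: runP (e - 1) k) := by simp [LAg]
  have h2 : fr4 (M + 1) k (M - e - 1) q r (e + 1) (e - 1) k =
      runP (M + 1) k ++ ((runP (M - e - 1) q ++ sgl r (e + 1)) ++ runP (e - 1) k) := by simp [fr4]
  rw [h1, h2]
  refine List.Perm.trans ?_ List.perm_middle.symm
  refine List.Perm.trans (List.Perm.swap _ _ _) (List.Perm.cons _ ?_)
  refine List.Perm.trans ?_ (List.Perm.append_left _ List.perm_middle.symm)
  exact List.perm_middle.symm

/-- capacity for `dup e` in narrow diagrams -/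
theorem aux_c4 {M e n w S : ℕ} (hM : 10 ≤ M) (he : 2 * e ≤ M) (he1 : 1 ≤ e)
    (hn : 2 * n = M * (M + 1) + 4 * e) (hw : w + e ≤ M + 1) (hw4 : 8 ≤ w)
    (h : 2 * n ≤ (w - 4) * S + 10 * w) : e ≤ S := by
  by_contra hcon
  push Not at hcon
  obtain ⟨v, rfl⟩ : ∃ v, w = v + 4 := ⟨w - 4, by omega⟩
  rw [Nat.add_sub_cancel] at h
  have h1 : v * S ≤ v * (e - 1) := Nat.mul_le_mul_left _ (by omega)
  obtain ⟨f, rfl⟩ : ∃ f, e = f + 1 := ⟨e - 1, by omega⟩
  rw [Nat.add_sub_cancel] at h1
  have h2 : v * f ≤ (M - 4 - f) * f := Nat.mul_le_mul_right _ (by omega)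
  obtain ⟨g, hg⟩ : ∃ g, M = 2 * f + 2 + g := ⟨M - 2 * f - 2, by omega⟩
  have h3 : M - 4 - f + 2 = f + g := by omega
  have h4 : (M - 4 - f) * f + 2 * f = (f + g) * f := by rw [← h3]; ring
  have h5 : v + 4 + (f + 1) ≤ 2 * f + 2 + g + 1 := by omega
  subst hg
  nlinarith

theorem aux_cg0 {M f n u : ℕ} (hM : 10 ≤ M) (hM1 : f < 2 → 11 ≤ M) (hMu : M = f + u + 4)
    (hn : 2 * n = M * (M + 1) + 4 * (f + 1)) (h : 6 * n ≤ 2 * (u * u) + 32 * u + 84) : False := by
  rcases Nat.lt_or_ge M 11 with h10 | h11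
  · have h1 : M = 10 := by omega
    subst h1
    have h2 : u ≤ 4 := by omega
    have h3 : u * u ≤ 4 * 4 := Nat.mul_le_mul h2 h2
    omega
  · have h3 : u * u + f * u ≤ (M - 4) * u := by
      rw [← add_mul]; exact Nat.mul_le_mul_right _ (by omega)
    obtain ⟨b, hb⟩ : ∃ b, M = b + 11 := ⟨M - 11, by omega⟩
    have h4 : f + u = b + 7 := by omega
    subst hb
    have h5 : u * u + f * u = (b + 7) * u := by rw [← h4]; ring
    have h6 : (b + 7) * u + (b + 7) * f = (b + 7) * (b + 7) := by rw [← h4]; ring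
    have h7 : 6 * n = 3 * ((b + 11) * (b + 11 + 1) + 4 * (f + 1)) := by omega
    nlinarith [Nat.zero_le (f * u), Nat.zero_le (b * f)]

/-- capacity for the gap piece in narrow diagrams -/
theorem aux_cg {M e n w S : ℕ} (hM : 10 ≤ M) (hM1 : e < 3 → 11 ≤ M) (he1 : 1 ≤ e)
    (hn : 2 * n = M * (M + 1) + 4 * e) (hw : w + e ≤ M + 1) (hw4 : 8 ≤ w) (hwn : w ≤ n)
    (h : (w - 1) * (w - 4) + 3 * (n - w) ≤ 2 * ((w - 1) * S)) : M + 3 ≤ S + e := by
  by_contra hcon
  push Not at hcon
  obtain ⟨v, rfl⟩ : ∃ v, w = v + 4 := ⟨w - 4, by omega⟩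
  rw [Nat.add_sub_cancel, show v + 4 - 1 = v + 3 by omega] at h
  obtain ⟨d, hd⟩ : ∃ d, M + 1 = e + (v + 4) + d := ⟨M + 1 - e - (v + 4), by omega⟩
  have h1 : S ≤ v + 5 + d := by omega
  have h2 : (v + 3) * S ≤ (v + 3) * (v + 5 + d) := Nat.mul_le_mul_left _ h1
  obtain ⟨f, rfl⟩ : ∃ f, e = f + 1 := ⟨e - 1, by omega⟩
  have h4 : n - (v + 4) + (v + 4) = n := by omega
  refine aux_cg0 (u := v + d) hM (fun hf => hM1 (by omega)) (by omega) hn ?_
  generalize n - (v + 4) = n' at h h4
  have h5 : (v + 3) * v + 3 * n' ≤ 2 * ((v + 3) * (v + 5 + d)) := by omega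
  have h6 : (v + 3) * v + 3 * n ≤ 2 * ((v + 3) * (v + 5 + d)) + 3 * v + 12 := by omega
  nlinarith [Nat.zero_le (v * d), Nat.zero_le (d * d)]

/-- the rows of the two special pieces -/
theorem exists_rows_g (he1 : 1 ≤ e) (he : 2 * e ≤ M) (hM10 : 10 ≤ M) (hM1 : e < 3 → 11 ≤ M)
    (hn : 2 * n = M * (M + 1) + 4 * e) (R : Region n M w w₂ H) (hw : w + e ≤ M + 1) :
    ∃ y z : ℕ → ℕ,
      (∀ i, w ≤ 2 * i + 1 → y i = 0) ∧ (∀ i, w ≤ 2 * i + 1 → z i = 0) ∧
      (∀ j, y (j / 2) ≤ H j) ∧ (∀ j, z (j / 2) ≤ H j - y (j / 2)) ∧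
      (∀ i, 2 * i + 1 < w → M + 1 - e ≤ H (2 * i) → 1 ≤ z i) ∧
      ∑ i ∈ range (w / 2), y i = e ∧ ∑ i ∈ range (w / 2), z i = M + 1 - e ∧
      ∀ L : List Pc, Decomp L (fun j : Fin w => H j - y (j / 2) - z (j / 2)) →
        Decomp (.dup e :: .gap (M + 2 - e) :: L) fun j : Fin w => H j := by
  have hw10 := R.w_ge (by nlinarith)
  have hcap4 := aux_c4 hM10 he he1 hn hw hw10 (R.cap_four (by omega))
  have hH1 := R.two_H1_ge (by omega) (by omega)
  have hwn : w ≤ n := by
    rw [← R.sum]
    calc w = ∑ _j ∈ range w, 1 := by simp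
      _ ≤ ∑ j ∈ range w, H j := sum_le_sum fun j hj => (R.pos j).1 (mem_range.1 hj)
  have hcapg := aux_cg hM10 hM1 he1 hn hw hw10 hwn (R.cap_all (by omega))
  obtain ⟨y, hyl, hy0, hyle, hysum, hy⟩ := exists_dup (w := w) (c := e) (H := H) (fun _ => 0)
    (fun i => min 4 (H (2 * i + 1) - 4)) (fun i _ => Nat.zero_le _) (fun i _ => min_le_left _ _)
    (fun i _ => by
      have h1 := R.anti (show 2 * i ≤ 2 * i + 1 by omega)
      have h2 : min 4 (H (2 * i + 1) - 4) ≤ H (2 * i + 1) - 4 := min_le_right _ _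
      omega) (by simp) hcap4
  have hyu : ∀ i, 2 * i + 1 < w → min 4 (H (2 * i + 1)) ≤ H (2 * i + 1) - y i := by
    intro i hi
    have h1 := (hyl i hi).2
    have h2 : min 4 (H (2 * i + 1) - 4) ≤ H (2 * i + 1) - 4 := min_le_right _ _
    rcases le_total 4 (H (2 * i + 1)) with h3 | h3
    · rw [min_eq_left h3]; omega
    · rw [min_eq_right h3]; omega
  obtain ⟨z, hzl, hz0, hzle, hzsum, hz⟩ := exists_gap (w := w) (c := M + 2 - e)
    (H := fun j => H j - y (j / 2))
    (fun i => if i = 0 then 2 else if M + 1 - e ≤ H (2 * i) then 1 else 0)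
    (fun i => if i = 0 then 2 else min 4 (H (2 * i + 1)))
    (fun i hi => by
      have h1 := (R.pos (2 * i + 1)).1 hi
      split_ifs with h2 h3
      · exact le_rfl
      · rw [le_min_iff]; omega
      · exact Nat.zero_le _)
    (fun i _ => by split_ifs <;> omega)
    (fun i hi => by
      have h1 := R.anti (show 2 * i ≤ 2 * i + 1 by omega)
      have h2 := hyu i hi
      have e1 : (2 * i + 1) / 2 = i := by omega
      have e2 : 2 * i / 2 = i := by omega
      simp only [e1, e2]
      split_ifs with h3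
      · subst h3
        have h4 : 2 ≤ min 4 (H (2 * 0 + 1)) := by
          rw [le_min_iff]
          have : H (2 * 0 + 1) = H 1 := rfl
          omega
        omega
      · omega)
    0 (by omega) rfl rfl
    (by
      have h1 : ∑ i ∈ range (w / 2), (if i = 0 then 2 else if M + 1 - e ≤ H (2 * i) then 1 else 0) ≤
          ∑ i ∈ range (w / 2), ((if i = 0 then 1 else 0) + 1) := by
        refine sum_le_sum fun i _ => ?_
        split_ifs <;> omega
      rw [sum_add_distrib, sum_const, card_range, smul_eq_mul, mul_one, ← sum_filter, sum_const,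
        smul_eq_mul, mul_one] at h1
      have h2 : (range (w / 2)).filter (fun i => i = 0) ⊆ {0} := by
        intro i hi
        rw [mem_filter] at hi
        rw [mem_singleton]; exact hi.2
      have h3 := card_le_card h2
      rw [card_singleton] at h3
      omega)
    (by
      have h1 : ∑ i ∈ range (w / 2), min 4 (H (2 * i + 1)) ≤
          ∑ i ∈ range (w / 2), ((if i = 0 then 2 else 0) +
            (if i = 0 then 2 else min 4 (H (2 * i + 1)))) := by
        refine sum_le_sum fun i _ => ?_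
        have h4 : min 4 (H (2 * i + 1)) ≤ 4 := min_le_left _ _
        split_ifs <;> omega
      rw [sum_add_distrib] at h1
      have h2 : ∑ i ∈ range (w / 2), (if i = 0 then 2 else 0) ≤ 2 := by
        rw [sum_ite_eq' (range (w / 2)) 0 (fun _ => 2)]
        split_ifs <;> omega
      omega)
  refine ⟨y, z, hy0, hz0, hyle, hzle, ?_, hysum, by omega, fun L hL => hy _ (hz _ hL)⟩
  intro i hi h1
  have h2 := (hzl i hi).1
  split_ifs at h2 <;> omega

/-- narrow diagrams: columns after the removal of the special pieces, `e ≤ 3` -/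
theorem aux_sq {M e n : ℕ} (hM : 10 ≤ M) (he : e ≤ 3) (hn : 2 * n = M * (M + 1) + 4 * e)
    (h : (M + 1 - e) * (M + 1 - e) ≤ n) : False := by
  have h2 : (M - 2) * (M - 2) ≤ (M + 1 - e) * (M + 1 - e) := Nat.mul_le_mul (by omega) (by omega)
  obtain ⟨b, rfl⟩ : ∃ b, M = b + 10 := ⟨M - 10, by omega⟩
  rw [show b + 10 - 2 = b + 8 by omega] at h2
  have h3 := h2.trans h
  nlinarith

theorem aux_Jg {M e S J a b t : ℕ} (hS : 2 * S + 4 * M + 4 = M * (M + 1) + 4 * e)
    (hJ : 2 * J + a = M)
    (h : (M - a) * b + 2 * t + 4 * M + 4 ≤ M * (M + 1) + 4 * e) : J * b + t ≤ S := by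
  have e4 : 2 * (J * b) = (M - a) * b := by
    rw [← mul_assoc]; congr 1; omega
  omega

set_option maxHeartbeats 1000000 in
theorem decomp_LAg (hk : e = 2 * k + 1) (hM : M = 2 * e + 1 + 2 * q + r) (hr : r < 2)
    (hM9 : 9 ≤ M) (hM1 : e < 3 → 11 ≤ M) (hn : 2 * n = M * (M + 1) + 4 * e)
    (R : Region n M w w₂ H) (hw : w + e ≤ M + 1) :
    Decomp (LAg M e k q r) fun j : Fin w => H j := by
  have hM10 : 10 ≤ M := by
    by_contra hcon
    have h1 : M = 9 := by omega
    subst h1
    have h2 : e = 3 := by omega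
    subst h2
    have h3 := R.n_le_sq
    have h4 : w * w ≤ 7 * 7 := Nat.mul_le_mul (by omega) (by omega)
    omega
  obtain ⟨y, z, hy0, hz0, hyle, hzle, hz1, hysum, hzsum, hyz⟩ :=
    exists_rows_g (by omega) (by omega) hM10 hM1 hn R hw
  refine (hyz _ ?_).perm perm_LAg
  have hsz := size_frAg (M := M) hk hM hr
  have hs := sum_sub_half (w := w) hy0 hyle
  have hs2 := sum_sub_half (w := w) (H := fun j => H j - y (j / 2)) hz0 hzle
  rw [hysum, R.sum] at hs
  rw [hzsum] at hs2
  have htot : ∑ j ∈ range w, (H j - y (j / 2) - z (j / 2)) =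
      ((fr4 (M + 1) k (M - e - 1) q r (e + 1) (e - 1) k).map Pc.size).sum := by omega
  have hle : ∀ j, H j - y (j / 2) - z (j / 2) ≤ M + 1 - e := by
    intro j
    have := R.le_w j
    omega
  have hle3 : e ≤ 3 → ∀ j, j < w → H j - y (j / 2) - z (j / 2) ≤ M - e := by
    intro he3 j hj
    by_contra hcon
    push Not at hcon
    have h1 := R.le_w j
    have h2 : H j = M + 1 - e := by omega
    by_cases h3 : 2 * (j / 2) + 1 < w
    · have h4 := R.anti (show 2 * (j / 2) ≤ j by omega)
      have h5 := hz1 (j / 2) h3 (by omega)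
      omega
    · have h4 := R.mul_le_n hj
      rw [h2] at h4
      have h5 : j + 1 = M + 1 - e := by omega
      rw [h5] at h4
      exact aux_sq hM10 he3 hn h4
  have hH : ∀ j, j < w → (H j - y (j / 2) - z (j / 2)) + 3 ≤ 4 * (k + q + k) + r := by
    intro j _
    have h1 := hle j
    omega
  rcases Nat.eq_zero_or_pos k with hk0 | hk1
  · -- `e = 1`
    subst hk0
    have he : e = 1 := by omega
    have hfr : fr4 (M + 1) 0 (M - e - 1) q r (e + 1) (e - 1) 0 =
        fr4 1 0 (M - e - 1) q r (e + 1) (e - 1) 0 := rfl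
    rw [hfr] at htot ⊢
    have hsz' : 2 * ((fr4 1 0 (M - e - 1) q r (e + 1) (e - 1) 0).map Pc.size).sum + 4 * M + 4 =
      M * (M + 1) + 4 * e := by rw [← hfr]; exact hsz
    have hP : ∀ J a t, 2 * J + a = M → (M - a) * (M - 1) + 2 * t + 4 * M + 4 ≤
        M * (M + 1) + 4 * e → J * (M - 1) + t ≤
        ((fr4 1 0 (M - e - 1) q r (e + 1) (e - 1) 0).map Pc.size).sum := fun J a t h1 h2 =>
      aux_Jg hsz' h1 h2
    have hB : ∀ i j, i < w → j < w → i ≠ j → (H i - y (i / 2) - z (i / 2)) +
        (H j - y (j / 2) - z (j / 2)) ≤ 2 * (M - 1) := by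
      intro i j hi hj _
      have h1 := hle3 (by omega) i hi
      have h2 := hle3 (by omega) j hj
      omega
    refine decomp_fr4 (H := fun j => H j - y (j / 2) - z (j / 2)) (by omega) (by omega) (by omega)
      (by omega) htot (M - 1) q hB hH ?_ (by omega) (by omega) (by omega) (by omega)
    subst he
    interval_cases r
    · have e1 : 1 - 2 * q = 0 := by omega
      have e2 : M - 1 - 1 - 2 * q = 1 := by omega
      have e3 : 1 - 1 - 2 * q = 0 := by omega
      rw [e1, e2, e3, tri_one, tri_zero, zero_mul]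
      refine hP _ 3 _ (by omega) ?_
      obtain ⟨b, hb⟩ : ∃ b, M = b + 10 := ⟨M - 10, by omega⟩
      rw [hb, show b + 10 - 1 = b + 9 by omega, show b + 10 - 3 = b + 7 by omega]
      nlinarith
    · have e1 : 1 - 2 * q = 0 := by omega
      have e2 : M - 1 - 1 - 2 * q = 2 := by omega
      have e3 : 1 - 1 - 2 * q = 0 := by omega
      have e5 : 1 + 1 - q = 0 := by omega
      rw [e1, e2, e3, e5, tri_two, tri_zero, mul_zero]
      refine hP _ 4 _ (by omega) ?_
      obtain ⟨b, hb⟩ : ∃ b, M = b + 10 := ⟨M - 10, by omega⟩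
      rw [hb, show b + 10 - 1 = b + 9 by omega, show b + 10 - 4 = b + 6 by omega]
      nlinarith
  · have hP : ∀ b a t, 2 * (M / 2) + a = M → (M - a) * b + 2 * t + 4 * M + 4 ≤
        M * (M + 1) + 4 * e → (M / 2) * b + t ≤
        ((fr4 (M + 1) k (M - e - 1) q r (e + 1) (e - 1) k).map Pc.size).sum := fun b a t h1 h2 =>
      aux_Jg hsz h1 h2
    by_cases he5 : 5 ≤ e
    · refine decomp_fr4 (H := fun j => H j - y (j / 2) - z (j / 2)) (by omega) (by omega) (by omega)
        (by omega) htot (M + 1 - e) (M / 2) ?_ hH ?_ (by omega) (by omega) (by omega) (by omega)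
      · intro i j _ _ _
        have h1 := hle i
        have h2 := hle j
        omega
      · have e3 : e - 1 - 2 * (M / 2) = 0 := by omega
        have e2 : M - e - 1 - 2 * (M / 2) = 0 := by omega
        have e6 : M + 1 - e + e = M + 1 := by omega
        interval_cases r
        · have e1 : M + 1 - 2 * (M / 2) = 2 := by omega
          rw [e1, e2, e3, tri_two, tri_zero, zero_mul]
          refine hP _ 1 _ (by omega) ?_
          obtain ⟨b, hb⟩ : ∃ b, M = b + 10 := ⟨M - 10, by omega⟩
          generalize M + 1 - e = X at e6 ⊢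
          subst hb
          rw [show b + 10 - 1 = b + 9 by omega]
          have h7 : X = b + 11 - e := by omega
          nlinarith
        · have e1 : M + 1 - 2 * (M / 2) = 1 := by omega
          have e5 : e + 1 - M / 2 = 0 := by omega
          rw [e1, e2, e3, e5, tri_one, tri_zero, mul_zero]
          refine hP _ 0 _ (by omega) ?_
          obtain ⟨b, hb⟩ : ∃ b, M = b + 10 := ⟨M - 10, by omega⟩
          generalize M + 1 - e = X at e6 ⊢
          subst hb
          rw [Nat.sub_zero]
          nlinarith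
    · have he3 : e = 3 := by omega
      subst he3
      refine decomp_fr4 (H := fun j => H j - y (j / 2) - z (j / 2)) (by omega) (by omega) (by omega)
        (by omega) htot (M - 3) (M / 2) ?_ hH ?_ (by omega) (by omega) (by omega) (by omega)
      · intro i j hi hj _
        have h1 := hle3 (by omega) i hi
        have h2 := hle3 (by omega) j hj
        omega
      · have e3 : 3 - 1 - 2 * (M / 2) = 0 := by omega
        have e2 : M - 3 - 1 - 2 * (M / 2) = 0 := by omega
        interval_cases r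
        · have e1 : M + 1 - 2 * (M / 2) = 2 := by omega
          rw [e1, e2, e3, tri_two, tri_zero, zero_mul]
          refine hP _ 1 _ (by omega) ?_
          obtain ⟨b, hb⟩ : ∃ b, M = b + 10 := ⟨M - 10, by omega⟩
          rw [hb, show b + 10 - 1 = b + 9 by omega, show b + 10 - 3 = b + 7 by omega]
          nlinarith
        · have e1 : M + 1 - 2 * (M / 2) = 1 := by omega
          have e5 : 3 + 1 - M / 2 = 0 := by omega
          rw [e1, e2, e3, e5, tri_one, tri_zero, mul_zero]
          refine hP _ 0 _ (by omega) ?_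
          obtain ⟨b, hb⟩ : ∃ b, M = b + 10 := ⟨M - 10, by omega⟩
          rw [hb, Nat.sub_zero, show b + 10 - 3 = b + 7 by omega]
          nlinarith

end odd2

end Crest.Agent.R195
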