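import Crest.Agent.R195.FamB
import Crest.Agent.R195.Fam
import Crest.Agent.R195.CovBeven

-- ▼ part R195/CovB0
section

/-! Row 195, S0298.  Coverage of family B, `e = 0`. -/

set_option autoImplicit false
set_option linter.unusedSectionVars false
set_option linter.unusedDecidableInType false

namespace Crest.Agent.R195

open Finset

theorem regionB0 {m w w₂ : ℕ} {H : ℕ → ℕ} (hm : 5 ≤ m)
    (hr : Region (m * (2 * m + 1) + 1) (2 * m - 1) w w₂ H) : m + 3 ≤ w ∧ w ≤ 3 * m - 3 := by
  obtain ⟨k, rfl⟩ : ∃ k, m = k + 5 := ⟨m - 5, by omega⟩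
  have e1 : 2 * (k + 5) - 1 = 2 * k + 9 := by omega
  rw [e1] at hr
  have h1 := hr.le_sq
  have h2 : 2 ≤ w₂ := hr.two_le (by nlinarith)
  have h3 := hr.le_two h2
  have h4 := hr.row
  constructor
  · by_contra hcon
    push Not at hcon
    have : w ≤ k + 7 := by omega
    nlinarith [Nat.mul_le_mul this this]
  · have h5 : k + 6 ≤ w₂ := by
      by_contra hcon
      push Not at hcon
      obtain ⟨d, hd⟩ : ∃ d, w₂ + d = k + 5 := ⟨k + 5 - w₂, by omega⟩
      have : w₂ = k + 5 - d := by omega
      nlinarith
    omega

/-- **Coverage of family B, `e = 0`.** -/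
theorem covB_zero {m : ℕ} (hm : 5 ≤ m) : CovB m 0 := by
  intro H w w₂ hr
  have hmm : 0 < m := by omega
  have hv := validH_hBm hmm
  have hsz := hsize_hBm hmm
  rw [if_pos rfl] at hr
  have hr' := hr
  rw [hsz, mul_zero, add_zero] at hr'
  obtain ⟨hw1, hw2⟩ := regionB0 hm hr'
  have hH0 := hr.wlog
  -- the list of pieces
  have hlist : ∃ L₁ L₂ : List Pc, validP (L₁ ++ .dup (m + 1) :: L₂) ∧
      (∀ s, (colsP (L₁ ++ .dup (m + 1) :: L₂)).getD s 0 = cl (hBm m 0) s) ∧
      (∀ p ∈ L₁ ++ L₂, p.free) ∧
      3 * m - 3 ≤ FL (L₁ ++ L₂) 1 ∧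
      ((L₁ ++ L₂).map Pc.size).sum ≤ FL (L₁ ++ L₂) (m - 1) + 6 ∧
      ∀ J, m - 1 < J → ((L₁ ++ L₂).map Pc.size).sum ≤ FL (L₁ ++ L₂) J + (m + 2 - J) := by
    rcases Nat.even_or_odd' m with ⟨t, ht | ht⟩
    · refine ⟨runP (2 * m) (t - 1) ++ [.rect (m + 2) 1], runP (m - 1) t, ?_, ?_, ?_, ?_, ?_, ?_⟩
      · rw [List.append_assoc]
        refine validP_runP_append (by omega) ⟨by simp [Pc.low, Pc.top], ?_, by simp [Pc.low, Pc.top],
          ?_, validP_runP (by omega)⟩ ?_
        · intro q hq
          change q ∈ Pc.dup (m + 1) :: runP (m - 1) t at hq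
          rw [List.mem_cons] at hq
          rcases hq with rfl | hq
          · simp [Pc.top, Pc.next]
          · have := top_runP q hq
            simp only [Pc.next]; omega
        · intro q hq
          have := top_runP q hq
          simp only [Pc.next]; omega
        · intro q hq
          simp only [List.cons_append, List.nil_append, List.mem_cons] at hq
          rcases hq with rfl | rfl | hq
          · simp only [Pc.top]; omega
          · simp only [Pc.top]; omega
          · have := top_runP q hq
            omega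
      · intro s
        rw [List.append_assoc, getD_runP_append, List.cons_append, getD_rect_cons, List.nil_append,
          getD_dup_cons, getD_colsP_runP, cl_hBm hmm]
        split_ifs <;> omega
      · intro p hp
        simp only [List.mem_append, List.mem_singleton] at hp
        rcases hp with (hp | rfl) | hp
        · exact free_runP p hp
        · trivial
        · exact free_runP p hp
      · rw [FL_append, FL_append, FL_rect, FL_nil, FL_one_runP (by omega)]
        have := FL_one_runP' (m := m - 1) (k := t) (by omega)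
        have h1 : min (m + 2) 1 = 1 := by omega
        omega
      · rw [FL_append, FL_append, FL_rect, FL_nil, List.map_append, List.map_append,
          List.sum_append, List.sum_append]
        have h1 := size_le_FL_runP (2 * m) (t - 1) (m - 1)
        have h2 := size_le_FL_runP (m - 1) t (m - 1)
        rw [show 2 * m - 2 * (m - 1) = 2 by omega, tri_two] at h1
        rw [show m - 1 - 2 * (m - 1) = 0 by omega, tri_zero] at h2
        have h3 : min (m + 2) (m - 1) = m - 1 := by omega
        simp only [List.map_cons, List.map_nil, List.sum_cons, List.sum_nil, Pc.size, h3]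
        omega
      · intro J hJ
        rw [FL_append, FL_append, FL_rect, FL_nil, List.map_append, List.map_append,
          List.sum_append, List.sum_append]
        have h1 := size_le_FL_runP (2 * m) (t - 1) J
        have h2 := size_le_FL_runP (m - 1) t J
        rw [show 2 * m - 2 * J = 0 by omega, tri_zero] at h1
        rw [show m - 1 - 2 * J = 0 by omega, tri_zero] at h2
        simp only [List.map_cons, List.map_nil, List.sum_cons, List.sum_nil, Pc.size]
        omega
    · refine ⟨runP (2 * m) t, runP (m - 1) t, ?_, ?_, ?_, ?_, ?_, ?_⟩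
      · refine validP_runP_append (by omega) ⟨by simp [Pc.low, Pc.top], ?_, validP_runP (by omega)⟩ ?_
        · intro q hq
          have := top_runP q hq
          simp only [Pc.next]; omega
        · intro q hq
          rw [List.mem_cons] at hq
          rcases hq with rfl | hq
          · simp only [Pc.top]; omega
          · have := top_runP q hq
            omega
      · intro s
        rw [getD_runP_append, getD_dup_cons, getD_colsP_runP, cl_hBm hmm]
        split_ifs <;> omega
      · intro p hp
        rw [List.mem_append] at hp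
        rcases hp with hp | hp
        · exact free_runP p hp
        · exact free_runP p hp
      · rw [FL_append, FL_one_runP (by omega)]
        have := FL_one_runP' (m := m - 1) (k := t) (by omega)
        omega
      · rw [FL_append, List.map_append, List.sum_append]
        have h1 := size_le_FL_runP (2 * m) t (m - 1)
        have h2 := size_le_FL_runP (m - 1) t (m - 1)
        rw [show 2 * m - 2 * (m - 1) = 2 by omega, tri_two] at h1
        rw [show m - 1 - 2 * (m - 1) = 0 by omega, tri_zero] at h2
        omega
      · intro J hJ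
        rw [FL_append, List.map_append, List.sum_append]
        have h1 := size_le_FL_runP (2 * m) t J
        have h2 := size_le_FL_runP (m - 1) t J
        rw [show 2 * m - 2 * J = 0 by omega, tri_zero] at h1
        rw [show m - 1 - 2 * J = 0 by omega, tri_zero] at h2
        omega
  obtain ⟨L₁, L₂, hL1, hL2, hL3, hL4, hL5, hL6⟩ := hlist
  refine ⟨_, hL1, hL2, ?_⟩
  have htot := sum_size_of_cols hv hL1 hL2
  rw [hsz] at htot
  obtain ⟨k, rfl⟩ : ∃ k, m = k + 5 := ⟨m - 5, by omega⟩
  have e1 : 2 * (k + 5) - 1 = 2 * k + 9 := by omega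
  rw [e1] at hr
  have st := St.of_region (Q := (k + 4) * (k + 3) + 1) hr (by
    rw [hsz]
    have : w ≤ 3 * k + 12 := by omega
    nlinarith)
  obtain ⟨H', st', hle, hdec⟩ := st.dup (c := k + 5 + 1) (by omega) (by
    have : 2 * k + 9 - 1 = 2 * k + 8 := by omega
    rw [this]
    nlinarith)
  have hperm : (Pc.dup (k + 5 + 1) :: (L₁ ++ L₂)).Perm (L₁ ++ .dup (k + 5 + 1) :: L₂) :=
    List.perm_middle.symm
  refine Decomp.perm hperm (hdec _ ?_)
  have hsum : (L₁.map Pc.size).sum + (L₂.map Pc.size).sum + 2 * (k + 5 + 1) =
      hsize (hBm (k + 5) 0) := by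
    rw [hsz, ← htot, List.map_append, List.sum_append, List.map_cons, List.sum_cons]
    simp only [Pc.size]
    ring
  have hN : hsize (hBm (k + 5) 0) - 2 * (k + 5 + 1) = ((L₁ ++ L₂).map Pc.size).sum := by
    rw [List.map_append, List.sum_append]
    omega
  refine st'.free _ hL3 hN (k + 5 - 1) ?_ ?_ ?_
  · intro j hj
    have h1 := hle j
    have h2 := hr.le_H0 j
    omega
  · have h1 : hsize (hBm (k + 5) 0) - 2 * (k + 5 + 1) ≤ FL (L₁ ++ L₂) (k + 5 - 1) + 6 := by
      rw [hN]; exact hL5
    rw [hsz] at h1
    have e2 : k + 5 - 1 = k + 4 := by omega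
    rw [e2] at h1 ⊢
    have h2 : (k + 5) * (2 * (k + 5) + 1) + 2 * 0 + 1 ≤ FL (L₁ ++ L₂) (k + 4) + 6 + 2 * (k + 5 + 1) := by
      omega
    nlinarith
  · intro J hJ
    have := hL6 J hJ
    omega

end Crest.Agent.R195
end

-- ▼ part R195/CovB

/-! Row 195, S0298.  Coverage of family B for even `e` in the form of `Fam.lean`. -/

set_option autoImplicit false

namespace Crest.Agent.R195

open Finset

theorem hB_eq_hBm {m e : ℕ} : hB (2 * m) e = hBm m e := by
  unfold hB hBm
  rw [show 2 * m - 2 * e = 2 * (m - e) by omega, show 2 * m / 2 - e = m - e by omega]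

theorem covH_hB_of {m e : ℕ} (he : e < m) (h : CovB m e) : CovH (hB (2 * m) e) := by
  rw [hB_eq_hBm]
  intro H w w₂ hr
  refine h H w w₂ ?_
  have : (hBm m e).headD 0 - 1 = if e = 0 then 2 * m - 1 else 2 * m := by
    unfold hBm
    rw [headD_runH]
    split_ifs with h0
    · subst h0
      rw [Nat.sub_zero, headD_coreB (by omega)]
    · omega
  rw [← this]
  exact hr

/-- **Family B, `e` even.** -/
theorem covB_even' (M e : ℕ) (hM : M % 2 = 0) (hM0 : 14 ≤ M) (he : 2 * e + 2 ≤ M)
    (hev : e % 2 = 0) : CovH (hB M e) := by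
  obtain ⟨m, rfl⟩ : ∃ m, M = 2 * m := ⟨M / 2, by omega⟩
  refine covH_hB_of (by omega) ?_
  rcases Nat.eq_zero_or_pos e with rfl | h0
  · exact covB_zero (by omega)
  · exact covB_even (by omega) (by omega) (e / 2) (by omega) (by omega)


end Crest.Agent.R195
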