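import Crest.Agent.R195.CovTools

/-! Row 195, S0298.  Family B: `M = 2m` even, `e` outer layers, centre box added.
Definitions, columns, the numerical condition of RULE 1 and the induction skeleton. -/

set_option autoImplicit false
set_option linter.unusedSectionVars false
set_option linter.unusedDecidableInType false

namespace Crest.Agent.R195

open Finset

/-- hooks `2m+1, 2m-1, …` (`e` of them), then `2(m-e), 2(m-e)-2, …, 2`, then `1` -/
def hBm (m e : ℕ) : List ℕ := runH (2 * m + 1) e (runH (2 * (m - e)) (m - e) [1])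

theorem validH_coreB (k : ℕ) : ValidH (runH (2 * k) k [1]) :=
  validH_runH (by decide) fun _ => by simp only [List.headD_cons]; omega

theorem headD_coreB {k : ℕ} (hk : 1 ≤ k) : (runH (2 * k) k [1]).headD 0 = 2 * k := by
  rw [headD_runH, if_neg (by omega)]

theorem validH_hBm {m e : ℕ} (h : e < m) : ValidH (hBm m e) :=
  validH_runH (validH_coreB _) fun _ => by rw [headD_coreB (by omega)]; omega

theorem cl_one (s : ℕ) : cl [1] s = if s = 0 then 1 else 0 := by
  cases s with
  | zero => rfl
  | succ s => simp [cl]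

theorem cl_coreB (k s : ℕ) : cl (runH (2 * k) k [1]) s = 2 * k - s + if s = k then 1 else 0 := by
  rw [cl_runH (by decide) fun _ => by simp only [List.headD_cons]; omega, cl_one]
  split_ifs <;> omega

theorem cl_hBm {m e : ℕ} (h : e < m) (s : ℕ) : cl (hBm m e) s =
    if s < e then 2 * m + 1 - s else
      (if s = m then m + 1 else if s + e ≤ 2 * m then 2 * m - s else 2 * m + 1 - s) := by
  unfold hBm
  rw [cl_runH (validH_coreB _) fun _ => by rw [headD_coreB (by omega)]; omega, cl_coreB]
  split_ifs <;> omega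

theorem hsize_hBm {m e : ℕ} (h : e < m) : hsize (hBm m e) = m * (2 * m + 1) + 2 * e + 1 := by
  unfold hBm
  have h1 := hsize_runH (a := 2 * m + 1) (k := e) (ps := runH (2 * (m - e)) (m - e) [1]) (by omega)
  have h2 := hsize_runH (a := 2 * (m - e)) (k := m - e) (ps := [1]) (by omega)
  have h3 : hsize [1] = 1 := rfl
  rw [h3] at h2
  obtain ⟨k, rfl⟩ : ∃ k, m = e + k + 1 := ⟨m - e - 1, by omega⟩
  have h4 : e + k + 1 - e = k + 1 := by omega
  rw [h4] at h1 h2 ⊢
  simp only [Nat.add_sub_cancel] at h2
  rcases Nat.eq_zero_or_pos e with rfl | he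
  · simp only [Nat.zero_add, mul_zero, Nat.zero_mul, Nat.add_zero] at h1 ⊢
    nlinarith
  · obtain ⟨e', rfl⟩ : ∃ e', e = e' + 1 := ⟨e - 1, by omega⟩
    simp only [Nat.add_sub_cancel] at h1
    nlinarith






/-- coverage of the member `(m, e)` -/
def CovB (m e : ℕ) : Prop :=
  ∀ (H : ℕ → ℕ) (w w₂ : ℕ), Region (hsize (hBm m e)) (if e = 0 then 2 * m - 1 else 2 * m) w w₂ H →
    ∃ L : List Pc, validP L ∧ (∀ s, (colsP L).getD s 0 = cl (hBm m e) s) ∧
      Decomp L fun j : Fin w => H j


end Crest.Agent.R195
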