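import Mathlib
import Crest.Agent.R195.SpDefs

-- ▼ part R195/Words
section

/-! Row 195 (S0297, S0298). Words `T → X` and the operators replacing a letter `p` by `q`.
`raise p q Φ w = ∑_{t : w t = q} Φ (w with t ↦ p)`. The main result is `raise_inj`:
`raise p q` is injective on functions supported on words with more `p`'s than `q`'s. -/

set_option autoImplicit false

namespace Crest.Agent.R195

open Finset Function

section raise

variable {T X : Type*} [Fintype T] [DecidableEq T] [DecidableEq X]

/-- number of positions carrying the letter `q` -/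
def cnt (w : T → X) (q : X) : ℕ := (univ.filter (fun t => w t = q)).card

/-- `raise p q Φ w = ∑_{t : w t = q} Φ (w with t ↦ p)` -/
def raise (p q : X) (Φ : (T → X) → ℂ) (w : T → X) : ℂ :=
  ∑ t : T, if w t = q then Φ (update w t p) else 0

theorem raise_adj [Fintype X] (p q : X) (Φ Ψ : (T → X) → ℂ) :
    ∑ w, raise p q Φ w * (starRingEnd ℂ) (Ψ w) = ∑ w, Φ w * (starRingEnd ℂ) (raise q p Ψ w) := by
  classical
  simp only [raise, Finset.sum_mul, map_sum, Finset.mul_sum]
  rw [Finset.sum_comm]
  conv_rhs => rw [Finset.sum_comm]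
  refine Finset.sum_congr rfl fun t _ => ?_
  have h1 : ∑ w : T → X, (if w t = q then Φ (update w t p) else 0) * (starRingEnd ℂ) (Ψ w)
      = ∑ w ∈ univ.filter (fun w : T → X => w t = q),
          Φ (update w t p) * (starRingEnd ℂ) (Ψ w) := by
    rw [Finset.sum_filter]
    refine Finset.sum_congr rfl fun w _ => ?_
    split_ifs <;> simp
  have h2 : ∑ w : T → X, Φ w * (starRingEnd ℂ) (if w t = p then Ψ (update w t q) else 0)
      = ∑ w ∈ univ.filter (fun w : T → X => w t = p),
          Φ w * (starRingEnd ℂ) (Ψ (update w t q)) := by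
    rw [Finset.sum_filter]
    refine Finset.sum_congr rfl fun w _ => ?_
    split_ifs <;> simp
  rw [h1, h2]
  refine Finset.sum_bij' (fun w _ => update w t p) (fun w _ => update w t q) ?_ ?_ ?_ ?_ ?_
  · intro w hw; simp
  · intro w hw; simp
  · intro w hw
    have hw' : w t = q := by simpa using hw
    simp only [update_idem]
    rw [← hw', update_eq_self]
  · intro w hw
    have hw' : w t = p := by simpa using hw
    simp only [update_idem]
    rw [← hw', update_eq_self]
  · intro w hw
    have hw' : w t = q := by simpa using hw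
    simp only [update_idem]
    congr 2
    rw [← hw', update_eq_self]

theorem raise_comm {p q : X} (hpq : p ≠ q) (Φ : (T → X) → ℂ) (w : T → X) :
    raise q p (raise p q Φ) w
      = raise p q (raise q p Φ) w + ((cnt w p : ℂ) - cnt w q) * Φ w := by
  classical
  have key1 : ∀ t : T, (if w t = p then (∑ s : T, if (update w t q) s = q
        then Φ (update (update w t q) s p) else 0) else 0)
      = (if w t = p then Φ w else 0)
        + ∑ s : T, if w t = p ∧ w s = q then Φ (update (update w t q) s p) else 0 := by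
    intro t
    by_cases ht : w t = p
    · simp only [ht, if_true, true_and]
      rw [← Finset.add_sum_erase univ _ (Finset.mem_univ t)]
      rw [← Finset.add_sum_erase univ (fun s => if w s = q
        then Φ (update (update w t q) s p) else 0) (Finset.mem_univ t)]
      simp only [update_self, if_true, update_idem]
      rw [show update w t p = w by rw [← ht, update_eq_self]]
      rw [if_neg (by rw [ht]; exact hpq), zero_add]
      congr 1
      refine Finset.sum_congr rfl fun s hs => ?_
      have hst : s ≠ t := (Finset.mem_erase.1 hs).1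
      simp [update_of_ne hst]
    · simp [ht]
  have key2 : ∀ s : T, (if w s = q then (∑ t : T, if (update w s p) t = p
        then Φ (update (update w s p) t q) else 0) else 0)
      = (if w s = q then Φ w else 0)
        + ∑ t : T, if w t = p ∧ w s = q then Φ (update (update w t q) s p) else 0 := by
    intro s
    by_cases hs : w s = q
    · simp only [hs, if_true, and_true]
      rw [← Finset.add_sum_erase univ _ (Finset.mem_univ s)]
      rw [← Finset.add_sum_erase univ (fun t => if w t = p
        then Φ (update (update w t q) s p) else 0) (Finset.mem_univ s)]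
      simp only [update_self, if_true, update_idem]
      rw [show update w s q = w by rw [← hs, update_eq_self]]
      rw [if_neg (by rw [hs]; exact hpq.symm), zero_add]
      congr 1
      refine Finset.sum_congr rfl fun t ht => ?_
      have hst : t ≠ s := (Finset.mem_erase.1 ht).1
      rw [update_of_ne hst]
      by_cases h : w t = p
      · simp only [h, if_true]
        rw [update_comm hst.symm]
      · simp [h]
    · simp [hs]
  have hp : (∑ t : T, if w t = p then Φ w else 0) = (cnt w p : ℂ) * Φ w := by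
    rw [← Finset.sum_filter, Finset.sum_const, nsmul_eq_mul]; rfl
  have hq : (∑ t : T, if w t = q then Φ w else 0) = (cnt w q : ℂ) * Φ w := by
    rw [← Finset.sum_filter, Finset.sum_const, nsmul_eq_mul]; rfl
  unfold raise
  rw [Finset.sum_congr rfl fun t _ => key1 t, Finset.sum_congr rfl fun s _ => key2 s,
    Finset.sum_add_distrib, Finset.sum_add_distrib, hp, hq, Finset.sum_comm]
  ring

theorem raise_inj [Fintype X] {p q : X} (hpq : p ≠ q) {Φ : (T → X) → ℂ}
    (hs : ∀ w, Φ w ≠ 0 → cnt w q < cnt w p) (h : ∀ w, raise p q Φ w = 0) : ∀ w, Φ w = 0 := by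
  classical
  have h0 : ∑ w, raise q p (raise p q Φ) w * (starRingEnd ℂ) (Φ w) = 0 := by
    refine Finset.sum_eq_zero fun w _ => ?_
    have : raise q p (raise p q Φ) w = 0 := by
      unfold raise
      refine Finset.sum_eq_zero fun t _ => ?_
      have := h (update w t q)
      unfold raise at this
      split_ifs
      · exact this
      · rfl
    rw [this, zero_mul]
  have h1 : ∑ w, raise q p (raise p q Φ) w * (starRingEnd ℂ) (Φ w)
      = ∑ w, ((Complex.normSq (raise q p Φ w) : ℝ) : ℂ)
        + ∑ w, ((((cnt w p : ℝ) - cnt w q) * Complex.normSq (Φ w) : ℝ) : ℂ) := by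
    have e1 : ∀ w, raise q p (raise p q Φ) w * (starRingEnd ℂ) (Φ w)
        = raise p q (raise q p Φ) w * (starRingEnd ℂ) (Φ w)
          + ((((cnt w p : ℝ) - cnt w q) * Complex.normSq (Φ w) : ℝ) : ℂ) := by
      intro w
      rw [raise_comm hpq, add_mul]
      congr 1
      push_cast
      rw [Complex.normSq_eq_conj_mul_self]
      ring
    rw [Finset.sum_congr rfl fun w _ => e1 w, Finset.sum_add_distrib, raise_adj]
    congr 1
    refine Finset.sum_congr rfl fun w _ => ?_
    rw [Complex.mul_conj]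
  rw [h0] at h1
  have h2 : (0 : ℝ) = ∑ w, Complex.normSq (raise q p Φ w)
        + ∑ w, (((cnt w p : ℝ) - cnt w q) * Complex.normSq (Φ w)) := by
    have := congrArg Complex.re h1
    simpa [← Complex.ofReal_sum] using this
  have hnn : ∀ w, 0 ≤ (((cnt w p : ℝ) - cnt w q) * Complex.normSq (Φ w)) := by
    intro w
    by_cases hw : Φ w = 0
    · simp [hw]
    · have := hs w hw
      have h3 : (cnt w q : ℝ) < cnt w p := by exact_mod_cast this
      exact mul_nonneg (by linarith) (Complex.normSq_nonneg _)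
  have hA : 0 ≤ ∑ w, Complex.normSq (raise q p Φ w) :=
    Finset.sum_nonneg fun w _ => Complex.normSq_nonneg _
  have hB : ∑ w, (((cnt w p : ℝ) - cnt w q) * Complex.normSq (Φ w)) = 0 := by
    have := Finset.sum_nonneg fun w (_ : w ∈ univ) => hnn w
    linarith
  have hC := (Finset.sum_eq_zero_iff_of_nonneg fun w _ => hnn w).1 hB
  intro w
  by_contra hw
  have h3 : (cnt w q : ℝ) < cnt w p := by exact_mod_cast hs w hw
  have h4 := hC w (Finset.mem_univ w)
  have h5 : 0 < Complex.normSq (Φ w) := Complex.normSq_pos.2 hw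
  have : 0 < ((cnt w p : ℝ) - cnt w q) * Complex.normSq (Φ w) := mul_pos (by linarith) h5
  linarith

end raise

end Crest.Agent.R195
end

-- ▼ part R195/HCore
section

/-! Row 195, the H-step core (helper545's note 5402 (A), general row contents).
Words `T → Option (Fin p × Fin p)`, `none` is the new letter `0`.
`DD q Φ w = ∑_{x : w (x i) = q i} Φ (w with all x i replaced by none)`.
Main theorem `hcore`: if `Φ` is supported on words with exactly `p` letters `none`, in which the cell
`(e k, rev (e k))` occurs less than `p - k` times, and `∑_σ sign σ • DD (i, σ i) Φ = 0`, then `Φ = 0`. -/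

set_option autoImplicit false
set_option linter.unusedSectionVars false
set_option linter.unusedDecidableInType false

namespace Crest.Agent.R195

open Finset Function

section strip

variable {T X : Type*} [Fintype T] [DecidableEq T] [DecidableEq X]

/-- replace the letters at the positions `x i` by `none` -/
def strip {k : ℕ} (x : Fin k → T) (w : T → Option X) : T → Option X :=
  fun t => if ∃ i, x i = t then none else w t

/-- `DD q Φ w = ∑_{x : w (x i) = q i} Φ (strip x w)` -/
def DD {k : ℕ} (q : Fin k → X) (Φ : (T → Option X) → ℂ) (w : T → Option X) : ℂ :=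
  ∑ x : Fin k → T, if ∀ i, w (x i) = some (q i) then Φ (strip x w) else 0

theorem strip_zero (x : Fin 0 → T) (w : T → Option X) : strip x w = w := by
  funext t; simp [strip]

theorem DD_zero (q : Fin 0 → X) (Φ : (T → Option X) → ℂ) (w : T → Option X) : DD q Φ w = Φ w := by
  simp [DD, strip_zero]

theorem strip_snoc {k : ℕ} (x : Fin k → T) (t : T) (w : T → Option X) :
    strip (Fin.snoc (α := fun _ => T) x t) w = strip x (update w t none) := by
  funext s
  unfold strip
  by_cases h : s = t
  · subst h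
    have : ∃ i, (Fin.snoc (α := fun _ => T) x s : Fin (k+1) → T) i = s := ⟨Fin.last k, by simp⟩
    rw [if_pos this]
    simp
  · have h1 : (∃ i, (Fin.snoc (α := fun _ => T) x t : Fin (k+1) → T) i = s) ↔ ∃ i, x i = s := by
      constructor
      · rintro ⟨i, hi⟩
        refine Fin.lastCases (fun hi => ?_) (fun j hi => ?_) i hi
        · simp at hi; exact absurd hi.symm h
        · simp at hi; exact ⟨j, hi⟩
      · rintro ⟨i, hi⟩
        exact ⟨i.castSucc, by simpa using hi⟩
    simp only [h1, update_of_ne h]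

theorem DD_succ {k : ℕ} (q : Fin (k+1) → X) (hq : Injective q) (Φ : (T → Option X) → ℂ)
    (w : T → Option X) :
    DD q Φ w = raise none (some (q (Fin.last k))) (DD (fun i : Fin k => q i.castSucc) Φ) w := by
  classical
  unfold raise DD
  have e := (Fin.snocEquiv (fun _ : Fin (k+1) => T))
  rw [← (Fin.snocEquiv (fun _ : Fin (k+1) => T)).sum_comp, Fintype.sum_prod_type]
  refine Finset.sum_congr rfl fun t _ => ?_
  by_cases ht : w t = some (q (Fin.last k))
  · rw [if_pos ht]
    refine Finset.sum_congr rfl fun x _ => ?_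
    simp only [Fin.snocEquiv_apply]
    have h1 : (∀ i : Fin (k+1), w ((Fin.snoc (α := fun _ => T) x t : Fin (k+1) → T) i) = some (q i)) ↔
        ∀ i : Fin k, (update w t none) (x i) = some (q i.castSucc) := by
      constructor
      · intro h i
        have hi := h i.castSucc
        simp only [Fin.snoc_castSucc] at hi
        have hne : x i ≠ t := by
          intro hx
          rw [hx, ht] at hi
          have := hq (Option.some_injective _ hi)
          exact absurd this (Fin.castSucc_lt_last i).ne'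
        rw [update_of_ne hne]; exact hi
      · intro h i
        refine Fin.lastCases ?_ (fun j => ?_) i
        · simpa using ht
        · have hj := h j
          have hne : x j ≠ t := by
            intro hx
            rw [hx] at hj; simp at hj
          rw [update_of_ne hne] at hj
          simpa using hj
    have h3 : strip ((Fin.snocEquiv (fun _ : Fin (k+1) => T)) (t, x)) w
        = strip x (update w t none) := strip_snoc x t w
    rw [h3]
    by_cases h2 : ∀ i : Fin k, (update w t none) (x i) = some (q i.castSucc)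
    · rw [if_pos (h1.2 h2), if_pos h2]
    · rw [if_neg (fun h => h2 (h1.1 h)), if_neg h2]
  · rw [if_neg ht]
    refine Finset.sum_eq_zero fun x _ => ?_
    rw [if_neg]
    intro h
    apply ht
    simpa using h (Fin.last k)

theorem cnt_strip_none {k : ℕ} (q : Fin k → X) (hq : Injective q) (x : Fin k → T)
    (w : T → Option X) (h : ∀ i, w (x i) = some (q i)) :
    cnt (strip x w) none = cnt w none + k := by
  classical
  have hx : Injective x := by
    intro i j hij
    have := h i
    rw [hij, h j] at this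
    exact (hq (Option.some_injective _ this)).symm
  unfold cnt
  have : univ.filter (fun t => strip x w t = none)
      = univ.filter (fun t => w t = none) ∪ univ.image x := by
    ext t
    simp only [mem_filter, mem_univ, true_and, mem_union, mem_image]
    unfold strip
    by_cases ht : ∃ i, x i = t
    · rw [if_pos ht]
      exact ⟨fun _ => Or.inr ht, fun _ => rfl⟩
    · rw [if_neg ht]
      exact ⟨fun h => Or.inl h, fun h => h.resolve_right ht⟩
  rw [this, Finset.card_union_of_disjoint]
  · congr 1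
    rw [Finset.card_image_of_injective _ hx]; simp
  · rw [Finset.disjoint_left]
    intro t ht ht'
    simp only [mem_filter, mem_univ, true_and, mem_image] at ht ht'
    obtain ⟨i, hi⟩ := ht'
    rw [← hi, h i] at ht
    exact absurd ht (by simp)

theorem cnt_strip_some {k : ℕ} (q : Fin k → X) (x : Fin k → T)
    (w : T → Option X) (h : ∀ i, w (x i) = some (q i)) (c : X) (hc : ∀ i, q i ≠ c) :
    cnt (strip x w) (some c) = cnt w (some c) := by
  classical
  unfold cnt
  refine congrArg _ (Finset.filter_congr fun t _ => ?_)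
  by_cases ht : ∃ i, x i = t
  · have h1 : strip x w t = none := if_pos ht
    rw [h1]
    obtain ⟨i, hi⟩ := ht
    constructor
    · intro h'; exact absurd h' (by simp)
    · intro h'
      rw [← hi, h i] at h'
      exact absurd (Option.some_injective _ h') (hc i)
  · have h1 : strip x w t = w t := if_neg ht
    rw [h1]

theorem DD_inj [Fintype X] {k : ℕ} (p : ℕ) (q : Fin k → X) (hq : Injective q)
    (Φ : (T → Option X) → ℂ)
    (hn : ∀ w, Φ w ≠ 0 → cnt w none = p)
    (hc : ∀ w, Φ w ≠ 0 → ∀ i : Fin k, cnt w (some (q i)) < p - i)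
    (h0 : ∀ w, DD q Φ w = 0) : ∀ w, Φ w = 0 := by
  classical
  induction k with
  | zero =>
    intro w
    have := h0 w
    rwa [DD_zero] at this
  | succ k ih =>
    have hq' : Injective (fun i : Fin k => q i.castSucc) :=
      fun i j hij => Fin.castSucc_injective _ (hq hij)
    refine ih (fun i : Fin k => q i.castSucc) hq' (fun w hw i => ?_) ?_
    · simpa using hc w hw i.castSucc
    · refine raise_inj (p := none) (q := some (q (Fin.last k))) (by simp) ?_ ?_
      · intro w hw
        unfold DD at hw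
        obtain ⟨x, -, hx⟩ := Finset.exists_ne_zero_of_sum_ne_zero hw
        by_cases hxw : ∀ i : Fin k, w (x i) = some (q i.castSucc)
        · rw [if_pos hxw] at hx
          have h1 := hn _ hx
          rw [cnt_strip_none _ hq' x w hxw] at h1
          have h2 := hc _ hx (Fin.last k)
          rw [cnt_strip_some (fun i : Fin k => q i.castSucc) x w hxw] at h2
          · simp at h2; omega
          · intro i hi
            exact absurd (hq hi) (Fin.castSucc_lt_last i).ne
        · rw [if_neg hxw] at hx; exact absurd rfl hx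
      · intro w
        rw [← DD_succ q hq]
        exact h0 w

theorem DD_comp_equiv {k : ℕ} (q : Fin k → X) (e : Fin k ≃ Fin k)
    (Φ : (T → Option X) → ℂ) (w : T → Option X) :
    DD (fun i => q (e i)) Φ w = DD q Φ w := by
  classical
  unfold DD
  rw [← (Equiv.arrowCongr e (Equiv.refl T)).sum_comp
    (fun x : Fin k → T => if ∀ i, w (x i) = some (q i) then Φ (strip x w) else 0)]
  refine Finset.sum_congr rfl fun x _ => ?_
  have h1 : (∀ i, w ((Equiv.arrowCongr e (Equiv.refl T)) x i) = some (q i)) ↔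
      ∀ i, w (x i) = some (q (e i)) := by
    constructor
    · intro h i
      have := h (e i)
      simpa [Equiv.arrowCongr] using this
    · intro h i
      have := h (e.symm i)
      simpa [Equiv.arrowCongr] using this
  have h2 : strip ((Equiv.arrowCongr e (Equiv.refl T)) x) w = strip x w := by
    funext t
    unfold strip
    have : (∃ i, (Equiv.arrowCongr e (Equiv.refl T)) x i = t) ↔ ∃ i, x i = t := by
      constructor
      · rintro ⟨i, hi⟩; exact ⟨e.symm i, by simpa [Equiv.arrowCongr] using hi⟩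
      · rintro ⟨i, hi⟩; exact ⟨e i, by simpa [Equiv.arrowCongr] using hi⟩
    simp only [this]
  rw [h2]
  by_cases h : ∀ i, w (x i) = some (q (e i))
  · rw [if_pos h, if_pos (h1.2 h)]
  · rw [if_neg h, if_neg (fun h' => h (h1.1 h'))]

end strip

section core

variable {T : Type*} [Fintype T] [DecidableEq T]

/-- weight of a cell: distance squared to the main antidiagonal -/
def cwt (p : ℕ) : Option (Fin p × Fin p) → ℕ
  | none => 0
  | some c => (((c.1 : ℤ) + c.2 - (p - 1)) ^ 2).toNat

/-- total weight of a word -/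
def wwt (p : ℕ) (w : T → Option (Fin p × Fin p)) : ℕ := ∑ t, cwt p (w t)

theorem wwt_strip {p k : ℕ} (q : Fin k → Fin p × Fin p) (hq : Injective q) (x : Fin k → T)
    (w : T → Option (Fin p × Fin p)) (h : ∀ i, w (x i) = some (q i)) :
    wwt p w = wwt p (strip x w) + ∑ i, cwt p (some (q i)) := by
  classical
  have hx : Injective x := by
    intro i j hij
    have := h i
    rw [hij, h j] at this
    exact (hq (Option.some_injective _ this)).symm
  unfold wwt
  have h1 : ∀ t, cwt p (w t) = cwt p (strip x w t)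
      + (if t ∈ univ.image x then cwt p (w t) else 0) := by
    intro t
    unfold strip
    by_cases ht : ∃ i, x i = t
    · have : t ∈ univ.image x := by simpa using ht
      rw [if_pos ht, if_pos this]; simp [cwt]
    · have : t ∉ univ.image x := by simpa using ht
      rw [if_neg ht, if_neg this]; simp
  rw [Finset.sum_congr rfl fun t _ => h1 t, Finset.sum_add_distrib]
  congr 1
  rw [← Finset.sum_filter]
  have : univ.filter (fun t => t ∈ univ.image x) = univ.image x := by ext t; simp
  rw [this, Finset.sum_image (fun i _ j _ hij => hx hij)]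
  exact Finset.sum_congr rfl fun i _ => by rw [h i]

theorem cwt_perm_eq_zero {p : ℕ} (σ : Equiv.Perm (Fin p))
    (h : ∑ i, cwt p (some (i, σ i)) = 0) : σ = Fin.revPerm := by
  ext i
  have h1 : cwt p (some (i, σ i)) = 0 := by
    by_contra hne
    have := Finset.single_le_sum (f := fun i => cwt p (some (i, σ i)))
      (fun j _ => Nat.zero_le _) (Finset.mem_univ i)
    simp only [h] at this
    omega
  simp only [cwt, Int.toNat_eq_zero] at h1
  have h2 : ((i : ℤ) + (σ i : ℤ) - (p - 1)) ^ 2 = 0 := le_antisymm h1 (sq_nonneg _)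
  have h3 : ((i : ℤ) + (σ i : ℤ) - (p - 1)) = 0 := by
    simpa using h2
  simp only [Fin.revPerm_apply, Fin.val_rev]
  have := i.2
  omega

theorem cwt_rev {p : ℕ} : ∑ i, cwt p (some (i, Fin.rev i)) = 0 := by
  refine Finset.sum_eq_zero fun i _ => ?_
  simp only [cwt, Fin.val_rev]
  have := i.2
  have h : ((i : ℤ) + ((p - (i + 1) : ℕ) : ℤ) - (p - 1)) = 0 := by omega
  rw [h]; simp

/-- **H-step core.** -/
theorem hcore {p : ℕ} (e : Fin p ≃ Fin p) (Φ : (T → Option (Fin p × Fin p)) → ℂ)
    (hn : ∀ w, Φ w ≠ 0 → cnt w none = p)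
    (hc : ∀ w, Φ w ≠ 0 → ∀ k : Fin p, cnt w (some (e k, Fin.rev (e k))) < p - k)
    (h0 : ∀ w, ∑ σ : Equiv.Perm (Fin p),
      ((Equiv.Perm.sign σ : ℤ) : ℂ) * DD (fun i => (i, σ i)) Φ w = 0) :
    ∀ w, Φ w = 0 := by
  classical
  by_contra hcon
  push Not at hcon
  -- minimal weight word in the support
  have hne : ∃ n, ∃ w, Φ w ≠ 0 ∧ wwt p w = n := by
    obtain ⟨w, hw⟩ := hcon; exact ⟨_, w, hw, rfl⟩
  set M := Nat.find hne with hM
  obtain ⟨w0, hw0, hw0M⟩ := Nat.find_spec hne
  have hmin : ∀ w, Φ w ≠ 0 → M ≤ wwt p w := fun w hw => Nat.find_min' hne ⟨w, hw, rfl⟩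
  have hcell : ∀ σ : Equiv.Perm (Fin p), Injective (fun i : Fin p => (i, σ i)) :=
    fun σ i j hij => (Prod.mk.inj hij).1
  set Φ0 : (T → Option (Fin p × Fin p)) → ℂ := fun w => if wwt p w = M then Φ w else 0 with hΦ0
  have hsub : ∀ w, Φ0 w ≠ 0 → Φ w ≠ 0 := by
    intro w hw
    simp only [hΦ0] at hw
    split_ifs at hw with h1
    · exact hw
    · exact absurd rfl hw
  have hz : ∀ w, Φ0 w = 0 := by
    refine DD_inj p (fun k => (e k, Fin.rev (e k))) ?_ Φ0 ?_ ?_ ?_
    · intro i j hij
      exact e.injective (Prod.mk.inj hij).1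
    · exact fun w hw => hn w (hsub w hw)
    · exact fun w hw => hc w (hsub w hw)
    · intro w
      rw [DD_comp_equiv (fun i : Fin p => (i, Fin.rev i)) e]
      by_cases hwM : wwt p w = M
      · have h1 := h0 w
        have h2 : ∀ σ : Equiv.Perm (Fin p), σ ≠ Fin.revPerm → DD (fun i => (i, σ i)) Φ w = 0 := by
          intro σ hσ
          unfold DD
          refine Finset.sum_eq_zero fun x _ => ?_
          by_cases hx : ∀ i, w (x i) = some (i, σ i)
          · rw [if_pos hx]
            by_contra hΦ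
            have h3 := hmin _ hΦ
            have h4 := wwt_strip (fun i => (i, σ i)) (hcell σ) x w hx
            have h5 : ∑ i, cwt p (some (i, σ i)) ≠ 0 := fun h => hσ (cwt_perm_eq_zero σ h)
            omega
          · rw [if_neg hx]
        rw [Finset.sum_eq_single (Fin.revPerm) (fun σ _ hσ => by rw [h2 σ hσ, mul_zero])
          (fun h => absurd (Finset.mem_univ _) h)] at h1
        have h3 : DD (fun i : Fin p => (i, Fin.rev i)) Φ w = 0 := by
          rcases mul_eq_zero.1 h1 with h | h
          · exfalso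
            have := (Equiv.Perm.sign (Fin.revPerm : Equiv.Perm (Fin p))).ne_zero
            exact this (by exact_mod_cast h)
          · simpa using h
        rw [← h3]
        unfold DD
        refine Finset.sum_congr rfl fun x _ => ?_
        by_cases hx : ∀ i, w (x i) = some (i, Fin.rev i)
        · rw [if_pos hx, if_pos hx]
          have h4 := wwt_strip (fun i : Fin p => (i, Fin.rev i))
            (fun i j hij => (Prod.mk.inj hij).1) x w hx
          rw [cwt_rev, add_zero] at h4
          simp only [hΦ0]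
          rw [if_pos (by rw [← h4, hwM])]
        · rw [if_neg hx, if_neg hx]
      · unfold DD
        refine Finset.sum_eq_zero fun x _ => ?_
        by_cases hx : ∀ i, w (x i) = some (i, Fin.rev i)
        · rw [if_pos hx]
          have h4 := wwt_strip (fun i : Fin p => (i, Fin.rev i))
            (fun i j hij => (Prod.mk.inj hij).1) x w hx
          rw [cwt_rev, add_zero] at h4
          simp only [hΦ0]
          rw [if_neg (by rw [← h4]; exact hwM)]
        · rw [if_neg hx]
  have := hz w0
  simp only [hΦ0] at this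
  rw [if_pos (by rw [hw0M])] at this
  exact hw0 this

end core

end Crest.Agent.R195
private theorem rz_99e37f8cf0 : type_of% @_root_.Crest.Agent.R195.cwt.eq_1 := @_root_.Crest.Agent.R195.cwt.eq_1 -- L219
end

-- ▼ part R195/HLink
section

/-! Row 195, A-link: the H-step for Specht modules in the word model.
Letters `Fin p ⊕ T`. If `Full a b` and the rep `ρ` of `Perm (Fin p ⊕ T)` has a nonzero vector fixed by
`Perm (Fin p)`, then `Occ ρ (Kr (Fin p ⊕ T) (addCol p a) (addCol p b))`. -/

set_option autoImplicit false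
set_option linter.unusedSectionVars false
set_option linter.unusedDecidableInType false

namespace Crest.Agent.R195

open Finset Function

/-- add a new first column with `p` cells -/
def addCol (p : ℕ) (a : Finset (ℕ × ℕ)) : Finset (ℕ × ℕ) :=
  (Finset.range p).image (fun i => (i, 0)) ∪ a.image (fun c => (c.1, c.2 + 1))

/-- number of cells of `a` in row `i` -/
def rowlen (a : Finset (ℕ × ℕ)) (i : ℕ) : ℕ := (a.filter (fun c => c.1 = i)).card

section tab

variable {p : ℕ} {T : Type*} [Fintype T] [DecidableEq T]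

/-- extend a tableau by a first column filled with the letters `inl i` -/
def extTab (p : ℕ) (τ : T → ℕ × ℕ) : Fin p ⊕ T → ℕ × ℕ :=
  Sum.elim (fun i => ((i : ℕ), 0)) (fun t => ((τ t).1, (τ t).2 + 1))

theorem IsTab.ext {a : Finset (ℕ × ℕ)} {τ : T → ℕ × ℕ} (h : IsTab a τ) :
    IsTab (addCol p a) (extTab p τ) := by
  refine ⟨?_, ?_⟩
  · intro x y hxy
    rcases x with i | t <;> rcases y with j | s
    · simp only [extTab, Sum.elim_inl, Prod.mk.injEq, and_true] at hxy
      rw [Fin.ext hxy]
    · simp [extTab] at hxy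
    · simp [extTab] at hxy
    · simp only [extTab, Sum.elim_inr, Prod.mk.injEq, add_left_inj] at hxy
      rw [h.1 (Prod.ext hxy.1 hxy.2)]
  · ext c
    simp only [mem_image, mem_univ, true_and, addCol, mem_union, Finset.mem_range]
    rw [← h.2]
    constructor
    · rintro ⟨x, hx⟩
      rcases x with i | t
      · left; exact ⟨i, i.2, hx⟩
      · right; exact ⟨τ t, by simp, hx⟩
    · rintro (⟨i, hi, hc⟩ | ⟨d, hd, hc⟩)
      · exact ⟨Sum.inl ⟨i, hi⟩, hc⟩
      · simp only [mem_image, mem_univ, true_and] at hd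
        obtain ⟨t, ht⟩ := hd
        exact ⟨Sum.inr t, by rw [← hc, ← ht]; rfl⟩

/-- alternating function of the letters `inl i` -/
noncomputable def altK (p : ℕ) (u : Fin p ⊕ T → ℕ) : ℂ :=
  ∑ π : Equiv.Perm (Fin p), if ∀ i, u (Sum.inl (π i)) = (i : ℕ)
    then ((Equiv.Perm.sign π : ℤ) : ℂ) else 0

theorem polyF_ext (τ : T → ℕ × ℕ) (u : Fin p ⊕ T → ℕ) :
    polyF (extTab p τ) u = altK p u * polyF τ (fun t => u (Sum.inr t)) := by
  classical
  unfold altK polyF
  rw [Finset.sum_mul_sum, ← Finset.sum_product']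
  have hinj : Set.InjOn (fun x : Equiv.Perm (Fin p) × Equiv.Perm T => Equiv.Perm.sumCongr x.1 x.2)
      (Finset.univ : Finset (Equiv.Perm (Fin p) × Equiv.Perm T)) := by
    intro x _ y _ hxy
    exact Equiv.Perm.sumCongrHom_injective hxy
  have hprod : ∀ x ∈ (Finset.univ : Finset (Equiv.Perm (Fin p))) ×ˢ
      (Finset.univ : Finset (Equiv.Perm T)),
      ((if ∀ i, u (Sum.inl (x.1 i)) = (i : ℕ) then ((Equiv.Perm.sign x.1 : ℤ) : ℂ) else 0) *
        (if (∀ i, (τ (x.2 i)).2 = (τ i).2) ∧ (∀ i, (fun t => u (Sum.inr t)) (x.2 i) = (τ i).1)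
          then ((Equiv.Perm.sign x.2 : ℤ) : ℂ) else 0))
      = (if (∀ i, (extTab p τ ((Equiv.Perm.sumCongr x.1 x.2) i)).2 = (extTab p τ i).2) ∧
          (∀ i, u ((Equiv.Perm.sumCongr x.1 x.2) i) = (extTab p τ i).1)
          then ((Equiv.Perm.sign (Equiv.Perm.sumCongr x.1 x.2) : ℤ) : ℂ) else 0) := by
    intro x _
    have h1 : ((∀ i, (extTab p τ ((Equiv.Perm.sumCongr x.1 x.2) i)).2 = (extTab p τ i).2) ∧
          (∀ i, u ((Equiv.Perm.sumCongr x.1 x.2) i) = (extTab p τ i).1)) ↔
        ((∀ i, u (Sum.inl (x.1 i)) = (i : ℕ)) ∧ ((∀ i, (τ (x.2 i)).2 = (τ i).2) ∧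
          (∀ i, (fun t => u (Sum.inr t)) (x.2 i) = (τ i).1))) := by
      constructor
      · rintro ⟨h1, h2⟩
        refine ⟨fun i => ?_, fun i => ?_, fun i => ?_⟩
        · simpa [extTab] using h2 (Sum.inl i)
        · simpa [extTab] using h1 (Sum.inr i)
        · simpa [extTab] using h2 (Sum.inr i)
      · rintro ⟨h1, h2, h3⟩
        refine ⟨fun i => ?_, fun i => ?_⟩
        · rcases i with i | t
          · simp [extTab]
          · simpa [extTab] using h2 t
        · rcases i with i | t
          · simpa [extTab] using h1 i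
          · simpa [extTab] using h3 t
    by_cases hA : ∀ i, u (Sum.inl (x.1 i)) = (i : ℕ)
    · by_cases hB : (∀ i, (τ (x.2 i)).2 = (τ i).2) ∧
          (∀ i, (fun t => u (Sum.inr t)) (x.2 i) = (τ i).1)
      · rw [if_pos hA, if_pos hB, if_pos (h1.2 ⟨hA, hB⟩), Equiv.Perm.sign_sumCongr]
        push_cast; ring
      · rw [if_neg hB, if_neg (fun h => hB (h1.1 h).2), mul_zero]
    · rw [if_neg hA, if_neg (fun h => hA (h1.1 h).1), zero_mul]
  rw [Finset.sum_congr rfl hprod]
  symm
  rw [Finset.univ_product_univ]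
  rw [← Finset.sum_image (f := fun σ : Equiv.Perm (Fin p ⊕ T) =>
    if (∀ i, (extTab p τ (σ i)).2 = (extTab p τ i).2) ∧ (∀ i, u (σ i) = (extTab p τ i).1)
          then ((Equiv.Perm.sign σ : ℤ) : ℂ) else 0) hinj]
  refine Finset.sum_subset (Finset.subset_univ _) fun σ _ hσ => ?_
  rw [if_neg]
  rintro ⟨h1, -⟩
  apply hσ
  have hm : Set.MapsTo σ (Set.range (Sum.inl : Fin p → Fin p ⊕ T))
      (Set.range (Sum.inl : Fin p → Fin p ⊕ T)) := by
    rintro _ ⟨i, rfl⟩
    have := h1 (Sum.inl i)
    rcases hσi : σ (Sum.inl i) with j | t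
    · exact ⟨j, rfl⟩
    · rw [hσi] at this; simp [extTab] at this
  obtain ⟨x, hx⟩ := Equiv.Perm.mem_sumCongrHom_range_of_perm_mapsTo_inl hm
  exact Finset.mem_image.2 ⟨x, Finset.mem_univ _, hx⟩

end tab

section link

variable {p : ℕ} {T : Type*} [Fintype T] [DecidableEq T]

/-- put `none` on the letters `inl i` -/
noncomputable def extN (F : (T → ℕ × ℕ) → ℂ) (w : Fin p ⊕ T → Option (ℕ × ℕ)) : ℂ :=
  if (∀ i, w (Sum.inl i) = none) ∧ (∀ t, w (Sum.inr t) ≠ none)
    then F (fun t => (w (Sum.inr t)).getD (0, 0)) else 0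

/-- the cells `(i, σ i)` -/
def cell (σ : Equiv.Perm (Fin p)) (i : Fin p) : ℕ × ℕ := ((i : ℕ), (σ i : ℕ))


theorem DD_extN (F : (T → ℕ × ℕ) → ℂ) (w : Fin p ⊕ T → ℕ × ℕ) :
    ∑ σ : Equiv.Perm (Fin p), ((Equiv.Perm.sign σ : ℤ) : ℂ) *
      DD (cell σ) (extN F) (fun t => some (w t))
    = altK p (fun t => (w t).1) * altK p (fun t => (w t).2) * F (fun t => w (Sum.inr t)) := by
  classical
  have h1 : ∀ σ : Equiv.Perm (Fin p), DD (cell σ) (extN F) (fun t => some (w t))
      = ∑ π : Equiv.Perm (Fin p), if ∀ i, w (Sum.inl (π i)) = cell σ i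
          then F (fun t => w (Sum.inr t)) else 0 := by
    intro σ
    unfold DD
    have key : ∀ x : Fin p → Fin p ⊕ T,
        (if ∀ i, (fun t => some (w t)) (x i) = some (cell σ i)
          then extN F (strip x (fun t => some (w t))) else 0)
        = if ((∀ i, ∃ j, x j = Sum.inl i) ∧ (∀ t, ¬ ∃ j, x j = Sum.inr t)) then
            (if ∀ i, w (x i) = cell σ i then F (fun t => w (Sum.inr t)) else 0) else 0 := by
      intro x
      simp only [Option.some.injEq]
      by_cases hA : ∀ i, w (x i) = cell σ i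
      · rw [if_pos hA, if_pos hA]
        unfold extN
        have hiff : ((∀ i, strip x (fun t => some (w t)) (Sum.inl i) = none) ∧
            (∀ t, strip x (fun t => some (w t)) (Sum.inr t) ≠ none)) ↔
            ((∀ i, ∃ j, x j = Sum.inl i) ∧ (∀ t, ¬ ∃ j, x j = Sum.inr t)) := by
          unfold strip
          constructor
          · rintro ⟨h1, h2⟩
            refine ⟨fun i => ?_, fun t ht => ?_⟩
            · by_contra hc
              have := h1 i
              rw [if_neg hc] at this
              exact absurd this (by simp)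
            · exact h2 t (if_pos ht)
          · rintro ⟨h1, h2⟩
            refine ⟨fun i => if_pos (h1 i), fun t => ?_⟩
            rw [if_neg (h2 t)]; simp
        by_cases hB : ((∀ i, ∃ j, x j = Sum.inl i) ∧ (∀ t, ¬ ∃ j, x j = Sum.inr t))
        · rw [if_pos hB, if_pos (hiff.2 hB)]
          congr 1
          funext t
          unfold strip
          rw [if_neg (hB.2 t)]; rfl
        · rw [if_neg hB, if_neg (fun h => hB (hiff.1 h))]
      · rw [if_neg hA, if_neg hA]; simp
    rw [Finset.sum_congr rfl fun x _ => key x, ← Finset.sum_filter]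
    symm
    refine Finset.sum_bij (fun (π : Equiv.Perm (Fin p)) _ => fun i => Sum.inl (π i)) ?_ ?_ ?_ ?_
    · intro π _
      simp only [mem_filter, mem_univ, true_and]
      refine ⟨fun i => ⟨π.symm i, by simp⟩, fun t => ?_⟩
      rintro ⟨j, hj⟩
      exact absurd hj (by simp)
    · intro π _ π' _ h
      ext i
      have := congrFun h i
      simp only [Sum.inl.injEq] at this
      rw [this]
    · intro x hx
      simp only [mem_filter, mem_univ, true_and] at hx
      have hy : ∀ j, ∃ i, x j = Sum.inl i := by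
        intro j
        rcases hxj : x j with i | t
        · exact ⟨i, rfl⟩
        · exact absurd ⟨j, hxj⟩ (hx.2 t)
      choose y hy using hy
      have hsurj : Surjective y := by
        intro i
        obtain ⟨j, hj⟩ := hx.1 i
        refine ⟨j, ?_⟩
        rw [hy j] at hj
        exact Sum.inl_injective hj
      refine ⟨Equiv.ofBijective y ⟨Finite.injective_iff_surjective.2 hsurj, hsurj⟩,
        Finset.mem_univ _, ?_⟩
      funext j
      rw [hy j]; rfl
    · intro π _; rfl
  have h2 : ∀ u : Fin p ⊕ T → ℕ, altK p u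
      = ∑ π : Equiv.Perm (Fin p), if ∀ i, u (Sum.inl (π i)) = (i : ℕ)
        then ((Equiv.Perm.sign π : ℤ) : ℂ) else 0 := fun u => rfl
  rw [Finset.sum_congr rfl fun σ _ => by rw [h1 σ, Finset.mul_sum], h2, h2, Finset.sum_mul_sum,
    Finset.sum_mul, Finset.sum_comm]
  refine Finset.sum_congr rfl fun π _ => ?_
  rw [Finset.sum_mul]
  -- substitute `π' = π * σ⁻¹`
  refine Finset.sum_bij' (fun σ _ => π * σ⁻¹) (fun π' _ => π'⁻¹ * π) (fun _ _ => Finset.mem_univ _)
    (fun _ _ => Finset.mem_univ _) ?_ ?_ ?_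
  · intro σ _; simp
  · intro π' _; simp
  · intro σ _
    by_cases hA : ∀ i, (w (Sum.inl (π i))).1 = (i : ℕ)
    · by_cases hB : ∀ i, (w (Sum.inl ((π * σ⁻¹) i))).2 = (i : ℕ)
      · have hC : ∀ i, w (Sum.inl (π i)) = cell σ i := by
          intro i
          refine Prod.ext (hA i) ?_
          have := hB (σ i)
          simpa [cell] using this
        rw [if_pos hC, if_pos hA, if_pos hB, Equiv.Perm.sign_mul, Equiv.Perm.sign_inv]
        have h3 : ((Equiv.Perm.sign π : ℤ) : ℂ) * ((Equiv.Perm.sign π : ℤ) : ℂ) = 1 := by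
          rw [← Int.cast_mul, ← Units.val_mul, Int.units_mul_self]; simp
        push_cast
        linear_combination (-((Equiv.Perm.sign σ : ℤ) : ℂ) * F (fun t => w (Sum.inr t))) * h3
      · have hC : ¬ ∀ i, w (Sum.inl (π i)) = cell σ i := by
          intro h
          apply hB
          intro i
          have := h (σ⁻¹ i)
          rw [Equiv.Perm.mul_apply, this]
          simp [cell]
        rw [if_neg hC, if_neg hB]; simp
    · have hC : ¬ ∀ i, w (Sum.inl (π i)) = cell σ i := by
        intro h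
        apply hA
        intro i
        rw [h i]; rfl
      rw [if_neg hC, if_neg hA]; simp

/-- products of polytabloids stay products of polytabloids -/
theorem DD_extN_mem {a b : Finset (ℕ × ℕ)} {F : (T → ℕ × ℕ) → ℂ} (hF : F ∈ Kr T a b) :
    (fun w : Fin p ⊕ T → ℕ × ℕ => ∑ σ : Equiv.Perm (Fin p), ((Equiv.Perm.sign σ : ℤ) : ℂ) *
      DD (cell σ) (extN F) (fun t => some (w t))) ∈ Kr (Fin p ⊕ T) (addCol p a) (addCol p b) := by
  have h : (fun w : Fin p ⊕ T → ℕ × ℕ => ∑ σ : Equiv.Perm (Fin p), ((Equiv.Perm.sign σ : ℤ) : ℂ) *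
      DD (cell σ) (extN F) (fun t => some (w t)))
      = fun w => altK p (fun t => (w t).1) * altK p (fun t => (w t).2) *
        F (fun t => w (Sum.inr t)) := funext fun w => DD_extN F w
  rw [h]
  unfold Kr at hF ⊢
  induction hF using Submodule.span_induction with
  | mem x hx =>
    obtain ⟨τ, τ', hτ, hτ', rfl⟩ := hx
    refine Submodule.subset_span ⟨extTab p τ, extTab p τ', hτ.ext, hτ'.ext, ?_⟩
    funext w
    unfold prodF
    rw [polyF_ext, polyF_ext]
    ring
  | zero =>
    convert Submodule.zero_mem _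
    simp
  | add x y _ _ hx hy =>
    convert Submodule.add_mem _ (hx (funext fun w => DD_extN x w))
      (hy (funext fun w => DD_extN y w)) using 1
    funext w
    simp only [Pi.add_apply]; ring
  | smul c x _ hx =>
    convert Submodule.smul_mem _ c (hx (funext fun w => DD_extN x w)) using 1
    funext w
    simp only [Pi.smul_apply, smul_eq_mul]; ring

end link

end Crest.Agent.R195
end

-- ▼ part R195/HStep
section

/-! Row 195, H-step in representation form. -/

set_option autoImplicit false
set_option linter.unusedSectionVars false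
set_option linter.unusedDecidableInType false

namespace Crest.Agent.R195

open Finset Function

section ddlin

variable {T X : Type*} [Fintype T] [DecidableEq T] [DecidableEq X]

theorem DD_add {k : ℕ} (q : Fin k → X) (Φ Ψ : (T → Option X) → ℂ) (w : T → Option X) :
    DD q (Φ + Ψ) w = DD q Φ w + DD q Ψ w := by
  unfold DD
  rw [← Finset.sum_add_distrib]
  refine Finset.sum_congr rfl fun x _ => ?_
  split_ifs <;> simp

theorem DD_smul {k : ℕ} (q : Fin k → X) (c : ℂ) (Φ : (T → Option X) → ℂ) (w : T → Option X) :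
    DD q (c • Φ) w = c * DD q Φ w := by
  unfold DD
  rw [Finset.mul_sum]
  refine Finset.sum_congr rfl fun x _ => ?_
  split_ifs <;> simp

theorem DD_sum {ι : Type*} (s : Finset ι) {k : ℕ} (q : Fin k → X)
    (Ψ : ι → (T → Option X) → ℂ) (w : T → Option X) :
    DD q (fun w => ∑ i ∈ s, Ψ i w) w = ∑ i ∈ s, DD q (Ψ i) w := by
  unfold DD
  rw [Finset.sum_comm]
  refine Finset.sum_congr rfl fun x _ => ?_
  split_ifs <;> simp

theorem strip_comp {k : ℕ} (x : Fin k → T) (g : Equiv.Perm T) (w : T → Option X) :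
    strip x (w ∘ g) = (strip (fun i => g (x i)) w) ∘ g := by
  funext t
  unfold strip
  simp only [comp_apply]
  have : (∃ i, x i = t) ↔ ∃ i, g (x i) = g t := by simp
  simp only [this]

theorem DD_act {k : ℕ} (q : Fin k → X) (Φ : (T → Option X) → ℂ) (g : Equiv.Perm T)
    (w : T → Option X) : DD q (fun w => Φ (w ∘ g)) w = DD q Φ (w ∘ g) := by
  unfold DD
  symm
  refine Fintype.sum_equiv (Equiv.arrowCongr (Equiv.refl _) g) _ _ fun x => ?_
  have h1 : (Equiv.arrowCongr (Equiv.refl (Fin k)) g) x = fun i => g (x i) := rfl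
  rw [h1, strip_comp]
  rfl

end ddlin

section fixed

variable {p : ℕ} {T : Type} [Fintype T] [DecidableEq T] {W : Type} [AddCommGroup W] [Module ℂ W]

/-- vectors fixed by the permutations of the letters `inl i` -/
def fixedK (ρ : Representation ℂ (Equiv.Perm (Fin p ⊕ T)) W) : Submodule ℂ W where
  carrier := {v | ∀ h : Equiv.Perm (Fin p), ρ (Equiv.Perm.sumCongr h 1) v = v}
  add_mem' := by
    intro a b ha hb h
    rw [map_add, ha h, hb h]
  zero_mem' := by intro h; simp
  smul_mem' := by
    intro c v hv h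
    rw [map_smul, hv h]

theorem sumCongr_comm (h : Equiv.Perm (Fin p)) (g : Equiv.Perm T) :
    Equiv.Perm.sumCongr h (1 : Equiv.Perm T) * Equiv.Perm.sumCongr (1 : Equiv.Perm (Fin p)) g
      = Equiv.Perm.sumCongr (1 : Equiv.Perm (Fin p)) g * Equiv.Perm.sumCongr h 1 := by
  rw [Equiv.Perm.sumCongr_mul, Equiv.Perm.sumCongr_mul]; simp

/-- `Perm T` acts on the fixed vectors -/
def fixedRep (ρ : Representation ℂ (Equiv.Perm (Fin p ⊕ T)) W) :
    Representation ℂ (Equiv.Perm T) (fixedK ρ) where
  toFun g := (ρ (Equiv.Perm.sumCongr 1 g)).restrict (p := fixedK ρ) (q := fixedK ρ) (by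
    intro v hv h
    have : ρ (Equiv.Perm.sumCongr h 1) (ρ (Equiv.Perm.sumCongr 1 g) v)
        = ρ (Equiv.Perm.sumCongr 1 g) (ρ (Equiv.Perm.sumCongr h 1) v) := by
      rw [← Module.End.mul_apply, ← Module.End.mul_apply, ← map_mul, ← map_mul, sumCongr_comm]
    rw [this, hv h])
  map_one' := by
    ext v
    simp only [Equiv.Perm.sumCongr_one, map_one]
    rfl
  map_mul' g g' := by
    ext v
    have : Equiv.Perm.sumCongr (1 : Equiv.Perm (Fin p)) (g * g')
        = Equiv.Perm.sumCongr 1 g * Equiv.Perm.sumCongr 1 g' := by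
      rw [Equiv.Perm.sumCongr_mul]; simp
    simp only [this, map_mul]
    rfl

theorem fixedRep_apply (ρ : Representation ℂ (Equiv.Perm (Fin p ⊕ T)) W) (g : Equiv.Perm T)
    (v : fixedK ρ) : ((fixedRep ρ g v : fixedK ρ) : W) = ρ (Equiv.Perm.sumCongr 1 g) (v : W) := rfl

/-- averaging over the permutations of the letters `inl i` -/
noncomputable def avgK (ρ : Representation ℂ (Equiv.Perm (Fin p ⊕ T)) W) : W →ₗ[ℂ] fixedK ρ :=
  LinearMap.codRestrict (fixedK ρ)
    (((Fintype.card (Equiv.Perm (Fin p)) : ℂ)⁻¹) •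
      ∑ h : Equiv.Perm (Fin p), (ρ (Equiv.Perm.sumCongr h 1)))
    (by
      intro v h
      simp only [LinearMap.smul_apply, LinearMap.sum_apply, map_smul, map_sum]
      congr 1
      refine Fintype.sum_equiv (Equiv.mulLeft h) _ _ fun h' => ?_
      rw [← Module.End.mul_apply, ← map_mul, Equiv.Perm.sumCongr_mul]
      simp)

theorem avgK_apply (ρ : Representation ℂ (Equiv.Perm (Fin p ⊕ T)) W) (v : W) :
    ((avgK ρ v : fixedK ρ) : W) = ((Fintype.card (Equiv.Perm (Fin p)) : ℂ)⁻¹) •
      ∑ h : Equiv.Perm (Fin p), (ρ (Equiv.Perm.sumCongr h 1)) v := by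
  change (((Fintype.card (Equiv.Perm (Fin p)) : ℂ)⁻¹) •
      ∑ h : Equiv.Perm (Fin p), (ρ (Equiv.Perm.sumCongr h 1))) v = _
  simp only [LinearMap.smul_apply, LinearMap.sum_apply]

theorem avgK_fixed (ρ : Representation ℂ (Equiv.Perm (Fin p ⊕ T)) W) (v : fixedK ρ) :
    avgK ρ (v : W) = v := by
  apply Subtype.ext
  rw [avgK_apply]
  rw [Finset.sum_congr rfl fun h _ => v.2 h]
  simp only [Finset.sum_const, Finset.card_univ]
  rw [← Nat.cast_smul_eq_nsmul ℂ, smul_smul, inv_mul_cancel₀, one_smul]
  exact_mod_cast Fintype.card_ne_zero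

/-- a permutation of `Fin p ⊕ T` preserving the letters `inl` -/
theorem exists_sumCongr (g : Equiv.Perm (Fin p ⊕ T)) (h : ∀ i, ∃ j, g (Sum.inl i) = Sum.inl j) :
    ∃ g1 g2, g = Equiv.Perm.sumCongr g1 g2 := by
  have hm : Set.MapsTo g (Set.range (Sum.inl : Fin p → Fin p ⊕ T))
      (Set.range (Sum.inl : Fin p → Fin p ⊕ T)) := by
    rintro _ ⟨i, rfl⟩
    obtain ⟨j, hj⟩ := h i
    exact ⟨j, hj.symm⟩
  obtain ⟨x, hx⟩ := Equiv.Perm.mem_sumCongrHom_range_of_perm_mapsTo_inl hm
  exact ⟨x.1, x.2, hx.symm⟩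

end fixed

section hstep

variable {p : ℕ} {T : Type} [Fintype T] [DecidableEq T] {W : Type} [AddCommGroup W] [Module ℂ W]

theorem extN_add (F G : (T → ℕ × ℕ) → ℂ) :
    (extN (F + G) : (Fin p ⊕ T → Option (ℕ × ℕ)) → ℂ) = extN F + extN G := by
  funext w
  unfold extN
  simp only [Pi.add_apply]
  split_ifs <;> simp

theorem extN_smul (c : ℂ) (F : (T → ℕ × ℕ) → ℂ) :
    (extN (c • F) : (Fin p ⊕ T → Option (ℕ × ℕ)) → ℂ) = c • extN F := by
  funext w
  unfold extN
  simp only [Pi.smul_apply]
  split_ifs <;> simp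

variable (ρ : Representation ℂ (Equiv.Perm (Fin p ⊕ T)) W)
  (α : fixedK ρ →ₗ[ℂ] ((T → ℕ × ℕ) → ℂ))

/-- the family with letters `none` -/
noncomputable def PhiV (v : W) (w : Fin p ⊕ T → Option (ℕ × ℕ)) : ℂ :=
  ∑ g : Equiv.Perm (Fin p ⊕ T), extN (α (avgK ρ (ρ g⁻¹ v))) (w ∘ g)

theorem PhiV_add (v v' : W) : PhiV ρ α (v + v') = PhiV ρ α v + PhiV ρ α v' := by
  funext w
  unfold PhiV
  simp only [Pi.add_apply, map_add, extN_add, Finset.sum_add_distrib]

theorem PhiV_smul (c : ℂ) (v : W) : PhiV ρ α (c • v) = c • PhiV ρ α v := by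
  funext w
  unfold PhiV
  simp only [Pi.smul_apply, map_smul, extN_smul, Finset.smul_sum]

theorem PhiV_act (g : Equiv.Perm (Fin p ⊕ T)) (v : W) (w : Fin p ⊕ T → Option (ℕ × ℕ)) :
    PhiV ρ α (ρ g v) w = PhiV ρ α v (w ∘ g) := by
  unfold PhiV
  refine Fintype.sum_equiv (Equiv.mulLeft g⁻¹) _ _ fun h => ?_
  have h1 : ρ h⁻¹ (ρ g v) = ρ ((Equiv.mulLeft g⁻¹) h)⁻¹ v := by
    rw [← Module.End.mul_apply, ← map_mul]
    congr 2
  have h2 : (w ∘ g) ∘ ((Equiv.mulLeft g⁻¹) h) = w ∘ h := by
    funext t
    simp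
  rw [h1, h2]

/-- the intertwiner -/
noncomputable def phiL : W →ₗ[ℂ] ((Fin p ⊕ T → ℕ × ℕ) → ℂ) where
  toFun v w := ∑ σ : Equiv.Perm (Fin p), ((Equiv.Perm.sign σ : ℤ) : ℂ) *
      DD (cell σ) (PhiV ρ α v) (fun t => some (w t))
  map_add' v v' := by
    funext w
    simp only [Pi.add_apply]
    rw [← Finset.sum_add_distrib]
    refine Finset.sum_congr rfl fun σ _ => ?_
    rw [PhiV_add, DD_add, mul_add]
  map_smul' c v := by
    funext w
    simp only [Pi.smul_apply, smul_eq_mul, RingHom.id_apply]
    rw [Finset.mul_sum]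
    refine Finset.sum_congr rfl fun σ _ => ?_
    rw [PhiV_smul, DD_smul]; ring

theorem phiL_apply (v : W) (w : Fin p ⊕ T → ℕ × ℕ) : phiL ρ α v w
    = ∑ σ : Equiv.Perm (Fin p), ((Equiv.Perm.sign σ : ℤ) : ℂ) *
      DD (cell σ) (PhiV ρ α v) (fun t => some (w t)) := rfl

theorem phiL_act (g : Equiv.Perm (Fin p ⊕ T)) (v : W) (w : Fin p ⊕ T → ℕ × ℕ) :
    phiL ρ α (ρ g v) w = phiL ρ α v (w ∘ g) := by
  rw [phiL_apply, phiL_apply]
  refine Finset.sum_congr rfl fun σ _ => ?_
  congr 1
  have h1 : PhiV ρ α (ρ g v) = fun w => PhiV ρ α v (w ∘ g) := funext fun w => PhiV_act ρ α g v w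
  rw [h1, DD_act]
  rfl

theorem phiL_mem {a b : Finset (ℕ × ℕ)} (hα : ∀ u, α u ∈ Kr T a b) (v : W) :
    phiL ρ α v ∈ Kr (Fin p ⊕ T) (addCol p a) (addCol p b) := by
  have h1 : phiL ρ α v = ∑ g : Equiv.Perm (Fin p ⊕ T), (fun w : Fin p ⊕ T → ℕ × ℕ =>
      (fun w : Fin p ⊕ T → ℕ × ℕ => ∑ σ : Equiv.Perm (Fin p), ((Equiv.Perm.sign σ : ℤ) : ℂ) *
      DD (cell σ) (extN (α (avgK ρ (ρ g⁻¹ v)))) (fun t => some (w t))) (w ∘ g)) := by
    funext w
    rw [phiL_apply, Finset.sum_apply, Finset.sum_comm]
    refine Finset.sum_congr rfl fun σ _ => ?_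
    rw [← Finset.mul_sum]
    congr 1
    unfold PhiV
    rw [DD_sum]
    refine Finset.sum_congr rfl fun g _ => ?_
    rw [DD_act]
    rfl
  rw [h1]
  refine Submodule.sum_mem _ fun g _ => ?_
  exact Kr_act (DD_extN_mem (hα _)) g

end hstep

section content

variable {T : Type*} [Fintype T] [DecidableEq T]

theorem polyF_content {D : Finset (ℕ × ℕ)} {τ : T → ℕ × ℕ} (hτ : IsTab D τ) {w : T → ℕ}
    (hw : polyF τ w ≠ 0) (i : ℕ) : (univ.filter (fun t => w t = i)).card = rowlen D i := by
  obtain ⟨σ, -, hσ⟩ := polyF_support hw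
  unfold rowlen
  have h1 : (univ.filter (fun t => w t = i)) = (univ.filter (fun t => (τ t).1 = i)).map
      σ.toEmbedding := by
    ext t
    simp only [mem_filter, mem_univ, true_and, mem_map_equiv]
    have := hσ (σ.symm t)
    rw [Equiv.apply_symm_apply] at this
    rw [this]
  rw [h1, Finset.card_map, ← hτ.2, Finset.filter_image, Finset.card_image_of_injective _ hτ.1]

theorem Kr_content {a b : Finset (ℕ × ℕ)} {F : (T → ℕ × ℕ) → ℂ} (hF : F ∈ Kr T a b) :
    ∀ x : T → ℕ × ℕ, F x ≠ 0 → (∀ i, (univ.filter (fun t => (x t).1 = i)).card = rowlen a i) ∧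
      (∀ j, (univ.filter (fun t => (x t).2 = j)).card = rowlen b j) := by
  unfold Kr at hF
  induction hF using Submodule.span_induction with
  | mem f hf =>
    obtain ⟨τ, τ', hτ, hτ', rfl⟩ := hf
    intro x hx
    unfold prodF at hx
    exact ⟨polyF_content hτ (left_ne_zero_of_mul hx), polyF_content hτ' (right_ne_zero_of_mul hx)⟩
  | zero => intro x hx; exact absurd rfl hx
  | add f g _ _ hf hg =>
    intro x hx
    by_cases h : f x = 0
    · exact hg x (fun h' => hx (by simp [h, h']))
    · exact hf x h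
  | smul c f _ hf =>
    intro x hx
    exact hf x (fun h => hx (by simp [h]))

theorem cnt_comp {X : Type*} [DecidableEq X] (w : T → X) (g : Equiv.Perm T) (q : X) :
    cnt (w ∘ g) q = cnt w q := by
  unfold cnt
  have h1 : (univ.filter (fun t => w t = q)) = (univ.filter (fun t => (w ∘ g) t = q)).map
      g.toEmbedding := by
    ext t
    simp only [mem_filter, mem_univ, true_and, mem_map_equiv, comp_apply, Equiv.apply_symm_apply]
  rw [h1, Finset.card_map]

end content

section final

variable {p : ℕ} {T : Type} [Fintype T] [DecidableEq T] {W : Type} [AddCommGroup W] [Module ℂ W]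

theorem PhiV_base (ρ : Representation ℂ (Equiv.Perm (Fin p ⊕ T)) W)
    (α : fixedK ρ →ₗ[ℂ] ((T → ℕ × ℕ) → ℂ))
    (hα : ∀ (g : Equiv.Perm T) (u : fixedK ρ) (w : T → ℕ × ℕ),
      α (fixedRep ρ g u) w = α u (w ∘ g))
    (u : fixedK ρ) (x : T → ℕ × ℕ) (hx : α u x ≠ 0) :
    PhiV ρ α (u : W) (Sum.elim (fun _ => none) (fun t => some (x t))) ≠ 0 := by
  classical
  set w0 : Fin p ⊕ T → Option (ℕ × ℕ) := Sum.elim (fun _ => none) (fun t => some (x t)) with hw0
  have key : ∀ g : Equiv.Perm (Fin p ⊕ T), extN (α (avgK ρ (ρ g⁻¹ (u : W)))) (w0 ∘ g)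
      = if (∀ i, ∃ j, g (Sum.inl i) = Sum.inl j) then α u x else 0 := by
    intro g
    by_cases hg : ∀ i, ∃ j, g (Sum.inl i) = Sum.inl j
    · rw [if_pos hg]
      obtain ⟨g1, g2, rfl⟩ := exists_sumCongr g hg
      have h1 : (∀ i, (w0 ∘ Equiv.Perm.sumCongr g1 g2) (Sum.inl i) = none) ∧
          (∀ t, (w0 ∘ Equiv.Perm.sumCongr g1 g2) (Sum.inr t) ≠ none) := by
        refine ⟨fun i => ?_, fun t => ?_⟩
        · simp [hw0]
        · simp [hw0]
      unfold extN
      rw [if_pos h1]
      have h2 : ρ (Equiv.Perm.sumCongr g1 g2)⁻¹ (u : W) = (fixedRep ρ g2⁻¹ u : W) := by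
        rw [fixedRep_apply]
        have : (Equiv.Perm.sumCongr g1 g2)⁻¹ = Equiv.Perm.sumCongr 1 g2⁻¹
            * Equiv.Perm.sumCongr g1⁻¹ 1 := by
          rw [Equiv.Perm.sumCongr_mul, Equiv.Perm.sumCongr_inv]; simp
        rw [this, map_mul, Module.End.mul_apply, u.2 g1⁻¹]
      rw [h2, avgK_fixed, hα]
      refine congrArg (α u) (funext fun t => ?_)
      simp [hw0]
    · rw [if_neg hg]
      unfold extN
      rw [if_neg]
      rintro ⟨h1, -⟩
      apply hg
      intro i
      have := h1 i
      rcases hgi : g (Sum.inl i) with j | t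
      · exact ⟨j, rfl⟩
      · simp [hw0, hgi] at this
  unfold PhiV
  rw [Finset.sum_congr rfl fun g _ => key g, ← Finset.sum_filter, Finset.sum_const, nsmul_eq_mul]
  refine mul_ne_zero ?_ hx
  have : (univ.filter (fun g : Equiv.Perm (Fin p ⊕ T) =>
      ∀ i, ∃ j, g (Sum.inl i) = Sum.inl j)).Nonempty :=
    ⟨1, by simp⟩
  exact_mod_cast this.card_pos.ne'

theorem PhiV_content {a b : Finset (ℕ × ℕ)} (ρ : Representation ℂ (Equiv.Perm (Fin p ⊕ T)) W)
    (α : fixedK ρ →ₗ[ℂ] ((T → ℕ × ℕ) → ℂ)) (hα : ∀ u, α u ∈ Kr T a b) (v : W)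
    (w : Fin p ⊕ T → Option (ℕ × ℕ)) (hw : PhiV ρ α v w ≠ 0) :
    cnt w none = p ∧ ∀ i j, cnt w (some (i, j)) ≤ min (rowlen a i) (rowlen b j) := by
  classical
  unfold PhiV at hw
  obtain ⟨g, -, hg⟩ := Finset.exists_ne_zero_of_sum_ne_zero hw
  set y := w ∘ g with hy
  have hcnt : ∀ q, cnt w q = cnt y q := fun q => (cnt_comp w g q).symm
  unfold extN at hg
  by_cases hc : (∀ i, y (Sum.inl i) = none) ∧ (∀ t, y (Sum.inr t) ≠ none)
  · rw [if_pos hc] at hg
    have hcont := Kr_content (hα _) _ hg
    constructor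
    · rw [hcnt]
      unfold cnt
      have : (univ.filter (fun t => y t = none)) = univ.image (Sum.inl : Fin p → Fin p ⊕ T) := by
        ext z
        simp only [mem_filter, mem_univ, true_and, mem_image]
        rcases z with i | t
        · exact ⟨fun _ => ⟨i, rfl⟩, fun _ => hc.1 i⟩
        · exact ⟨fun h => absurd h (hc.2 t), fun ⟨j, hj⟩ => absurd hj (by simp)⟩
      rw [this, Finset.card_image_of_injective _ Sum.inl_injective]; simp
    · intro i j
      rw [hcnt]
      have h1 : cnt y (some (i, j)) = (univ.filter (fun t : T => y (Sum.inr t) = some (i, j))).card := by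
        unfold cnt
        rw [← Finset.card_image_of_injective (univ.filter (fun t : T => y (Sum.inr t) = some (i, j)))
          (Sum.inr_injective : Injective (Sum.inr : T → Fin p ⊕ T))]
        congr 1
        ext z
        simp only [mem_filter, mem_univ, true_and, mem_image]
        rcases z with k | t
        · constructor
          · intro h; rw [hc.1 k] at h; exact absurd h (by simp)
          · rintro ⟨t, -, ht⟩; exact absurd ht (by simp)
        · constructor
          · intro h; exact ⟨t, h, rfl⟩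
          · rintro ⟨s, hs, hst⟩
            rw [← hst]; exact hs
      rw [h1, le_min_iff, ← hcont.1 i, ← hcont.2 j]
      constructor
      · refine Finset.card_le_card fun t => ?_
        simp only [mem_filter, mem_univ, true_and]
        intro h; rw [h]; rfl
      · refine Finset.card_le_card fun t => ?_
        simp only [mem_filter, mem_univ, true_and]
        intro h; rw [h]; rfl
  · rw [if_neg hc] at hg; exact absurd rfl hg

/-- embed the letters -/
def embL (p : ℕ) : Option (Fin p × Fin p) → Option (ℕ × ℕ) :=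
  Option.map (fun c => ((c.1 : ℕ), (c.2 : ℕ)))

theorem embL_inj (p : ℕ) : Injective (embL p) := by
  refine Option.map_injective ?_
  intro c d h
  exact Prod.ext (Fin.ext (Prod.mk.inj h).1) (Fin.ext (Prod.mk.inj h).2)

theorem DD_emb (σ : Equiv.Perm (Fin p)) (Φ : (Fin p ⊕ T → Option (ℕ × ℕ)) → ℂ)
    (w : Fin p ⊕ T → Option (Fin p × Fin p)) :
    DD (fun i => (i, σ i)) (fun w => Φ (embL p ∘ w)) w = DD (cell σ) Φ (embL p ∘ w) := by
  classical
  unfold DD
  refine Finset.sum_congr rfl fun x _ => ?_
  have h1 : (∀ i, w (x i) = some (i, σ i)) ↔ (∀ i, (embL p ∘ w) (x i) = some (cell σ i)) := by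
    constructor
    · intro h i
      simp [h i, embL, cell]
    · intro h i
      have h2 := h i
      apply embL_inj p
      rw [comp_apply] at h2
      rw [h2]; rfl
  have h2 : embL p ∘ strip x w = strip x (embL p ∘ w) := by
    funext t
    unfold strip
    simp only [comp_apply]
    split_ifs <;> rfl
  by_cases h : ∀ i, w (x i) = some (i, σ i)
  · rw [if_pos h, if_pos (h1.1 h)]
    simp only [h2]
  · rw [if_neg h, if_neg (fun h' => h (h1.2 h'))]

/-- **H-step**, relative form: it suffices that the fixed vectors of `Perm (Fin p)` occur. -/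
theorem hstep_sum_occ {a b : Finset (ℕ × ℕ)} (ha : ∀ c ∈ a, c.1 < p) (hb : ∀ c ∈ b, c.1 < p)
    (e : Fin p ≃ Fin p)
    (he : ∀ k : Fin p, min (rowlen a (e k)) (rowlen b (Fin.rev (e k))) < p - k)
    (ρ : Representation ℂ (Equiv.Perm (Fin p ⊕ T)) W) (hocc : Occ (fixedRep ρ) (Kr T a b)) :
    Occ ρ (Kr (Fin p ⊕ T) (addCol p a) (addCol p b)) := by
  classical
  obtain ⟨α, hα0, hαm, hαe⟩ := hocc
  refine ⟨phiL ρ α, ?_, fun v => phiL_mem ρ α hαm v, fun g v w => phiL_act ρ α g v w⟩
  intro hzero
  obtain ⟨u, hu⟩ : ∃ u, α u ≠ 0 := by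
    by_contra hcon
    push Not at hcon
    exact hα0 (LinearMap.ext hcon)
  obtain ⟨x, hx⟩ : ∃ x, α u x ≠ 0 := by
    by_contra hcon
    push Not at hcon
    exact hu (funext hcon)
  have hbase := PhiV_base ρ α hαe u x hx
  have hcontent := fun w hw => PhiV_content ρ α hαm (u : W) w hw
  have hemb0 : ∀ (w : Fin p ⊕ T → Option (Fin p × Fin p)) (q : Option (Fin p × Fin p)),
      cnt w q = cnt (embL p ∘ w) (embL p q) := by
    intro w q
    unfold cnt
    congr 1
    ext t
    simp only [mem_filter, mem_univ, true_and, comp_apply]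
    exact ⟨fun h => by rw [h], fun h => embL_inj p h⟩
  have hz := hcore e (fun w => PhiV ρ α (u : W) (embL p ∘ w)) ?_ ?_ ?_
  · -- contradiction with the base word
    have hxp : ∀ t, (x t).1 < p ∧ (x t).2 < p := by
      intro t
      have hc := Kr_content (hαm u) x hx
      constructor
      · have h1 : 0 < rowlen a (x t).1 := by
          rw [← hc.1 (x t).1]
          exact Finset.card_pos.2 ⟨t, by simp⟩
        obtain ⟨c, hcm⟩ := Finset.card_pos.1 h1
        have := Finset.mem_filter.1 hcm
        rw [← this.2]; exact ha c this.1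
      · have h1 : 0 < rowlen b (x t).2 := by
          rw [← hc.2 (x t).2]
          exact Finset.card_pos.2 ⟨t, by simp⟩
        obtain ⟨c, hcm⟩ := Finset.card_pos.1 h1
        have := Finset.mem_filter.1 hcm
        rw [← this.2]; exact hb c this.1
    have h1 := hz (Sum.elim (fun _ => none)
      (fun t => some (⟨(x t).1, (hxp t).1⟩, ⟨(x t).2, (hxp t).2⟩)))
    apply hbase
    rw [← h1]
    congr 1
    funext z
    rcases z with i | t
    · rfl
    · simp [embL]
  · intro w hw
    rw [hemb0]
    exact (hcontent _ hw).1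
  · intro w hw k
    rw [hemb0]
    exact lt_of_le_of_lt ((hcontent _ hw).2 _ _) (he k)
  · intro w
    by_cases hwn : ∀ z, w z ≠ none
    · have h1 : ∀ z, ∃ c, w z = some c := fun z => Option.ne_none_iff_exists'.1 (hwn z)
      choose c hc using h1
      have h2 : embL p ∘ w = fun z => some (((c z).1 : ℕ), ((c z).2 : ℕ)) := by
        funext z
        simp [hc z, embL]
      have h3 := congrFun (LinearMap.congr_fun hzero (u : W))
        (fun z => (((c z).1 : ℕ), ((c z).2 : ℕ)))
      rw [phiL_apply] at h3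
      rw [← h2] at h3
      simp only [LinearMap.zero_apply, Pi.zero_apply] at h3
      rw [← h3]
      refine Finset.sum_congr rfl fun σ _ => ?_
      rw [DD_emb]
    · push Not at hwn
      obtain ⟨z, hz⟩ := hwn
      refine Finset.sum_eq_zero fun σ _ => ?_
      have : DD (fun i => (i, σ i)) (fun w => PhiV ρ α (u : W) (embL p ∘ w)) w = 0 := by
        unfold DD
        refine Finset.sum_eq_zero fun y _ => ?_
        by_cases hy : ∀ i, w (y i) = some (i, σ i)
        · rw [if_pos hy]
          by_contra hne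
          have h1 := (hcontent _ hne).1
          have h2 := hemb0 (strip y w) none
          have h3 : embL p none = none := rfl
          rw [h3, h1] at h2
          have h4 := cnt_strip_none (fun i => (i, σ i)) (fun i j hij => (Prod.mk.inj hij).1) y w hy
          rw [h4] at h2
          have h5 : 0 < cnt w none := Finset.card_pos.2 ⟨z, by simp [hz]⟩
          omega
        · rw [if_neg hy]
      rw [this, mul_zero]

/-- **H-step** (column of length `p` added on the left of both shapes). -/
theorem hstep_sum {a b : Finset (ℕ × ℕ)} (ha : ∀ c ∈ a, c.1 < p) (hb : ∀ c ∈ b, c.1 < p)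
    (e : Fin p ≃ Fin p)
    (he : ∀ k : Fin p, min (rowlen a (e k)) (rowlen b (Fin.rev (e k))) < p - k)
    (hT : Fintype.card T = a.card) (hfull : Full a b)
    (ρ : Representation ℂ (Equiv.Perm (Fin p ⊕ T)) W) (v : W) (hv0 : v ≠ 0)
    (hv : ∀ h : Equiv.Perm (Fin p), ρ (Equiv.Perm.sumCongr h 1) v = v) :
    Occ ρ (Kr (Fin p ⊕ T) (addCol p a) (addCol p b)) :=
  hstep_sum_occ ha hb e he ρ (hfull T hT (fixedK ρ) (fixedRep ρ)
    ⟨⟨v, hv⟩, fun h => hv0 (congrArg Subtype.val h)⟩)

end final

end Crest.Agent.R195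
end

-- ▼ part R195/HGen

/-! Row 195: H-step for arbitrary letter types, Young diagram form, staircase corollary. -/

set_option autoImplicit false
set_option linter.unusedSectionVars false
set_option linter.unusedDecidableInType false

namespace Crest.Agent.R195

open Finset Function

section transport

variable {T₁ T₂ : Type*} [Fintype T₁] [DecidableEq T₁] [Fintype T₂] [DecidableEq T₂]

theorem polyF_relabel (θ : T₁ ≃ T₂) (τ : T₂ → ℕ × ℕ) (w : T₂ → ℕ) :
    polyF (τ ∘ θ) (w ∘ θ) = polyF τ w := by
  unfold polyF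
  refine Fintype.sum_equiv θ.permCongr _ _ fun σ => ?_
  have h1 : ((∀ i, ((τ ∘ θ) (σ i)).2 = ((τ ∘ θ) i).2) ∧ ∀ i, (w ∘ θ) (σ i) = ((τ ∘ θ) i).1) ↔
      ((∀ i, (τ ((θ.permCongr σ) i)).2 = (τ i).2) ∧ ∀ i, w ((θ.permCongr σ) i) = (τ i).1) := by
    simp only [comp_apply, Equiv.permCongr_apply]
    constructor
    · rintro ⟨ha, hb⟩
      refine ⟨fun i => ?_, fun i => ?_⟩
      · simpa using ha (θ.symm i)
      · simpa using hb (θ.symm i)
    · rintro ⟨ha, hb⟩
      refine ⟨fun i => ?_, fun i => ?_⟩
      · simpa using ha (θ i)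
      · simpa using hb (θ i)
  rw [Equiv.Perm.sign_permCongr]
  by_cases h : (∀ i, ((τ ∘ θ) (σ i)).2 = ((τ ∘ θ) i).2) ∧ ∀ i, (w ∘ θ) (σ i) = ((τ ∘ θ) i).1
  · rw [if_pos h, if_pos (h1.1 h)]
  · rw [if_neg h, if_neg (fun h' => h (h1.2 h'))]

theorem IsTab.relabel {D : Finset (ℕ × ℕ)} {τ : T₁ → ℕ × ℕ} (h : IsTab D τ) (θ : T₂ ≃ T₁) :
    IsTab D (τ ∘ θ) := by
  refine ⟨h.1.comp θ.injective, ?_⟩
  rw [← h.2]
  ext c
  simp only [mem_image, mem_univ, true_and, comp_apply]
  exact ⟨fun ⟨t, ht⟩ => ⟨θ t, ht⟩, fun ⟨t, ht⟩ => ⟨θ.symm t, by simpa using ht⟩⟩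


theorem Kr_relabel (θ : T₁ ≃ T₂) {D E : Finset (ℕ × ℕ)} {f : (T₁ → ℕ × ℕ) → ℂ}
    (hf : f ∈ Kr T₁ D E) : (fun w : T₂ → ℕ × ℕ => f (w ∘ θ)) ∈ Kr T₂ D E := by
  unfold Kr at hf ⊢
  induction hf using Submodule.span_induction with
  | mem x hx =>
    obtain ⟨τ, τ', hτ, hτ', rfl⟩ := hx
    refine Submodule.subset_span ⟨τ ∘ θ.symm, τ' ∘ θ.symm, hτ.relabel θ.symm,
      hτ'.relabel θ.symm, ?_⟩
    funext w
    unfold prodF
    rw [← polyF_relabel θ (τ ∘ θ.symm), ← polyF_relabel θ (τ' ∘ θ.symm)]
    have h1 : (τ ∘ θ.symm) ∘ θ = τ := by funext t; simp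
    have h2 : (τ' ∘ θ.symm) ∘ θ = τ' := by funext t; simp
    rw [h1, h2]
    rfl
  | zero => exact Submodule.zero_mem _
  | add x y _ _ hx hy => exact Submodule.add_mem _ hx hy
  | smul a x _ hx => exact Submodule.smul_mem _ a hx

/-- transport of a representation along `θ : T₁ ≃ T₂` -/
def relRep {W : Type*} [AddCommGroup W] [Module ℂ W] (θ : T₁ ≃ T₂)
    (ρ : Representation ℂ (Equiv.Perm T₂) W) : Representation ℂ (Equiv.Perm T₁) W :=
  ρ.comp θ.permCongrHom.toMonoidHom

theorem relRep_apply {W : Type*} [AddCommGroup W] [Module ℂ W] (θ : T₁ ≃ T₂)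
    (ρ : Representation ℂ (Equiv.Perm T₂) W) (g : Equiv.Perm T₁) (v : W) :
    relRep θ ρ g v = ρ (θ.permCongr g) v := rfl

theorem Occ.relabel {W : Type*} [AddCommGroup W] [Module ℂ W] (θ : T₁ ≃ T₂)
    {ρ : Representation ℂ (Equiv.Perm T₂) W} {D E : Finset (ℕ × ℕ)}
    (h : Occ (relRep θ ρ) (Kr T₁ D E)) : Occ ρ (Kr T₂ D E) := by
  obtain ⟨φ, hφ0, hφm, hφe⟩ := h
  refine ⟨{ toFun := fun v w => φ v (w ∘ θ), map_add' := ?_, map_smul' := ?_ }, ?_, ?_, ?_⟩
  · intro u v; funext w; simp
  · intro c v; funext w; simp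
  · intro h0
    apply hφ0
    ext v w
    have := congrFun (LinearMap.congr_fun h0 v) (w ∘ θ.symm)
    simp only [LinearMap.coe_mk, AddHom.coe_mk, LinearMap.zero_apply, Pi.zero_apply] at this
    have h1 : (w ∘ θ.symm) ∘ θ = w := by funext t; simp
    rw [h1] at this
    rw [this]; rfl
  · intro v
    exact Kr_relabel θ (hφm v)
  · intro g v w
    simp only [LinearMap.coe_mk, AddHom.coe_mk]
    have h1 : ρ g v = relRep θ ρ (θ.permCongr.symm g) v := by
      rw [relRep_apply, Equiv.apply_symm_apply]
    rw [h1, hφe]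
    refine congrArg (φ v) (funext fun t => ?_)
    simp [Equiv.permCongr_symm, Equiv.permCongr_apply]

end transport

section general

/-- **H-step**, letters `T`, the column of length `p` is filled by a `p`-subset `K`. -/
theorem hstep {p : ℕ} {a b : Finset (ℕ × ℕ)} (ha : ∀ c ∈ a, c.1 < p) (hb : ∀ c ∈ b, c.1 < p)
    (e : Fin p ≃ Fin p)
    (he : ∀ k : Fin p, min (rowlen a (e k)) (rowlen b (Fin.rev (e k))) < p - k)
    (hfull : Full a b)
    {T : Type} [Fintype T] [DecidableEq T] (hT : Fintype.card T = p + a.card)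
    (K : Finset T) (hK : K.card = p)
    {W : Type} [AddCommGroup W] [Module ℂ W] (ρ : Representation ℂ (Equiv.Perm T) W)
    (v : W) (hv0 : v ≠ 0) (hv : ∀ x ∈ K, ∀ y ∈ K, ρ (Equiv.swap x y) v = v) :
    Occ ρ (Kr T (addCol p a) (addCol p b)) := by
  classical
  set θ : Fin p ⊕ {t : T // ¬ t ∈ K} ≃ T :=
    (Equiv.sumCongr (K.equivFinOfCardEq hK).symm (Equiv.refl _)).trans
      (Equiv.sumCompl (fun t => t ∈ K)) with hθ
  refine Occ.relabel θ ?_
  have hcard : Fintype.card {t : T // ¬ t ∈ K} = a.card := by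
    have h1 := Fintype.card_congr θ
    rw [Fintype.card_sum, Fintype.card_fin, hT] at h1
    omega
  refine hstep_sum ha hb e he hcard hfull (relRep θ ρ) v hv0 ?_
  have hθK : ∀ i : Fin p, θ (Sum.inl i) ∈ K := by
    intro i
    simp [hθ]
  intro h
  induction h using Equiv.Perm.swap_induction_on with
  | one => rw [Equiv.Perm.sumCongr_one, map_one]; rfl
  | swap_mul f x y hxy ih =>
    have h1 : Equiv.Perm.sumCongr (Equiv.swap x y * f) (1 : Equiv.Perm {t : T // ¬ t ∈ K})
        = Equiv.Perm.sumCongr (Equiv.swap x y) 1 * Equiv.Perm.sumCongr f 1 := by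
      rw [Equiv.Perm.sumCongr_mul]; simp
    rw [h1, map_mul, Module.End.mul_apply, ih, Equiv.Perm.sumCongr_swap_one, relRep_apply]
    have h2 : θ.permCongr (Equiv.swap (Sum.inl x) (Sum.inl y))
        = Equiv.swap (θ (Sum.inl x)) (θ (Sum.inl y)) := by
      ext t
      simp [Equiv.permCongr_apply, Equiv.swap_apply_def, Equiv.symm_apply_eq]
      split_ifs <;> simp_all
    rw [h2]
    exact hv _ (hθK x) _ (hθK y)

/-- enumeration in decreasing order -/
theorem exists_enum {p : ℕ} (f : Fin p → ℕ)
    (hf : ∀ s, 1 ≤ s → (univ.filter (fun i => s ≤ f i)).card ≤ p - s) :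
    ∃ e : Fin p ≃ Fin p, ∀ k : Fin p, f (e k) < p - k := by
  classical
  refine ⟨Fin.revPerm.trans (Tuple.sort f), fun k => ?_⟩
  set e : Fin p ≃ Fin p := Fin.revPerm.trans (Tuple.sort f) with he
  have hanti : Antitone (f ∘ e) := by
    intro i j hij
    have := Tuple.monotone_sort f (Fin.rev_le_rev.2 hij)
    simpa [he] using this
  by_cases h0 : f (e k) = 0
  · rw [h0]; have := k.2; omega
  · have h1 := hf (f (e k)) (by omega)
    have h2 : (Finset.Iic k).card ≤ (univ.filter (fun i => f (e k) ≤ f i)).card := by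
      rw [← Finset.card_image_of_injective (Finset.Iic k) e.injective]
      refine Finset.card_le_card ?_
      intro i hi
      simp only [mem_image, Finset.mem_Iic] at hi
      obtain ⟨j, hj, rfl⟩ := hi
      simp only [mem_filter, mem_univ, true_and]
      exact hanti hj
    rw [Fin.card_Iic] at h2
    omega

theorem rowlen_cells (μ : YoungDiagram) (i : ℕ) : rowlen μ.cells i = μ.rowLen i := by
  rw [YoungDiagram.rowLen_eq_card]
  rfl

theorem young_rows {p : ℕ} (μ : YoungDiagram) (hμ : μ.colLen 0 ≤ p) : ∀ c ∈ μ.cells, c.1 < p := by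
  intro c hc
  have h1 : (c.1, c.2) ∈ μ := hc
  have h2 := YoungDiagram.mem_iff_lt_colLen.1 h1
  exact lt_of_lt_of_le h2 ((μ.colLen_anti 0 c.2 (Nat.zero_le _)).trans hμ)

theorem young_enum {p : ℕ} (μ ν : YoungDiagram) (hν : ν.colLen 0 ≤ p)
    (hc : ∀ s, μ.colLen s + ν.colLen s ≤ max p (2 * p - (s + 1))) :
    ∃ e : Fin p ≃ Fin p, ∀ k : Fin p,
      min (rowlen μ.cells (e k)) (rowlen ν.cells (Fin.rev (e k))) < p - k := by
  refine exists_enum (fun i : Fin p => min (rowlen μ.cells i)
      (rowlen ν.cells (Fin.rev i))) ?_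
  intro s hs
  obtain ⟨s, rfl⟩ : ∃ s', s = s' + 1 := ⟨s - 1, by omega⟩
  have h1 : ∀ (μ : YoungDiagram) (i : ℕ), s + 1 ≤ rowlen μ.cells i ↔ i < μ.colLen s := by
    intro μ i
    rw [rowlen_cells, Nat.succ_le_iff, ← YoungDiagram.mem_iff_lt_rowLen,
      YoungDiagram.mem_iff_lt_colLen]
  have h2 : (univ.filter (fun i : Fin p => s + 1 ≤ min (rowlen μ.cells i)
      (rowlen ν.cells (Fin.rev i)))).card ≤ μ.colLen s + ν.colLen s - p := by
    have h3 : (univ.filter (fun i : Fin p => s + 1 ≤ min (rowlen μ.cells i)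
        (rowlen ν.cells (Fin.rev i)))).map Fin.valEmbedding
        ⊆ Finset.Ico (p - ν.colLen s) (μ.colLen s) := by
      intro j hj
      simp only [mem_map, mem_filter, mem_univ, true_and, le_min_iff, h1,
        Fin.valEmbedding_apply, Fin.val_rev] at hj
      obtain ⟨i, ⟨hi1, hi2⟩, rfl⟩ := hj
      rw [Finset.mem_Ico]
      have := i.2
      omega
    have h4 := Finset.card_le_card h3
    rw [Finset.card_map, Nat.card_Ico] at h4
    have h5 : ν.colLen s ≤ p := (ν.colLen_anti 0 s (Nat.zero_le _)).trans hν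
    omega
  have := hc s
  omega


end general

section staircase

open Crest.AlgebraR.Specht

theorem mem_stair {m : ℕ} {c : ℕ × ℕ} : c ∈ staircaseShape m ↔ c.1 + c.2 < m := by
  unfold staircaseShape
  simp only [mem_filter, mem_product, Finset.mem_range]
  omega

theorem staircase_succ (m : ℕ) : staircaseShape (m + 1) = addCol (m + 1) (staircaseShape m) := by
  ext c
  rw [mem_stair]
  unfold addCol
  simp only [mem_union, mem_image, Finset.mem_range, mem_stair]
  constructor
  · intro h
    rcases Nat.eq_zero_or_pos c.2 with h0 | h0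
    · left; exact ⟨c.1, by omega, Prod.ext rfl h0.symm⟩
    · right; exact ⟨(c.1, c.2 - 1), by simp; omega, Prod.ext rfl (by simp; omega)⟩
  · rintro (⟨i, hi, rfl⟩ | ⟨d, hd, rfl⟩)
    · simpa using hi
    · simp; omega

theorem card_addCol (p : ℕ) (a : Finset (ℕ × ℕ)) : (addCol p a).card = p + a.card := by
  unfold addCol
  rw [Finset.card_union_of_disjoint, Finset.card_image_of_injective, Finset.card_image_of_injective,
    Finset.card_range]
  · intro c d h
    simp only [Prod.mk.injEq, add_left_inj] at h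
    exact Prod.ext h.1 h.2
  · intro i j h
    exact (Prod.mk.inj h).1
  · rw [Finset.disjoint_left]
    intro c hc hc'
    simp only [mem_image, Finset.mem_range] at hc hc'
    obtain ⟨i, -, rfl⟩ := hc
    obtain ⟨d, -, hd⟩ := hc'
    simp at hd

/-- H-step for the staircases: if `Full` holds for `m` then every rep of `Perm T`, `|T|` of size
`T_{m+1}`, having a nonzero vector fixed by `Perm K`, `|K| = m + 1`, occurs. -/
theorem hstep_stair (m : ℕ) (hfull : Full (staircaseShape m) (staircaseShape m))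
    {T : Type} [Fintype T] [DecidableEq T] (hT : Fintype.card T = (staircaseShape (m + 1)).card)
    (K : Finset T) (hK : K.card = m + 1)
    {W : Type} [AddCommGroup W] [Module ℂ W] (ρ : Representation ℂ (Equiv.Perm T) W)
    (v : W) (hv0 : v ≠ 0) (hv : ∀ x ∈ K, ∀ y ∈ K, ρ (Equiv.swap x y) v = v) :
    Occ ρ (Kr T (staircaseShape (m + 1)) (staircaseShape (m + 1))) := by
  have hrow : ∀ i, rowlen (staircaseShape m) i ≤ m - i := by
    intro i
    unfold rowlen
    have h1 : (staircaseShape m).filter (fun c => c.1 = i) ⊆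
        (Finset.range (m - i)).image (fun j => (i, j)) := by
      intro c hc
      simp only [mem_filter, mem_stair] at hc
      simp only [mem_image, Finset.mem_range]
      exact ⟨c.2, by omega, Prod.ext hc.2.symm rfl⟩
    exact (Finset.card_le_card h1).trans (Finset.card_image_le.trans (by simp))
  rw [staircase_succ] at hT ⊢
  rw [card_addCol] at hT
  refine hstep (p := m + 1) ?_ ?_ (Equiv.refl _) ?_ hfull hT K hK ρ v hv0 hv
  · intro c hc
    rw [mem_stair] at hc; omega
  · intro c hc
    rw [mem_stair] at hc; omega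
  · intro k
    have h1 := hrow (k : ℕ)
    have h2 : min (rowlen (staircaseShape m) ((Equiv.refl (Fin (m+1))) k : Fin (m+1)))
      (rowlen (staircaseShape m) (Fin.rev ((Equiv.refl (Fin (m+1))) k) : Fin (m+1))) ≤
        rowlen (staircaseShape m) (k : ℕ) := min_le_left _ _
    have := k.2
    omega

end staircase

end Crest.Agent.R195
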