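import Crest.Agent.R195.RulesL
import Crest.Agent.R195.Pick

/-! Row 195, S0298 (T3): general facts about the region of the coverage problem. -/

set_option autoImplicit false

namespace Crest.Agent.R195

open Finset Function

theorem region_aux {n B x y : ℕ} (hB : 9 ≤ B) (hn : B * (B + 1) ≤ 2 * n)
    (h : n + 1 + x + y ≤ 4 * B + x * y) (hxy : x + y + 1 ≤ B) : False := by
  have h1 : 4 * (x * y) ≤ (x + y) * (x + y) := by nlinarith [sq_nonneg ((x : ℤ) - y)]
  obtain ⟨s, hs⟩ : ∃ s, s = x + y := ⟨_, rfl⟩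
  rw [← hs] at h1
  have h2 : s * s + s ≤ s * B := by nlinarith
  have h3 : s * B + 6 * B ≤ B * B + 5 * s + 5 := by nlinarith
  nlinarith

namespace Region

variable {n B w w₂ : ℕ} {H : ℕ → ℕ}

theorem w2_le (h : Region n B w w₂ H) : w₂ ≤ w := by
  by_contra hcon
  push Not at hcon
  have h1 := (h.two w).1 hcon
  have h2 := (h.pos w).2 (by omega)
  exact lt_irrefl _ h2

theorem w2_le_B (h : Region n B w w₂ H) : w₂ ≤ B := by
  have := h.w2_le; have := h.row; omega

theorem H_le_zero (h : Region n B w w₂ H) (j : ℕ) : H j ≤ H 0 := h.anti (Nat.zero_le j)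

theorem le_w (h : Region n B w w₂ H) (j : ℕ) : H j ≤ w := (h.H_le_zero j).trans h.wlog

theorem le_H1 (h : Region n B w w₂ H) {j : ℕ} (hj : 1 ≤ j) : H j ≤ H 1 := h.anti hj

theorem H1_le (h : Region n B w w₂ H) : H 1 ≤ B := by
  have := h.H_le_zero 1; have := h.col; omega

theorem le_B (h : Region n B w w₂ H) {j : ℕ} (hj : 1 ≤ j) : H j ≤ B := (h.le_H1 hj).trans h.H1_le

/-- pair sums -/
theorem pair_sum_le (h : Region n B w w₂ H) {i j : ℕ} (hij : i ≠ j) : H i + H j ≤ 2 * B := by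
  have h1 := h.col
  have h2 := h.H1_le
  rcases Nat.eq_zero_or_pos i with rfl | hi
  · have := h.le_H1 (j := j) (by omega); omega
  · rcases Nat.eq_zero_or_pos j with rfl | hj
    · have := h.le_H1 hi; omega
    · have := h.le_B hi; have := h.le_B hj; omega


theorem n_le (h : Region n B w w₂ H) : n ≤ w * H 0 := by
  rw [← h.sum]
  calc ∑ j ∈ range w, H j ≤ ∑ _j ∈ range w, H 0 := sum_le_sum fun j _ => h.H_le_zero j
    _ = w * H 0 := by rw [sum_const, card_range, smul_eq_mul]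

theorem n_le_sq (h : Region n B w w₂ H) : n ≤ w * w := h.n_le.trans (Nat.mul_le_mul_left _ h.wlog)

theorem w_pos (h : Region n B w w₂ H) (hn : 0 < n) : 0 < w := by
  by_contra hcon
  have h1 : w = 0 := by omega
  have := h.n_le
  rw [h1, zero_mul] at this
  omega

/-- the first column, the first row and the rest -/
theorem n_le_hook (h : Region n B w w₂ H) (hn : 0 < n) :
    n + 1 ≤ H 0 + w + (H 1 - 1) * (w₂ - 1) := by
  have hw := h.w_pos hn
  obtain ⟨v, rfl⟩ : ∃ v, w = v + 1 := ⟨w - 1, by omega⟩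
  have h1 := h.sum
  rw [sum_range_succ'] at h1
  have h2 : ∑ j ∈ range v, H (j + 1) ≤ ∑ j ∈ range v, (1 + if j + 1 < w₂ then H 1 - 1 else 0) := by
    refine sum_le_sum fun j hj => ?_
    have h3 := h.le_H1 (j := j + 1) (by omega)
    split_ifs with h4
    · omega
    · have h5 : ¬ 1 < H (j + 1) := fun h6 => h4 ((h.two _).2 h6)
      omega
  rw [sum_add_distrib, sum_const, card_range, smul_eq_mul, mul_one, ← sum_filter, sum_const,
    smul_eq_mul] at h2
  have h3 : ((range v).filter fun j => j + 1 < w₂).card ≤ w₂ - 1 := by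
    calc ((range v).filter fun j => j + 1 < w₂).card ≤ (range (w₂ - 1)).card := by
          apply card_le_card
          intro j hj
          rw [mem_filter] at hj
          rw [mem_range]; omega
      _ = w₂ - 1 := card_range _
  have h4 := Nat.mul_le_mul_right (H 1 - 1) h3
  have h5 : (w₂ - 1) * (H 1 - 1) = (H 1 - 1) * (w₂ - 1) := mul_comm _ _
  omega

/-- `H₁ + w₂ ≥ B + 2` -/
theorem s_ge (h : Region n B w w₂ H) (hn : B * (B + 1) ≤ 2 * n) (hB : 9 ≤ B) :
    B + 2 ≤ H 1 + w₂ := by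
  by_contra hcon
  push Not at hcon
  have hn0 : 0 < n := by nlinarith
  have h1 := h.n_le_hook hn0
  have h2 := h.col
  have h3 := h.row
  rcases Nat.eq_zero_or_pos (H 1) with h4 | h4
  · rw [h4] at h1
    simp only [Nat.zero_sub, zero_mul] at h1
    nlinarith
  · rcases Nat.eq_zero_or_pos w₂ with h5 | h5
    · rw [h5] at h1
      simp only [Nat.zero_sub, mul_zero] at h1
      nlinarith
    · exact region_aux hB hn (x := H 1 - 1) (y := w₂ - 1) (by omega) (by omega)

/-- `H₀ + w ≤ 3 B - 2` -/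
theorem H0_add_w (h : Region n B w w₂ H) (hn : B * (B + 1) ≤ 2 * n) (hB : 9 ≤ B) :
    H 0 + w + 2 ≤ 3 * B := by
  have h1 := h.s_ge hn hB
  have h2 := h.col
  have h3 := h.row
  omega

/-- lower bound for the second column -/
theorem H1_ge (h : Region n B w w₂ H) (hn : B * (B + 1) ≤ 2 * n) (hB : 9 ≤ B) :
    (B - 2) * (B - 3) ≤ 2 * ((H 1 - 1) * (B - 1)) := by
  have h0 := h.H0_add_w hn hB
  have hn0 : 0 < n := by nlinarith
  have h1 := h.n_le_hook hn0
  have h2 := h.w2_le_B
  have h3 := Nat.mul_le_mul_left (H 1 - 1) (show w₂ - 1 ≤ B - 1 by omega)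
  obtain ⟨b, rfl⟩ : ∃ b, B = b + 9 := ⟨B - 9, by omega⟩
  simp only [show b + 9 - 2 = b + 7 by omega, show b + 9 - 3 = b + 6 by omega,
    show b + 9 - 1 = b + 8 by omega] at h3 ⊢
  nlinarith

/-- lower bound for `w₂` -/
theorem w2_ge (h : Region n B w w₂ H) (hn : B * (B + 1) ≤ 2 * n) (hB : 9 ≤ B) :
    (B - 2) * (B - 3) ≤ 2 * ((w₂ - 1) * (B - 1)) := by
  have h0 := h.H0_add_w hn hB
  have hn0 : 0 < n := by nlinarith
  have h1 := h.n_le_hook hn0
  have h2 := h.H1_le
  have h3 := Nat.mul_le_mul_right (w₂ - 1) (show H 1 - 1 ≤ B - 1 by omega)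
  rw [mul_comm (B - 1)] at h3
  obtain ⟨b, rfl⟩ : ∃ b, B = b + 9 := ⟨B - 9, by omega⟩
  simp only [show b + 9 - 2 = b + 7 by omega, show b + 9 - 3 = b + 6 by omega,
    show b + 9 - 1 = b + 8 by omega] at h3 ⊢
  nlinarith

/-- `H₁ ≥ B / 2 - 1` in the form `2 H₁ + 2 ≥ B` -/
theorem two_H1_ge (h : Region n B w w₂ H) (hn : B * (B + 1) ≤ 2 * n) (hB : 9 ≤ B) :
    B ≤ 2 * H 1 + 2 := by
  have h1 := h.H1_ge hn hB
  by_contra hcon
  push Not at hcon
  obtain ⟨b, rfl⟩ : ∃ b, B = b + 9 := ⟨B - 9, by omega⟩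
  simp only [show b + 9 - 2 = b + 7 by omega, show b + 9 - 3 = b + 6 by omega,
    show b + 9 - 1 = b + 8 by omega] at h1
  have h3 : 2 * (H 1 - 1) ≤ b + 4 := by omega
  have h4 := Nat.mul_le_mul_right (b + 8) h3
  nlinarith

theorem two_w2_ge (h : Region n B w w₂ H) (hn : B * (B + 1) ≤ 2 * n) (hB : 9 ≤ B) :
    B ≤ 2 * w₂ + 2 := by
  have h1 := h.w2_ge hn hB
  by_contra hcon
  push Not at hcon
  obtain ⟨b, rfl⟩ : ∃ b, B = b + 9 := ⟨B - 9, by omega⟩
  simp only [show b + 9 - 2 = b + 7 by omega, show b + 9 - 3 = b + 6 by omega,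
    show b + 9 - 1 = b + 8 by omega] at h1
  have h3 : 2 * (w₂ - 1) ≤ b + 4 := by omega
  have h4 := Nat.mul_le_mul_right (b + 8) h3
  nlinarith

/-- the odd columns carry at least half of the cells outside the first column -/
theorem sum_odd_ge (h : Region n B w w₂ H) :
    n ≤ H 0 + 2 * ∑ i ∈ range (w / 2), H (2 * i + 1) := by
  have key : ∀ m, ∑ j ∈ range (2 * m + 1), H j ≤ H 0 + 2 * ∑ i ∈ range m, H (2 * i + 1) := by
    intro m
    induction m with
    | zero => simp
    | succ m ih =>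
      rw [show 2 * (m + 1) + 1 = 2 * m + 1 + 1 + 1 by ring, sum_range_succ, sum_range_succ,
        sum_range_succ (fun i => H (2 * i + 1))]
      have := h.anti (show 2 * m + 1 ≤ 2 * m + 2 by omega)
      omega
  have h1 := key (w / 2)
  have h2 : ∑ j ∈ range w, H j ≤ ∑ j ∈ range (2 * (w / 2) + 1), H j :=
    sum_le_sum_of_subset (range_subset_range.2 (by omega))
  rw [h.sum] at h2
  omega

/-- capacity of a row of even type which leaves a cell in every column -/
theorem cap_pred (h : Region n B w w₂ H) (hB : 5 ≤ B) :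
    2 * n ≤ (B - 1) * (∑ i ∈ range (w / 2), min 4 (H (2 * i + 1) - 1)) + 2 * (H 0 + w) := by
  have h1 : 4 * ∑ i ∈ range (w / 2), (H (2 * i + 1) - 1) ≤
      (B - 1) * ∑ i ∈ range (w / 2), min 4 (H (2 * i + 1) - 1) := by
    rw [mul_sum, mul_sum]
    refine sum_le_sum fun i _ => ?_
    have h2 := h.le_B (j := 2 * i + 1) (by omega)
    rcases le_total 4 (H (2 * i + 1) - 1) with h3 | h3
    · rw [min_eq_left h3]; omega
    · rw [min_eq_right h3]; exact Nat.mul_le_mul_right _ (by omega)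
  have h2 : ∑ i ∈ range (w / 2), (H (2 * i + 1) - 1) + w / 2 =
      ∑ i ∈ range (w / 2), H (2 * i + 1) := by
    have h5 : ∑ i ∈ range (w / 2), ((H (2 * i + 1) - 1) + 1) =
        ∑ i ∈ range (w / 2), H (2 * i + 1) := by
      refine sum_congr rfl fun i hi => ?_
      have := (h.pos (2 * i + 1)).1 (by have := mem_range.1 hi; omega)
      omega
    rw [sum_add_distrib, sum_const, card_range, smul_eq_mul, mul_one] at h5
    exact h5
  have h3 := h.sum_odd_ge
  omega

/-- capacity of a row of even type -/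
theorem cap_all (h : Region n B w w₂ H) (hw : 4 ≤ w) :
    (w - 1) * (w - 4) + 3 * (n - w) ≤
      2 * ((w - 1) * ∑ i ∈ range (w / 2), min 4 (H (2 * i + 1))) := by
  have h1 : (w / 2) * (w - 4) + 3 * ∑ i ∈ range (w / 2), H (2 * i + 1) ≤
      (w - 1) * ∑ i ∈ range (w / 2), min 4 (H (2 * i + 1)) := by
    rw [mul_sum, mul_sum]
    have : (w / 2) * (w - 4) = ∑ _i ∈ range (w / 2), (w - 4) := by simp
    rw [this, ← sum_add_distrib]
    refine sum_le_sum fun i hi => ?_
    have h2 := h.le_w (2 * i + 1)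
    have h4 := (h.pos (2 * i + 1)).1 (by have := mem_range.1 hi; omega)
    rcases le_total 4 (H (2 * i + 1)) with h3 | h3
    · rw [min_eq_left h3]; omega
    · rw [min_eq_right h3]
      obtain ⟨v, rfl⟩ : ∃ v, w = v + 4 := ⟨w - 4, by omega⟩
      simp only [Nat.add_sub_cancel, show v + 4 - 1 = v + 3 by omega]
      nlinarith
  have h3 := h.sum_odd_ge
  have h4 := h.wlog
  have h5 : (w - 1) * (w - 4) ≤ 2 * (w / 2) * (w - 4) := Nat.mul_le_mul_right _ (by omega)
  have h6 : 2 * (w / 2) * (w - 4) = 2 * ((w / 2) * (w - 4)) := by ring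
  omega

end Region

end Crest.Agent.R195
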