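import Crest.Agent.R195.Merge
import Crest.Agent.R195.Rules
import Crest.Agent.R195.Fam

-- ▼ part R195/TreeRow
section

/-! Row 195, S0298 (helper958).  Rows of even type through parities of multiplicities (`EvenC`), residual
pieces, and the extraction of even rows from rows with entries at most `r`. -/

set_option autoImplicit false

namespace Crest.Agent.R195

open Finset Function

section evenC

variable {ι : Type*} [Fintype ι]

/-- every nonzero value is taken an even number of times -/
def EvenC (x : ι → ℕ) : Prop := ∀ v, 1 ≤ v → Even (univ.filter fun j => x j = v).card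

theorem evenC_of_invol {x : ι → ℕ} (σ : Equiv.Perm ι) (h1 : ∀ j, σ (σ j) = j)
    (h2 : ∀ j, x j ≠ 0 → σ j ≠ j) (h3 : ∀ j, x (σ j) = x j) : EvenC x := by
  classical
  intro v hv
  have h : ∑ _j ∈ univ.filter (fun j => x j = v), (1 : ZMod 2) = 0 := by
    refine Finset.sum_involution (fun j _ => σ j) ?_ ?_ ?_ ?_
    · intro j _; decide
    · intro j hj _
      rw [mem_filter] at hj
      exact h2 j (by omega)
    · intro j hj
      rw [mem_filter] at hj ⊢
      exact ⟨mem_univ _, by rw [h3]; exact hj.2⟩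
    · intro j _; exact h1 j
  rw [Finset.sum_const, nsmul_eq_mul, mul_one] at h
  exact (ZMod.natCast_eq_zero_iff_even).1 h

/-- an even row carries a fixed point free matching of its support -/
theorem invol_of_evenC [DecidableEq ι] {x : ι → ℕ} (h : EvenC x) :
    ∃ σ : Equiv.Perm ι, (∀ j, σ (σ j) = j) ∧ (∀ j, x j ≠ 0 → σ j ≠ j) ∧ (∀ j, x (σ j) = x j) ∧
      ∀ j, x j = 0 → σ j = j := by
  induction hn : (univ.filter fun j => x j ≠ 0).card using Nat.strong_induction_on generalizing x with
  | _ n ih =>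
    by_cases h0 : ∀ j, x j = 0
    · exact ⟨1, fun _ => rfl, fun j hj => absurd (h0 j) hj, fun _ => rfl, fun _ _ => rfl⟩
    push Not at h0
    obtain ⟨a, ha⟩ := h0
    have hev := h (x a) (by omega)
    have hmem : a ∈ univ.filter fun j => x j = x a := by simp
    obtain ⟨b, hb, hba⟩ : ∃ b ∈ univ.filter (fun j => x j = x a), b ≠ a := by
      by_contra hcon
      push Not at hcon
      have h1 : univ.filter (fun j => x j = x a) = {a} :=
        Finset.eq_singleton_iff_unique_mem.2 ⟨hmem, hcon⟩
      rw [h1, Finset.card_singleton] at hev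
      exact absurd hev (by decide)
    have hxb : x b = x a := (mem_filter.1 hb).2
    let y : ι → ℕ := fun j => if j = a ∨ j = b then 0 else x j
    have hya : y a = 0 := by simp [y]
    have hyb : y b = 0 := by simp [y]
    have hy : ∀ j, j ≠ a → j ≠ b → y j = x j := fun j h1 h2 => by simp [y, h1, h2]
    have hyE : EvenC y := by
      intro v hv
      by_cases hva : v = x a
      · have h1 : univ.filter (fun j => x j = v) = insert a (insert b (univ.filter fun j => y j = v)) := by
          ext j
          simp only [mem_filter, mem_univ, true_and, mem_insert]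
          by_cases hja : j = a
          · subst hja; simp [hva]
          · by_cases hjb : j = b
            · subst hjb; simp [hva, hxb]
            · rw [hy j hja hjb]; simp [hja, hjb]
        have h2 := h v hv
        rw [h1, card_insert_of_notMem, card_insert_of_notMem] at h2
        · rw [Nat.even_iff] at h2 ⊢; omega
        · simp only [mem_filter, mem_univ, true_and, hyb]; omega
        · simp only [mem_insert, mem_filter, mem_univ, true_and, hya]
          rintro (h3 | h3)
          · exact hba h3.symm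
          · omega
      · have h1 : univ.filter (fun j => y j = v) = univ.filter fun j => x j = v := by
          ext j
          simp only [mem_filter, mem_univ, true_and]
          by_cases hja : j = a
          · subst hja; rw [hya]; constructor <;> intro h3 <;> omega
          · by_cases hjb : j = b
            · subst hjb; rw [hyb, hxb]; constructor <;> intro h3 <;> omega
            · rw [hy j hja hjb]
        rw [h1]; exact h v hv
    have hlt : (univ.filter fun j => y j ≠ 0).card < n := by
      rw [← hn]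
      apply Finset.card_lt_card
      refine ⟨fun j hj => ?_, fun hcon => ?_⟩
      · rw [mem_filter] at hj ⊢
        refine ⟨mem_univ _, fun h3 => hj.2 ?_⟩
        simp only [y, h3, ite_self]
      · have h3 := hcon (mem_filter.2 ⟨mem_univ a, ha⟩)
        rw [mem_filter] at h3
        exact h3.2 hya
    obtain ⟨τ, t1, t2, t3, t4⟩ := ih _ hlt hyE rfl
    have hτa : τ a = a := t4 a hya
    have hτb : τ b = b := t4 b hyb
    have hτn : ∀ j, j ≠ a → τ j ≠ a := fun j hj h3 => hj (τ.injective (by rw [h3, hτa]))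
    have hτm : ∀ j, j ≠ b → τ j ≠ b := fun j hj h3 => hj (τ.injective (by rw [h3, hτb]))
    have hs : ∀ j, j ≠ a → j ≠ b → (Equiv.swap a b) j = j := fun j h3 h4 =>
      Equiv.swap_apply_of_ne_of_ne h3 h4
    refine ⟨τ * Equiv.swap a b, fun j => ?_, fun j hj => ?_, fun j => ?_, fun j hj => ?_⟩
    · by_cases hja : j = a
      · subst hja; simp [hτb, hτa]
      · by_cases hjb : j = b
        · subst hjb; simp [hτb, hτa]
        · simp only [Equiv.Perm.mul_apply]
          rw [hs j hja hjb, hs _ (hτn j hja) (hτm j hjb), t1]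
    · by_cases hja : j = a
      · subst hja; simpa [hτb] using hba
      · by_cases hjb : j = b
        · subst hjb; simpa [hτa] using (Ne.symm hja)
        · simp only [Equiv.Perm.mul_apply]
          rw [hs j hja hjb]
          exact t2 j (by rw [hy j hja hjb]; exact hj)
    · by_cases hja : j = a
      · subst hja; simp [hτb, hxb]
      · by_cases hjb : j = b
        · subst hjb; simp [hτa, hxb]
        · simp only [Equiv.Perm.mul_apply]
          rw [hs j hja hjb]
          have h3 := t3 j
          rwa [hy _ (hτn j hja) (hτm j hjb), hy j hja hjb] at h3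
    · have hja : j ≠ a := fun h3 => ha (h3 ▸ hj)
      have hjb : j ≠ b := fun h3 => ha (by rw [← hxb, ← h3]; exact hj)
      simp only [Equiv.Perm.mul_apply]
      rw [hs j hja hjb]
      exact t4 j (by rw [hy j hja hjb]; exact hj)


end evenC

end Crest.Agent.R195
end

-- ▼ part R195/TreeRow2
section

/-! Row 195, S0298 (helper958).  Residual pieces and the modification lemma (rows of even type from rows
with entries at most `r` and a few extra cells, absorbed by the plain pieces). -/

set_option autoImplicit false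

namespace Crest.Agent.R195

open Finset Function

/-- kinds of residual pieces -/
inductive RK
  | pl (k : ℕ)
  | ev
  | gp
  deriving DecidableEq

/-- allowed rows of a residual piece of size `S` -/
def RowR {ι : Type*} [Fintype ι] : RK → ℕ → (ι → ℕ) → Prop
  | .pl k, S, x => (∀ j, x j ≤ k) ∧ ∑ j, x j = S
  | .ev, S, x => ∑ j, x j = S ∧ (∀ j, x j ≤ 4) ∧ EvenC x
  | .gp, S, x => ∑ j, x j = S ∧ (((∀ j, x j ≤ 4) ∧ EvenC x ∧ ∃ j, x j = 2) ∨ ∀ j, x j ≤ 1)

theorem RowR.sum_eq {ι : Type*} [Fintype ι] {p : RK} {S : ℕ} {x : ι → ℕ} (h : RowR p S x) :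
    ∑ j, x j = S := by
  cases p with
  | pl k => exact h.2
  | ev => exact h.1
  | gp => exact h.1

/-- decomposition for residual pieces -/
def DecR {ι : Type*} [Fintype ι] (L : List (RK × ℕ)) (H : ι → ℕ) : Prop :=
  ∃ xs : List (ι → ℕ), List.Forall₂ (fun p x => RowR p.1 p.2 x) L xs ∧
    ∀ j, (xs.map fun x => x j).sum = H j

section extract

theorem exists_even_row' {w c r S : ℕ} (z : Fin w → ℕ) (hr : ∀ j, z j ≤ r) (hr4 : r ≤ 4)
    (hS : ∑ j, z j = S) (hc : 2 * c + r ≤ S + 1) :
    ∃ x : Fin w → ℕ, RowR .ev (2 * c) x ∧ ∀ j, x j ≤ z j := by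
  obtain ⟨e, f, hf, hfe, hf0⟩ := exists_sort_fin z
  have hfr : ∀ i, f i ≤ r := fun i => by
    by_cases hi : i < w
    · rw [hfe ⟨i, hi⟩]; exact hr _
    · rw [hf0 i (not_lt.mp hi)]; omega
  have hsum : ∑ j ∈ range w, f j = S := by
    rw [← Fin.sum_univ_eq_sum_range f w, ← hS, ← Equiv.sum_comp e z]
    exact sum_congr rfl fun j _ => hfe j
  have h1 := sum_le_double_odd' hf w
  have h2 := hfr 0
  obtain ⟨y, -, hy2, hy3, hy4⟩ := exists_pick (w / 2) c (fun _ => 0) (fun i => f (2 * i + 1))
    (fun _ _ => Nat.zero_le _) (by simp) (by omega)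
  have h0 : ∀ i, w ≤ 2 * i + 1 → y i = 0 := fun i hi => hy3 i (by omega)
  have hyf : ∀ j, j < w → y (j / 2) ≤ f j := by
    intro j hj
    by_cases hj2 : j / 2 < w / 2
    · exact (hy2 _ hj2).trans (hf (by omega))
    · rw [hy3 _ (not_lt.mp hj2)]; exact Nat.zero_le _
  have hrow : RowOK (.dup c) fun j : Fin w => y (j / 2) :=
    rowOK_dup (fun i => by
      by_cases hi : i < w / 2
      · exact (hy2 i hi).trans ((hfr _).trans hr4)
      · rw [hy3 i (not_lt.mp hi)]; omega) h0 hy4
  have hrow2 := hrow.comp e.symm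
  obtain ⟨q1, q2, σ, q3, q4, q5⟩ := hrow2
  refine ⟨(fun j : Fin w => y (j / 2)) ∘ e.symm, ⟨q2, q1, evenC_of_invol σ q3 q4 q5⟩, fun j => ?_⟩
  have h5 := hyf (e.symm j) (e.symm j).2
  rw [hfe, e.apply_symm_apply] at h5
  exact h5

theorem exists_gp_row' {w r S : ℕ} (z : Fin w → ℕ) (hr : ∀ j, z j ≤ r) (hr2 : 2 ≤ r) (hr4 : r ≤ 4)
    (hS : ∑ j, z j = S + 3 * r - 5) (hev : Even S) :
    ∃ x : Fin w → ℕ, RowR .gp S x ∧ ∀ j, x j ≤ z j := by
  by_cases hcase : S ≤ ∑ j, min 1 (z j)
  · obtain ⟨x, -, hx2, hx3⟩ := exists_between_sum (l := fun _ => 0) (u := fun j => min 1 (z j))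
      (fun _ => Nat.zero_le _) (S := S) (by simp) hcase
    exact ⟨x, ⟨hx3, Or.inr fun j => (hx2 j).trans (min_le_left _ _)⟩,
      fun j => (hx2 j).trans (min_le_right _ _)⟩
  obtain ⟨e, f, hf, hfe, hf0⟩ := exists_sort_fin z
  have hfr : ∀ i, f i ≤ r := fun i => by
    by_cases hi : i < w
    · rw [hfe ⟨i, hi⟩]; exact hr _
    · rw [hf0 i (not_lt.mp hi)]; omega
  have hsum : ∑ j ∈ range w, f j = S + 3 * r - 5 := by
    rw [← Fin.sum_univ_eq_sum_range f w, ← hS, ← Equiv.sum_comp e z]
    exact sum_congr rfl fun j _ => hfe j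
  have hsup : ∑ j ∈ range w, min 1 (f j) < S := by
    rw [← Fin.sum_univ_eq_sum_range (fun j => min 1 (f j)) w]
    rw [← Equiv.sum_comp e (fun j => min 1 (z j))] at hcase
    have : ∑ j : Fin w, min 1 (f j) = ∑ j, min 1 (z (e j)) :=
      sum_congr rfl fun j _ => by rw [hfe j]
    omega
  have h1 := sum_le_double_odd' hf w
  have h2 := hfr 0
  have hw1 : 1 < w := by
    by_contra hcon
    have h3 : ∑ j ∈ range w, f j ≤ ∑ j ∈ range 1, f j :=
      sum_le_sum_of_subset (range_mono (by omega))
    rw [sum_range_one, hsum] at h3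
    have h4 : f 0 ≤ r * min 1 (f 0) := by
      rcases Nat.eq_zero_or_pos (f 0) with h | h
      · rw [h]; simp
      · rw [min_eq_left h]; omega
    have h5 : min 1 (f 0) ≤ ∑ j ∈ range w, min 1 (f j) ∨ w = 0 := by
      rcases Nat.eq_zero_or_pos w with h | h
      · exact Or.inr h
      · exact Or.inl (single_le_sum (f := fun j => min 1 (f j)) (fun _ _ => Nat.zero_le _)
          (mem_range.2 h))
    rcases h5 with h5 | h5
    · obtain ⟨m, rfl⟩ := hev
      omega
    · subst h5
      simp at hsum hsup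
      omega
  have hf1 : 2 ≤ f 1 := by
    by_contra hcon
    have h3 : ∀ j ∈ range w, f j ≤ min 1 (f j) + if j = 0 then r - 1 else 0 := by
      intro j _
      by_cases hj : j = 0
      · rw [hj, if_pos rfl]
        rcases Nat.eq_zero_or_pos (f 0) with h | h
        · omega
        · rw [min_eq_left h]; omega
      · rw [if_neg hj]
        have := hf (show 1 ≤ j by omega)
        rcases Nat.eq_zero_or_pos (f j) with h | h
        · omega
        · rw [min_eq_left h]; omega
    have h5 := sum_le_sum h3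
    rw [sum_add_distrib, hsum] at h5
    have h6 : ∑ j ∈ range w, (if j = 0 then r - 1 else 0) ≤ r - 1 := by
      rw [sum_ite_eq']; split_ifs <;> omega
    omega
  have hS4 : 4 ≤ S := by
    have h3 : ∑ j ∈ range 2, min 1 (f j) ≤ ∑ j ∈ range w, min 1 (f j) :=
      sum_le_sum_of_subset (range_mono (by omega))
    have h4 : f 1 ≤ f 0 := hf (by omega)
    rw [sum_range_succ, sum_range_one, min_eq_left (by omega), min_eq_left (by omega)] at h3
    obtain ⟨m, rfl⟩ := hev
    omega
  set U := ∑ i ∈ range (w / 2), f (2 * i + 1) with hU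
  have hU2 : f 1 + ∑ i ∈ range (w / 2 - 1), f (2 * (i + 1) + 1) = U := by
    rw [hU, show w / 2 = (w / 2 - 1) + 1 by omega, sum_range_succ']
    simp only [Nat.add_sub_cancel, Nat.mul_zero, Nat.zero_add]
    omega
  have hul : ∀ g : ℕ → ℕ, ∑ i ∈ range (w / 2), (if i = 0 then 2 else g i) =
      2 + ∑ i ∈ range (w / 2 - 1), g (i + 1) := by
    intro g
    rw [show w / 2 = (w / 2 - 1) + 1 by omega, sum_range_succ']
    simp only [Nat.add_sub_cancel]
    simp
    omega
  obtain ⟨c, rfl⟩ := hev
  obtain ⟨y, hy1, hy2, hy3, hy4⟩ := exists_pick (w / 2) c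
    (fun i => if i = 0 then 2 else 0) (fun i => if i = 0 then 2 else f (2 * i + 1))
    (fun i _ => by by_cases hi : i = 0 <;> simp [hi])
    (by rw [hul fun _ => 0]; simp; omega)
    (by
      rw [hul fun i => f (2 * i + 1)]
      have h7 := hfr 1
      have h8 : f 1 ≤ f 0 := hf (by omega)
      omega)
  have h0 : ∀ i, w ≤ 2 * i + 1 → y i = 0 := fun i hi => hy3 i (by omega)
  have hyf' : ∀ i, i < w / 2 → y i ≤ f (2 * i + 1) := by
    intro i hi
    have h7 := hy2 i hi
    by_cases hi0 : i = 0
    · subst hi0; simp only [if_true] at h7; simpa using h7.trans hf1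
    · rw [if_neg hi0] at h7; exact h7
  have hyf : ∀ j, j < w → y (j / 2) ≤ f j := by
    intro j hj
    by_cases hj2 : j / 2 < w / 2
    · exact (hyf' _ hj2).trans (hf (by omega))
    · rw [hy3 _ (not_lt.mp hj2)]; exact Nat.zero_le _
  have hrow : RowOK (.dup c) fun j : Fin w => y (j / 2) :=
    rowOK_dup (fun i => by
      by_cases hi : i < w / 2
      · exact (hyf' i hi).trans ((hfr _).trans hr4)
      · rw [hy3 i (not_lt.mp hi)]; omega) h0 hy4
  have hrow2 := hrow.comp e.symm
  obtain ⟨q1, q2, σ, q3, q4, q5⟩ := hrow2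
  have hy0 : y 0 = 2 := by
    have h8 := hy1 0 (by omega)
    have h9 := hy2 0 (by omega)
    simp only [if_true] at h8 h9
    omega
  refine ⟨(fun j : Fin w => y (j / 2)) ∘ e.symm,
    ⟨by rw [q2]; ring, Or.inl ⟨q1, evenC_of_invol σ q3 q4 q5, e ⟨0, by omega⟩, ?_⟩⟩, fun j => ?_⟩
  · simp [hy0]
  · have h5 := hyf (e.symm j) (e.symm j).2
    rw [hfe, e.apply_symm_apply] at h5
    exact h5

end extract

section modify

/-- size of the modified piece (parameter `a`) -/
def modS : RK → ℕ → ℕ → ℕ
  | .pl _, S, a => S - a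
  | .ev, S, a => S + a - 1
  | .gp, S, a => if a ≤ 1 then S else S + 3 * a - 5

/-- capacity of the modified piece -/
def modK : RK → ℕ → ℕ
  | .pl k, a => max (k - a) 1
  | .ev, a => a
  | .gp, a => a

/-- cells needed from the other pieces -/
def modN : RK → ℕ → ℕ
  | .pl _, _ => 0
  | .ev, a => a - 1
  | .gp, a => if a ≤ 1 then 0 else 3 * a - 5

/-- cells given to the other pieces -/
def modG : RK → ℕ → ℕ
  | .pl _, a => a
  | .ev, _ => 0
  | .gp, _ => 0

/-- validity of the parameter -/
def modOK : RK → ℕ → ℕ → Bool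
  | .pl k, S, a => Nat.ble a S && (Nat.blt a k || (Nat.beq a S && Nat.ble a k))
  | .ev, S, a => Nat.ble 1 a && Nat.ble a 4 && Nat.beq (S % 2) 0
  | .gp, S, a => Nat.ble 1 a && Nat.ble a 4 && Nat.beq (S % 2) 0

theorem modK_pos {p : RK} {S a : ℕ} (h : modOK p S a = true) : 0 < modK p a := by
  cases p with
  | pl k => simp [modK]
  | ev =>
    simp only [modOK, Bool.and_eq_true, Nat.ble_eq] at h
    exact h.1.1
  | gp =>
    simp only [modOK, Bool.and_eq_true, Nat.ble_eq] at h
    exact h.1.1

/-- from a row of the modified piece: a row of the piece (`pl`: up to the absorbed cells) and the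
released cells -/
theorem row_of_mod {w : ℕ} {p : RK} {S a : ℕ} (h : modOK p S a = true) (z : Fin w → ℕ)
    (hz : ∀ j, z j ≤ modK p a) (hs : ∑ j, z j = modS p S a) :
    ∃ x E : Fin w → ℕ, (∀ j, x j + E j = z j) ∧ ∑ j, E j = modN p a ∧
      ∀ A : Fin w → ℕ, ∑ j, A j = modG p a → RowR p S fun j => x j + A j := by
  cases p with
  | pl k =>
    refine ⟨z, fun _ => 0, fun _ => rfl, by simp [modN], fun A hA => ?_⟩
    simp only [modOK, Bool.and_eq_true, Bool.or_eq_true, Nat.ble_eq, Nat.blt_eq, Nat.beq_eq] at h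
    simp only [modG] at hA
    simp only [modS] at hs
    refine ⟨fun j => ?_, by rw [sum_add_distrib, hs, hA]; omega⟩
    have h1 : A j ≤ a := by
      rw [← hA]; exact single_le_sum (fun _ _ => Nat.zero_le _) (mem_univ j)
    change z j + A j ≤ k
    rcases h.2 with h2 | h2
    · have h3 := hz j
      simp only [modK] at h3
      rw [max_eq_left (by omega)] at h3
      omega
    · have h3 : z j ≤ ∑ j, z j := single_le_sum (fun _ _ => Nat.zero_le _) (mem_univ j)
      omega
  | ev =>
    simp only [modOK, Bool.and_eq_true, Nat.ble_eq, Nat.beq_eq] at h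
    simp only [modS] at hs
    obtain ⟨c, hc⟩ : ∃ c, S = 2 * c := ⟨S / 2, by omega⟩
    obtain ⟨x, hx, hle⟩ := exists_even_row' (c := c) (r := a) z hz h.1.2 hs (by omega)
    refine ⟨x, fun j => z j - x j, fun j => Nat.add_sub_cancel' (hle j), ?_, fun A hA => ?_⟩
    · rw [sum_tsub_distrib _ fun j _ => hle j, hs, hx.sum_eq]
      simp only [modN]; omega
    · simp only [modG] at hA
      have hA0 : ∀ j, A j = 0 := fun j => by
        have h1 : A j ≤ ∑ j, A j := single_le_sum (fun _ _ => Nat.zero_le _) (mem_univ j)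
        omega
      simp only [hA0, add_zero]
      rw [hc]; exact hx
  | gp =>
    simp only [modOK, Bool.and_eq_true, Nat.ble_eq, Nat.beq_eq] at h
    have key : ∃ x : Fin w → ℕ, RowR .gp S x ∧ ∀ j, x j ≤ z j := by
      by_cases ha : a ≤ 1
      · simp only [modS, if_pos ha] at hs
        exact ⟨z, ⟨hs, Or.inr fun j => (hz j).trans ha⟩, fun _ => le_rfl⟩
      · simp only [modS, if_neg ha] at hs
        exact exists_gp_row' (r := a) z hz (by omega) h.1.2 hs (Nat.even_iff.2 h.2)
    obtain ⟨x, hx, hle⟩ := key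
    refine ⟨x, fun j => z j - x j, fun j => Nat.add_sub_cancel' (hle j), ?_, fun A hA => ?_⟩
    · rw [sum_tsub_distrib _ fun j _ => hle j, hs, hx.sum_eq]
      simp only [modS, modN]
      split_ifs <;> omega
    · simp only [modG] at hA
      have hA0 : ∀ j, A j = 0 := fun j => by
        have h1 : A j ≤ ∑ j, A j := single_le_sum (fun _ _ => Nat.zero_le _) (mem_univ j)
        omega
      simp only [hA0, add_zero]
      exact hx

end modify

end Crest.Agent.R195
private theorem rz_3158b9bae8 : type_of% @_root_.Crest.Agent.R195.modG.eq_1 := @_root_.Crest.Agent.R195.modG.eq_1 -- L218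
private theorem rz_f1deaa6dba : type_of% @_root_.Crest.Agent.R195.modK.eq_1 := @_root_.Crest.Agent.R195.modK.eq_1 -- L206
private theorem rz_9afb66ba0b : type_of% @_root_.Crest.Agent.R195.modN.eq_1 := @_root_.Crest.Agent.R195.modN.eq_1 -- L212
private theorem rz_a643ed4dcc : type_of% @_root_.Crest.Agent.R195.modOK.eq_1 := @_root_.Crest.Agent.R195.modOK.eq_1 -- L224
private theorem rz_6a44f8b867 : type_of% @_root_.Crest.Agent.R195.modS.eq_1 := @_root_.Crest.Agent.R195.modS.eq_1 -- L200
end

-- ▼ part R195/TreeDec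
section

/-! Row 195, S0298 (helper958).  Criterion for modified pieces and the commit lemma. -/

set_option autoImplicit false

namespace Crest.Agent.R195

open Finset Function

section crit

/-- rows of the modified pieces -/
def RowM {w : ℕ} (p : (RK × ℕ) × ℕ) (z : Fin w → ℕ) : Prop :=
  (∀ j, z j ≤ modK p.1.1 p.2) ∧ ∑ j, z j = modS p.1.1 p.1.2 p.2

theorem decR_of_mod_aux {w : ℕ} (L : List ((RK × ℕ) × ℕ))
    (hok : ∀ p ∈ L, modOK p.1.1 p.1.2 p.2 = true) (zs : List (Fin w → ℕ))
    (hz : List.Forall₂ RowM L zs) :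
    ∃ E : Fin w → ℕ, ∑ j, E j = (L.map fun p => modN p.1.1 p.2).sum ∧
      ∀ A : Fin w → ℕ, ∑ j, A j = (L.map fun p => modG p.1.1 p.2).sum →
        ∃ xs : List (Fin w → ℕ), List.Forall₂ (fun p x => RowR p.1 p.2 x) (L.map Prod.fst) xs ∧
          ∀ j, (xs.map fun x => x j).sum + E j = (zs.map fun z => z j).sum + A j := by
  induction hz with
  | nil =>
    refine ⟨fun _ => 0, by simp, fun A hA => ⟨[], List.Forall₂.nil, fun j => ?_⟩⟩
    simp only [List.map_nil, List.sum_nil] at hA
    have h1 : A j ≤ ∑ j, A j := single_le_sum (fun _ _ => Nat.zero_le _) (mem_univ j)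
    simp only [List.map_nil, List.sum_nil]
    omega
  | @cons p z L zs hpz _ ih =>
    obtain ⟨E₂, hE₂, Φ₂⟩ := ih fun q hq => hok q (List.mem_cons_of_mem _ hq)
    obtain ⟨x, E₁, h1, h2, h3⟩ := row_of_mod (hok p List.mem_cons_self) z hpz.1 hpz.2
    refine ⟨fun j => E₁ j + E₂ j, ?_, fun A hA => ?_⟩
    · rw [sum_add_distrib, h2, hE₂, List.map_cons, List.sum_cons]
    · rw [List.map_cons, List.sum_cons] at hA
      obtain ⟨A₁, -, hA1, hA2⟩ := exists_between_sum (l := fun _ => 0) (u := A)
        (fun _ => Nat.zero_le _) (S := modG p.1.1 p.2) (by simp) (by omega)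
      obtain ⟨xs, h4, h5⟩ := Φ₂ (fun j => A j - A₁ j) (by
        rw [sum_tsub_distrib _ fun j _ => hA1 j, hA, hA2]; omega)
      refine ⟨(fun j => x j + A₁ j) :: xs, List.Forall₂.cons (h3 A₁ hA2) h4, fun j => ?_⟩
      have h6 := h5 j
      have h7 := h1 j
      have h8 := hA1 j
      simp only [List.map_cons, List.sum_cons] at h6 ⊢
      omega

theorem decR_of_mod {w : ℕ} (L : List ((RK × ℕ) × ℕ))
    (hok : ∀ p ∈ L, modOK p.1.1 p.1.2 p.2 = true)
    (hbal : (L.map fun p => modN p.1.1 p.2).sum = (L.map fun p => modG p.1.1 p.2).sum)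
    {zs : List (Fin w → ℕ)} (hz : List.Forall₂ RowM L zs) {H : Fin w → ℕ}
    (hs : ∀ j, (zs.map fun z => z j).sum = H j) : DecR (L.map Prod.fst) H := by
  obtain ⟨E, hE, Φ⟩ := decR_of_mod_aux L hok zs hz
  obtain ⟨xs, h1, h2⟩ := Φ E (hE.trans hbal)
  refine ⟨xs, h1, fun j => ?_⟩
  have h3 := h2 j
  rw [hs j] at h3
  omega

/-- what a list of (size, capacity) can take from `J` columns -/
def fsum : List (ℕ × ℕ) → ℕ → ℕ
  | [], _ => 0
  | p :: L, J => cond (Nat.ble p.1 (p.2 * J)) p.1 (p.2 * J) + fsum L J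

theorem fsum_eq (L : List (ℕ × ℕ)) (J : ℕ) : fsum L J = (L.map fun p => min p.1 (p.2 * J)).sum := by
  induction L with
  | nil => rfl
  | cons p L ih =>
    rw [fsum, ih, List.map_cons, List.sum_cons]
    congr 1
    by_cases h : p.1 ≤ p.2 * J
    · rw [Nat.ble_eq_true_of_le h, cond_true, min_eq_left h]
    · rw [show Nat.ble p.1 (p.2 * J) = false from by
        rw [Bool.eq_false_iff]; exact fun hh => h (Nat.le_of_ble_eq_true hh), cond_false,
        min_eq_right (by omega)]

theorem fsum_mono (L : List (ℕ × ℕ)) {J J' : ℕ} (h : J ≤ J') : fsum L J ≤ fsum L J' := by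
  rw [fsum_eq, fsum_eq]
  refine List.sum_le_sum fun p _ => ?_
  exact min_le_min le_rfl (Nat.mul_le_mul_left _ h)

/-- the list (size, capacity) of the modified pieces -/
def mlist (L : List ((RK × ℕ) × ℕ)) : List (ℕ × ℕ) :=
  L.map fun p => (modS p.1.1 p.1.2 p.2, modK p.1.1 p.2)

theorem decR_crit {w : ℕ} (L : List ((RK × ℕ) × ℕ))
    (hok : ∀ p ∈ L, modOK p.1.1 p.1.2 p.2 = true)
    (hbal : (L.map fun p => modN p.1.1 p.2).sum = (L.map fun p => modG p.1.1 p.2).sum)
    {H : ℕ → ℕ} (hanti : Antitone H)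
    (htot : ∑ j ∈ range w, H j = (L.map fun p => modS p.1.1 p.1.2 p.2).sum)
    (hcrit : ∀ J, J ≤ w → ∑ j ∈ range J, H j ≤ fsum (mlist L) J) :
    DecR (L.map Prod.fst) fun j : Fin w => H j := by
  have hF : ∀ J, ∑ g : Fin L.length, min (modS L[g].1.1 L[g].1.2 L[g].2) (modK L[g].1.1 L[g].2 * J)
      = fsum (mlist L) J := by
    intro J
    rw [fsum_eq, mlist, List.map_map, ← Fin.sum_univ_fun_getElem]
    rfl
  obtain ⟨h, hh1, hh2, -, hh4⟩ := exists_matrix (ι := Fin L.length)
    (fun g => modS L[g].1.1 L[g].1.2 L[g].2) (fun g => modK L[g].1.1 L[g].2)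
    (fun g => modK_pos (hok _ (List.getElem_mem g.2))) w H
    (by rw [htot, ← Fin.sum_univ_fun_getElem]; rfl)
    (by
      intro J hJ
      rw [hF]
      refine (sum_le_sum_range_of_antitone hanti J).trans (hcrit _ ?_)
      simpa using card_le_card hJ)
  refine decR_of_mod L hok hbal (zs := List.ofFn fun g => fun j : Fin w => h g j) ?_ fun j => ?_
  · rw [List.forall₂_iff_get]
    refine ⟨by simp, fun i h1 h2 => ?_⟩
    simp only [List.get_eq_getElem, List.getElem_ofFn]
    refine ⟨fun j => hh1 ⟨i, h1⟩ j, ?_⟩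
    have h6 := hh2 ⟨i, h1⟩
    rw [← Fin.sum_univ_eq_sum_range (fun j => h ⟨i, h1⟩ j) w] at h6
    exact h6
  · rw [← hh4 j j.2, List.map_ofFn, List.sum_ofFn]
    rfl

end crit

section commit

/-- every value 1..4 occurs an even number of times -/
def evL (a : List ℕ) : Bool :=
  Nat.beq (a.count 1 % 2) 0 && Nat.beq (a.count 2 % 2) 0 && Nat.beq (a.count 3 % 2) 0 &&
    Nat.beq (a.count 4 % 2) 0

/-- all entries at most `k` -/
def leL (k : ℕ) : List ℕ → Bool
  | [] => true
  | x :: a => Nat.ble x k && leL k a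

theorem leL_iff {k : ℕ} {a : List ℕ} : leL k a = true ↔ ∀ x ∈ a, x ≤ k := by
  induction a with
  | nil => simp [leL]
  | cons x a ih => simp [leL, ih, Nat.ble_eq]

/-- the piece `p` may be split into the entries `a` on the first columns and the residual piece -/
def comOK : (RK × ℕ) → (List ℕ × (RK × ℕ)) → Bool
  | (.pl k, S), (a, (.pl k', S')) => Nat.beq k k' && leL k a && Nat.beq (a.sum + S') S
  | (.ev, S), (a, (.ev, S')) => leL 4 a && evL a && Nat.beq (a.sum + S') S
  | (.gp, S), (a, (.ev, S')) => leL 4 a && evL a && Nat.beq (a.sum + S') S && a.contains 2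
  | (.gp, S), (a, (.gp, S')) => leL 1 a && evL a && Nat.beq (a.sum + S') S
  | _, _ => false

/-- entries on the first columns -/
def preF (t : ℕ) (a : List ℕ) : Fin t → ℕ := fun j => a.getD j 0

theorem sum_preF {t : ℕ} {a : List ℕ} (h : a.length = t) : ∑ j, preF t a j = a.sum := by
  subst h
  rw [← Fin.sum_univ_getElem]
  refine sum_congr rfl fun j _ => ?_
  simp [preF]

theorem preF_le {t k : ℕ} {a : List ℕ} (h : ∀ x ∈ a, x ≤ k) (j : Fin t) : preF t a j ≤ k := by
  unfold preF
  rw [List.getD_eq_getElem?_getD]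
  by_cases hj : (j : ℕ) < a.length
  · rw [List.getElem?_eq_getElem hj]
    exact h _ (List.getElem_mem hj)
  · rw [List.getElem?_eq_none (not_lt.mp hj)]
    exact Nat.zero_le _

theorem card_preF {t v : ℕ} {a : List ℕ} (h : a.length = t) :
    (univ.filter fun j => preF t a j = v).card = a.count v := by
  subst h
  rw [card_filter]
  have h1 : ∀ b : List ℕ, ∑ j : Fin b.length, (if preF b.length b j = v then 1 else 0) = b.count v := by
    intro b
    induction b with
    | nil => simp
    | cons x b ih =>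
      rw [List.count_cons, ← ih, List.length_cons, Fin.sum_univ_succ, add_comm]
      congr 1
      · simp [preF]
  exact h1 a

theorem evenC_addCases {t m : ℕ} {a : List ℕ} (ha : a.length = t) (h4 : ∀ x ∈ a, x ≤ 4)
    (hev : evL a = true) {x : Fin m → ℕ} (hx : EvenC x) :
    EvenC (Fin.addCases (motive := fun _ => ℕ) (preF t a) x) := by
  intro v hv
  rw [card_filter, Fin.sum_univ_add]
  simp only [Fin.addCases_left, Fin.addCases_right]
  rw [← card_filter, ← card_filter, card_preF ha]
  refine Even.add ?_ (hx v hv)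
  simp only [evL, Bool.and_eq_true, Nat.beq_eq] at hev
  rw [Nat.even_iff]
  rcases Nat.lt_or_ge 4 v with h | h
  · rw [List.count_eq_zero_of_not_mem fun hm => absurd (h4 v hm) (by omega)]
  · interval_cases v
    · exact hev.1.1.1
    · exact hev.1.1.2
    · exact hev.1.2
    · exact hev.2

theorem rowR_commit {t m : ℕ} {p : RK × ℕ} {c : List ℕ × (RK × ℕ)} (h : comOK p c = true)
    (hl : c.1.length = t) {x : Fin m → ℕ} (hx : RowR c.2.1 c.2.2 x) :
    RowR p.1 p.2 (Fin.addCases (motive := fun _ => ℕ) (preF t c.1) x) := by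
  obtain ⟨q, S⟩ := p
  obtain ⟨a, q', S'⟩ := c
  have hsum : ∑ j, (Fin.addCases (motive := fun _ => ℕ) (preF t a) x) j = a.sum + S' := by
    rw [Fin.sum_univ_add]
    simp only [Fin.addCases_left, Fin.addCases_right]
    rw [sum_preF hl, hx.sum_eq]
  have hle : ∀ k, (∀ y ∈ a, y ≤ k) → (∀ j, x j ≤ k) → ∀ j,
      (Fin.addCases (motive := fun _ => ℕ) (preF t a) x) j ≤ k := by
    intro k h1 h2 j
    refine Fin.addCases (fun i => ?_) (fun i => ?_) j
    · rw [Fin.addCases_left]; exact preF_le h1 i
    · rw [Fin.addCases_right]; exact h2 i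
  cases q with
  | pl k =>
    cases q' with
    | pl k' =>
      simp only [comOK, Bool.and_eq_true, Nat.beq_eq, leL_iff] at h
      obtain ⟨⟨h1, h2⟩, h3⟩ := h
      subst h1
      exact ⟨hle k h2 hx.1, by rw [hsum, h3]⟩
    | ev => exact absurd h (by simp [comOK])
    | gp => exact absurd h (by simp [comOK])
  | ev =>
    cases q' with
    | pl k' => exact absurd h (by simp [comOK])
    | ev =>
      simp only [comOK, Bool.and_eq_true, Nat.beq_eq, leL_iff] at h
      obtain ⟨⟨h1, h2⟩, h3⟩ := h
      exact ⟨by rw [hsum, h3], hle 4 h1 hx.2.1, evenC_addCases hl h1 h2 hx.2.2⟩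
    | gp => exact absurd h (by simp [comOK])
  | gp =>
    cases q' with
    | pl k' => exact absurd h (by simp [comOK])
    | ev =>
      simp only [comOK, Bool.and_eq_true, Nat.beq_eq, leL_iff] at h
      obtain ⟨⟨⟨h1, h2⟩, h3⟩, h4⟩ := h
      refine ⟨by rw [hsum, h3], Or.inl ⟨hle 4 h1 hx.2.1, evenC_addCases hl h1 h2 hx.2.2, ?_⟩⟩
      rw [List.contains_iff_mem] at h4
      obtain ⟨i, hi, hi2⟩ := List.getElem_of_mem h4
      have hit : i < t := by simpa [← hl] using hi
      refine ⟨Fin.castAdd m ⟨i, hit⟩, ?_⟩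
      rw [Fin.addCases_left]
      simp [preF, hi2, List.getD_eq_getElem?_getD, List.getElem?_eq_getElem hi]
    | gp =>
      simp only [comOK, Bool.and_eq_true, Nat.beq_eq, leL_iff] at h
      obtain ⟨⟨h1, h2⟩, h3⟩ := h
      refine ⟨by rw [hsum, h3], ?_⟩
      rcases hx.2 with ⟨h5, h6, j, hj⟩ | h5
      · refine Or.inl ⟨hle 4 (fun y hy => (h1 y hy).trans (by omega)) h5,
          evenC_addCases hl (fun y hy => (h1 y hy).trans (by omega)) h2 h6, Fin.natAdd t j, ?_⟩
        rw [Fin.addCases_right]; exact hj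
      · exact Or.inr (hle 1 h1 h5)

/-- sum of the entries of column `j` -/
def colSum (cs : List (List ℕ × (RK × ℕ))) (j : ℕ) : ℕ :=
  match cs with
  | [] => 0
  | c :: cs => c.1.getD j 0 + colSum cs j

theorem decR_commit {t m : ℕ} {L : List (RK × ℕ)} {cs : List (List ℕ × (RK × ℕ))}
    (h : List.Forall₂ (fun p c => comOK p c = true ∧ c.1.length = t) L cs)
    {H : ℕ → ℕ} (hcol : ∀ j, j < t → colSum cs j = H j)
    (hrest : DecR (cs.map Prod.snd) fun j : Fin m => H (t + j)) :
    DecR L fun j : Fin (t + m) => H j := by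
  obtain ⟨xs, h1, h2⟩ := hrest
  have key : ∀ (L : List (RK × ℕ)) (cs : List (List ℕ × (RK × ℕ))) (xs : List (Fin m → ℕ)),
      List.Forall₂ (fun p c => comOK p c = true ∧ c.1.length = t) L cs →
      List.Forall₂ (fun p x => RowR p.1 p.2 x) (cs.map Prod.snd) xs →
      ∃ ys : List (Fin (t + m) → ℕ), List.Forall₂ (fun p x => RowR p.1 p.2 x) L ys ∧
        ∀ j, (ys.map fun y => y j).sum =
          (Fin.addCases (motive := fun _ => ℕ) (fun i : Fin t => colSum cs i)
            fun i => (xs.map fun x => x i).sum) j := by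
    intro L cs xs h
    induction h generalizing xs with
    | nil =>
      intro h1
      cases h1
      refine ⟨[], List.Forall₂.nil, fun j => ?_⟩
      refine Fin.addCases (fun i => ?_) (fun i => ?_) j
      · rw [Fin.addCases_left]; rfl
      · rw [Fin.addCases_right]; rfl
    | @cons p c L cs hpc _ ih =>
      intro h1
      rw [List.map_cons] at h1
      cases h1 with
      | @cons _ x _ xs hx hxs =>
        obtain ⟨ys, h3, h4⟩ := ih xs hxs
        refine ⟨Fin.addCases (motive := fun _ => ℕ) (preF t c.1) x :: ys,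
          List.Forall₂.cons (rowR_commit hpc.1 hpc.2 hx) h3, fun j => ?_⟩
        have h5 := h4 j
        revert h5
        refine Fin.addCases (fun i => ?_) (fun i => ?_) j
        · intro h5
          rw [List.map_cons, List.sum_cons, h5]
          simp only [Fin.addCases_left]
          rfl
        · intro h5
          rw [List.map_cons, List.sum_cons, h5]
          simp only [Fin.addCases_right, List.map_cons, List.sum_cons]
  obtain ⟨ys, h3, h4⟩ := key L cs xs h h1
  refine ⟨ys, h3, fun j => ?_⟩
  rw [h4 j]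
  refine Fin.addCases (fun i => ?_) (fun i => ?_) j
  · rw [Fin.addCases_left]
    simpa using hcol i i.2
  · rw [Fin.addCases_right]
    simpa using h2 i

end commit

end Crest.Agent.R195
private theorem rz_494f145d90 : type_of% @_root_.Crest.Agent.R195.comOK.eq_1 := @_root_.Crest.Agent.R195.comOK.eq_1 -- L139
private theorem rz_3ad563c963 : type_of% @_root_.Crest.Agent.R195.fsum.eq_def := @_root_.Crest.Agent.R195.fsum.eq_def -- L62
private theorem rz_735c541384 : type_of% @_root_.Crest.Agent.R195.fsum.eq_1 := @_root_.Crest.Agent.R195.fsum.eq_1 -- L62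
private theorem rz_f34113bf2a : type_of% @_root_.Crest.Agent.R195.leL.eq_def := @_root_.Crest.Agent.R195.leL.eq_def -- L129
private theorem rz_15a612e43b : type_of% @_root_.Crest.Agent.R195.leL.eq_1 := @_root_.Crest.Agent.R195.leL.eq_1 -- L129
end

-- ▼ part R195/TreeCov
section

/-! Row 195, S0298 (helper958).  Kernel-evaluated coverage check for a single hook list: pruned search over
the prefixes of the sequence of column heights. -/

set_option autoImplicit false

namespace Crest.Agent.R195

open Finset Function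

section defs

/-- prefix sums fit -/
def preOK (ML : List (ℕ × ℕ)) : List ℕ → ℕ → ℕ → Bool
  | [], _, _ => true
  | x :: pre, J, s => Nat.ble (s + x) (fsum ML (J + 1)) && preOK ML pre (J + 1) (s + x)

/-- all completions fit: total `n`, further columns at most `h`, at least `nlb` columns -/
def restOK (ML : List (ℕ × ℕ)) (n h nlb : ℕ) : ℕ → ℕ → ℕ → Bool
  | 0, _, _ => false
  | f + 1, J, s =>
    Nat.ble n (fsum ML (J + 1)) ||
      ((Nat.ble (s + h) (fsum ML (J + 1)) ||
          (Nat.ble (J + 1) nlb && Nat.ble n (fsum ML (J + 1) + (nlb - (J + 1))))) &&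
        restOK ML n h nlb f (J + 1) (s + h))

def bmax (a b : ℕ) : ℕ := cond (Nat.ble a b) b a

def bmin (a b : ℕ) : ℕ := cond (Nat.ble a b) a b

theorem bmax_eq (a b : ℕ) : bmax a b = max a b := by
  unfold bmax
  by_cases h : a ≤ b
  · rw [Nat.ble_eq_true_of_le h, cond_true, max_eq_right h]
  · rw [show Nat.ble a b = false from by
      rw [Bool.eq_false_iff]; exact fun hh => h (Nat.le_of_ble_eq_true hh), cond_false,
      max_eq_left (by omega)]

theorem bmin_eq (a b : ℕ) : bmin a b = min a b := by
  unfold bmin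
  by_cases h : a ≤ b
  · rw [Nat.ble_eq_true_of_le h, cond_true, min_eq_left h]
  · rw [show Nat.ble a b = false from by
      rw [Bool.eq_false_iff]; exact fun hh => h (Nat.le_of_ble_eq_true hh), cond_false,
      min_eq_right (by omega)]

/-- lower bound for the number of columns -/
def lbN (pre : List ℕ) (rem h : ℕ) : ℕ :=
  bmax (pre.headD 0) (pre.length + (rem + h - 1) / h)

/-- number of entries at least 2 -/
def cnt2 : List ℕ → ℕ
  | [] => 0
  | x :: pre => cond (Nat.ble 2 x) 1 0 + cnt2 pre

/-- sum of `min 2 x` -/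
def sum2 : List ℕ → ℕ
  | [] => 0
  | x :: pre => bmin 2 x + sum2 pre

/-- the completions are outside of the region -/
def outB (B : ℕ) (pre : List ℕ) (rem h : ℕ) : Bool :=
  Nat.blt (pre.length + rem) (pre.headD 0) || Nat.blt (2 * B) (lbN pre rem h + cnt2 pre) ||
    Nat.blt (2 * B) (sum2 pre + (2 * rem + bmax h 2 - 1) / bmax h 2)

/-- `P` holds for `1, …, x` -/
def allUp (P : ℕ → Bool) : ℕ → Bool
  | 0 => true
  | x + 1 => P (x + 1) && allUp P x

def beqL : List ℕ → List ℕ → Bool
  | [], [] => true
  | x :: a, y :: b => Nat.beq x y && beqL a b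
  | _, _ => false

theorem beqL_eq : ∀ {a b : List ℕ}, beqL a b = true → a = b
  | [], [], _ => rfl
  | x :: a, y :: b, h => by
    simp only [beqL, Bool.and_eq_true, Nat.beq_eq] at h
    rw [h.1, beqL_eq h.2]
  | [], _ :: _, h => absurd h (by simp [beqL])
  | _ :: _, [], h => absurd h (by simp [beqL])

/-- bound for the next column -/
def hcap (B : ℕ) (pre : List ℕ) (h : ℕ) : ℕ :=
  match pre with
  | [a] => bmin h (2 * B - a)
  | _ => h

/-- committed prefixes which survive the next column -/
def advC (x : ℕ) : List (List ℕ × List (ℕ × ℕ)) → List (List ℕ × List (ℕ × ℕ))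
  | [] => []
  | ([], _) :: L => advC x L
  | (y :: ys, m) :: L => cond (Nat.beq y x) ((ys, m) :: advC x L) (advC x L)

/-- the check -/
def tchk (n B : ℕ) (sp : List (List (ℕ × ℕ))) (ex : List (List ℕ)) :
    ℕ → List (List ℕ × List (ℕ × ℕ)) → List ℕ → ℕ → ℕ → Bool
  | 0, _, _, _, _ => false
  | f + 1, cm, pre, rem, h =>
    outB B pre rem h ||
    (sp.any fun ML => preOK ML pre 0 0 &&
      restOK ML n h (lbN pre rem h) 99 pre.length pre.sum) ||
    (cm.any fun c => c.1.isEmpty && restOK c.2 rem h (lbN pre rem h - pre.length) 99 0 0) ||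
    (cond (Nat.ble 1 rem) (allUp (fun x => tchk n B sp ex f (advC x cm) (pre ++ [x]) (rem - x) x)
      (hcap B pre (bmin h rem))) (ex.any fun q => beqL q pre))

end defs

section sound

theorem preOK_sound {ML : List (ℕ × ℕ)} {H : ℕ → ℕ} :
    ∀ (pre : List ℕ) (J s : ℕ), preOK ML pre J s = true → (∀ i, i < pre.length → pre.getD i 0 = H (J + i)) →
      s = ∑ j ∈ range J, H j → ∀ J', J < J' → J' ≤ J + pre.length → ∑ j ∈ range J', H j ≤ fsum ML J'
  | [], J, s, _, _, _, J', h1, h2 => by simp only [List.length_nil] at h2; omega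
  | x :: pre, J, s, h, hp, hs, J', h1, h2 => by
    simp only [preOK, Bool.and_eq_true, Nat.ble_eq] at h
    have hx : x = H J := by simpa using hp 0 (by simp)
    have hs' : s + x = ∑ j ∈ range (J + 1), H j := by rw [sum_range_succ, hs, hx]
    rcases Nat.eq_or_lt_of_le (Nat.succ_le_of_lt h1) with h3 | h3
    · rw [← h3, Nat.succ_eq_add_one, ← hs']; exact h.1
    · refine preOK_sound pre (J + 1) (s + x) h.2 (fun i hi => ?_) hs' J' h3 ?_
      · have h4 := hp (i + 1) (by simp only [List.length_cons]; omega)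
        rw [List.getD_cons_succ] at h4
        rw [h4]; congr 1; omega
      · simp only [List.length_cons] at h2; omega

theorem restOK_sound {ML : List (ℕ × ℕ)} {n h nlb : ℕ} {G : ℕ → ℕ}
    (hn : ∀ J, ∑ j ∈ range J, G j ≤ n)
    (hlb : ∀ J, J ≤ nlb → ∑ j ∈ range J, G j + (nlb - J) ≤ n) :
    ∀ (f J s : ℕ), restOK ML n h nlb f J s = true → ∑ j ∈ range J, G j ≤ s → (∀ i, J ≤ i → G i ≤ h) →
      ∀ J', J < J' → ∑ j ∈ range J', G j ≤ fsum ML J'
  | 0, _, _, h0, _, _, _, _ => absurd h0 (by simp [restOK])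
  | f + 1, J, s, h0, hs, hG, J', h1 => by
    simp only [restOK, Bool.or_eq_true, Bool.and_eq_true, Nat.ble_eq] at h0
    have h2 : fsum ML (J + 1) ≤ fsum ML J' := fsum_mono ML h1
    rcases h0 with h0 | ⟨h3, h4⟩
    · exact (hn J').trans (h0.trans h2)
    · have h5 : ∑ j ∈ range (J + 1), G j ≤ s + h := by
        rw [sum_range_succ]
        have := hG J le_rfl
        omega
      rcases Nat.eq_or_lt_of_le (Nat.succ_le_of_lt h1) with h6 | h6
      · rw [← h6, Nat.succ_eq_add_one]
        rcases h3 with h3 | ⟨h3, h3'⟩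
        · omega
        · have := hlb (J + 1) h3
          omega
      · exact restOK_sound hn hlb f (J + 1) (s + h) h4 h5 (fun i hi => hG i (by omega)) J' h6

theorem allUp_sound {P : ℕ → Bool} : ∀ {x : ℕ}, allUp P x = true → ∀ y, 1 ≤ y → y ≤ x → P y = true
  | 0, _, y, h1, h2 => by omega
  | x + 1, h, y, h1, h2 => by
    simp only [allUp, Bool.and_eq_true] at h
    rcases Nat.eq_or_lt_of_le h2 with h3 | h3
    · rw [h3]; exact h.1
    · exact allUp_sound h.2 y h1 (by omega)

variable {n B w w₂ : ℕ} {H : ℕ → ℕ}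

theorem Region.tc_sum_le (R : Region n B w w₂ H) (J : ℕ) : ∑ j ∈ range J, H j ≤ n := by
  rcases le_total J w with h | h
  · rw [← R.sum]; exact sum_le_sum_of_subset (range_mono h)
  · rw [← R.sum, ← sum_range_add_sum_Ico _ h, sum_eq_zero (s := Ico w J), add_zero]
    intro j hj
    have h1 := (mem_Ico.1 hj).1
    by_contra hne
    have := (R.pos j).2 (Nat.pos_of_ne_zero hne)
    omega

theorem Region.tc_sum_lb (R : Region n B w w₂ H) {J : ℕ} (hJ : J ≤ w) :
    ∑ j ∈ range J, H j + (w - J) ≤ n := by
  rw [← R.sum, ← sum_range_add_sum_Ico _ hJ]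
  have h1 : ∑ _j ∈ Ico J w, 1 ≤ ∑ j ∈ Ico J w, H j :=
    sum_le_sum fun j hj => (R.pos j).1 (mem_Ico.1 hj).2
  rw [sum_const, Nat.card_Ico, smul_eq_mul, mul_one] at h1
  omega

theorem Region.tc_rest_le (R : Region n B w w₂ H) {t h : ℕ} (ht : t ≤ w) (hh : H t ≤ h) :
    n - ∑ j ∈ range t, H j ≤ h * (w - t) := by
  have h0 := sum_range_add_sum_Ico H ht
  rw [R.sum] at h0
  have h1 : ∑ j ∈ Ico t w, H j ≤ ∑ _j ∈ Ico t w, h :=
    sum_le_sum fun j hj => (R.anti (mem_Ico.1 hj).1).trans hh
  rw [sum_const, Nat.card_Ico, smul_eq_mul, mul_comm] at h1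
  omega

theorem cdiv_le {a h m : ℕ} (hle : a ≤ h * m) : (a + h - 1) / h ≤ m := by
  rcases Nat.eq_zero_or_pos h with h0 | h0
  · subst h0; simp
  · rw [← Nat.lt_succ_iff, Nat.div_lt_iff_lt_mul h0, Nat.succ_eq_add_one, add_mul, one_mul,
      mul_comm m h]
    omega

theorem Region.tc_lbN_le (R : Region n B w w₂ H) {t h : ℕ} (ht : t ≤ w) (hh : H t ≤ h) :
    lbN ((List.range t).map H) (n - ∑ j ∈ range t, H j) h ≤ w := by
  rw [lbN, bmax_eq, List.length_map, List.length_range]
  refine max_le ?_ ?_
  · rcases Nat.eq_zero_or_pos t with h0 | h0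
    · subst h0; simp
    · obtain ⟨s, rfl⟩ := Nat.exists_eq_add_of_lt h0
      rw [Nat.zero_add, List.range_succ_eq_map]
      simpa using R.wlog
  · have h1 := cdiv_le (R.tc_rest_le ht hh)
    omega

theorem cnt2_eq (a : List ℕ) : cnt2 a = (a.filter fun x => decide (2 ≤ x)).length := by
  induction a with
  | nil => rfl
  | cons x a ih =>
    rw [cnt2, ih, List.filter_cons]
    by_cases h : 2 ≤ x
    · rw [Nat.ble_eq_true_of_le h, cond_true, if_pos (decide_eq_true h), List.length_cons]; omega
    · rw [show Nat.ble 2 x = false from by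
        rw [Bool.eq_false_iff]; exact fun hh => h (Nat.le_of_ble_eq_true hh), cond_false,
        if_neg (by simpa using h)]; omega

theorem sum2_eq (a : List ℕ) : sum2 a = (a.map fun x => min 2 x).sum := by
  induction a with
  | nil => rfl
  | cons x a ih => rw [sum2, ih, List.map_cons, List.sum_cons, bmin_eq]

theorem Region.tc_cnt2_le (R : Region n B w w₂ H) (t : ℕ) : cnt2 ((List.range t).map H) ≤ w₂ := by
  induction t with
  | zero => simp [cnt2]
  | succ t ih =>
    rw [cnt2_eq] at ih ⊢
    rw [List.range_succ, List.map_append, List.filter_append, List.length_append]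
    by_cases h : 2 ≤ H t
    · have h1 := (R.two t).2 h
      have h2 : ((List.filter (fun x => decide (2 ≤ x)) (List.map H (List.range t)))).length ≤ t :=
        (List.length_filter_le _ _).trans (by simp)
      have h3 : (List.filter (fun x => decide (2 ≤ x)) (List.map H [t])).length ≤ 1 :=
        (List.length_filter_le _ _).trans (by simp)
      omega
    · have h3 : List.filter (fun x => decide (2 ≤ x)) (List.map H [t]) = [] := by
        simp; omega
      rw [h3, List.length_nil]; omega

theorem Region.tc_sum_min_two (R : Region n B w w₂ H) : ∑ j ∈ range w, min 2 (H j) = w + w₂ := by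
  have h2 : w₂ ≤ w := by
    by_contra hcon
    have := (R.two w).1 (by omega)
    have := (R.pos w).2 (by omega)
    omega
  have h3 : ∀ j ∈ range w, min 2 (H j) = 1 + if j < w₂ then 1 else 0 := by
    intro j hj
    have h4 := (R.pos j).1 (mem_range.1 hj)
    by_cases h5 : j < w₂
    · have := (R.two j).1 h5
      rw [if_pos h5]; omega
    · have : ¬ 1 < H j := fun h6 => h5 ((R.two j).2 h6)
      rw [if_neg h5]; omega
  rw [sum_congr rfl h3, sum_add_distrib, sum_const, card_range, smul_eq_mul, mul_one, ← card_filter]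
  congr 1
  rw [show (range w).filter (fun j => j < w₂) = range w₂ from by
    ext j; simp only [mem_filter, mem_range]; omega, card_range]

theorem Region.tc_sum2_le (R : Region n B w w₂ H) {t h : ℕ} (ht : t ≤ w) (hh : H t ≤ h) :
    sum2 ((List.range t).map H) + (2 * (n - ∑ j ∈ range t, H j) + bmax h 2 - 1) / bmax h 2
      ≤ w + w₂ := by
  rw [← R.tc_sum_min_two, ← sum_range_add_sum_Ico _ ht, sum2_eq, List.map_map]
  have h1 : ((List.range t).map ((fun x => min 2 x) ∘ H)).sum = ∑ j ∈ range t, min 2 (H j) := by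
    rw [← List.sum_toFinset _ (List.nodup_range)]
    rw [List.toFinset_range]
    rfl
  rw [h1]
  refine Nat.add_le_add_left (cdiv_le ?_) _
  rw [bmax_eq, mul_sum]
  have h0 := sum_range_add_sum_Ico H ht
  rw [R.sum] at h0
  rw [show n - ∑ j ∈ range t, H j = ∑ j ∈ Ico t w, H j by omega, mul_sum]
  refine sum_le_sum fun j hj => ?_
  have h2 := (R.anti (mem_Ico.1 hj).1).trans hh
  rcases Nat.lt_or_ge (H j) 2 with h3 | h3
  · rw [min_eq_right (by omega)]
    exact Nat.mul_le_mul_right _ (le_max_right _ _)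
  · rw [min_eq_left h3, mul_comm]
    exact Nat.mul_le_mul_right _ (h2.trans (le_max_left _ _))

theorem Region.tc_not_out (R : Region n B w w₂ H) {t h : ℕ} (ht : t ≤ w) (hh : H t ≤ h) :
    outB B ((List.range t).map H) (n - ∑ j ∈ range t, H j) h = false := by
  rw [Bool.eq_false_iff]
  intro hcon
  simp only [outB, Bool.or_eq_true, Nat.blt_eq] at hcon
  have h0 := R.tc_sum_lb ht
  have h0' : ((List.range t).map H).headD 0 ≤ w := by
    rcases Nat.eq_zero_or_pos t with h | h
    · subst h; simp
    · obtain ⟨s, rfl⟩ := Nat.exists_eq_add_of_lt h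
      rw [Nat.zero_add, List.range_succ_eq_map]
      simpa using R.wlog
  have hlen : ((List.range t).map H).length = t := by simp
  rw [hlen] at hcon
  have h1 := R.tc_lbN_le ht hh
  have h2 := R.tc_cnt2_le t
  have h3 := R.tc_sum2_le ht hh
  have h4 := R.row
  omega

theorem mem_advC {x : ℕ} {cm : List (List ℕ × List (ℕ × ℕ))} {c : List ℕ × List (ℕ × ℕ)}
    (h : c ∈ advC x cm) : (x :: c.1, c.2) ∈ cm := by
  induction cm with
  | nil => exact absurd h (by simp [advC])
  | cons d cm ih =>
    obtain ⟨a, m⟩ := d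
    cases a with
    | nil => exact List.mem_cons_of_mem _ (ih h)
    | cons y ys =>
      rw [advC] at h
      by_cases hy : y = x
      · rw [show Nat.beq y x = true from by rw [Nat.beq_eq]; exact hy, cond_true, List.mem_cons] at h
        rcases h with rfl | h
        · rw [hy]; exact List.mem_cons_self
        · exact List.mem_cons_of_mem _ (ih h)
      · rw [show Nat.beq y x = false from by
          rw [Bool.eq_false_iff]; exact fun hh => hy (by rwa [Nat.beq_eq] at hh), cond_false] at h
        exact List.mem_cons_of_mem _ (ih h)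

end sound

end Crest.Agent.R195
private theorem rz_982abe541b : type_of% @_root_.Crest.Agent.R195.advC.eq_def := @_root_.Crest.Agent.R195.advC.eq_def -- L93
private theorem rz_a17e72de70 : type_of% @_root_.Crest.Agent.R195.advC.eq_1 := @_root_.Crest.Agent.R195.advC.eq_1 -- L93
private theorem rz_4e6a3cb850 : type_of% @_root_.Crest.Agent.R195.allUp.eq_def := @_root_.Crest.Agent.R195.allUp.eq_def -- L69
private theorem rz_d9fe8368dc : type_of% @_root_.Crest.Agent.R195.allUp.eq_1 := @_root_.Crest.Agent.R195.allUp.eq_1 -- L69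
private theorem rz_7fbbe6b4ec : type_of% @_root_.Crest.Agent.R195.beqL.eq_def := @_root_.Crest.Agent.R195.beqL.eq_def -- L73
private theorem rz_ce988029da : type_of% @_root_.Crest.Agent.R195.beqL.eq_1 := @_root_.Crest.Agent.R195.beqL.eq_1 -- L73
private theorem rz_b348f6ec33 : type_of% @_root_.Crest.Agent.R195.cnt2.eq_def := @_root_.Crest.Agent.R195.cnt2.eq_def -- L54
private theorem rz_89d3d9cbff : type_of% @_root_.Crest.Agent.R195.cnt2.eq_1 := @_root_.Crest.Agent.R195.cnt2.eq_1 -- L54
private theorem rz_dfbb4dd327 : type_of% @_root_.Crest.Agent.R195.preOK.eq_def := @_root_.Crest.Agent.R195.preOK.eq_def -- L16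
private theorem rz_01d5e5eb56 : type_of% @_root_.Crest.Agent.R195.preOK.eq_1 := @_root_.Crest.Agent.R195.preOK.eq_1 -- L16
private theorem rz_88979da3d5 : type_of% @_root_.Crest.Agent.R195.restOK.eq_def := @_root_.Crest.Agent.R195.restOK.eq_def -- L21
private theorem rz_f78ba24213 : type_of% @_root_.Crest.Agent.R195.restOK.eq_1 := @_root_.Crest.Agent.R195.restOK.eq_1 -- L21
private theorem rz_53ad9511d2 : type_of% @_root_.Crest.Agent.R195.sum2.eq_def := @_root_.Crest.Agent.R195.sum2.eq_def -- L59
private theorem rz_aa91de39fc : type_of% @_root_.Crest.Agent.R195.sum2.eq_1 := @_root_.Crest.Agent.R195.sum2.eq_1 -- L59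
private theorem rz_d61e292213 : type_of% @_root_.Crest.Agent.R195.tchk.eq_def := @_root_.Crest.Agent.R195.tchk.eq_def -- L99
private theorem rz_6cca4aa277 : type_of% @_root_.Crest.Agent.R195.tchk.eq_1 := @_root_.Crest.Agent.R195.tchk.eq_1 -- L99
end

-- ▼ part R195/TreeFin

/-! Row 195, S0298 (helper958).  Soundness of the tree check: `covH_of_tree`. -/

set_option autoImplicit false

namespace Crest.Agent.R195

open Finset Function

section convert

/-- residual piece of a piece -/
def toRK : Pc → RK × ℕ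
  | .pair c => (.pl 4, 2 * c - 1)
  | .rect c k => (.pl 1, c * k)
  | .dup c => (.ev, 2 * c)
  | .gap c => (.gp, 2 * c - 2)

/-- a gap piece may be replaced by two single columns -/
def variants : List Pc → List (List Pc)
  | [] => [[]]
  | .gap c :: L => ((variants L).map fun v => .gap c :: v) ++
      (variants L).map fun v => .rect c 1 :: .rect (c - 2) 1 :: v
  | .pair c :: L => (variants L).map fun v => .pair c :: v
  | .rect c k :: L => (variants L).map fun v => .rect c k :: v
  | .dup c :: L => (variants L).map fun v => .dup c :: v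

def gapOK : Pc → Bool
  | .gap c => Nat.ble 2 c
  | _ => true

theorem decomp_of_decR_aux {ι : Type*} [Fintype ι] [DecidableEq ι] : ∀ (L : List Pc)
    (xs : List (ι → ℕ)), (∀ p ∈ L, gapOK p = true) →
    List.Forall₂ (fun p x => RowR p.1 p.2 x) (L.map toRK) xs →
    ∃ L' ∈ variants L, ∃ ys : List (ι → ℕ), List.Forall₂ RowOK L' ys ∧
      ∀ j, (ys.map fun y => y j).sum = (xs.map fun x => x j).sum
  | [], xs, _, h => by
    rw [List.map_nil] at h
    cases h
    exact ⟨[], by simp [variants], [], List.Forall₂.nil, fun _ => rfl⟩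
  | p :: L, xs, hg, h => by
    rw [List.map_cons] at h
    cases h with
    | @cons _ x _ xs hx h =>
      obtain ⟨L', h1, ys, h2, h3⟩ := decomp_of_decR_aux L xs
        (fun q hq => hg q (List.mem_cons_of_mem _ hq)) h
      cases p with
      | pair c =>
        refine ⟨_, List.mem_map_of_mem h1, x :: ys, List.Forall₂.cons hx h2, fun j => ?_⟩
        simp only [List.map_cons, List.sum_cons, h3]
      | rect c k =>
        refine ⟨_, List.mem_map_of_mem h1, x :: ys, List.Forall₂.cons hx h2, fun j => ?_⟩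
        simp only [List.map_cons, List.sum_cons, h3]
      | dup c =>
        obtain ⟨a1, a2, a3⟩ := hx
        obtain ⟨σ, s1, s2, s3, -⟩ := invol_of_evenC a3
        refine ⟨_, List.mem_map_of_mem h1, x :: ys,
          List.Forall₂.cons (show RowOK (.dup c) x from ⟨a2, a1, σ, s1, s2, s3⟩) h2, fun j => ?_⟩
        simp only [List.map_cons, List.sum_cons, h3]
      | gap c =>
        obtain ⟨a1, a2⟩ := hx
        change ∑ j, x j = 2 * c - 2 at a1
        have hc : 2 ≤ c := Nat.le_of_ble_eq_true (hg _ List.mem_cons_self)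
        rcases a2 with ⟨a2, a3, a4⟩ | a2
        · obtain ⟨σ, s1, s2, s3, -⟩ := invol_of_evenC a3
          refine ⟨_, List.mem_append_left _ (List.mem_map_of_mem h1), x :: ys,
            List.Forall₂.cons (show RowOK (.gap c) x from ⟨a2, a1, ⟨σ, s1, s2, s3⟩, a4⟩) h2,
            fun j => ?_⟩
          simp only [List.map_cons, List.sum_cons, h3]
        · obtain ⟨y, -, hy1, hy2⟩ := exists_between_sum (l := fun _ => 0) (u := x)
            (fun _ => Nat.zero_le _) (S := c) (by simp) (by omega)
          refine ⟨_, List.mem_append_right _ (List.mem_map_of_mem h1),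
            y :: (fun j => x j - y j) :: ys, List.Forall₂.cons
              (show RowOK (.rect c 1) y from ⟨fun j => (hy1 j).trans (a2 j), by rw [hy2, mul_one]⟩)
              (List.Forall₂.cons (show RowOK (.rect (c - 2) 1) fun j => x j - y j from
                ⟨fun j => (Nat.sub_le _ _).trans (a2 j), ?_⟩) h2), fun j => ?_⟩
          · rw [sum_tsub_distrib _ fun j _ => hy1 j, a1, hy2]; omega
          · have := hy1 j
            simp only [List.map_cons, List.sum_cons, h3]
            omega

theorem decomp_of_decR {ι : Type*} [Fintype ι] [DecidableEq ι] {L : List Pc} {H : ι → ℕ}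
    (hg : ∀ p ∈ L, gapOK p = true) (h : DecR (L.map toRK) H) : ∃ L' ∈ variants L, Decomp L' H := by
  obtain ⟨xs, h1, h2⟩ := h
  obtain ⟨L', h3, ys, h4, h5⟩ := decomp_of_decR_aux L xs hg h1
  exact ⟨L', h3, ys, h4, fun j => by rw [h5, h2]⟩

end convert

section node

variable {n B w w₂ : ℕ} {H : ℕ → ℕ}

/-- admissible modification with total `n` -/
def okMP (L : List ((RK × ℕ) × ℕ)) (n : ℕ) : Bool :=
  (L.all fun p => modOK p.1.1 p.1.2 p.2) &&
    Nat.beq ((L.map fun p => modN p.1.1 p.2).sum) ((L.map fun p => modG p.1.1 p.2).sum) &&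
      Nat.beq ((L.map fun p => modS p.1.1 p.1.2 p.2).sum) n

theorem node_crit (R : Region n B w w₂ H) {t h : ℕ} (ht : t ≤ w) (hh : H t ≤ h)
    {L : List ((RK × ℕ) × ℕ)} (hok : okMP L n = true)
    (h1 : preOK (mlist L) ((List.range t).map H) 0 0 = true)
    (h2 : restOK (mlist L) n h (lbN ((List.range t).map H) (n - ∑ j ∈ range t, H j) h) 99
      ((List.range t).map H).length ((List.range t).map H).sum = true) :
    DecR (L.map Prod.fst) fun j : Fin w => H j := by
  simp only [okMP, Bool.and_eq_true, List.all_eq_true, Nat.beq_eq] at hok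
  obtain ⟨⟨h3, h4⟩, h5⟩ := hok
  refine decR_crit L h3 h4 R.anti (by rw [R.sum, h5]) fun J hJ => ?_
  rcases Nat.eq_zero_or_pos J with h0 | h0
  · subst h0; simp
  rcases Nat.lt_or_ge t J with h6 | h6
  · have hlen : ((List.range t).map H).length = t := by simp
    rw [hlen] at h2
    have hsum : ((List.range t).map H).sum = ∑ j ∈ range t, H j := by
      rw [← List.sum_toFinset _ List.nodup_range, List.toFinset_range]
    rw [hsum] at h2
    refine restOK_sound R.tc_sum_le (fun K hK => ?_) 99 t _ h2 le_rfl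
      (fun i hi => (R.anti hi).trans hh) J h6
    have h7 := R.tc_lbN_le ht hh
    have h8 := R.tc_sum_lb (hK.trans h7)
    omega
  · refine preOK_sound _ 0 0 h1 (fun i hi => ?_) (by simp) J h0 (by simpa using h6)
    have hi' : i < t := by simpa using hi
    rw [Nat.zero_add, List.getD_eq_getElem?_getD, List.getElem?_map,
      List.getElem?_range hi']
    rfl

/-- data of a commit node -/
structure CM where
  pre : List ℕ
  i : ℕ
  cs : List (List ℕ × (RK × ℕ))
  as : List ℕ

/-- the commitment is admissible -/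
def comAll (t : ℕ) : List (RK × ℕ) → List (List ℕ × (RK × ℕ)) → Bool
  | [], [] => true
  | p :: L, c :: cs => comOK p c && Nat.beq c.1.length t && comAll t L cs
  | _, _ => false

theorem comAll_sound {t : ℕ} : ∀ {L : List (RK × ℕ)} {cs : List (List ℕ × (RK × ℕ))},
    comAll t L cs = true → List.Forall₂ (fun p c => comOK p c = true ∧ c.1.length = t) L cs
  | [], [], _ => List.Forall₂.nil
  | p :: L, c :: cs, h => by
    simp only [comAll, Bool.and_eq_true, Nat.beq_eq] at h
    exact List.Forall₂.cons ⟨h.1.1, h.1.2⟩ (comAll_sound h.2)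
  | [], _ :: _, h => absurd h (by simp [comAll])
  | _ :: _, [], h => absurd h (by simp [comAll])

/-- column sums of the commitment -/
def colChk (cs : List (List ℕ × (RK × ℕ))) (pre : List ℕ) : ℕ → Bool
  | 0 => true
  | j + 1 => Nat.beq (colSum cs j) (pre.getD j 0) && colChk cs pre j

theorem colChk_sound {cs : List (List ℕ × (RK × ℕ))} {pre : List ℕ} : ∀ {t : ℕ},
    colChk cs pre t = true → ∀ j, j < t → colSum cs j = pre.getD j 0
  | 0, _, j, hj => by omega
  | t + 1, h, j, hj => by
    simp only [colChk, Bool.and_eq_true, Nat.beq_eq] at h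
    rcases Nat.eq_or_lt_of_le (Nat.lt_succ_iff.1 hj) with h1 | h1
    · rw [h1]; exact h.1
    · exact colChk_sound h.2 j h1

theorem node_commit (R : Region n B w w₂ H) {t h : ℕ} (ht : t ≤ w) (hh : H t ≤ h)
    {L : List (RK × ℕ)} {cs : List (List ℕ × (RK × ℕ))} {as : List ℕ}
    (hlen : as.length = cs.length)
    (hc : comAll t L cs = true) (hcol : colChk cs ((List.range t).map H) t = true)
    (hok : okMP ((cs.map Prod.snd).zip as) (n - ∑ j ∈ range t, H j) = true)
    (h2 : restOK (mlist ((cs.map Prod.snd).zip as)) (n - ∑ j ∈ range t, H j) h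
      (lbN ((List.range t).map H) (n - ∑ j ∈ range t, H j) h - ((List.range t).map H).length)
      99 0 0 = true) :
    DecR L fun j : Fin w => H j := by
  obtain ⟨m, rfl⟩ := Nat.exists_eq_add_of_le ht
  simp only [okMP, Bool.and_eq_true, List.all_eq_true, Nat.beq_eq] at hok
  obtain ⟨⟨h3, h4⟩, h5⟩ := hok
  have hP : ∀ J, ∑ j ∈ range t, H j + ∑ j ∈ range J, H (t + j) = ∑ j ∈ range (t + J), H j :=
    fun J => (sum_range_add _ _ _).symm
  have hrest : DecR (((cs.map Prod.snd).zip as).map Prod.fst) fun j : Fin m => H (t + j) := by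
    refine decR_crit (H := fun j => H (t + j)) _ h3 h4 (fun a b hab => R.anti (by omega)) ?_
      fun J hJ => ?_
    · rw [h5]
      have h6 := hP m
      rw [R.sum] at h6
      omega
    · rcases Nat.eq_zero_or_pos J with h0 | h0
      · subst h0; simp
      have hl2 : ((List.range t).map H).length = t := by simp
      rw [hl2] at h2
      refine restOK_sound (G := fun j => H (t + j)) (fun K => ?_) (fun K hK => ?_) 99 0 0 h2
        (by simp) (fun i _ => (R.anti (by omega)).trans hh) J h0
      · have h6 := hP K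
        have h7 := R.tc_sum_le (t + K)
        omega
      · have h7 := R.tc_lbN_le ht hh
        have h6 := hP K
        have h9 := R.tc_sum_le t
        have h10 : t + K ≤ t + m := by omega
        have h8 := R.tc_sum_lb h10
        omega
  rw [List.map_fst_zip (by rw [List.length_map]; omega)] at hrest
  refine decR_commit (comAll_sound hc) (fun j hj => ?_) hrest
  rw [colChk_sound hcol j hj, List.getD_eq_getElem?_getD, List.getElem?_map,
    List.getElem?_range hj]
  rfl

end node

section main

/-- the list of pieces number `i` -/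
def lsAt (Ls : List (List Pc)) (i : ℕ) : List (RK × ℕ) := (Ls.getD i []).map toRK

/-- check of the data of a criterion -/
def okSp (Ls : List (List Pc)) (n : ℕ) (s : ℕ × List ℕ) : Bool :=
  Nat.blt s.1 Ls.length && Nat.beq s.2.length (lsAt Ls s.1).length && okMP ((lsAt Ls s.1).zip s.2) n

/-- check of the data of a commitment -/
def okCM (Ls : List (List Pc)) (n : ℕ) (c : CM) : Bool :=
  Nat.blt c.i Ls.length && Nat.beq c.as.length c.cs.length && comAll c.pre.length (lsAt Ls c.i) c.cs &&
    colChk c.cs c.pre c.pre.length && okMP ((c.cs.map Prod.snd).zip c.as) (n - c.pre.sum)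

/-- compiled data -/
def cpSp (Ls : List (List Pc)) (s : ℕ × List ℕ) : List (ℕ × ℕ) := mlist ((lsAt Ls s.1).zip s.2)

def cpCM (c : CM) : List ℕ × List (ℕ × ℕ) := (c.pre, mlist ((c.cs.map Prod.snd).zip c.as))

theorem tchk_sound {n B w w₂ : ℕ} {H : ℕ → ℕ} (R : Region n B w w₂ H) (Ls : List (List Pc))
    {sp : List (ℕ × List ℕ)} {cm : List CM} {ex : List (List ℕ)} (hsp : ∀ s ∈ sp, okSp Ls n s = true)
    (hcm : ∀ c ∈ cm, okCM Ls n c = true) : ∀ (f t h : ℕ) (cur : List (List ℕ × List (ℕ × ℕ))),
    t ≤ w → H t ≤ h →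
    (∀ c ∈ cur, ∃ c' ∈ cm, c'.pre = (List.range t).map H ++ c.1 ∧ (cpCM c').2 = c.2) →
    tchk n B (sp.map (cpSp Ls)) ex f cur ((List.range t).map H) (n - ∑ j ∈ range t, H j) h = true →
    (∃ i, i < Ls.length ∧ DecR (lsAt Ls i) fun j : Fin w => H j) ∨ (List.range w).map H ∈ ex
  | 0, _, _, _, _, _, _, h0 => absurd h0 (by simp [tchk])
  | f + 1, t, h, cur, ht, hh, hcur, h0 => by
    rw [tchk, R.tc_not_out ht hh, Bool.false_or, Bool.or_eq_true, Bool.or_eq_true] at h0
    rcases h0 with (h0 | h0) | h0
    · left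
      rw [List.any_eq_true] at h0
      obtain ⟨ML, hML, h1⟩ := h0
      obtain ⟨s, hs, rfl⟩ := List.mem_map.1 hML
      rw [Bool.and_eq_true] at h1
      have h2 := hsp s hs
      simp only [okSp, Bool.and_eq_true, Nat.blt_eq, Nat.beq_eq] at h2
      refine ⟨s.1, h2.1.1, ?_⟩
      have h3 := node_crit R ht hh h2.2 h1.1 h1.2
      rwa [List.map_fst_zip (by omega)] at h3
    · left
      rw [List.any_eq_true] at h0
      obtain ⟨c', hc', h1⟩ := h0
      obtain ⟨c, hc, hpre, hc2⟩ := hcur c' hc'
      rw [Bool.and_eq_true, List.isEmpty_iff] at h1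
      rw [h1.1, List.append_nil] at hpre
      rw [← hc2] at h1
      have h2 := hcm c hc
      simp only [okCM, Bool.and_eq_true, Nat.blt_eq, Nat.beq_eq] at h2
      obtain ⟨⟨⟨⟨q1, q2⟩, q3⟩, q4⟩, q5⟩ := h2
      rw [hpre] at q3 q4 q5
      have hlen : ((List.range t).map H).length = t := by simp
      have hsum : ((List.range t).map H).sum = ∑ j ∈ range t, H j := by
        rw [← List.sum_toFinset _ List.nodup_range, List.toFinset_range]
      rw [hlen] at q3 q4
      rw [hsum] at q5
      exact ⟨c.i, q1, node_commit R ht hh q2 q3 q4 q5 h1.2⟩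
    · by_cases h1 : 1 ≤ n - ∑ j ∈ range t, H j
      · rw [Nat.ble_eq_true_of_le h1, cond_true] at h0
        have htw : t < w := by
          by_contra hcon
          have h3 : t = w := by omega
          rw [h3, R.sum] at h1
          omega
        have hpos := (R.pos t).1 htw
        have hrem : H t ≤ n - ∑ j ∈ range t, H j := by
          have h3 := R.tc_sum_le (t + 1)
          rw [sum_range_succ] at h3
          omega
        have hcap2 : H t ≤ hcap B ((List.range t).map H) (bmin h (n - ∑ j ∈ range t, H j)) := by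
          have h3 : H t ≤ bmin h (n - ∑ j ∈ range t, H j) := by
            rw [bmin_eq]; exact le_min hh hrem
          rcases t with _ | _ | t
          · exact h3
          · change H 1 ≤ bmin (bmin h _) (2 * B - H 0)
            rw [bmin_eq]
            refine le_min h3 ?_
            have := R.col
            omega
          · rw [List.range_succ_eq_map, List.range_succ_eq_map]
            exact h3
        have h4 := allUp_sound h0 (H t) hpos hcap2
        have h5 : (List.range t).map H ++ [H t] = (List.range (t + 1)).map H := by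
          rw [List.range_succ, List.map_append]; rfl
        have h6 : n - ∑ j ∈ range t, H j - H t = n - ∑ j ∈ range (t + 1), H j := by
          rw [sum_range_succ]; omega
        rw [h5, h6] at h4
        refine tchk_sound R Ls hsp hcm f (t + 1) (H t) (advC (H t) cur) (by omega)
          (R.anti (Nat.le_succ t)) (fun c hc => ?_) h4
        obtain ⟨c', q1, q2, q3⟩ := hcur _ (mem_advC hc)
        refine ⟨c', q1, ?_, q3⟩
        rw [q2, ← h5, List.append_assoc]
        rfl
      · right
        rw [show Nat.ble 1 (n - ∑ j ∈ range t, H j) = false from by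
          rw [Bool.eq_false_iff]; exact fun hh => h1 (Nat.le_of_ble_eq_true hh), cond_false,
          List.any_eq_true] at h0
        obtain ⟨q, hq, h2⟩ := h0
        have htw : t = w := by
          by_contra hcon
          have h3 := R.tc_sum_lb ht
          have h4 := R.tc_sum_le t
          omega
        rw [← htw, ← beqL_eq h2]
        exact hq

def validPbT : List Pc → Bool
  | [] => true
  | g :: L => Nat.ble g.low g.top && (L.all fun h => Nat.ble h.top g.next) && validPbT L

theorem validPbT_sound : ∀ {L : List Pc}, validPbT L = true → validP L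
  | [], _ => trivial
  | g :: L, h => by
    simp only [validPbT, Bool.and_eq_true, Nat.ble_eq, List.all_eq_true] at h
    exact ⟨h.1.1, h.1.2, validPbT_sound h.2⟩

/-- the columns of the pieces are those of the hook list -/
def colsEq (ps : List ℕ) (cs : List ℕ) : ℕ → Bool
  | 0 => true
  | s + 1 => Nat.beq (cs.getD s 0) (cl ps s) && colsEq ps cs s

theorem colsEq_sound {ps cs : List ℕ} : ∀ {t : ℕ}, colsEq ps cs t = true → ∀ s, s < t →
    cs.getD s 0 = cl ps s
  | 0, _, s, hs => by omega
  | t + 1, h, s, hs => by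
    simp only [colsEq, Bool.and_eq_true, Nat.beq_eq] at h
    rcases Nat.eq_or_lt_of_le (Nat.lt_succ_iff.1 hs) with h1 | h1
    · rw [h1]; exact h.1
    · exact colsEq_sound h.2 s h1

def okShape (ps : List ℕ) (L : List Pc) : Bool :=
  validPbT L && Nat.beq (colsP L).length (ps.headD 0) && colsEq ps (colsP L) (ps.headD 0)

theorem okShape_sound {ps : List ℕ} (hv : ValidH ps) {L : List Pc} (h : okShape ps L = true) :
    validP L ∧ ∀ s, (colsP L).getD s 0 = cl ps s := by
  simp only [okShape, Bool.and_eq_true, Nat.beq_eq] at h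
  obtain ⟨⟨h1, h2⟩, h3⟩ := h
  refine ⟨validPbT_sound h1, fun s => ?_⟩
  rcases Nat.lt_or_ge s (ps.headD 0) with hs | hs
  · exact colsEq_sound h3 s hs
  · rw [cl_eq_zero hv (by rw [cl_zero]; exact hs), List.getD_eq_getElem?_getD,
      List.getElem?_eq_none (by omega)]
    rfl

theorem tree_main {ps : List ℕ} (Ls : List (List Pc)) (sp : List (ℕ × List ℕ))
    (cm : List CM) (ex : List (List ℕ)) (spC : List (List (ℕ × ℕ)))
    (cmC : List (List ℕ × List (ℕ × ℕ))) (f : ℕ) (hv : ValidH ps)
    (h1 : (Ls.all fun L => L.all gapOK && (variants L).all (okShape ps)) = true)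
    (h2 : (sp.all (okSp Ls (hsize ps))) = true) (h2' : spC = sp.map (cpSp Ls))
    (h3 : (cm.all (okCM Ls (hsize ps))) = true) (h3' : cmC = cm.map cpCM)
    (h4 : tchk (hsize ps) (ps.headD 0 - 1) spC ex f cmC [] (hsize ps) (2 * (ps.headD 0 - 1)) = true)
    {H : ℕ → ℕ} {w w₂ : ℕ} (R : Region (hsize ps) (ps.headD 0 - 1) w w₂ H) :
    (∃ L : List Pc, validP L ∧ (∀ s, (colsP L).getD s 0 = cl ps s) ∧ Decomp L fun j : Fin w => H j) ∨
      (List.range w).map H ∈ ex := by
  rw [List.all_eq_true] at h2 h3
  subst h2' h3'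
  rcases tchk_sound R Ls h2 h3 f 0 (2 * (ps.headD 0 - 1)) (cm.map cpCM) (Nat.zero_le _)
    (by have := R.col; omega) (fun c hc => by
      obtain ⟨c', q1, q2⟩ := List.mem_map.1 hc
      exact ⟨c', q1, by rw [← q2]; rfl, by rw [← q2]⟩) (by simpa using h4) with ⟨i, hi, hD⟩ | hD
  · left
    have hmem : Ls.getD i [] ∈ Ls := by
      rw [List.getD_eq_getElem?_getD, List.getElem?_eq_getElem hi]
      exact List.getElem_mem hi
    rw [List.all_eq_true] at h1
    have h5 := h1 _ hmem
    rw [Bool.and_eq_true, List.all_eq_true, List.all_eq_true] at h5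
    obtain ⟨L', hL', hdec⟩ := decomp_of_decR h5.1 hD
    obtain ⟨q1, q2⟩ := okShape_sound hv (h5.2 L' hL')
    exact ⟨L', q1, q2, hdec⟩
  · exact Or.inr hD

/-- **tree check** -/
theorem covH_of_tree {ps : List ℕ} (hv : ValidH ps) (Ls : List (List Pc)) (sp : List (ℕ × List ℕ))
    (cm : List CM) (spC : List (List (ℕ × ℕ))) (cmC : List (List ℕ × List (ℕ × ℕ))) (f : ℕ)
    (h1 : (Ls.all fun L => L.all gapOK && (variants L).all (okShape ps)) = true)
    (h2 : (sp.all (okSp Ls (hsize ps))) = true) (h2' : spC = sp.map (cpSp Ls))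
    (h3 : (cm.all (okCM Ls (hsize ps))) = true) (h3' : cmC = cm.map cpCM)
    (h4 : tchk (hsize ps) (ps.headD 0 - 1) spC [] f cmC [] (hsize ps) (2 * (ps.headD 0 - 1)) = true) :
    CovH ps := by
  intro H w w₂ R
  rcases tree_main Ls sp cm [] spC cmC f hv h1 h2 h2' h3 h3' h4 R with h | h
  · exact h
  · exact absurd h (by simp)

/-- **tree check with exceptions** -/
theorem fullH_of_tree {p : ℕ} {ps : List ℕ} (hv : ValidH (p :: ps)) (hc : HC p ps) (hf : FullH ps)
    (Ls : List (List Pc)) (sp : List (ℕ × List ℕ))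
    (cm : List CM) (ex : List (List ℕ)) (spC : List (List (ℕ × ℕ)))
    (cmC : List (List ℕ × List (ℕ × ℕ))) (f : ℕ)
    (hexc : ∀ q ∈ ex, ∀ μ : YoungDiagram, μ.card = hsize (p :: ps) →
      (List.range (μ.rowLen 0)).map μ.colLen = q → OccSh (hk (p :: ps)) (hk (p :: ps)) μ)
    (h1 : (Ls.all fun L => L.all gapOK && (variants L).all (okShape (p :: ps))) = true)
    (h2 : (sp.all (okSp Ls (hsize (p :: ps)))) = true) (h2' : spC = sp.map (cpSp Ls))
    (h3 : (cm.all (okCM Ls (hsize (p :: ps)))) = true) (h3' : cmC = cm.map cpCM)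
    (h4 : tchk (hsize (p :: ps)) (p - 1) spC ex f cmC [] (hsize (p :: ps)) (2 * (p - 1)) = true) :
    FullH (p :: ps) := by
  refine rule1 hv hc hf fun μ hn hr => ?_
  rcases tree_main Ls sp cm ex spC cmC f hv h1 h2 h2' h3 h3' h4 hr with ⟨L, q1, q2, q3⟩ | h
  · rw [← colS_eq_hk hv q2]
    exact occSh_of_decompP L q1 q3
  · exact hexc _ h μ hn rfl

end main

end Crest.Agent.R195
private theorem rz_f510735eb9 : type_of% @_root_.Crest.Agent.R195.colChk.eq_def := @_root_.Crest.Agent.R195.colChk.eq_def -- L152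
private theorem rz_70f14ee50d : type_of% @_root_.Crest.Agent.R195.colChk.eq_1 := @_root_.Crest.Agent.R195.colChk.eq_1 -- L152
private theorem rz_940fb75f18 : type_of% @_root_.Crest.Agent.R195.colsEq.eq_def := @_root_.Crest.Agent.R195.colsEq.eq_def -- L326
private theorem rz_3bfb348c4a : type_of% @_root_.Crest.Agent.R195.colsEq.eq_1 := @_root_.Crest.Agent.R195.colsEq.eq_1 -- L326
private theorem rz_2ddd950ce4 : type_of% @_root_.Crest.Agent.R195.comAll.eq_def := @_root_.Crest.Agent.R195.comAll.eq_def -- L137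
private theorem rz_ba5d4eae01 : type_of% @_root_.Crest.Agent.R195.comAll.eq_1 := @_root_.Crest.Agent.R195.comAll.eq_1 -- L137
private theorem rz_c7ce46eb36 : type_of% @_root_.Crest.Agent.R195.validPbT.eq_def := @_root_.Crest.Agent.R195.validPbT.eq_def -- L315
private theorem rz_c4efe56a71 : type_of% @_root_.Crest.Agent.R195.validPbT.eq_1 := @_root_.Crest.Agent.R195.validPbT.eq_1 -- L315
private theorem rz_ae7d8be00f : type_of% @_root_.Crest.Agent.R195.variants.eq_def := @_root_.Crest.Agent.R195.variants.eq_def -- L21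
private theorem rz_9f29f96f59 : type_of% @_root_.Crest.Agent.R195.variants.eq_1 := @_root_.Crest.Agent.R195.variants.eq_1 -- L21
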