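import Crest.Agent.R195.TreeFin

-- ▼ part R195/TreeM7a
section

set_option autoImplicit false
set_option maxHeartbeats 2000000

namespace Crest.Agent.R195

/-! hook list [8, 5, 3], n = 29: 234 nodes, 61 commitments -/

def ls_8_5_3 : List (List Pc) :=
  [[.rect 8 1, .pair 6, .dup 3, .rect 2 1, .dup 1],
   [.gap 8, .rect 5 1, .dup 3, .rect 2 1, .dup 1]]

def sp_8_5_3 : List (ℕ × List ℕ) :=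
  [(0, [0, 1, 2, 0, 1])]

def spC_8_5_3 : List (List (ℕ × ℕ)) :=
  [[(8, 1), (10, 3), (7, 2), (2, 1), (2, 1)]]

def cm_8_5_3_0 : List CM :=
  [⟨[10, 4], 0, [([1, 0], (.pl 1, 7)), ([4, 0], (.pl 4, 7)), ([3, 3], (.ev, 0)), ([1, 0], (.pl 1, 1)), ([1, 1], (.ev, 0))], [0, 0, 1, 0, 1]⟩,
   ⟨[9, 5], 0, [([1, 1], (.pl 1, 6)), ([4, 0], (.pl 4, 7)), ([3, 3], (.ev, 0)), ([0, 0], (.pl 1, 2)), ([1, 1], (.ev, 0))], [0, 0, 1, 0, 1]⟩,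
   ⟨[9, 4], 0, [([1, 0], (.pl 1, 7)), ([4, 0], (.pl 4, 7)), ([3, 3], (.ev, 0)), ([0, 0], (.pl 1, 2)), ([1, 1], (.ev, 0))], [0, 0, 1, 0, 1]⟩,
   ⟨[7, 7, 7, 5], 1, [([4, 4, 2, 2], (.ev, 2)), ([1, 1, 1, 1], (.pl 1, 1)), ([2, 1, 2, 1], (.ev, 0)), ([0, 0, 1, 1], (.pl 1, 0)), ([0, 1, 1, 0], (.ev, 0))], [1, 0, 1, 0, 1]⟩,
   ⟨[7, 7, 7, 4], 1, [([4, 4, 2, 2], (.ev, 2)), ([0, 1, 1, 1], (.pl 1, 2)), ([3, 0, 3, 0], (.ev, 0)), ([0, 1, 0, 1], (.pl 1, 0)), ([0, 1, 1, 0], (.ev, 0))], [1, 0, 1, 0, 1]⟩,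
   ⟨[7, 7, 7, 3], 1, [([4, 4, 2, 2], (.ev, 2)), ([0, 1, 1, 1], (.pl 1, 2)), ([3, 0, 3, 0], (.ev, 0)), ([0, 1, 0, 0], (.pl 1, 1)), ([0, 1, 1, 0], (.ev, 0))], [1, 0, 1, 0, 1]⟩,
   ⟨[7, 7, 7, 2], 1, [([4, 4, 2, 2], (.ev, 2)), ([0, 1, 1, 0], (.pl 1, 3)), ([3, 0, 3, 0], (.ev, 0)), ([0, 1, 0, 0], (.pl 1, 1)), ([0, 1, 1, 0], (.ev, 0))], [1, 0, 1, 0, 1]⟩,
   ⟨[7, 7, 6, 6], 1, [([4, 4, 2, 2], (.ev, 2)), ([1, 1, 1, 1], (.pl 1, 1)), ([0, 0, 3, 3], (.ev, 0)), ([1, 1, 0, 0], (.pl 1, 0)), ([1, 1, 0, 0], (.ev, 0))], [1, 0, 1, 0, 1]⟩,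
   ⟨[7, 7, 6, 5], 1, [([4, 4, 2, 2], (.ev, 2)), ([0, 1, 1, 1], (.pl 1, 2)), ([3, 0, 3, 0], (.ev, 0)), ([0, 1, 0, 1], (.pl 1, 0)), ([0, 1, 0, 1], (.ev, 0))], [1, 0, 1, 0, 1]⟩,
   ⟨[7, 7, 6, 4], 1, [([4, 4, 2, 2], (.ev, 2)), ([0, 1, 1, 1], (.pl 1, 2)), ([3, 0, 3, 0], (.ev, 0)), ([0, 1, 0, 0], (.pl 1, 1)), ([0, 1, 0, 1], (.ev, 0))], [1, 0, 1, 0, 1]⟩,
   ⟨[7, 7, 6, 3], 1, [([4, 4, 2, 2], (.ev, 2)), ([0, 1, 0, 1], (.pl 1, 3)), ([3, 0, 3, 0], (.ev, 0)), ([0, 1, 0, 0], (.pl 1, 1)), ([0, 1, 1, 0], (.ev, 0))], [1, 0, 1, 0, 1]⟩,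
   ⟨[7, 7, 5, 5], 1, [([4, 4, 2, 2], (.ev, 2)), ([1, 1, 1, 1], (.pl 1, 1)), ([2, 2, 1, 1], (.ev, 0)), ([0, 0, 0, 0], (.pl 1, 2)), ([0, 0, 1, 1], (.ev, 0))], [1, 0, 1, 0, 1]⟩,
   ⟨[7, 7, 5, 4], 1, [([4, 4, 2, 2], (.ev, 2)), ([1, 1, 1, 1], (.pl 1, 1)), ([2, 2, 1, 1], (.ev, 0)), ([0, 0, 1, 0], (.pl 1, 1)), ([0, 0, 0, 0], (.ev, 2))], [1, 0, 1, 0, 1]⟩,
   ⟨[7, 7, 5, 3], 1, [([4, 4, 2, 2], (.ev, 2)), ([0, 1, 1, 0], (.pl 1, 3)), ([2, 2, 1, 1], (.ev, 0)), ([0, 0, 0, 0], (.pl 1, 2)), ([1, 0, 1, 0], (.ev, 0))], [1, 0, 1, 0, 1]⟩,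
   ⟨[7, 7, 4, 4], 1, [([4, 4, 2, 2], (.ev, 2)), ([1, 1, 1, 1], (.pl 1, 1)), ([2, 2, 1, 1], (.ev, 0)), ([0, 0, 0, 0], (.pl 1, 2)), ([0, 0, 0, 0], (.ev, 2))], [1, 0, 1, 0, 1]⟩,
   ⟨[7, 7, 4, 3], 1, [([4, 4, 2, 2], (.ev, 2)), ([0, 0, 1, 1], (.pl 1, 3)), ([3, 3, 0, 0], (.ev, 0)), ([0, 0, 1, 0], (.pl 1, 1)), ([0, 0, 0, 0], (.ev, 2))], [1, 0, 1, 0, 1]⟩,
   ⟨[7, 7, 3, 3], 1, [([4, 4, 2, 2], (.ev, 2)), ([0, 0, 1, 1], (.pl 1, 3)), ([3, 3, 0, 0], (.ev, 0)), ([0, 0, 0, 0], (.pl 1, 2)), ([0, 0, 0, 0], (.ev, 2))], [1, 0, 1, 0, 1]⟩,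
   ⟨[7, 6, 6, 6], 1, [([4, 4, 2, 2], (.ev, 2)), ([1, 1, 1, 1], (.pl 1, 1)), ([0, 0, 3, 3], (.ev, 0)), ([1, 0, 0, 0], (.pl 1, 1)), ([1, 1, 0, 0], (.ev, 0))], [1, 0, 1, 0, 1]⟩,
   ⟨[7, 6, 6, 5], 1, [([4, 4, 2, 2], (.ev, 2)), ([0, 1, 1, 1], (.pl 1, 2)), ([3, 0, 3, 0], (.ev, 0)), ([0, 0, 0, 1], (.pl 1, 1)), ([0, 1, 0, 1], (.ev, 0))], [1, 0, 1, 0, 1]⟩,
   ⟨[7, 6, 6, 4], 1, [([4, 4, 2, 2], (.ev, 2)), ([1, 1, 1, 1], (.pl 1, 1)), ([2, 1, 2, 1], (.ev, 0)), ([0, 0, 1, 0], (.pl 1, 1)), ([0, 0, 0, 0], (.ev, 2))], [1, 0, 1, 0, 1]⟩,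
   ⟨[7, 6, 6, 3], 1, [([4, 4, 2, 2], (.ev, 2)), ([0, 1, 0, 1], (.pl 1, 3)), ([3, 0, 3, 0], (.ev, 0)), ([0, 0, 0, 0], (.pl 1, 2)), ([0, 1, 1, 0], (.ev, 0))], [1, 0, 1, 0, 1]⟩,
   ⟨[7, 6, 5, 5], 1, [([4, 4, 2, 2], (.ev, 2)), ([1, 1, 1, 1], (.pl 1, 1)), ([2, 1, 2, 1], (.ev, 0)), ([0, 0, 0, 1], (.pl 1, 1)), ([0, 0, 0, 0], (.ev, 2))], [1, 0, 1, 0, 1]⟩,
   ⟨[7, 6, 5, 4], 1, [([4, 4, 2, 2], (.ev, 2)), ([1, 1, 1, 1], (.pl 1, 1)), ([2, 1, 2, 1], (.ev, 0)), ([0, 0, 0, 0], (.pl 1, 2)), ([0, 0, 0, 0], (.ev, 2))], [1, 0, 1, 0, 1]⟩,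
   ⟨[7, 6, 5, 3], 1, [([4, 4, 2, 2], (.ev, 2)), ([0, 1, 0, 1], (.pl 1, 3)), ([3, 0, 3, 0], (.ev, 0)), ([0, 1, 0, 0], (.pl 1, 1)), ([0, 0, 0, 0], (.ev, 2))], [1, 0, 1, 0, 1]⟩,
   ⟨[7, 6, 4, 4], 1, [([4, 4, 2, 2], (.ev, 2)), ([1, 0, 1, 1], (.pl 1, 2)), ([2, 2, 1, 1], (.ev, 0)), ([0, 0, 0, 0], (.pl 1, 2)), ([0, 0, 0, 0], (.ev, 2))], [1, 0, 1, 0, 1]⟩,
   ⟨[7, 6, 4, 3], 1, [([4, 4, 2, 2], (.ev, 2)), ([1, 0, 1, 0], (.pl 1, 3)), ([2, 2, 1, 1], (.ev, 0)), ([0, 0, 0, 0], (.pl 1, 2)), ([0, 0, 0, 0], (.ev, 2))], [1, 0, 1, 0, 1]⟩,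
   ⟨[7, 5, 5, 5, 5], 1, [([4, 4, 2, 2, 0], (.ev, 2)), ([1, 1, 1, 1, 1], (.pl 1, 0)), ([2, 0, 1, 1, 2], (.ev, 0)), ([0, 0, 0, 1, 1], (.pl 1, 0)), ([0, 0, 1, 0, 1], (.ev, 0))], [1, 0, 1, 0, 1]⟩,
   ⟨[7, 5, 5, 5, 4], 1, [([4, 4, 2, 2, 0], (.ev, 2)), ([0, 1, 1, 1, 1], (.pl 1, 1)), ([3, 0, 0, 0, 3], (.ev, 0)), ([0, 0, 1, 1, 0], (.pl 1, 0)), ([0, 0, 1, 1, 0], (.ev, 0))], [1, 0, 1, 0, 1]⟩,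
   ⟨[7, 5, 5, 5, 3], 1, [([4, 4, 2, 2, 0], (.ev, 2)), ([1, 1, 1, 1, 0], (.pl 1, 1)), ([2, 0, 2, 1, 1], (.ev, 0)), ([0, 0, 0, 0, 1], (.pl 1, 1)), ([0, 0, 0, 1, 1], (.ev, 0))], [1, 0, 1, 0, 1]⟩,
   ⟨[7, 5, 5, 4], 1, [([4, 4, 2, 2], (.ev, 2)), ([0, 1, 0, 1], (.pl 1, 3)), ([3, 0, 3, 0], (.ev, 0)), ([0, 0, 0, 1], (.pl 1, 1)), ([0, 0, 0, 0], (.ev, 2))], [1, 0, 1, 0, 1]⟩,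
   ⟨[7, 5, 5, 3], 1, [([4, 4, 2, 2], (.ev, 2)), ([0, 1, 0, 1], (.pl 1, 3)), ([3, 0, 3, 0], (.ev, 0)), ([0, 0, 0, 0], (.pl 1, 2)), ([0, 0, 0, 0], (.ev, 2))], [1, 0, 1, 0, 1]⟩,
   ⟨[7, 5, 4, 4], 1, [([4, 4, 2, 2], (.ev, 2)), ([1, 0, 0, 1], (.pl 1, 3)), ([2, 1, 2, 1], (.ev, 0)), ([0, 0, 0, 0], (.pl 1, 2)), ([0, 0, 0, 0], (.ev, 2))], [1, 0, 1, 0, 1]⟩,
   ⟨[7, 4, 4, 4], 1, [([4, 4, 2, 2], (.ev, 2)), ([1, 0, 0, 1], (.pl 1, 3)), ([2, 0, 2, 0], (.ev, 2)), ([0, 0, 0, 1], (.pl 1, 1)), ([0, 0, 0, 0], (.ev, 2))], [1, 0, 1, 0, 1]⟩,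
   ⟨[6, 6, 6, 6, 4, 1], 1, [([4, 4, 2, 2, 1, 1], (.ev, 0)), ([1, 1, 1, 1, 1, 0], (.pl 1, 0)), ([0, 0, 3, 3, 0, 0], (.ev, 0)), ([0, 1, 0, 0, 1, 0], (.pl 1, 0)), ([1, 0, 0, 0, 1, 0], (.ev, 0))], [1, 0, 1, 0, 1]⟩,
   ⟨[6, 6, 6, 6, 3, 2], 1, [([4, 4, 2, 2, 1, 1], (.ev, 0)), ([1, 1, 1, 1, 1, 0], (.pl 1, 0)), ([0, 0, 3, 3, 0, 0], (.ev, 0)), ([0, 0, 0, 0, 1, 1], (.pl 1, 0)), ([1, 1, 0, 0, 0, 0], (.ev, 0))], [1, 0, 1, 0, 1]⟩,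
   ⟨[6, 6, 6, 6, 3, 1], 1, [([4, 4, 2, 2, 1, 1], (.ev, 0)), ([1, 1, 1, 1, 1, 0], (.pl 1, 0)), ([0, 0, 3, 3, 0, 0], (.ev, 0)), ([0, 0, 0, 0, 1, 0], (.pl 1, 1)), ([1, 1, 0, 0, 0, 0], (.ev, 0))], [1, 0, 1, 0, 1]⟩,
   ⟨[6, 6, 6, 6, 2], 1, [([4, 4, 2, 2, 0], (.ev, 2)), ([1, 1, 1, 1, 1], (.pl 1, 0)), ([0, 0, 3, 3, 0], (.ev, 0)), ([0, 0, 0, 0, 1], (.pl 1, 1)), ([1, 1, 0, 0, 0], (.ev, 0))], [1, 0, 1, 0, 1]⟩,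
   ⟨[6, 6, 6, 5, 5, 1], 1, [([4, 4, 2, 2, 1, 1], (.ev, 0)), ([1, 1, 1, 1, 1, 0], (.pl 1, 0)), ([0, 0, 3, 0, 3, 0], (.ev, 0)), ([0, 1, 0, 1, 0, 0], (.pl 1, 0)), ([1, 0, 0, 1, 0, 0], (.ev, 0))], [1, 0, 1, 0, 1]⟩,
   ⟨[6, 6, 6, 5, 4, 2], 1, [([4, 4, 2, 2, 1, 1], (.ev, 0)), ([1, 1, 1, 0, 1, 1], (.pl 1, 0)), ([0, 0, 3, 3, 0, 0], (.ev, 0)), ([0, 1, 0, 0, 1, 0], (.pl 1, 0)), ([1, 0, 0, 0, 1, 0], (.ev, 0))], [1, 0, 1, 0, 1]⟩,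
   ⟨[6, 6, 6, 5, 4, 1], 1, [([4, 4, 2, 2, 1, 1], (.ev, 0)), ([1, 1, 1, 0, 1, 0], (.pl 1, 1)), ([0, 0, 3, 3, 0, 0], (.ev, 0)), ([0, 1, 0, 0, 1, 0], (.pl 1, 0)), ([1, 0, 0, 0, 1, 0], (.ev, 0))], [1, 0, 1, 0, 1]⟩,
   ⟨[6, 6, 6, 5, 3, 3], 1, [([4, 4, 2, 2, 1, 1], (.ev, 0)), ([1, 1, 1, 0, 1, 1], (.pl 1, 0)), ([0, 0, 3, 3, 0, 0], (.ev, 0)), ([0, 0, 0, 0, 1, 1], (.pl 1, 0)), ([1, 1, 0, 0, 0, 0], (.ev, 0))], [1, 0, 1, 0, 1]⟩,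
   ⟨[6, 6, 6, 5, 3, 2], 1, [([4, 4, 2, 2, 1, 1], (.ev, 0)), ([1, 1, 1, 0, 1, 1], (.pl 1, 0)), ([0, 0, 3, 3, 0, 0], (.ev, 0)), ([0, 0, 0, 0, 1, 0], (.pl 1, 1)), ([1, 1, 0, 0, 0, 0], (.ev, 0))], [1, 0, 1, 0, 1]⟩,
   ⟨[6, 6, 6, 5, 2], 1, [([4, 4, 2, 2, 0], (.ev, 2)), ([1, 1, 1, 0, 1], (.pl 1, 1)), ([0, 0, 3, 3, 0], (.ev, 0)), ([0, 0, 0, 0, 1], (.pl 1, 1)), ([1, 1, 0, 0, 0], (.ev, 0))], [1, 0, 1, 0, 1]⟩,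
   ⟨[6, 6, 6, 4], 1, [([4, 4, 2, 2], (.ev, 2)), ([0, 1, 1, 1], (.pl 1, 2)), ([2, 1, 2, 1], (.ev, 0)), ([0, 0, 1, 0], (.pl 1, 1)), ([0, 0, 0, 0], (.ev, 2))], [1, 0, 1, 0, 1]⟩,
   ⟨[6, 6, 6, 3], 1, [([4, 4, 2, 2], (.ev, 2)), ([0, 1, 1, 0], (.pl 1, 3)), ([2, 1, 2, 1], (.ev, 0)), ([0, 0, 1, 0], (.pl 1, 1)), ([0, 0, 0, 0], (.ev, 2))], [1, 0, 1, 0, 1]⟩,
   ⟨[6, 6, 5, 5, 5, 2], 1, [([4, 4, 2, 2, 1, 1], (.ev, 0)), ([1, 1, 0, 1, 1, 1], (.pl 1, 0)), ([0, 0, 3, 0, 3, 0], (.ev, 0)), ([0, 1, 0, 1, 0, 0], (.pl 1, 0)), ([1, 0, 0, 1, 0, 0], (.ev, 0))], [1, 0, 1, 0, 1]⟩,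
   ⟨[6, 6, 5, 5, 5, 1], 1, [([4, 4, 2, 2, 1, 1], (.ev, 0)), ([1, 1, 0, 1, 1, 0], (.pl 1, 1)), ([0, 0, 3, 0, 3, 0], (.ev, 0)), ([0, 1, 0, 1, 0, 0], (.pl 1, 0)), ([1, 0, 0, 1, 0, 0], (.ev, 0))], [1, 0, 1, 0, 1]⟩,
   ⟨[6, 6, 5, 5, 4, 3], 1, [([4, 4, 2, 2, 1, 1], (.ev, 0)), ([1, 1, 1, 1, 0, 1], (.pl 1, 0)), ([1, 0, 2, 2, 1, 0], (.ev, 0)), ([0, 0, 0, 0, 1, 1], (.pl 1, 0)), ([0, 1, 0, 0, 1, 0], (.ev, 0))], [1, 0, 1, 0, 1]⟩,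
   ⟨[6, 6, 5, 5, 4, 2], 1, [([4, 4, 2, 2, 1, 1], (.ev, 0)), ([1, 1, 0, 0, 1, 1], (.pl 1, 1)), ([0, 0, 3, 3, 0, 0], (.ev, 0)), ([0, 1, 0, 0, 1, 0], (.pl 1, 0)), ([1, 0, 0, 0, 1, 0], (.ev, 0))], [1, 0, 1, 0, 1]⟩,
   ⟨[6, 6, 5, 5, 3], 1, [([4, 4, 2, 2, 0], (.ev, 2)), ([1, 1, 1, 1, 0], (.pl 1, 1)), ([1, 0, 2, 2, 1], (.ev, 0)), ([0, 0, 0, 0, 1], (.pl 1, 1)), ([0, 1, 0, 0, 1], (.ev, 0))], [1, 0, 1, 0, 1]⟩,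
   ⟨[6, 6, 5, 4], 1, [([4, 4, 2, 2], (.ev, 2)), ([0, 1, 1, 1], (.pl 1, 2)), ([2, 1, 2, 1], (.ev, 0)), ([0, 0, 0, 0], (.pl 1, 2)), ([0, 0, 0, 0], (.ev, 2))], [1, 0, 1, 0, 1]⟩,
   ⟨[6, 6, 5, 3], 1, [([4, 4, 2, 2], (.ev, 2)), ([0, 1, 1, 0], (.pl 1, 3)), ([2, 1, 2, 1], (.ev, 0)), ([0, 0, 0, 0], (.pl 1, 2)), ([0, 0, 0, 0], (.ev, 2))], [1, 0, 1, 0, 1]⟩,
   ⟨[6, 6, 4, 4], 1, [([4, 4, 2, 2], (.ev, 2)), ([0, 0, 1, 1], (.pl 1, 3)), ([2, 2, 1, 1], (.ev, 0)), ([0, 0, 0, 0], (.pl 1, 2)), ([0, 0, 0, 0], (.ev, 2))], [1, 0, 1, 0, 1]⟩,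
   ⟨[6, 5, 5, 5], 1, [([4, 4, 2, 2], (.ev, 2)), ([1, 1, 1, 1], (.pl 1, 1)), ([0, 0, 2, 2], (.ev, 2)), ([1, 0, 0, 0], (.pl 1, 1)), ([0, 0, 0, 0], (.ev, 2))], [1, 0, 1, 0, 1]⟩,
   ⟨[6, 5, 5, 4], 1, [([4, 4, 2, 2], (.ev, 2)), ([0, 0, 1, 1], (.pl 1, 3)), ([2, 1, 2, 1], (.ev, 0)), ([0, 0, 0, 0], (.pl 1, 2)), ([0, 0, 0, 0], (.ev, 2))], [1, 0, 1, 0, 1]⟩,
   ⟨[6, 5, 4, 4], 1, [([4, 4, 2, 2], (.ev, 2)), ([0, 1, 0, 1], (.pl 1, 3)), ([2, 0, 2, 0], (.ev, 2)), ([0, 0, 0, 1], (.pl 1, 1)), ([0, 0, 0, 0], (.ev, 2))], [1, 0, 1, 0, 1]⟩,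
   ⟨[6, 4, 4, 4], 1, [([4, 4, 2, 2], (.ev, 2)), ([1, 0, 1, 1], (.pl 1, 2)), ([1, 0, 1, 0], (.ev, 4)), ([0, 0, 0, 1], (.pl 1, 1)), ([0, 0, 0, 0], (.ev, 2))], [1, 0, 2, 1, 1]⟩,
   ⟨[5, 5, 5, 5], 1, [([4, 4, 2, 2], (.ev, 2)), ([1, 1, 1, 1], (.pl 1, 1)), ([0, 0, 2, 2], (.ev, 2)), ([0, 0, 0, 0], (.pl 1, 2)), ([0, 0, 0, 0], (.ev, 2))], [1, 0, 1, 0, 1]⟩,
   ⟨[5, 5, 5, 4], 1, [([4, 4, 2, 2], (.ev, 2)), ([1, 1, 1, 0], (.pl 1, 2)), ([0, 0, 2, 2], (.ev, 2)), ([0, 0, 0, 0], (.pl 1, 2)), ([0, 0, 0, 0], (.ev, 2))], [1, 0, 1, 0, 1]⟩,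
   ⟨[5, 5, 4, 4], 1, [([4, 4, 2, 2], (.ev, 2)), ([1, 1, 0, 0], (.pl 1, 3)), ([0, 0, 2, 2], (.ev, 2)), ([0, 0, 0, 0], (.pl 1, 2)), ([0, 0, 0, 0], (.ev, 2))], [1, 0, 1, 0, 1]⟩,
   ⟨[5, 4, 4, 4], 1, [([3, 3, 2, 2], (.ev, 4)), ([0, 1, 0, 1], (.pl 1, 3)), ([2, 0, 2, 0], (.ev, 2)), ([0, 0, 0, 1], (.pl 1, 1)), ([0, 0, 0, 0], (.ev, 2))], [2, 0, 1, 1, 1]⟩]

def cmC_8_5_3_0 : List (List ℕ × List (ℕ × ℕ)) :=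
  [([10, 4], [(7, 1), (7, 4), (0, 1), (1, 1), (0, 1)]),
   ([9, 5], [(6, 1), (7, 4), (0, 1), (2, 1), (0, 1)]),
   ([9, 4], [(7, 1), (7, 4), (0, 1), (2, 1), (0, 1)]),
   ([7, 7, 7, 5], [(2, 1), (1, 1), (0, 1), (0, 1), (0, 1)]),
   ([7, 7, 7, 4], [(2, 1), (2, 1), (0, 1), (0, 1), (0, 1)]),
   ([7, 7, 7, 3], [(2, 1), (2, 1), (0, 1), (1, 1), (0, 1)]),
   ([7, 7, 7, 2], [(2, 1), (3, 1), (0, 1), (1, 1), (0, 1)]),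
   ([7, 7, 6, 6], [(2, 1), (1, 1), (0, 1), (0, 1), (0, 1)]),
   ([7, 7, 6, 5], [(2, 1), (2, 1), (0, 1), (0, 1), (0, 1)]),
   ([7, 7, 6, 4], [(2, 1), (2, 1), (0, 1), (1, 1), (0, 1)]),
   ([7, 7, 6, 3], [(2, 1), (3, 1), (0, 1), (1, 1), (0, 1)]),
   ([7, 7, 5, 5], [(2, 1), (1, 1), (0, 1), (2, 1), (0, 1)]),
   ([7, 7, 5, 4], [(2, 1), (1, 1), (0, 1), (1, 1), (2, 1)]),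
   ([7, 7, 5, 3], [(2, 1), (3, 1), (0, 1), (2, 1), (0, 1)]),
   ([7, 7, 4, 4], [(2, 1), (1, 1), (0, 1), (2, 1), (2, 1)]),
   ([7, 7, 4, 3], [(2, 1), (3, 1), (0, 1), (1, 1), (2, 1)]),
   ([7, 7, 3, 3], [(2, 1), (3, 1), (0, 1), (2, 1), (2, 1)]),
   ([7, 6, 6, 6], [(2, 1), (1, 1), (0, 1), (1, 1), (0, 1)]),
   ([7, 6, 6, 5], [(2, 1), (2, 1), (0, 1), (1, 1), (0, 1)]),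
   ([7, 6, 6, 4], [(2, 1), (1, 1), (0, 1), (1, 1), (2, 1)]),
   ([7, 6, 6, 3], [(2, 1), (3, 1), (0, 1), (2, 1), (0, 1)]),
   ([7, 6, 5, 5], [(2, 1), (1, 1), (0, 1), (1, 1), (2, 1)]),
   ([7, 6, 5, 4], [(2, 1), (1, 1), (0, 1), (2, 1), (2, 1)]),
   ([7, 6, 5, 3], [(2, 1), (3, 1), (0, 1), (1, 1), (2, 1)]),
   ([7, 6, 4, 4], [(2, 1), (2, 1), (0, 1), (2, 1), (2, 1)]),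
   ([7, 6, 4, 3], [(2, 1), (3, 1), (0, 1), (2, 1), (2, 1)]),
   ([7, 5, 5, 5, 5], [(2, 1), (0, 1), (0, 1), (0, 1), (0, 1)]),
   ([7, 5, 5, 5, 4], [(2, 1), (1, 1), (0, 1), (0, 1), (0, 1)]),
   ([7, 5, 5, 5, 3], [(2, 1), (1, 1), (0, 1), (1, 1), (0, 1)]),
   ([7, 5, 5, 4], [(2, 1), (3, 1), (0, 1), (1, 1), (2, 1)]),
   ([7, 5, 5, 3], [(2, 1), (3, 1), (0, 1), (2, 1), (2, 1)]),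
   ([7, 5, 4, 4], [(2, 1), (3, 1), (0, 1), (2, 1), (2, 1)]),
   ([7, 4, 4, 4], [(2, 1), (3, 1), (2, 1), (1, 1), (2, 1)]),
   ([6, 6, 6, 6, 4, 1], [(0, 1), (0, 1), (0, 1), (0, 1), (0, 1)]),
   ([6, 6, 6, 6, 3, 2], [(0, 1), (0, 1), (0, 1), (0, 1), (0, 1)]),
   ([6, 6, 6, 6, 3, 1], [(0, 1), (0, 1), (0, 1), (1, 1), (0, 1)]),
   ([6, 6, 6, 6, 2], [(2, 1), (0, 1), (0, 1), (1, 1), (0, 1)]),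
   ([6, 6, 6, 5, 5, 1], [(0, 1), (0, 1), (0, 1), (0, 1), (0, 1)]),
   ([6, 6, 6, 5, 4, 2], [(0, 1), (0, 1), (0, 1), (0, 1), (0, 1)]),
   ([6, 6, 6, 5, 4, 1], [(0, 1), (1, 1), (0, 1), (0, 1), (0, 1)]),
   ([6, 6, 6, 5, 3, 3], [(0, 1), (0, 1), (0, 1), (0, 1), (0, 1)]),
   ([6, 6, 6, 5, 3, 2], [(0, 1), (0, 1), (0, 1), (1, 1), (0, 1)]),
   ([6, 6, 6, 5, 2], [(2, 1), (1, 1), (0, 1), (1, 1), (0, 1)]),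
   ([6, 6, 6, 4], [(2, 1), (2, 1), (0, 1), (1, 1), (2, 1)]),
   ([6, 6, 6, 3], [(2, 1), (3, 1), (0, 1), (1, 1), (2, 1)]),
   ([6, 6, 5, 5, 5, 2], [(0, 1), (0, 1), (0, 1), (0, 1), (0, 1)]),
   ([6, 6, 5, 5, 5, 1], [(0, 1), (1, 1), (0, 1), (0, 1), (0, 1)]),
   ([6, 6, 5, 5, 4, 3], [(0, 1), (0, 1), (0, 1), (0, 1), (0, 1)]),
   ([6, 6, 5, 5, 4, 2], [(0, 1), (1, 1), (0, 1), (0, 1), (0, 1)]),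
   ([6, 6, 5, 5, 3], [(2, 1), (1, 1), (0, 1), (1, 1), (0, 1)]),
   ([6, 6, 5, 4], [(2, 1), (2, 1), (0, 1), (2, 1), (2, 1)]),
   ([6, 6, 5, 3], [(2, 1), (3, 1), (0, 1), (2, 1), (2, 1)]),
   ([6, 6, 4, 4], [(2, 1), (3, 1), (0, 1), (2, 1), (2, 1)]),
   ([6, 5, 5, 5], [(2, 1), (1, 1), (2, 1), (1, 1), (2, 1)]),
   ([6, 5, 5, 4], [(2, 1), (3, 1), (0, 1), (2, 1), (2, 1)]),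
   ([6, 5, 4, 4], [(2, 1), (3, 1), (2, 1), (1, 1), (2, 1)]),
   ([6, 4, 4, 4], [(2, 1), (2, 1), (5, 2), (0, 1), (2, 1)]),
   ([5, 5, 5, 5], [(2, 1), (1, 1), (2, 1), (2, 1), (2, 1)]),
   ([5, 5, 5, 4], [(2, 1), (2, 1), (2, 1), (2, 1), (2, 1)]),
   ([5, 5, 4, 4], [(2, 1), (3, 1), (2, 1), (2, 1), (2, 1)]),
   ([5, 4, 4, 4], [(5, 2), (3, 1), (2, 1), (0, 1), (2, 1)])]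

def cm_8_5_3 : List CM :=
  cm_8_5_3_0

def cmC_8_5_3 : List (List ℕ × List (ℕ × ℕ)) :=
  cmC_8_5_3_0

set_option Elab.async false in
theorem covH_8_5_3 : CovH [8, 5, 3] :=
  covH_of_tree (by decide) ls_8_5_3 sp_8_5_3 cm_8_5_3 spC_8_5_3 cmC_8_5_3 99 (by decide +kernel) (by decide +kernel)
    (by decide +kernel) (by decide +kernel) (by decide +kernel) (by decide +kernel)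


/-! hook list [7, 4, 2, 1], n = 24: 223 nodes, 53 commitments -/

def ls_7_4_2_1 : List (List Pc) :=
  [[.gap 7, .dup 4, .rect 2 1, .dup 1],
   [.rect 7 1, .rect 5 1, .dup 4, .rect 2 1, .dup 1]]

def sp_7_4_2_1 : List (ℕ × List ℕ) :=
  []

def spC_7_4_2_1 : List (List (ℕ × ℕ)) :=
  []

def cm_7_4_2_1_0 : List CM :=
  [⟨[8, 4, 4, 4], 0, [([4, 4, 2, 2], (.ev, 0)), ([2, 0, 2, 0], (.ev, 4)), ([1, 0, 0, 1], (.pl 1, 0)), ([1, 0, 0, 1], (.ev, 0))], [1, 1, 0, 1]⟩,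
   ⟨[8, 4, 4, 3], 0, [([4, 4, 2, 2], (.ev, 0)), ([2, 0, 2, 0], (.ev, 4)), ([1, 0, 0, 0], (.pl 1, 1)), ([1, 0, 0, 1], (.ev, 0))], [1, 1, 0, 1]⟩,
   ⟨[7, 5, 5, 4], 0, [([4, 4, 2, 2], (.ev, 0)), ([3, 1, 3, 1], (.ev, 0)), ([0, 0, 0, 1], (.pl 1, 1)), ([0, 0, 0, 0], (.ev, 2))], [1, 1, 0, 1]⟩,
   ⟨[7, 5, 5, 3], 0, [([4, 4, 2, 2], (.ev, 0)), ([3, 1, 3, 1], (.ev, 0)), ([0, 0, 0, 0], (.pl 1, 2)), ([0, 0, 0, 0], (.ev, 2))], [1, 1, 0, 1]⟩,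
   ⟨[7, 5, 4, 4], 0, [([4, 4, 2, 2], (.ev, 0)), ([2, 1, 2, 1], (.ev, 2)), ([0, 0, 0, 0], (.pl 1, 2)), ([1, 0, 0, 1], (.ev, 0))], [1, 1, 0, 1]⟩,
   ⟨[7, 5, 4, 3], 0, [([4, 4, 2, 2], (.ev, 0)), ([2, 1, 2, 1], (.ev, 2)), ([1, 0, 0, 0], (.pl 1, 1)), ([0, 0, 0, 0], (.ev, 2))], [1, 1, 0, 1]⟩,
   ⟨[7, 5, 3], 1, [([1, 1, 1], (.pl 1, 4)), ([1, 0, 1], (.pl 1, 3)), ([4, 4, 0], (.ev, 0)), ([0, 0, 0], (.pl 1, 2)), ([1, 0, 1], (.ev, 0))], [0, 0, 1, 0, 1]⟩,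
   ⟨[7, 4, 4, 4], 0, [([3, 3, 2, 2], (.ev, 2)), ([2, 1, 2, 1], (.ev, 2)), ([1, 0, 0, 0], (.pl 1, 1)), ([1, 0, 0, 1], (.ev, 0))], [1, 1, 0, 1]⟩,
   ⟨[7, 4, 4, 3], 1, [([1, 1, 1, 1], (.pl 1, 3)), ([1, 0, 1, 1], (.pl 1, 2)), ([3, 3, 1, 1], (.ev, 0)), ([1, 0, 0, 0], (.pl 1, 1)), ([1, 0, 1, 0], (.ev, 0))], [0, 0, 1, 0, 1]⟩,
   ⟨[6, 6, 6, 4], 0, [([4, 4, 2, 2], (.ev, 0)), ([2, 1, 2, 1], (.ev, 2)), ([0, 0, 1, 1], (.pl 1, 0)), ([0, 1, 1, 0], (.ev, 0))], [1, 1, 0, 1]⟩,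
   ⟨[6, 6, 6, 3], 0, [([4, 4, 2, 2], (.ev, 0)), ([2, 1, 2, 1], (.ev, 2)), ([0, 0, 1, 0], (.pl 1, 1)), ([0, 1, 1, 0], (.ev, 0))], [1, 1, 0, 1]⟩,
   ⟨[6, 6, 6, 2, 2, 2], 0, [([4, 4, 2, 2, 0, 0], (.ev, 0)), ([2, 2, 2, 0, 2, 0], (.ev, 0)), ([0, 0, 1, 0, 0, 1], (.pl 1, 0)), ([0, 0, 1, 0, 0, 1], (.ev, 0))], [1, 1, 0, 1]⟩,
   ⟨[6, 6, 6, 2, 2, 1], 0, [([4, 4, 2, 2, 0, 0], (.ev, 0)), ([2, 2, 2, 0, 2, 0], (.ev, 0)), ([0, 0, 1, 0, 0, 0], (.pl 1, 1)), ([0, 0, 1, 0, 0, 1], (.ev, 0))], [1, 1, 0, 1]⟩,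
   ⟨[6, 6, 6, 2, 1], 0, [([4, 4, 2, 2, 0], (.ev, 0)), ([2, 1, 2, 0, 1], (.ev, 2)), ([0, 0, 1, 0, 0], (.pl 1, 1)), ([0, 1, 1, 0, 0], (.ev, 0))], [1, 1, 0, 1]⟩,
   ⟨[6, 6, 5, 5], 0, [([4, 4, 2, 2], (.ev, 0)), ([1, 1, 3, 3], (.ev, 0)), ([0, 0, 0, 0], (.pl 1, 2)), ([1, 1, 0, 0], (.ev, 0))], [1, 1, 0, 1]⟩,
   ⟨[6, 6, 5, 4], 0, [([4, 4, 2, 2], (.ev, 0)), ([2, 2, 2, 2], (.ev, 0)), ([0, 0, 1, 0], (.pl 1, 1)), ([0, 0, 0, 0], (.ev, 2))], [1, 1, 0, 1]⟩,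
   ⟨[6, 6, 5, 3, 3], 0, [([4, 4, 2, 2, 0], (.ev, 0)), ([1, 1, 3, 0, 3], (.ev, 0)), ([0, 0, 0, 1, 0], (.pl 1, 1)), ([1, 1, 0, 0, 0], (.ev, 0))], [1, 1, 0, 1]⟩,
   ⟨[6, 6, 5, 3, 2, 2], 0, [([4, 4, 2, 2, 0, 0], (.ev, 0)), ([2, 2, 2, 0, 2, 0], (.ev, 0)), ([0, 0, 0, 1, 0, 1], (.pl 1, 0)), ([0, 0, 1, 0, 0, 1], (.ev, 0))], [1, 1, 0, 1]⟩,
   ⟨[6, 6, 5, 3, 2, 1], 0, [([4, 4, 2, 2, 0, 0], (.ev, 0)), ([2, 2, 2, 0, 2, 0], (.ev, 0)), ([0, 0, 0, 0, 0, 1], (.pl 1, 1)), ([0, 0, 1, 1, 0, 0], (.ev, 0))], [1, 1, 0, 1]⟩,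
   ⟨[6, 6, 5, 3, 1], 0, [([4, 4, 2, 2, 0], (.ev, 0)), ([2, 1, 2, 1, 0], (.ev, 2)), ([0, 0, 0, 0, 1], (.pl 1, 1)), ([0, 1, 1, 0, 0], (.ev, 0))], [1, 1, 0, 1]⟩,
   ⟨[6, 6, 4, 4, 3], 0, [([4, 4, 2, 2, 0], (.ev, 0)), ([2, 2, 2, 0, 2], (.ev, 0)), ([0, 0, 0, 1, 0], (.pl 1, 1)), ([0, 0, 0, 1, 1], (.ev, 0))], [1, 1, 0, 1]⟩,
   ⟨[6, 6, 4, 4, 2, 2], 0, [([4, 4, 2, 2, 0, 0], (.ev, 0)), ([2, 2, 2, 2, 0, 0], (.ev, 0)), ([0, 0, 0, 0, 1, 1], (.pl 1, 0)), ([0, 0, 0, 0, 1, 1], (.ev, 0))], [1, 1, 0, 1]⟩,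
   ⟨[6, 6, 4, 4, 2, 1], 0, [([4, 4, 2, 2, 0, 0], (.ev, 0)), ([2, 2, 2, 2, 0, 0], (.ev, 0)), ([0, 0, 0, 0, 1, 0], (.pl 1, 1)), ([0, 0, 0, 0, 1, 1], (.ev, 0))], [1, 1, 0, 1]⟩,
   ⟨[6, 6, 4, 4, 1], 0, [([4, 4, 2, 2, 0], (.ev, 0)), ([2, 2, 2, 2, 0], (.ev, 0)), ([0, 0, 0, 0, 1], (.pl 1, 1)), ([0, 0, 0, 0, 0], (.ev, 2))], [1, 1, 0, 1]⟩,
   ⟨[6, 6, 4, 3], 0, [([4, 4, 2, 2], (.ev, 0)), ([2, 2, 1, 1], (.ev, 2)), ([0, 0, 1, 0], (.pl 1, 1)), ([0, 0, 0, 0], (.ev, 2))], [1, 1, 0, 1]⟩,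
   ⟨[6, 6, 3, 3], 0, [([4, 4, 2, 2], (.ev, 0)), ([2, 2, 1, 1], (.ev, 2)), ([0, 0, 0, 0], (.pl 1, 2)), ([0, 0, 0, 0], (.ev, 2))], [1, 1, 0, 1]⟩,
   ⟨[6, 5, 5, 5], 0, [([4, 4, 2, 2], (.ev, 0)), ([1, 1, 3, 3], (.ev, 0)), ([1, 0, 0, 0], (.pl 1, 1)), ([0, 0, 0, 0], (.ev, 2))], [1, 1, 0, 1]⟩,
   ⟨[6, 5, 5, 4, 3], 0, [([4, 4, 2, 2, 0], (.ev, 0)), ([1, 0, 3, 1, 3], (.ev, 0)), ([0, 0, 0, 1, 0], (.pl 1, 1)), ([1, 1, 0, 0, 0], (.ev, 0))], [1, 1, 0, 1]⟩,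
   ⟨[6, 5, 5, 4, 2, 2], 0, [([4, 4, 2, 2, 0, 0], (.ev, 0)), ([2, 0, 2, 2, 2, 0], (.ev, 0)), ([0, 0, 1, 0, 0, 1], (.pl 1, 0)), ([0, 1, 0, 0, 0, 1], (.ev, 0))], [1, 1, 0, 1]⟩,
   ⟨[6, 5, 5, 4, 2, 1], 0, [([4, 4, 2, 2, 0, 0], (.ev, 0)), ([2, 0, 2, 2, 2, 0], (.ev, 0)), ([0, 0, 0, 0, 0, 1], (.pl 1, 1)), ([0, 1, 1, 0, 0, 0], (.ev, 0))], [1, 1, 0, 1]⟩,
   ⟨[6, 5, 5, 4, 1], 0, [([4, 4, 2, 2, 0], (.ev, 0)), ([2, 1, 2, 1, 0], (.ev, 2)), ([0, 0, 0, 0, 1], (.pl 1, 1)), ([0, 0, 1, 1, 0], (.ev, 0))], [1, 1, 0, 1]⟩,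
   ⟨[6, 5, 5, 3], 0, [([4, 4, 2, 2], (.ev, 0)), ([2, 1, 2, 1], (.ev, 2)), ([0, 0, 1, 0], (.pl 1, 1)), ([0, 0, 0, 0], (.ev, 2))], [1, 1, 0, 1]⟩,
   ⟨[6, 5, 4, 4, 4], 0, [([4, 4, 2, 2, 0], (.ev, 0)), ([2, 0, 2, 2, 2], (.ev, 0)), ([0, 0, 0, 0, 1], (.pl 1, 1)), ([0, 1, 0, 0, 1], (.ev, 0))], [1, 1, 0, 1]⟩,
   ⟨[6, 5, 4, 4, 3, 2], 0, [([4, 4, 2, 2, 0, 0], (.ev, 0)), ([2, 0, 2, 2, 2, 0], (.ev, 0)), ([0, 0, 0, 0, 1, 1], (.pl 1, 0)), ([0, 1, 0, 0, 0, 1], (.ev, 0))], [1, 1, 0, 1]⟩,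
   ⟨[6, 5, 4, 4, 3, 1], 0, [([4, 4, 2, 2, 0, 0], (.ev, 0)), ([2, 0, 2, 2, 2, 0], (.ev, 0)), ([0, 0, 0, 0, 0, 1], (.pl 1, 1)), ([0, 1, 0, 0, 1, 0], (.ev, 0))], [1, 1, 0, 1]⟩,
   ⟨[6, 5, 4, 3], 0, [([4, 4, 2, 2], (.ev, 0)), ([2, 1, 2, 1], (.ev, 2)), ([0, 0, 0, 0], (.pl 1, 2)), ([0, 0, 0, 0], (.ev, 2))], [1, 1, 0, 1]⟩,
   ⟨[6, 4, 4, 4, 4, 2], 0, [([4, 4, 2, 2, 0, 0], (.ev, 0)), ([2, 0, 2, 2, 2, 0], (.ev, 0)), ([0, 0, 0, 0, 1, 1], (.pl 1, 0)), ([0, 0, 0, 0, 1, 1], (.ev, 0))], [1, 1, 0, 1]⟩,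
   ⟨[6, 4, 4, 4, 4, 1], 0, [([4, 4, 2, 2, 0, 0], (.ev, 0)), ([2, 0, 2, 2, 2, 0], (.ev, 0)), ([0, 0, 0, 0, 1, 0], (.pl 1, 1)), ([0, 0, 0, 0, 1, 1], (.ev, 0))], [1, 1, 0, 1]⟩,
   ⟨[6, 4, 4, 4, 3, 3], 0, [([4, 4, 2, 2, 0, 0], (.ev, 0)), ([1, 0, 1, 0, 3, 3], (.ev, 0)), ([0, 0, 1, 1, 0, 0], (.pl 1, 0)), ([1, 0, 0, 1, 0, 0], (.ev, 0))], [1, 1, 0, 1]⟩,
   ⟨[5, 5, 5, 5, 4], 0, [([4, 4, 2, 2, 0], (.ev, 0)), ([1, 0, 3, 1, 3], (.ev, 0)), ([0, 0, 0, 1, 1], (.pl 1, 0)), ([0, 1, 0, 1, 0], (.ev, 0))], [1, 1, 0, 1]⟩,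
   ⟨[5, 5, 5, 5, 3], 0, [([4, 4, 2, 2, 0], (.ev, 0)), ([1, 0, 3, 3, 1], (.ev, 0)), ([0, 0, 0, 0, 1], (.pl 1, 1)), ([0, 1, 0, 0, 1], (.ev, 0))], [1, 1, 0, 1]⟩,
   ⟨[5, 5, 5, 5, 2, 2], 0, [([4, 4, 2, 2, 0, 0], (.ev, 0)), ([0, 0, 3, 3, 1, 1], (.ev, 0)), ([0, 0, 0, 0, 1, 1], (.pl 1, 0)), ([1, 1, 0, 0, 0, 0], (.ev, 0))], [1, 1, 0, 1]⟩,
   ⟨[5, 5, 5, 5, 2, 1], 0, [([4, 4, 2, 2, 0, 0], (.ev, 0)), ([1, 0, 3, 3, 1, 0], (.ev, 0)), ([0, 0, 0, 0, 0, 1], (.pl 1, 1)), ([0, 1, 0, 0, 1, 0], (.ev, 0))], [1, 1, 0, 1]⟩,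
   ⟨[5, 5, 5, 5, 1], 0, [([4, 4, 2, 2, 0], (.ev, 0)), ([1, 1, 3, 3, 0], (.ev, 0)), ([0, 0, 0, 0, 1], (.pl 1, 1)), ([0, 0, 0, 0, 0], (.ev, 2))], [1, 1, 0, 1]⟩,
   ⟨[5, 5, 5, 4, 4], 0, [([4, 4, 2, 2, 0], (.ev, 0)), ([1, 0, 3, 1, 3], (.ev, 0)), ([0, 0, 0, 0, 1], (.pl 1, 1)), ([0, 1, 0, 1, 0], (.ev, 0))], [1, 1, 0, 1]⟩,
   ⟨[5, 5, 5, 4, 3, 2], 0, [([4, 4, 2, 2, 0, 0], (.ev, 0)), ([0, 0, 3, 1, 3, 1], (.ev, 0)), ([0, 0, 0, 1, 0, 1], (.pl 1, 0)), ([1, 1, 0, 0, 0, 0], (.ev, 0))], [1, 1, 0, 1]⟩,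
   ⟨[5, 5, 5, 4, 3, 1], 0, [([4, 4, 2, 2, 0, 0], (.ev, 0)), ([1, 0, 3, 1, 3, 0], (.ev, 0)), ([0, 0, 0, 0, 0, 1], (.pl 1, 1)), ([0, 1, 0, 1, 0, 0], (.ev, 0))], [1, 1, 0, 1]⟩,
   ⟨[5, 5, 5, 3], 0, [([3, 3, 2, 2], (.ev, 2)), ([2, 1, 2, 1], (.ev, 2)), ([0, 0, 0, 0], (.pl 1, 2)), ([0, 1, 1, 0], (.ev, 0))], [1, 1, 0, 1]⟩,
   ⟨[5, 5, 4, 4, 4, 2], 0, [([4, 4, 2, 2, 0, 0], (.ev, 0)), ([0, 0, 2, 2, 2, 2], (.ev, 0)), ([0, 1, 0, 0, 1, 0], (.pl 1, 0)), ([1, 0, 0, 0, 1, 0], (.ev, 0))], [1, 1, 0, 1]⟩,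
   ⟨[5, 5, 4, 4, 4, 1], 0, [([4, 4, 2, 2, 0, 0], (.ev, 0)), ([1, 1, 2, 1, 2, 1], (.ev, 0)), ([0, 0, 0, 0, 1, 0], (.pl 1, 1)), ([0, 0, 0, 1, 1, 0], (.ev, 0))], [1, 1, 0, 1]⟩,
   ⟨[5, 5, 4, 4, 3, 3], 0, [([4, 4, 2, 2, 0, 0], (.ev, 0)), ([0, 0, 1, 1, 3, 3], (.ev, 0)), ([0, 0, 1, 1, 0, 0], (.pl 1, 0)), ([1, 1, 0, 0, 0, 0], (.ev, 0))], [1, 1, 0, 1]⟩,
   ⟨[5, 4, 4, 4], 0, [([3, 3, 2, 2], (.ev, 2)), ([2, 1, 2, 1], (.ev, 2)), ([0, 0, 0, 1], (.pl 1, 1)), ([0, 0, 0, 0], (.ev, 2))], [1, 1, 0, 1]⟩,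
   ⟨[4, 4, 4, 4], 0, [([3, 3, 2, 2], (.ev, 2)), ([1, 1, 2, 2], (.ev, 2)), ([0, 0, 0, 0], (.pl 1, 2)), ([0, 0, 0, 0], (.ev, 2))], [1, 1, 0, 1]⟩]

def cmC_7_4_2_1_0 : List (List ℕ × List (ℕ × ℕ)) :=
  [([8, 4, 4, 4], [(0, 1), (4, 1), (0, 1), (0, 1)]),
   ([8, 4, 4, 3], [(0, 1), (4, 1), (1, 1), (0, 1)]),
   ([7, 5, 5, 4], [(0, 1), (0, 1), (1, 1), (2, 1)]),
   ([7, 5, 5, 3], [(0, 1), (0, 1), (2, 1), (2, 1)]),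
   ([7, 5, 4, 4], [(0, 1), (2, 1), (2, 1), (0, 1)]),
   ([7, 5, 4, 3], [(0, 1), (2, 1), (1, 1), (2, 1)]),
   ([7, 5, 3], [(4, 1), (3, 1), (0, 1), (2, 1), (0, 1)]),
   ([7, 4, 4, 4], [(2, 1), (2, 1), (1, 1), (0, 1)]),
   ([7, 4, 4, 3], [(3, 1), (2, 1), (0, 1), (1, 1), (0, 1)]),
   ([6, 6, 6, 4], [(0, 1), (2, 1), (0, 1), (0, 1)]),
   ([6, 6, 6, 3], [(0, 1), (2, 1), (1, 1), (0, 1)]),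
   ([6, 6, 6, 2, 2, 2], [(0, 1), (0, 1), (0, 1), (0, 1)]),
   ([6, 6, 6, 2, 2, 1], [(0, 1), (0, 1), (1, 1), (0, 1)]),
   ([6, 6, 6, 2, 1], [(0, 1), (2, 1), (1, 1), (0, 1)]),
   ([6, 6, 5, 5], [(0, 1), (0, 1), (2, 1), (0, 1)]),
   ([6, 6, 5, 4], [(0, 1), (0, 1), (1, 1), (2, 1)]),
   ([6, 6, 5, 3, 3], [(0, 1), (0, 1), (1, 1), (0, 1)]),
   ([6, 6, 5, 3, 2, 2], [(0, 1), (0, 1), (0, 1), (0, 1)]),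
   ([6, 6, 5, 3, 2, 1], [(0, 1), (0, 1), (1, 1), (0, 1)]),
   ([6, 6, 5, 3, 1], [(0, 1), (2, 1), (1, 1), (0, 1)]),
   ([6, 6, 4, 4, 3], [(0, 1), (0, 1), (1, 1), (0, 1)]),
   ([6, 6, 4, 4, 2, 2], [(0, 1), (0, 1), (0, 1), (0, 1)]),
   ([6, 6, 4, 4, 2, 1], [(0, 1), (0, 1), (1, 1), (0, 1)]),
   ([6, 6, 4, 4, 1], [(0, 1), (0, 1), (1, 1), (2, 1)]),
   ([6, 6, 4, 3], [(0, 1), (2, 1), (1, 1), (2, 1)]),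
   ([6, 6, 3, 3], [(0, 1), (2, 1), (2, 1), (2, 1)]),
   ([6, 5, 5, 5], [(0, 1), (0, 1), (1, 1), (2, 1)]),
   ([6, 5, 5, 4, 3], [(0, 1), (0, 1), (1, 1), (0, 1)]),
   ([6, 5, 5, 4, 2, 2], [(0, 1), (0, 1), (0, 1), (0, 1)]),
   ([6, 5, 5, 4, 2, 1], [(0, 1), (0, 1), (1, 1), (0, 1)]),
   ([6, 5, 5, 4, 1], [(0, 1), (2, 1), (1, 1), (0, 1)]),
   ([6, 5, 5, 3], [(0, 1), (2, 1), (1, 1), (2, 1)]),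
   ([6, 5, 4, 4, 4], [(0, 1), (0, 1), (1, 1), (0, 1)]),
   ([6, 5, 4, 4, 3, 2], [(0, 1), (0, 1), (0, 1), (0, 1)]),
   ([6, 5, 4, 4, 3, 1], [(0, 1), (0, 1), (1, 1), (0, 1)]),
   ([6, 5, 4, 3], [(0, 1), (2, 1), (2, 1), (2, 1)]),
   ([6, 4, 4, 4, 4, 2], [(0, 1), (0, 1), (0, 1), (0, 1)]),
   ([6, 4, 4, 4, 4, 1], [(0, 1), (0, 1), (1, 1), (0, 1)]),
   ([6, 4, 4, 4, 3, 3], [(0, 1), (0, 1), (0, 1), (0, 1)]),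
   ([5, 5, 5, 5, 4], [(0, 1), (0, 1), (0, 1), (0, 1)]),
   ([5, 5, 5, 5, 3], [(0, 1), (0, 1), (1, 1), (0, 1)]),
   ([5, 5, 5, 5, 2, 2], [(0, 1), (0, 1), (0, 1), (0, 1)]),
   ([5, 5, 5, 5, 2, 1], [(0, 1), (0, 1), (1, 1), (0, 1)]),
   ([5, 5, 5, 5, 1], [(0, 1), (0, 1), (1, 1), (2, 1)]),
   ([5, 5, 5, 4, 4], [(0, 1), (0, 1), (1, 1), (0, 1)]),
   ([5, 5, 5, 4, 3, 2], [(0, 1), (0, 1), (0, 1), (0, 1)]),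
   ([5, 5, 5, 4, 3, 1], [(0, 1), (0, 1), (1, 1), (0, 1)]),
   ([5, 5, 5, 3], [(2, 1), (2, 1), (2, 1), (0, 1)]),
   ([5, 5, 4, 4, 4, 2], [(0, 1), (0, 1), (0, 1), (0, 1)]),
   ([5, 5, 4, 4, 4, 1], [(0, 1), (0, 1), (1, 1), (0, 1)]),
   ([5, 5, 4, 4, 3, 3], [(0, 1), (0, 1), (0, 1), (0, 1)]),
   ([5, 4, 4, 4], [(2, 1), (2, 1), (1, 1), (2, 1)]),
   ([4, 4, 4, 4], [(2, 1), (2, 1), (2, 1), (2, 1)])]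

def cm_7_4_2_1 : List CM :=
  cm_7_4_2_1_0

def cmC_7_4_2_1 : List (List ℕ × List (ℕ × ℕ)) :=
  cmC_7_4_2_1_0

def ex_7_4_2_1 : List (List ℕ) :=
  [[6, 6, 6, 1, 1, 1, 1, 1, 1]]

set_option Elab.async false in
theorem fullT_7_4_2_1 (hf : FullH [4, 2, 1])
    (hexc : ∀ q ∈ ex_7_4_2_1, ∀ μ : YoungDiagram, μ.card = 24 →
      (List.range (μ.rowLen 0)).map μ.colLen = q → OccSh (hk [7, 4, 2, 1]) (hk [7, 4, 2, 1]) μ) :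
    FullH [7, 4, 2, 1] :=
  fullH_of_tree (by decide) (HC_of (by decide) (by decide)) hf ls_7_4_2_1 sp_7_4_2_1 cm_7_4_2_1 ex_7_4_2_1 spC_7_4_2_1 cmC_7_4_2_1 99 hexc
    (by decide +kernel) (by decide +kernel) (by decide +kernel) (by decide +kernel) (by decide +kernel)
    (by decide +kernel)


/-! hook list [6, 3, 1], n = 17: 55 nodes, 8 commitments -/

def ls_6_3_1 : List (List Pc) :=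
  [[.rect 6 1, .pair 4, .rect 2 1, .dup 1],
   [.gap 6, .pair 3, .dup 1]]

def sp_6_3_1 : List (ℕ × List ℕ) :=
  [(0, [0, 0, 0, 1])]

def spC_6_3_1 : List (List (ℕ × ℕ)) :=
  [[(6, 1), (7, 4), (2, 1), (2, 1)]]

def cm_6_3_1_0 : List CM :=
  [⟨[5, 5, 4, 2], 1, [([3, 3, 2, 2], (.ev, 0)), ([1, 1, 2, 0], (.pl 4, 1)), ([1, 1, 0, 0], (.ev, 0))], [1, 0, 1]⟩,
   ⟨[5, 5, 3, 3], 1, [([3, 3, 2, 2], (.ev, 0)), ([1, 1, 1, 1], (.pl 4, 1)), ([1, 1, 0, 0], (.ev, 0))], [1, 0, 1]⟩,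
   ⟨[5, 5, 3, 2], 1, [([3, 3, 2, 2], (.ev, 0)), ([1, 1, 1, 0], (.pl 4, 2)), ([1, 1, 0, 0], (.ev, 0))], [1, 0, 1]⟩,
   ⟨[5, 4, 4, 3], 1, [([3, 3, 2, 2], (.ev, 0)), ([1, 1, 1, 1], (.pl 4, 1)), ([1, 0, 1, 0], (.ev, 0))], [1, 0, 1]⟩,
   ⟨[5, 4, 4, 2], 1, [([3, 3, 2, 2], (.ev, 0)), ([1, 1, 1, 0], (.pl 4, 2)), ([1, 0, 1, 0], (.ev, 0))], [1, 0, 1]⟩,
   ⟨[5, 4, 3, 3], 1, [([3, 3, 2, 2], (.ev, 0)), ([1, 0, 1, 1], (.pl 4, 2)), ([1, 1, 0, 0], (.ev, 0))], [1, 0, 1]⟩,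
   ⟨[5, 3], 1, [([2, 2], (.ev, 6)), ([2, 0], (.pl 4, 3)), ([1, 1], (.ev, 0))], [3, 2, 1]⟩,
   ⟨[4, 4], 1, [([2, 2], (.ev, 6)), ([1, 1], (.pl 4, 3)), ([1, 1], (.ev, 0))], [4, 3, 1]⟩]

def cmC_6_3_1_0 : List (List ℕ × List (ℕ × ℕ)) :=
  [([5, 5, 4, 2], [(0, 1), (1, 4), (0, 1)]),
   ([5, 5, 3, 3], [(0, 1), (1, 4), (0, 1)]),
   ([5, 5, 3, 2], [(0, 1), (2, 4), (0, 1)]),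
   ([5, 4, 4, 3], [(0, 1), (1, 4), (0, 1)]),
   ([5, 4, 4, 2], [(0, 1), (2, 4), (0, 1)]),
   ([5, 4, 3, 3], [(0, 1), (2, 4), (0, 1)]),
   ([5, 3], [(8, 3), (1, 2), (0, 1)]),
   ([4, 4], [(9, 4), (0, 1), (0, 1)])]

def cm_6_3_1 : List CM :=
  cm_6_3_1_0

def cmC_6_3_1 : List (List ℕ × List (ℕ × ℕ)) :=
  cmC_6_3_1_0

def ex_6_3_1 : List (List ℕ) :=
  [[9, 1, 1, 1, 1, 1, 1, 1, 1],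
   [5, 5, 5, 1, 1]]

set_option Elab.async false in
theorem fullT_6_3_1 (hf : FullH [3, 1])
    (hexc : ∀ q ∈ ex_6_3_1, ∀ μ : YoungDiagram, μ.card = 17 →
      (List.range (μ.rowLen 0)).map μ.colLen = q → OccSh (hk [6, 3, 1]) (hk [6, 3, 1]) μ) :
    FullH [6, 3, 1] :=
  fullH_of_tree (by decide) (HC_of (by decide) (by decide)) hf ls_6_3_1 sp_6_3_1 cm_6_3_1 ex_6_3_1 spC_6_3_1 cmC_6_3_1 99 hexc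
    (by decide +kernel) (by decide +kernel) (by decide +kernel) (by decide +kernel) (by decide +kernel)
    (by decide +kernel)


/-! hook list [6, 4], n = 18: 87 nodes, 0 commitments -/










end Crest.Agent.R195
end

-- ▼ part R195/TreeM9

set_option autoImplicit false
set_option maxHeartbeats 2000000

namespace Crest.Agent.R195

/-! hook list [9, 6, 4, 2, 1], n = 39: 210 nodes, 51 commitments -/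

def ls_9_6_4_2_1 : List (List Pc) :=
  [[.rect 9 1, .pair 7, .dup 5, .pair 3, .dup 1],
   [.gap 9, .rect 6 1, .dup 5, .pair 3, .dup 1]]

def sp_9_6_4_2_1 : List (ℕ × List ℕ) :=
  [(0, [0, 0, 4, 3, 1])]

def spC_9_6_4_2_1 : List (List (ℕ × ℕ)) :=
  [[(9, 1), (13, 4), (13, 4), (2, 1), (2, 1)]]

def cm_9_6_4_2_1_0 : List CM :=
  [⟨[12, 4], 0, [([1, 0], (.pl 1, 8)), ([4, 0], (.pl 4, 9)), ([4, 4], (.ev, 2)), ([3, 0], (.pl 4, 2)), ([0, 0], (.ev, 2))], [0, 0, 1, 0, 1]⟩,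
   ⟨[8, 8, 8, 8, 3, 2], 1, [([4, 4, 2, 2, 2, 2], (.ev, 0)), ([1, 1, 1, 1, 1, 0], (.pl 1, 1)), ([1, 1, 4, 4, 0, 0], (.ev, 0)), ([1, 1, 1, 1, 0, 0], (.pl 4, 1)), ([1, 1, 0, 0, 0, 0], (.ev, 0))], [1, 0, 1, 0, 1]⟩,
   ⟨[8, 8, 8, 8, 2], 1, [([4, 4, 2, 2, 0], (.ev, 4)), ([1, 1, 1, 1, 1], (.pl 1, 1)), ([1, 1, 4, 4, 0], (.ev, 0)), ([1, 1, 1, 1, 1], (.pl 4, 0)), ([1, 1, 0, 0, 0], (.ev, 0))], [2, 1, 1, 0, 1]⟩,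
   ⟨[8, 8, 8, 7, 4, 2], 1, [([4, 4, 2, 2, 2, 2], (.ev, 0)), ([1, 1, 1, 1, 1, 0], (.pl 1, 1)), ([1, 1, 4, 4, 0, 0], (.ev, 0)), ([1, 1, 1, 0, 1, 0], (.pl 4, 1)), ([1, 1, 0, 0, 0, 0], (.ev, 0))], [1, 0, 1, 0, 1]⟩,
   ⟨[8, 8, 8, 7, 3, 3], 1, [([4, 4, 2, 2, 2, 2], (.ev, 0)), ([1, 1, 1, 1, 1, 1], (.pl 1, 0)), ([1, 1, 4, 4, 0, 0], (.ev, 0)), ([1, 1, 1, 0, 0, 0], (.pl 4, 2)), ([1, 1, 0, 0, 0, 0], (.ev, 0))], [1, 0, 1, 0, 1]⟩,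
   ⟨[8, 8, 8, 7, 3, 2], 1, [([4, 4, 2, 2, 2, 2], (.ev, 0)), ([1, 1, 1, 1, 1, 0], (.pl 1, 1)), ([1, 1, 4, 4, 0, 0], (.ev, 0)), ([1, 1, 1, 0, 0, 0], (.pl 4, 2)), ([1, 1, 0, 0, 0, 0], (.ev, 0))], [1, 0, 1, 0, 1]⟩,
   ⟨[8, 8, 8, 7, 2], 1, [([4, 4, 2, 2, 0], (.ev, 4)), ([1, 1, 1, 1, 1], (.pl 1, 1)), ([1, 1, 4, 4, 0], (.ev, 0)), ([1, 1, 1, 0, 1], (.pl 4, 1)), ([1, 1, 0, 0, 0], (.ev, 0))], [2, 1, 1, 0, 1]⟩,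
   ⟨[8, 8, 8, 6, 5, 2], 1, [([4, 4, 2, 2, 2, 2], (.ev, 0)), ([0, 1, 1, 1, 1, 0], (.pl 1, 2)), ([4, 1, 4, 1, 0, 0], (.ev, 0)), ([0, 1, 1, 1, 2, 0], (.pl 4, 0)), ([0, 1, 0, 1, 0, 0], (.ev, 0))], [1, 0, 1, 0, 1]⟩,
   ⟨[8, 8, 8, 6, 4, 3], 1, [([4, 4, 2, 2, 2, 2], (.ev, 0)), ([0, 1, 1, 1, 1, 1], (.pl 1, 1)), ([4, 1, 4, 1, 0, 0], (.ev, 0)), ([0, 1, 1, 1, 1, 0], (.pl 4, 1)), ([0, 1, 0, 1, 0, 0], (.ev, 0))], [1, 0, 1, 0, 1]⟩,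
   ⟨[8, 8, 8, 6, 4, 2], 1, [([4, 4, 2, 2, 2, 2], (.ev, 0)), ([0, 1, 1, 1, 1, 0], (.pl 1, 2)), ([4, 1, 4, 1, 0, 0], (.ev, 0)), ([0, 1, 1, 1, 1, 0], (.pl 4, 1)), ([0, 1, 0, 1, 0, 0], (.ev, 0))], [1, 0, 1, 0, 1]⟩,
   ⟨[8, 8, 8, 6, 3], 1, [([4, 4, 2, 2, 0], (.ev, 4)), ([1, 1, 1, 1, 1], (.pl 1, 1)), ([3, 2, 3, 2, 0], (.ev, 0)), ([0, 1, 1, 1, 1], (.pl 4, 1)), ([0, 0, 1, 0, 1], (.ev, 0))], [2, 1, 1, 0, 1]⟩,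
   ⟨[8, 8, 8, 5], 1, [([4, 4, 2, 2], (.ev, 4)), ([0, 1, 1, 1], (.pl 1, 3)), ([4, 1, 4, 1], (.ev, 0)), ([0, 1, 0, 1], (.pl 4, 3)), ([0, 1, 1, 0], (.ev, 0))], [2, 0, 1, 1, 1]⟩,
   ⟨[8, 8, 8, 4], 1, [([4, 4, 2, 2], (.ev, 4)), ([0, 1, 1, 1], (.pl 1, 3)), ([4, 1, 4, 1], (.ev, 0)), ([0, 1, 0, 0], (.pl 4, 4)), ([0, 1, 1, 0], (.ev, 0))], [1, 0, 1, 0, 1]⟩,
   ⟨[8, 8, 8, 3], 1, [([4, 4, 2, 2], (.ev, 4)), ([0, 1, 1, 0], (.pl 1, 4)), ([4, 1, 4, 1], (.ev, 0)), ([0, 1, 0, 0], (.pl 4, 4)), ([0, 1, 1, 0], (.ev, 0))], [1, 0, 1, 0, 1]⟩,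
   ⟨[8, 8, 7, 7, 5, 2], 1, [([4, 4, 2, 2, 2, 2], (.ev, 0)), ([1, 1, 1, 1, 1, 0], (.pl 1, 1)), ([1, 1, 4, 4, 0, 0], (.ev, 0)), ([1, 1, 0, 0, 2, 0], (.pl 4, 1)), ([1, 1, 0, 0, 0, 0], (.ev, 0))], [1, 0, 1, 0, 1]⟩,
   ⟨[8, 8, 7, 7, 4, 3], 1, [([4, 4, 2, 2, 2, 2], (.ev, 0)), ([1, 1, 1, 1, 1, 1], (.pl 1, 0)), ([1, 1, 4, 4, 0, 0], (.ev, 0)), ([1, 1, 0, 0, 1, 0], (.pl 4, 2)), ([1, 1, 0, 0, 0, 0], (.ev, 0))], [1, 0, 1, 0, 1]⟩,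
   ⟨[8, 8, 7, 7, 4, 2], 1, [([4, 4, 2, 2, 2, 2], (.ev, 0)), ([1, 1, 1, 1, 1, 0], (.pl 1, 1)), ([1, 1, 4, 4, 0, 0], (.ev, 0)), ([1, 1, 0, 0, 1, 0], (.pl 4, 2)), ([1, 1, 0, 0, 0, 0], (.ev, 0))], [1, 0, 1, 0, 1]⟩,
   ⟨[8, 8, 7, 7, 3], 1, [([4, 4, 2, 2, 0], (.ev, 4)), ([1, 1, 1, 1, 1], (.pl 1, 1)), ([1, 1, 4, 4, 0], (.ev, 0)), ([1, 1, 0, 0, 2], (.pl 4, 1)), ([1, 1, 0, 0, 0], (.ev, 0))], [2, 1, 1, 0, 1]⟩,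
   ⟨[8, 8, 7, 6], 1, [([4, 4, 2, 2], (.ev, 4)), ([1, 1, 1, 1], (.pl 1, 2)), ([3, 2, 3, 2], (.ev, 0)), ([0, 0, 0, 1], (.pl 4, 4)), ([0, 1, 1, 0], (.ev, 0))], [1, 0, 1, 0, 1]⟩,
   ⟨[8, 8, 7, 5], 1, [([4, 4, 2, 2], (.ev, 4)), ([0, 1, 1, 1], (.pl 1, 3)), ([4, 1, 4, 1], (.ev, 0)), ([0, 1, 0, 0], (.pl 4, 4)), ([0, 1, 0, 1], (.ev, 0))], [2, 0, 1, 1, 1]⟩,
   ⟨[8, 8, 7, 4], 1, [([4, 4, 2, 2], (.ev, 4)), ([0, 1, 0, 1], (.pl 1, 4)), ([4, 1, 4, 1], (.ev, 0)), ([0, 1, 0, 0], (.pl 4, 4)), ([0, 1, 1, 0], (.ev, 0))], [2, 0, 1, 1, 1]⟩,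
   ⟨[8, 8, 6, 6], 1, [([4, 4, 2, 2], (.ev, 4)), ([1, 1, 1, 1], (.pl 1, 2)), ([3, 3, 2, 2], (.ev, 0)), ([0, 0, 0, 0], (.pl 4, 5)), ([0, 0, 1, 1], (.ev, 0))], [1, 0, 1, 0, 1]⟩,
   ⟨[8, 8, 6, 5], 1, [([4, 4, 2, 2], (.ev, 4)), ([0, 0, 1, 1], (.pl 1, 4)), ([4, 4, 1, 1], (.ev, 0)), ([0, 0, 1, 0], (.pl 4, 4)), ([0, 0, 1, 1], (.ev, 0))], [3, 0, 1, 2, 1]⟩,
   ⟨[8, 8, 6, 4], 1, [([4, 4, 2, 2], (.ev, 4)), ([0, 0, 1, 1], (.pl 1, 4)), ([4, 4, 1, 1], (.ev, 0)), ([0, 0, 2, 0], (.pl 4, 3)), ([0, 0, 0, 0], (.ev, 2))], [2, 0, 1, 1, 1]⟩,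
   ⟨[8, 8, 5, 5], 1, [([4, 4, 2, 2], (.ev, 4)), ([0, 0, 1, 1], (.pl 1, 4)), ([4, 4, 1, 1], (.ev, 0)), ([0, 0, 0, 0], (.pl 4, 5)), ([0, 0, 1, 1], (.ev, 0))], [2, 0, 1, 1, 1]⟩,
   ⟨[8, 8, 5, 4], 1, [([4, 4, 2, 2], (.ev, 4)), ([0, 0, 1, 1], (.pl 1, 4)), ([4, 4, 1, 1], (.ev, 0)), ([0, 0, 1, 0], (.pl 4, 4)), ([0, 0, 0, 0], (.ev, 2))], [1, 0, 1, 0, 1]⟩,
   ⟨[8, 8, 4], 1, [([2, 2, 0], (.ev, 12)), ([1, 1, 1], (.pl 1, 3)), ([4, 4, 0], (.ev, 2)), ([0, 1, 2], (.pl 4, 2)), ([1, 0, 1], (.ev, 0))], [3, 0, 1, 2, 1]⟩,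
   ⟨[8, 7, 7, 7, 6, 2], 1, [([4, 4, 2, 2, 2, 2], (.ev, 0)), ([1, 1, 1, 1, 1, 0], (.pl 1, 1)), ([1, 0, 4, 4, 1, 0], (.ev, 0)), ([1, 1, 0, 0, 2, 0], (.pl 4, 1)), ([1, 1, 0, 0, 0, 0], (.ev, 0))], [1, 0, 1, 0, 1]⟩,
   ⟨[8, 7, 7, 7, 5, 3], 1, [([4, 4, 2, 2, 2, 2], (.ev, 0)), ([1, 1, 1, 1, 1, 1], (.pl 1, 0)), ([1, 1, 4, 4, 0, 0], (.ev, 0)), ([1, 1, 0, 0, 1, 0], (.pl 4, 2)), ([1, 0, 0, 0, 1, 0], (.ev, 0))], [1, 0, 1, 0, 1]⟩,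
   ⟨[8, 7, 7, 7, 5, 2], 1, [([4, 4, 2, 2, 2, 2], (.ev, 0)), ([1, 1, 1, 1, 1, 0], (.pl 1, 1)), ([1, 1, 4, 4, 0, 0], (.ev, 0)), ([1, 1, 0, 0, 1, 0], (.pl 4, 2)), ([1, 0, 0, 0, 1, 0], (.ev, 0))], [1, 0, 1, 0, 1]⟩,
   ⟨[8, 7, 7, 7, 4, 4], 1, [([4, 4, 2, 2, 2, 2], (.ev, 0)), ([1, 1, 1, 1, 1, 1], (.pl 1, 0)), ([1, 1, 4, 4, 0, 0], (.ev, 0)), ([1, 0, 0, 0, 1, 1], (.pl 4, 2)), ([1, 1, 0, 0, 0, 0], (.ev, 0))], [1, 0, 1, 0, 1]⟩,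
   ⟨[8, 7, 7, 7, 4, 3], 1, [([4, 4, 2, 2, 2, 2], (.ev, 0)), ([1, 1, 1, 1, 1, 1], (.pl 1, 0)), ([1, 1, 4, 4, 0, 0], (.ev, 0)), ([1, 0, 0, 0, 1, 0], (.pl 4, 3)), ([1, 1, 0, 0, 0, 0], (.ev, 0))], [1, 0, 1, 0, 1]⟩,
   ⟨[8, 7, 7, 7, 4, 2], 1, [([4, 4, 2, 2, 2, 2], (.ev, 0)), ([1, 1, 1, 1, 1, 0], (.pl 1, 1)), ([1, 1, 4, 4, 0, 0], (.ev, 0)), ([1, 0, 0, 0, 1, 0], (.pl 4, 3)), ([1, 1, 0, 0, 0, 0], (.ev, 0))], [1, 0, 1, 0, 1]⟩,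
   ⟨[8, 7, 7, 7, 3], 1, [([4, 4, 2, 2, 0], (.ev, 4)), ([1, 1, 1, 1, 1], (.pl 1, 1)), ([1, 1, 4, 4, 0], (.ev, 0)), ([1, 1, 0, 0, 1], (.pl 4, 2)), ([1, 0, 0, 0, 1], (.ev, 0))], [2, 1, 1, 0, 1]⟩,
   ⟨[8, 7, 7, 6], 1, [([4, 4, 2, 2], (.ev, 4)), ([0, 1, 1, 1], (.pl 1, 3)), ([4, 1, 4, 1], (.ev, 0)), ([0, 0, 0, 1], (.pl 4, 4)), ([0, 1, 0, 1], (.ev, 0))], [2, 0, 1, 1, 1]⟩,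
   ⟨[8, 7, 7, 5], 1, [([4, 4, 2, 2], (.ev, 4)), ([0, 1, 1, 1], (.pl 1, 3)), ([4, 1, 4, 1], (.ev, 0)), ([0, 0, 0, 0], (.pl 4, 5)), ([0, 1, 0, 1], (.ev, 0))], [2, 0, 1, 1, 1]⟩,
   ⟨[8, 7, 7, 4], 1, [([4, 4, 2, 2], (.ev, 4)), ([0, 1, 0, 1], (.pl 1, 4)), ([4, 1, 4, 1], (.ev, 0)), ([0, 0, 0, 0], (.pl 4, 5)), ([0, 1, 1, 0], (.ev, 0))], [2, 0, 1, 1, 1]⟩,
   ⟨[8, 7, 6, 6], 1, [([4, 4, 2, 2], (.ev, 4)), ([0, 1, 0, 1], (.pl 1, 4)), ([4, 1, 4, 1], (.ev, 0)), ([0, 0, 0, 1], (.pl 4, 4)), ([0, 1, 0, 1], (.ev, 0))], [3, 0, 1, 2, 1]⟩,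
   ⟨[8, 7, 6, 5], 1, [([4, 4, 2, 2], (.ev, 4)), ([0, 1, 0, 1], (.pl 1, 4)), ([4, 1, 4, 1], (.ev, 0)), ([0, 0, 0, 0], (.pl 4, 5)), ([0, 1, 0, 1], (.ev, 0))], [2, 0, 1, 1, 1]⟩,
   ⟨[8, 7, 6, 4], 1, [([4, 4, 2, 2], (.ev, 4)), ([0, 1, 0, 1], (.pl 1, 4)), ([4, 1, 4, 1], (.ev, 0)), ([0, 1, 0, 0], (.pl 4, 4)), ([0, 0, 0, 0], (.ev, 2))], [1, 0, 1, 0, 1]⟩,
   ⟨[8, 7, 5, 5], 1, [([4, 4, 2, 2], (.ev, 4)), ([1, 0, 1, 1], (.pl 1, 3)), ([3, 3, 2, 2], (.ev, 0)), ([0, 0, 0, 0], (.pl 4, 5)), ([0, 0, 0, 0], (.ev, 2))], [1, 0, 1, 0, 1]⟩,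
   ⟨[8, 7, 5, 4], 1, [([4, 4, 2, 2], (.ev, 4)), ([1, 0, 1, 0], (.pl 1, 4)), ([3, 3, 2, 2], (.ev, 0)), ([0, 0, 0, 0], (.pl 4, 5)), ([0, 0, 0, 0], (.ev, 2))], [1, 0, 1, 0, 1]⟩,
   ⟨[8, 7, 4], 1, [([2, 2, 0], (.ev, 12)), ([1, 1, 1], (.pl 1, 3)), ([4, 4, 0], (.ev, 2)), ([0, 0, 2], (.pl 4, 3)), ([1, 0, 1], (.ev, 0))], [3, 0, 1, 2, 1]⟩,
   ⟨[8, 6], 1, [([2, 2], (.ev, 12)), ([1, 0], (.pl 1, 5)), ([4, 4], (.ev, 2)), ([1, 0], (.pl 4, 4)), ([0, 0], (.ev, 2))], [4, 0, 1, 3, 1]⟩,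
   ⟨[8, 5], 1, [([2, 2], (.ev, 12)), ([1, 0], (.pl 1, 5)), ([3, 3], (.ev, 4)), ([2, 0], (.pl 4, 3)), ([0, 0], (.ev, 2))], [3, 0, 1, 2, 1]⟩,
   ⟨[7, 7], 1, [([2, 2], (.ev, 12)), ([1, 1], (.pl 1, 4)), ([4, 4], (.ev, 2)), ([0, 0], (.pl 4, 5)), ([0, 0], (.ev, 2))], [4, 0, 1, 3, 1]⟩,
   ⟨[7, 6], 1, [([2, 2], (.ev, 12)), ([1, 0], (.pl 1, 5)), ([4, 4], (.ev, 2)), ([0, 0], (.pl 4, 5)), ([0, 0], (.ev, 2))], [4, 0, 1, 3, 1]⟩,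
   ⟨[7, 5], 1, [([2, 2], (.ev, 12)), ([1, 0], (.pl 1, 5)), ([3, 3], (.ev, 4)), ([1, 0], (.pl 4, 4)), ([0, 0], (.ev, 2))], [3, 0, 1, 2, 1]⟩,
   ⟨[6, 6], 1, [([2, 2], (.ev, 12)), ([1, 1], (.pl 1, 4)), ([3, 3], (.ev, 4)), ([0, 0], (.pl 4, 5)), ([0, 0], (.ev, 2))], [3, 0, 1, 2, 1]⟩,
   ⟨[6, 5], 1, [([2, 2], (.ev, 12)), ([1, 0], (.pl 1, 5)), ([3, 3], (.ev, 4)), ([0, 0], (.pl 4, 5)), ([0, 0], (.ev, 2))], [3, 0, 1, 2, 1]⟩,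
   ⟨[5, 5], 1, [([2, 2], (.ev, 12)), ([0, 0], (.pl 1, 6)), ([3, 3], (.ev, 4)), ([0, 0], (.pl 4, 5)), ([0, 0], (.ev, 2))], [3, 0, 1, 2, 1]⟩]

def cmC_9_6_4_2_1_0 : List (List ℕ × List (ℕ × ℕ)) :=
  [([12, 4], [(8, 1), (9, 4), (2, 1), (2, 4), (2, 1)]),
   ([8, 8, 8, 8, 3, 2], [(0, 1), (1, 1), (0, 1), (1, 4), (0, 1)]),
   ([8, 8, 8, 8, 2], [(5, 2), (0, 1), (0, 1), (0, 4), (0, 1)]),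
   ([8, 8, 8, 7, 4, 2], [(0, 1), (1, 1), (0, 1), (1, 4), (0, 1)]),
   ([8, 8, 8, 7, 3, 3], [(0, 1), (0, 1), (0, 1), (2, 4), (0, 1)]),
   ([8, 8, 8, 7, 3, 2], [(0, 1), (1, 1), (0, 1), (2, 4), (0, 1)]),
   ([8, 8, 8, 7, 2], [(5, 2), (0, 1), (0, 1), (1, 4), (0, 1)]),
   ([8, 8, 8, 6, 5, 2], [(0, 1), (2, 1), (0, 1), (0, 4), (0, 1)]),
   ([8, 8, 8, 6, 4, 3], [(0, 1), (1, 1), (0, 1), (1, 4), (0, 1)]),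
   ([8, 8, 8, 6, 4, 2], [(0, 1), (2, 1), (0, 1), (1, 4), (0, 1)]),
   ([8, 8, 8, 6, 3], [(5, 2), (0, 1), (0, 1), (1, 4), (0, 1)]),
   ([8, 8, 8, 5], [(5, 2), (3, 1), (0, 1), (2, 3), (0, 1)]),
   ([8, 8, 8, 4], [(4, 1), (3, 1), (0, 1), (4, 4), (0, 1)]),
   ([8, 8, 8, 3], [(4, 1), (4, 1), (0, 1), (4, 4), (0, 1)]),
   ([8, 8, 7, 7, 5, 2], [(0, 1), (1, 1), (0, 1), (1, 4), (0, 1)]),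
   ([8, 8, 7, 7, 4, 3], [(0, 1), (0, 1), (0, 1), (2, 4), (0, 1)]),
   ([8, 8, 7, 7, 4, 2], [(0, 1), (1, 1), (0, 1), (2, 4), (0, 1)]),
   ([8, 8, 7, 7, 3], [(5, 2), (0, 1), (0, 1), (1, 4), (0, 1)]),
   ([8, 8, 7, 6], [(4, 1), (2, 1), (0, 1), (4, 4), (0, 1)]),
   ([8, 8, 7, 5], [(5, 2), (3, 1), (0, 1), (3, 3), (0, 1)]),
   ([8, 8, 7, 4], [(5, 2), (4, 1), (0, 1), (3, 3), (0, 1)]),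
   ([8, 8, 6, 6], [(4, 1), (2, 1), (0, 1), (5, 4), (0, 1)]),
   ([8, 8, 6, 5], [(6, 3), (4, 1), (0, 1), (2, 2), (0, 1)]),
   ([8, 8, 6, 4], [(5, 2), (4, 1), (0, 1), (2, 3), (2, 1)]),
   ([8, 8, 5, 5], [(5, 2), (4, 1), (0, 1), (4, 3), (0, 1)]),
   ([8, 8, 5, 4], [(4, 1), (4, 1), (0, 1), (4, 4), (2, 1)]),
   ([8, 8, 4], [(14, 3), (3, 1), (2, 1), (0, 2), (0, 1)]),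
   ([8, 7, 7, 7, 6, 2], [(0, 1), (1, 1), (0, 1), (1, 4), (0, 1)]),
   ([8, 7, 7, 7, 5, 3], [(0, 1), (0, 1), (0, 1), (2, 4), (0, 1)]),
   ([8, 7, 7, 7, 5, 2], [(0, 1), (1, 1), (0, 1), (2, 4), (0, 1)]),
   ([8, 7, 7, 7, 4, 4], [(0, 1), (0, 1), (0, 1), (2, 4), (0, 1)]),
   ([8, 7, 7, 7, 4, 3], [(0, 1), (0, 1), (0, 1), (3, 4), (0, 1)]),
   ([8, 7, 7, 7, 4, 2], [(0, 1), (1, 1), (0, 1), (3, 4), (0, 1)]),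
   ([8, 7, 7, 7, 3], [(5, 2), (0, 1), (0, 1), (2, 4), (0, 1)]),
   ([8, 7, 7, 6], [(5, 2), (3, 1), (0, 1), (3, 3), (0, 1)]),
   ([8, 7, 7, 5], [(5, 2), (3, 1), (0, 1), (4, 3), (0, 1)]),
   ([8, 7, 7, 4], [(5, 2), (4, 1), (0, 1), (4, 3), (0, 1)]),
   ([8, 7, 6, 6], [(6, 3), (4, 1), (0, 1), (2, 2), (0, 1)]),
   ([8, 7, 6, 5], [(5, 2), (4, 1), (0, 1), (4, 3), (0, 1)]),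
   ([8, 7, 6, 4], [(4, 1), (4, 1), (0, 1), (4, 4), (2, 1)]),
   ([8, 7, 5, 5], [(4, 1), (3, 1), (0, 1), (5, 4), (2, 1)]),
   ([8, 7, 5, 4], [(4, 1), (4, 1), (0, 1), (5, 4), (2, 1)]),
   ([8, 7, 4], [(14, 3), (3, 1), (2, 1), (1, 2), (0, 1)]),
   ([8, 6], [(15, 4), (5, 1), (2, 1), (1, 1), (2, 1)]),
   ([8, 5], [(14, 3), (5, 1), (4, 1), (1, 2), (2, 1)]),
   ([7, 7], [(15, 4), (4, 1), (2, 1), (2, 1), (2, 1)]),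
   ([7, 6], [(15, 4), (5, 1), (2, 1), (2, 1), (2, 1)]),
   ([7, 5], [(14, 3), (5, 1), (4, 1), (2, 2), (2, 1)]),
   ([6, 6], [(14, 3), (4, 1), (4, 1), (3, 2), (2, 1)]),
   ([6, 5], [(14, 3), (5, 1), (4, 1), (3, 2), (2, 1)]),
   ([5, 5], [(14, 3), (6, 1), (4, 1), (3, 2), (2, 1)])]

def cm_9_6_4_2_1 : List CM :=
  cm_9_6_4_2_1_0

def cmC_9_6_4_2_1 : List (List ℕ × List (ℕ × ℕ)) :=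
  cmC_9_6_4_2_1_0

def ex_9_6_4_2_1 : List (List ℕ) :=
  [[8, 8, 8, 8, 4, 1, 1, 1],
   [8, 8, 8, 7, 5, 1, 1, 1],
   [8, 8, 8, 6, 6, 1, 1, 1],
   [8, 8, 7, 7, 6, 1, 1, 1],
   [8, 7, 7, 7, 7, 1, 1, 1]]

set_option Elab.async false in
theorem fullT_9_6_4_2_1 (hf : FullH [6, 4, 2, 1])
    (hexc : ∀ q ∈ ex_9_6_4_2_1, ∀ μ : YoungDiagram, μ.card = 39 →
      (List.range (μ.rowLen 0)).map μ.colLen = q → OccSh (hk [9, 6, 4, 2, 1]) (hk [9, 6, 4, 2, 1]) μ) :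
    FullH [9, 6, 4, 2, 1] :=
  fullH_of_tree (by decide) (HC_of (by decide) (by decide)) hf ls_9_6_4_2_1 sp_9_6_4_2_1 cm_9_6_4_2_1 ex_9_6_4_2_1 spC_9_6_4_2_1 cmC_9_6_4_2_1 99 hexc
    (by decide +kernel) (by decide +kernel) (by decide +kernel) (by decide +kernel) (by decide +kernel)
    (by decide +kernel)


/-! hook list [9, 7, 3], n = 35: 145 nodes, 7 commitments -/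











/-! hook list [10, 7, 5, 3, 1], n = 47: 101 nodes, 3 commitments -/

def ls_10_7_5_3_1 : List (List Pc) :=
  [[.gap 10, .pair 7, .pair 5, .pair 3, .dup 1],
   [.rect 10 1, .pair 8, .pair 6, .pair 4, .rect 2 1, .dup 1]]

def sp_10_7_5_3_1 : List (ℕ × List ℕ) :=
  [(0, [4, 1, 3, 3, 1]),
   (1, [0, 0, 0, 0, 0, 1])]

def spC_10_7_5_3_1 : List (List (ℕ × ℕ)) :=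
  [[(25, 4), (12, 3), (6, 1), (2, 1), (2, 1)],
   [(10, 1), (15, 4), (11, 4), (7, 4), (2, 1), (2, 1)]]

def cm_10_7_5_3_1_0 : List CM :=
  [⟨[9, 9, 9, 9, 6, 2], 0, [([4, 4, 3, 3, 2, 2], (.ev, 0)), ([4, 3, 2, 2, 1, 0], (.pl 4, 1)), ([1, 2, 2, 2, 1, 0], (.pl 4, 1)), ([0, 0, 1, 1, 2, 0], (.pl 4, 1)), ([0, 0, 1, 1, 0, 0], (.ev, 0))], [1, 0, 0, 0, 1]⟩,
   ⟨[9, 9, 9, 8, 7, 2], 0, [([4, 4, 3, 3, 2, 2], (.ev, 0)), ([4, 3, 2, 2, 1, 0], (.pl 4, 1)), ([0, 2, 3, 1, 2, 0], (.pl 4, 1)), ([0, 0, 0, 2, 2, 0], (.pl 4, 1)), ([1, 0, 1, 0, 0, 0], (.ev, 0))], [1, 0, 0, 0, 1]⟩,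
   ⟨[9, 9, 8, 8], 0, [([4, 4, 2, 2], (.ev, 6)), ([4, 3, 2, 2], (.pl 4, 2)), ([1, 2, 2, 2], (.pl 4, 2)), ([0, 0, 1, 1], (.pl 4, 3)), ([0, 0, 1, 1], (.ev, 0))], [2, 1, 0, 0, 1]⟩]

def cmC_10_7_5_3_1_0 : List (List ℕ × List (ℕ × ℕ)) :=
  [([9, 9, 9, 9, 6, 2], [(0, 1), (1, 4), (1, 4), (1, 4), (0, 1)]),
   ([9, 9, 9, 8, 7, 2], [(0, 1), (1, 4), (1, 4), (1, 4), (0, 1)]),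
   ([9, 9, 8, 8], [(7, 2), (1, 3), (2, 4), (3, 4), (0, 1)])]

def cm_10_7_5_3_1 : List CM :=
  cm_10_7_5_3_1_0

def cmC_10_7_5_3_1 : List (List ℕ × List (ℕ × ℕ)) :=
  cmC_10_7_5_3_1_0

def ex_10_7_5_3_1 : List (List ℕ) :=
  [[9, 9, 9, 9, 7, 1, 1, 1, 1],
   [9, 9, 9, 8, 8, 1, 1, 1, 1]]

set_option Elab.async false in
theorem fullT_10_7_5_3_1 (hf : FullH [7, 5, 3, 1])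
    (hexc : ∀ q ∈ ex_10_7_5_3_1, ∀ μ : YoungDiagram, μ.card = 47 →
      (List.range (μ.rowLen 0)).map μ.colLen = q → OccSh (hk [10, 7, 5, 3, 1]) (hk [10, 7, 5, 3, 1]) μ) :
    FullH [10, 7, 5, 3, 1] :=
  fullH_of_tree (by decide) (HC_of (by decide) (by decide)) hf ls_10_7_5_3_1 sp_10_7_5_3_1 cm_10_7_5_3_1 ex_10_7_5_3_1 spC_10_7_5_3_1 cmC_10_7_5_3_1 99 hexc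
    (by decide +kernel) (by decide +kernel) (by decide +kernel) (by decide +kernel) (by decide +kernel)
    (by decide +kernel)


/-! hook list [10, 7, 5, 3], n = 46: 204 nodes, 44 commitments -/

def ls_10_7_5_3 : List (List Pc) :=
  [[.rect 10 1, .pair 8, .rect 6 1, .dup 4, .pair 3, .dup 1],
   [.gap 10, .pair 7, .dup 4, .pair 3, .dup 1]]

def sp_10_7_5_3 : List (ℕ × List ℕ) :=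
  [(0, [0, 0, 0, 4, 3, 1]),
   (1, [3, 2, 2, 3, 1])]

def spC_10_7_5_3 : List (List (ℕ × ℕ)) :=
  [[(10, 1), (15, 4), (6, 1), (11, 4), (2, 1), (2, 1)],
   [(22, 3), (11, 2), (9, 2), (2, 1), (2, 1)]]

def cm_10_7_5_3_0 : List CM :=
  [⟨[14, 4], 0, [([1, 0], (.pl 1, 9)), ([4, 0], (.pl 4, 11)), ([1, 0], (.pl 1, 5)), ([4, 4], (.ev, 0)), ([4, 0], (.pl 4, 1)), ([0, 0], (.ev, 2))], [0, 0, 0, 1, 0, 1]⟩,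
   ⟨[13, 5], 1, [([2, 2], (.ev, 14)), ([4, 0], (.pl 4, 9)), ([3, 3], (.ev, 2)), ([4, 0], (.pl 4, 1)), ([0, 0], (.ev, 2))], [2, 0, 1, 1, 1]⟩,
   ⟨[10, 8], 1, [([2, 2], (.ev, 14)), ([3, 1], (.pl 4, 9)), ([4, 4], (.ev, 0)), ([0, 0], (.pl 4, 5)), ([1, 1], (.ev, 0))], [4, 1, 1, 2, 1]⟩,
   ⟨[9, 9, 9, 9, 5, 2], 1, [([4, 4, 3, 3, 2, 2], (.ev, 0)), ([4, 4, 1, 1, 2, 0], (.pl 4, 1)), ([0, 0, 4, 4, 0, 0], (.ev, 0)), ([0, 0, 1, 1, 1, 0], (.pl 4, 2)), ([1, 1, 0, 0, 0, 0], (.ev, 0))], [1, 0, 1, 0, 1]⟩,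
   ⟨[9, 9, 9, 9, 5, 1], 1, [([4, 4, 2, 2, 1, 1], (.ev, 4)), ([4, 4, 2, 1, 2, 0], (.pl 4, 0)), ([0, 0, 4, 4, 0, 0], (.ev, 0)), ([0, 0, 1, 2, 2, 0], (.pl 4, 0)), ([1, 1, 0, 0, 0, 0], (.ev, 0))], [1, 0, 1, 0, 1]⟩,
   ⟨[9, 9, 9, 9, 4, 3], 1, [([4, 4, 3, 3, 2, 2], (.ev, 0)), ([4, 4, 1, 1, 1, 1], (.pl 4, 1)), ([0, 0, 4, 4, 0, 0], (.ev, 0)), ([0, 0, 1, 1, 1, 0], (.pl 4, 2)), ([1, 1, 0, 0, 0, 0], (.ev, 0))], [1, 0, 1, 0, 1]⟩,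
   ⟨[9, 9, 9, 9, 4, 2], 1, [([4, 4, 3, 3, 2, 2], (.ev, 0)), ([4, 4, 1, 1, 1, 0], (.pl 4, 2)), ([0, 0, 4, 4, 0, 0], (.ev, 0)), ([0, 0, 1, 1, 1, 0], (.pl 4, 2)), ([1, 1, 0, 0, 0, 0], (.ev, 0))], [1, 0, 1, 0, 1]⟩,
   ⟨[9, 9, 9, 9, 3, 3], 1, [([4, 4, 3, 3, 2, 2], (.ev, 0)), ([4, 4, 1, 1, 1, 0], (.pl 4, 2)), ([0, 0, 4, 4, 0, 0], (.ev, 0)), ([0, 0, 1, 1, 0, 1], (.pl 4, 2)), ([1, 1, 0, 0, 0, 0], (.ev, 0))], [1, 0, 1, 0, 1]⟩,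
   ⟨[9, 9, 9, 9, 3, 2], 1, [([4, 4, 3, 3, 2, 2], (.ev, 0)), ([4, 4, 1, 1, 1, 0], (.pl 4, 2)), ([0, 0, 4, 4, 0, 0], (.ev, 0)), ([0, 0, 1, 1, 0, 0], (.pl 4, 3)), ([1, 1, 0, 0, 0, 0], (.ev, 0))], [1, 0, 1, 0, 1]⟩,
   ⟨[9, 9, 9, 9, 2], 1, [([4, 4, 2, 2, 0], (.ev, 6)), ([4, 4, 2, 1, 1], (.pl 4, 1)), ([0, 0, 4, 4, 0], (.ev, 0)), ([0, 0, 1, 2, 1], (.pl 4, 1)), ([1, 1, 0, 0, 0], (.ev, 0))], [2, 1, 1, 0, 1]⟩,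
   ⟨[9, 9, 9, 8, 6, 2], 1, [([4, 4, 3, 3, 2, 2], (.ev, 0)), ([1, 4, 2, 3, 2, 0], (.pl 4, 1)), ([4, 0, 4, 0, 0, 0], (.ev, 0)), ([0, 0, 0, 1, 2, 0], (.pl 4, 2)), ([0, 1, 0, 1, 0, 0], (.ev, 0))], [1, 0, 1, 0, 1]⟩,
   ⟨[9, 9, 9, 8, 6, 1], 1, [([4, 4, 2, 2, 1, 1], (.ev, 4)), ([4, 4, 2, 1, 2, 0], (.pl 4, 0)), ([0, 0, 4, 4, 0, 0], (.ev, 0)), ([0, 0, 1, 1, 3, 0], (.pl 4, 0)), ([1, 1, 0, 0, 0, 0], (.ev, 0))], [1, 0, 1, 0, 1]⟩,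
   ⟨[9, 9, 9, 8, 5, 3], 1, [([4, 4, 3, 3, 2, 2], (.ev, 0)), ([1, 4, 2, 3, 1, 1], (.pl 4, 1)), ([4, 0, 4, 0, 0, 0], (.ev, 0)), ([0, 0, 0, 1, 2, 0], (.pl 4, 2)), ([0, 1, 0, 1, 0, 0], (.ev, 0))], [1, 0, 1, 0, 1]⟩,
   ⟨[9, 9, 9, 8, 5, 2], 1, [([4, 4, 3, 3, 2, 2], (.ev, 0)), ([1, 4, 2, 3, 1, 0], (.pl 4, 2)), ([4, 0, 4, 0, 0, 0], (.ev, 0)), ([0, 0, 0, 1, 2, 0], (.pl 4, 2)), ([0, 1, 0, 1, 0, 0], (.ev, 0))], [1, 0, 1, 0, 1]⟩,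
   ⟨[9, 9, 9, 8, 4, 4], 1, [([4, 4, 3, 3, 2, 2], (.ev, 0)), ([1, 4, 2, 3, 1, 1], (.pl 4, 1)), ([4, 0, 4, 0, 0, 0], (.ev, 0)), ([0, 0, 0, 1, 1, 1], (.pl 4, 2)), ([0, 1, 0, 1, 0, 0], (.ev, 0))], [1, 0, 1, 0, 1]⟩,
   ⟨[9, 9, 9, 8, 4, 3], 1, [([4, 4, 3, 3, 2, 2], (.ev, 0)), ([1, 4, 2, 3, 1, 0], (.pl 4, 2)), ([4, 0, 4, 0, 0, 0], (.ev, 0)), ([0, 0, 0, 1, 1, 1], (.pl 4, 2)), ([0, 1, 0, 1, 0, 0], (.ev, 0))], [1, 0, 1, 0, 1]⟩,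
   ⟨[9, 9, 9, 8, 4, 2], 1, [([4, 4, 3, 3, 2, 2], (.ev, 0)), ([1, 4, 2, 3, 1, 0], (.pl 4, 2)), ([4, 0, 4, 0, 0, 0], (.ev, 0)), ([0, 0, 0, 1, 1, 0], (.pl 4, 3)), ([0, 1, 0, 1, 0, 0], (.ev, 0))], [1, 0, 1, 0, 1]⟩,
   ⟨[9, 9, 9, 8, 3], 1, [([4, 4, 2, 2, 0], (.ev, 6)), ([4, 4, 2, 1, 1], (.pl 4, 1)), ([0, 0, 4, 4, 0], (.ev, 0)), ([0, 0, 1, 1, 2], (.pl 4, 1)), ([1, 1, 0, 0, 0], (.ev, 0))], [3, 1, 1, 1, 1]⟩,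
   ⟨[9, 9, 9, 7], 1, [([4, 4, 2, 2], (.ev, 6)), ([1, 4, 3, 2], (.pl 4, 3)), ([4, 0, 4, 0], (.ev, 0)), ([0, 0, 0, 2], (.pl 4, 3)), ([0, 1, 0, 1], (.ev, 0))], [2, 1, 1, 0, 1]⟩,
   ⟨[9, 9, 9, 6], 1, [([4, 4, 2, 2], (.ev, 6)), ([1, 4, 3, 2], (.pl 4, 3)), ([4, 0, 4, 0], (.ev, 0)), ([0, 0, 0, 1], (.pl 4, 4)), ([0, 1, 0, 1], (.ev, 0))], [2, 1, 1, 0, 1]⟩,
   ⟨[9, 9, 9, 5], 1, [([4, 4, 2, 2], (.ev, 6)), ([1, 4, 2, 2], (.pl 4, 4)), ([4, 0, 4, 0], (.ev, 0)), ([0, 0, 0, 1], (.pl 4, 4)), ([0, 1, 1, 0], (.ev, 0))], [2, 1, 1, 0, 1]⟩,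
   ⟨[9, 9, 9, 4], 1, [([4, 4, 2, 2], (.ev, 6)), ([1, 4, 2, 2], (.pl 4, 4)), ([4, 0, 4, 0], (.ev, 0)), ([0, 0, 0, 0], (.pl 4, 5)), ([0, 1, 1, 0], (.ev, 0))], [2, 1, 1, 0, 1]⟩,
   ⟨[9, 9, 8, 8, 7, 2], 1, [([4, 4, 3, 3, 2, 2], (.ev, 0)), ([1, 1, 4, 3, 3, 0], (.pl 4, 1)), ([4, 4, 0, 0, 0, 0], (.ev, 0)), ([0, 0, 0, 1, 2, 0], (.pl 4, 2)), ([0, 0, 1, 1, 0, 0], (.ev, 0))], [1, 0, 1, 0, 1]⟩,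
   ⟨[9, 9, 8, 8, 7, 1], 1, [([4, 4, 2, 2, 1, 1], (.ev, 4)), ([4, 4, 2, 1, 2, 0], (.pl 4, 0)), ([0, 0, 4, 4, 0, 0], (.ev, 0)), ([0, 1, 0, 1, 3, 0], (.pl 4, 0)), ([1, 0, 0, 0, 1, 0], (.ev, 0))], [1, 0, 1, 0, 1]⟩,
   ⟨[9, 9, 8, 8, 6, 3], 1, [([4, 4, 3, 3, 2, 2], (.ev, 0)), ([1, 1, 4, 3, 2, 1], (.pl 4, 1)), ([4, 4, 0, 0, 0, 0], (.ev, 0)), ([0, 0, 0, 1, 2, 0], (.pl 4, 2)), ([0, 0, 1, 1, 0, 0], (.ev, 0))], [1, 0, 1, 0, 1]⟩,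
   ⟨[9, 9, 8, 8, 6, 2], 1, [([4, 4, 3, 3, 2, 2], (.ev, 0)), ([1, 1, 4, 3, 2, 0], (.pl 4, 2)), ([4, 4, 0, 0, 0, 0], (.ev, 0)), ([0, 0, 0, 1, 2, 0], (.pl 4, 2)), ([0, 0, 1, 1, 0, 0], (.ev, 0))], [1, 0, 1, 0, 1]⟩,
   ⟨[9, 9, 8, 8, 5, 4], 1, [([4, 4, 3, 3, 2, 2], (.ev, 0)), ([1, 1, 4, 3, 2, 1], (.pl 4, 1)), ([4, 4, 0, 0, 0, 0], (.ev, 0)), ([0, 0, 0, 1, 1, 1], (.pl 4, 2)), ([0, 0, 1, 1, 0, 0], (.ev, 0))], [1, 0, 1, 0, 1]⟩,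
   ⟨[9, 9, 8, 8, 5, 3], 1, [([4, 4, 3, 3, 2, 2], (.ev, 0)), ([1, 1, 4, 3, 2, 0], (.pl 4, 2)), ([4, 4, 0, 0, 0, 0], (.ev, 0)), ([0, 0, 0, 1, 1, 1], (.pl 4, 2)), ([0, 0, 1, 1, 0, 0], (.ev, 0))], [1, 0, 1, 0, 1]⟩,
   ⟨[9, 9, 8, 8, 5, 2], 1, [([4, 4, 3, 3, 2, 2], (.ev, 0)), ([1, 1, 4, 3, 2, 0], (.pl 4, 2)), ([4, 4, 0, 0, 0, 0], (.ev, 0)), ([0, 0, 0, 1, 1, 0], (.pl 4, 3)), ([0, 0, 1, 1, 0, 0], (.ev, 0))], [1, 0, 1, 0, 1]⟩,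
   ⟨[9, 9, 8, 8, 4, 4], 1, [([4, 4, 3, 3, 2, 2], (.ev, 0)), ([1, 1, 4, 3, 1, 1], (.pl 4, 2)), ([4, 4, 0, 0, 0, 0], (.ev, 0)), ([0, 0, 0, 1, 1, 1], (.pl 4, 2)), ([0, 0, 1, 1, 0, 0], (.ev, 0))], [1, 0, 1, 0, 1]⟩,
   ⟨[9, 9, 8, 8, 4, 3], 1, [([4, 4, 3, 3, 2, 2], (.ev, 0)), ([1, 1, 4, 3, 1, 1], (.pl 4, 2)), ([4, 4, 0, 0, 0, 0], (.ev, 0)), ([0, 0, 0, 1, 1, 0], (.pl 4, 3)), ([0, 0, 1, 1, 0, 0], (.ev, 0))], [1, 0, 1, 0, 1]⟩,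
   ⟨[9, 9, 8, 8, 4, 2], 1, [([4, 4, 3, 3, 2, 2], (.ev, 0)), ([1, 1, 4, 3, 1, 0], (.pl 4, 3)), ([4, 4, 0, 0, 0, 0], (.ev, 0)), ([0, 0, 0, 1, 1, 0], (.pl 4, 3)), ([0, 0, 1, 1, 0, 0], (.ev, 0))], [1, 0, 1, 0, 1]⟩,
   ⟨[9, 9, 8, 8, 3], 1, [([4, 4, 2, 2, 0], (.ev, 6)), ([4, 4, 1, 1, 2], (.pl 4, 1)), ([0, 0, 4, 4, 0], (.ev, 0)), ([0, 0, 1, 1, 1], (.pl 4, 2)), ([1, 1, 0, 0, 0], (.ev, 0))], [2, 1, 1, 0, 1]⟩,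
   ⟨[9, 9, 8, 7], 1, [([4, 4, 2, 2], (.ev, 6)), ([1, 4, 2, 3], (.pl 4, 3)), ([4, 0, 4, 0], (.ev, 0)), ([0, 0, 0, 1], (.pl 4, 4)), ([0, 1, 0, 1], (.ev, 0))], [2, 1, 1, 0, 1]⟩,
   ⟨[9, 9, 8, 6], 1, [([4, 4, 2, 2], (.ev, 6)), ([1, 4, 2, 2], (.pl 4, 4)), ([4, 0, 4, 0], (.ev, 0)), ([0, 0, 0, 1], (.pl 4, 4)), ([0, 1, 0, 1], (.ev, 0))], [2, 1, 1, 0, 1]⟩,
   ⟨[9, 9, 8, 5], 1, [([4, 4, 2, 2], (.ev, 6)), ([1, 4, 2, 2], (.pl 4, 4)), ([4, 0, 4, 0], (.ev, 0)), ([0, 0, 0, 0], (.pl 4, 5)), ([0, 1, 0, 1], (.ev, 0))], [2, 1, 1, 0, 1]⟩,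
   ⟨[9, 9, 8, 4], 1, [([4, 4, 2, 2], (.ev, 6)), ([1, 4, 1, 2], (.pl 4, 5)), ([4, 0, 4, 0], (.ev, 0)), ([0, 0, 0, 0], (.pl 4, 5)), ([0, 1, 1, 0], (.ev, 0))], [2, 1, 1, 0, 1]⟩,
   ⟨[9, 9, 7, 7], 1, [([4, 4, 2, 2], (.ev, 6)), ([1, 1, 4, 3], (.pl 4, 4)), ([4, 4, 0, 0], (.ev, 0)), ([0, 0, 0, 1], (.pl 4, 4)), ([0, 0, 1, 1], (.ev, 0))], [2, 1, 1, 0, 1]⟩,
   ⟨[9, 9, 7, 6], 1, [([4, 4, 2, 2], (.ev, 6)), ([1, 1, 4, 3], (.pl 4, 4)), ([4, 4, 0, 0], (.ev, 0)), ([0, 0, 0, 0], (.pl 4, 5)), ([0, 0, 1, 1], (.ev, 0))], [2, 1, 1, 0, 1]⟩,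
   ⟨[9, 8], 1, [([2, 2], (.ev, 14)), ([2, 1], (.pl 4, 10)), ([4, 4], (.ev, 0)), ([0, 0], (.pl 4, 5)), ([1, 1], (.ev, 0))], [4, 1, 1, 2, 1]⟩,
   ⟨[9, 7], 1, [([2, 2], (.ev, 14)), ([2, 0], (.pl 4, 11)), ([4, 4], (.ev, 0)), ([0, 0], (.pl 4, 5)), ([1, 1], (.ev, 0))], [4, 1, 1, 2, 1]⟩,
   ⟨[8, 8], 1, [([2, 2], (.ev, 14)), ([1, 1], (.pl 4, 11)), ([4, 4], (.ev, 0)), ([0, 0], (.pl 4, 5)), ([1, 1], (.ev, 0))], [4, 1, 1, 2, 1]⟩,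
   ⟨[8, 7], 1, [([2, 2], (.ev, 14)), ([1, 0], (.pl 4, 12)), ([4, 4], (.ev, 0)), ([0, 0], (.pl 4, 5)), ([1, 1], (.ev, 0))], [4, 1, 1, 2, 1]⟩,
   ⟨[7, 7], 1, [([2, 2], (.ev, 14)), ([0, 0], (.pl 4, 13)), ([4, 4], (.ev, 0)), ([0, 0], (.pl 4, 5)), ([1, 1], (.ev, 0))], [4, 1, 1, 2, 1]⟩]

def cmC_10_7_5_3_0 : List (List ℕ × List (ℕ × ℕ)) :=
  [([14, 4], [(9, 1), (11, 4), (5, 1), (0, 1), (1, 4), (2, 1)]),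
   ([13, 5], [(15, 2), (9, 4), (2, 1), (0, 3), (2, 1)]),
   ([10, 8], [(17, 4), (8, 3), (0, 1), (3, 2), (0, 1)]),
   ([9, 9, 9, 9, 5, 2], [(0, 1), (1, 4), (0, 1), (2, 4), (0, 1)]),
   ([9, 9, 9, 9, 5, 1], [(4, 1), (0, 4), (0, 1), (0, 4), (0, 1)]),
   ([9, 9, 9, 9, 4, 3], [(0, 1), (1, 4), (0, 1), (2, 4), (0, 1)]),
   ([9, 9, 9, 9, 4, 2], [(0, 1), (2, 4), (0, 1), (2, 4), (0, 1)]),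
   ([9, 9, 9, 9, 3, 3], [(0, 1), (2, 4), (0, 1), (2, 4), (0, 1)]),
   ([9, 9, 9, 9, 3, 2], [(0, 1), (2, 4), (0, 1), (3, 4), (0, 1)]),
   ([9, 9, 9, 9, 2], [(7, 2), (0, 3), (0, 1), (1, 4), (0, 1)]),
   ([9, 9, 9, 8, 6, 2], [(0, 1), (1, 4), (0, 1), (2, 4), (0, 1)]),
   ([9, 9, 9, 8, 6, 1], [(4, 1), (0, 4), (0, 1), (0, 4), (0, 1)]),
   ([9, 9, 9, 8, 5, 3], [(0, 1), (1, 4), (0, 1), (2, 4), (0, 1)]),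
   ([9, 9, 9, 8, 5, 2], [(0, 1), (2, 4), (0, 1), (2, 4), (0, 1)]),
   ([9, 9, 9, 8, 4, 4], [(0, 1), (1, 4), (0, 1), (2, 4), (0, 1)]),
   ([9, 9, 9, 8, 4, 3], [(0, 1), (2, 4), (0, 1), (2, 4), (0, 1)]),
   ([9, 9, 9, 8, 4, 2], [(0, 1), (2, 4), (0, 1), (3, 4), (0, 1)]),
   ([9, 9, 9, 8, 3], [(8, 3), (0, 3), (0, 1), (0, 3), (0, 1)]),
   ([9, 9, 9, 7], [(7, 2), (2, 3), (0, 1), (3, 4), (0, 1)]),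
   ([9, 9, 9, 6], [(7, 2), (2, 3), (0, 1), (4, 4), (0, 1)]),
   ([9, 9, 9, 5], [(7, 2), (3, 3), (0, 1), (4, 4), (0, 1)]),
   ([9, 9, 9, 4], [(7, 2), (3, 3), (0, 1), (5, 4), (0, 1)]),
   ([9, 9, 8, 8, 7, 2], [(0, 1), (1, 4), (0, 1), (2, 4), (0, 1)]),
   ([9, 9, 8, 8, 7, 1], [(4, 1), (0, 4), (0, 1), (0, 4), (0, 1)]),
   ([9, 9, 8, 8, 6, 3], [(0, 1), (1, 4), (0, 1), (2, 4), (0, 1)]),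
   ([9, 9, 8, 8, 6, 2], [(0, 1), (2, 4), (0, 1), (2, 4), (0, 1)]),
   ([9, 9, 8, 8, 5, 4], [(0, 1), (1, 4), (0, 1), (2, 4), (0, 1)]),
   ([9, 9, 8, 8, 5, 3], [(0, 1), (2, 4), (0, 1), (2, 4), (0, 1)]),
   ([9, 9, 8, 8, 5, 2], [(0, 1), (2, 4), (0, 1), (3, 4), (0, 1)]),
   ([9, 9, 8, 8, 4, 4], [(0, 1), (2, 4), (0, 1), (2, 4), (0, 1)]),
   ([9, 9, 8, 8, 4, 3], [(0, 1), (2, 4), (0, 1), (3, 4), (0, 1)]),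
   ([9, 9, 8, 8, 4, 2], [(0, 1), (3, 4), (0, 1), (3, 4), (0, 1)]),
   ([9, 9, 8, 8, 3], [(7, 2), (0, 3), (0, 1), (2, 4), (0, 1)]),
   ([9, 9, 8, 7], [(7, 2), (2, 3), (0, 1), (4, 4), (0, 1)]),
   ([9, 9, 8, 6], [(7, 2), (3, 3), (0, 1), (4, 4), (0, 1)]),
   ([9, 9, 8, 5], [(7, 2), (3, 3), (0, 1), (5, 4), (0, 1)]),
   ([9, 9, 8, 4], [(7, 2), (4, 3), (0, 1), (5, 4), (0, 1)]),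
   ([9, 9, 7, 7], [(7, 2), (3, 3), (0, 1), (4, 4), (0, 1)]),
   ([9, 9, 7, 6], [(7, 2), (3, 3), (0, 1), (5, 4), (0, 1)]),
   ([9, 8], [(17, 4), (9, 3), (0, 1), (3, 2), (0, 1)]),
   ([9, 7], [(17, 4), (10, 3), (0, 1), (3, 2), (0, 1)]),
   ([8, 8], [(17, 4), (10, 3), (0, 1), (3, 2), (0, 1)]),
   ([8, 7], [(17, 4), (11, 3), (0, 1), (3, 2), (0, 1)]),
   ([7, 7], [(17, 4), (12, 3), (0, 1), (3, 2), (0, 1)])]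

def cm_10_7_5_3 : List CM :=
  cm_10_7_5_3_0

def cmC_10_7_5_3 : List (List ℕ × List (ℕ × ℕ)) :=
  cmC_10_7_5_3_0

def ex_10_7_5_3 : List (List ℕ) :=
  [[9, 9, 9, 9, 6, 1, 1, 1, 1],
   [9, 9, 9, 8, 7, 1, 1, 1, 1],
   [9, 9, 8, 8, 8, 1, 1, 1, 1]]

set_option Elab.async false in
theorem fullT_10_7_5_3 (hf : FullH [7, 5, 3])
    (hexc : ∀ q ∈ ex_10_7_5_3, ∀ μ : YoungDiagram, μ.card = 46 →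
      (List.range (μ.rowLen 0)).map μ.colLen = q → OccSh (hk [10, 7, 5, 3]) (hk [10, 7, 5, 3]) μ) :
    FullH [10, 7, 5, 3] :=
  fullH_of_tree (by decide) (HC_of (by decide) (by decide)) hf ls_10_7_5_3 sp_10_7_5_3 cm_10_7_5_3 ex_10_7_5_3 spC_10_7_5_3 cmC_10_7_5_3 99 hexc
    (by decide +kernel) (by decide +kernel) (by decide +kernel) (by decide +kernel) (by decide +kernel)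
    (by decide +kernel)

end Crest.Agent.R195
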