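import Crest.Agent.R195.CertFull
import Crest.Agent.R195.CT5_2_1_Mg
import Crest.Agent.R195.CT9_5_3
import Crest.Agent.R195.CT5_4_2_1
import Crest.Agent.R195.CT8_5_4_2_1
import Crest.Agent.R195.CertLin
import Crest.Agent.R195.TreeFin
import Crest.Agent.R195.Fam
import Crest.Agent.R195.TreeM9_Mg
import Crest.Agent.R195.CovA4
import Crest.Agent.R195.CovC0
import Crest.Agent.R195.CovBodd
import Crest.Agent.R195.Merge
import Crest.Agent.R195.CovBeven
import Crest.Agent.R195.CovB
import Crest.Agent.R195.CovCeven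
import Crest.Agent.R195.CovV2
import Crest.Agent.R195.MergeTabS
import Crest.Agent.R195.S298Fam
import Crest.Agent.R195.TreeC11
import Crest.Agent.R195.TreeV10
import Crest.Agent.R195.TreeV12

-- ▼ part R195/CT3
section

/-! Row 195, certificate table (generated, helper895) for the shape with hooks [3]. -/

set_option autoImplicit false
set_option maxRecDepth 100000

namespace Crest.Agent.R195

/-- certificates -/
def ct3_t0 : List Entry :=
 [
  ⟨[3, 1, 1], 5, 0, 47890668362075327421484329586542283875181555670843520, 0⟩]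

theorem ct3_ok0 : (ct3_t0.all fun x => x.lin 5 [3, 1, 1]) = true := by decide +kernel

/-- all certificates -/
def ct3_tb : List Entry := ct3_t0

theorem ct3_tabOK : TabOK [3] 5 ct3_tb :=
  (tabOK_of_lin (by decide) (by decide) (by decide) ct3_ok0)

theorem ct3_cov : covL (regParts (3 - 1) 5) ct3_tb = true := by
  decide +kernel

theorem ct3_hc : HC 3 [] := by unfold HC; decide

theorem ct3_full (h : FullH []) : FullH [3] :=
  fullH_of_reg (by decide) ct3_hc h (by decide) (by decide) ct3_tabOK ct3_cov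

end Crest.Agent.R195
end

-- ▼ part R195/CT4
section

/-! Row 195, certificate table (generated, helper895) for the shape with hooks [4]. -/

set_option autoImplicit false
set_option maxRecDepth 100000

namespace Crest.Agent.R195

/-- certificates -/
def ct4_t0 : List Entry :=
 [
  ⟨[3, 1, 1, 1, 1], 3, 4, 79286493187402615463614873728, 1394051849001058157413558661784455281123330⟩,
  ⟨[3, 2, 1, 1], 7, 0, 114846353607262901331207669733039416284157019694678936646019111125030535232, 0⟩,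
  ⟨[3, 2, 2], 7, 0, 227923722938809262408726156545202003589892683453985385054655339094268969024, 0⟩,
  ⟨[3, 2, 2], 7, 0, 227923722938809262408726156545202003589892683453985385054655339094268969024, 0⟩,
  ⟨[4, 1, 1, 1], 7, 0, 3534125597306762686973117391169616405763013847611227901193767559519797440, 0⟩]

theorem ct4_ok0 : (ct4_t0.all fun x => x.lin 7 [4, 1, 1, 1]) = true := by decide +kernel

/-- all certificates -/
def ct4_tb : List Entry := ct4_t0

theorem ct4_tabOK : TabOK [4] 7 ct4_tb :=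
  (tabOK_of_lin (by decide) (by decide) (by decide) ct4_ok0)

theorem ct4_cov : covL (regParts (4 - 1) 7) ct4_tb = true := by
  decide +kernel

theorem ct4_hc : HC 4 [] := by unfold HC; decide

theorem ct4_full (h : FullH []) : FullH [4] :=
  fullH_of_reg (by decide) ct4_hc h (by decide) (by decide) ct4_tabOK ct4_cov

end Crest.Agent.R195
end

-- ▼ part R195/CT4_1
section

/-! Row 195, certificate table (generated, helper895) for the shape with hooks [4, 1]. -/

set_option autoImplicit false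
set_option maxRecDepth 100000

namespace Crest.Agent.R195

/-- certificates -/
def ct4_1_t0 : List Entry :=
 [
  ⟨[3, 3, 1, 1], 8, 0, 121416827814359866939766274441574129137585759058037116696758792702775991713080279168, 0⟩,
  ⟨[3, 3, 2], 8, 0, 29664489450393043171880369532659943790353192605884374204435598894823038297833600, 0⟩,
  ⟨[4, 1, 1, 1, 1], 8, 0, 121505734088725147042727574503347868333104403705292615722016037182557650748444770496, 0⟩,
  ⟨[4, 2, 1, 1], 8, 0, 7772572706496569380534649209937440196997546577518514715514810652395079981277183475840, 0⟩]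

theorem ct4_1_ok0 : (ct4_1_t0.all fun x => x.lin 8 [4, 2, 1, 1]) = true := by decide +kernel

/-- all certificates -/
def ct4_1_tb : List Entry := ct4_1_t0

theorem ct4_1_tabOK : TabOK [4, 1] 8 ct4_1_tb :=
  (tabOK_of_lin (by decide) (by decide) (by decide) ct4_1_ok0)

theorem ct4_1_cov : covL (regParts (4 - 1) 8) ct4_1_tb = true := by
  decide +kernel

theorem ct4_1_hc : HC 4 [1] := by unfold HC; decide

theorem ct4_1_full (h : FullH [1]) : FullH [4, 1] :=
  fullH_of_reg (by decide) ct4_1_hc h (by decide) (by decide) ct4_1_tabOK ct4_1_cov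

end Crest.Agent.R195
end

-- ▼ part R195/CT5_2
section

/-! Row 195, certificate table (generated, helper895) for the shape with hooks [5, 2]. -/

set_option autoImplicit false
set_option maxRecDepth 100000

namespace Crest.Agent.R195

/-- certificates -/
def ct5_2_t0 : List Entry :=
 [
  ⟨[3, 3, 3, 3], 12, 0, 178750856403246054482733486792283221755291528837463520973830220749600427491189139197885500337665585441300192678462161164419727424, 0⟩,
  ⟨[4, 3, 3, 1, 1], 12, 0, 693209741443767558833698962576281623361229033947216153392831625247026982247531409033608491711168071186888557282655584590580678656, 0⟩,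
  ⟨[4, 3, 3, 2], 12, 0, 346583712415786597549196152926803157306831646788182017793640033977095760837554415618111228787573451894535330114713121732936073408, 0⟩,
  ⟨[4, 4, 1, 1, 1, 1], 12, 0, 5416692933690313167223032262513073175601579478250500553493450449263720341589415050896549340636292065176292491852415277302284544, 0⟩,
  ⟨[4, 4, 2, 1, 1], 12, 0, 8165384145926204402827003681337700471856221884748159071548749910975787450718670473929114708853127272368210526162823897062309888, 0⟩,
  ⟨[4, 4, 2, 2], 12, 0, 178709880931794730366815640500274536494531856123491430869146884942871010124057659099945550712844881208536886829869496849427595520, 0⟩,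
  ⟨[4, 3, 3, 2], 12, 0, 346583712415786597549196152926803157306831646788182017793640033977095760837554415618111228787573451894535330114713121732936073408, 0⟩,
  ⟨[5, 3, 1, 1, 1, 1], 12, 0, 519917906229263166535669126274137875724054167607520583944781447950743059075635610928665091524189827660365417858362676512824492096, 0⟩,
  ⟨[5, 3, 2, 1, 1], 12, 0, 173291855885151480674838064954611612091635845249000069175320414800000430712294419119638511067459763766787042615774527206252085440, 0⟩,
  ⟨[6, 1, 1, 1, 1, 1, 1], 12, 0, 13539087781084986686410022455778343785951595086947789802116790161596116825218462741969001153320608176438306315697589710121074944, 0⟩,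
  ⟨[6, 2, 1, 1, 1, 1], 12, 0, 10832734812347166856484393590596204217828362111030004619564634944660966731382149555490390932294606042114463174632573192554676480, 0⟩]

theorem ct5_2_ok0 : (ct5_2_t0.all fun x => x.lin 12 [5, 3, 2, 1, 1]) = true := by decide +kernel

/-- all certificates -/
def ct5_2_tb : List Entry := ct5_2_t0

theorem ct5_2_tabOK : TabOK [5, 2] 12 ct5_2_tb :=
  (tabOK_of_lin (by decide) (by decide) (by decide) ct5_2_ok0)

theorem ct5_2_cov : covL (regParts (5 - 1) 12) ct5_2_tb = true := by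
  decide +kernel

theorem ct5_2_hc : HC 5 [2] := by unfold HC; decide

theorem ct5_2_full (h : FullH [2]) : FullH [5, 2] :=
  fullH_of_reg (by decide) ct5_2_hc h (by decide) (by decide) ct5_2_tabOK ct5_2_cov

end Crest.Agent.R195
end

-- ▼ part R195/CT6_3
section

/-! Row 195, certificate table (generated, helper895) for the shape with hooks [6, 3]. -/

set_option autoImplicit false
set_option maxRecDepth 100000

namespace Crest.Agent.R195

/-- certificates -/
def ct6_3_t0 : List Entry :=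
 [
  ⟨[4, 3, 3, 3, 3], 16, 0, 15458179579751366582468479458664455325995747958802995190107816902324957302028649289483189829529872194035276863337255780866770579318469294871294703868027740665245146625081473, 0⟩,
  ⟨[4, 4, 3, 3, 1, 1], 16, 0, 3864552283056272207942703046030868628466489346179953029244046529430104231766623106535767214070758721387069163826692616027788787806359496677505383745185955564190334798266560, 0⟩,
  ⟨[4, 4, 3, 3, 2], 16, 0, 182094381686180053374585789938277578860459762955717905850277365756460758934809901409420862315869391434681314545265074874018349851626393401840424918430463114118232330207552, 0⟩,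
  ⟨[4, 4, 4, 1, 1, 1, 1], 16, 0, 19323632257417065667062726342570801091916375214914910279531524499499978543828090514184882944772239461707620886311038772435366651909047127554070588585371371805947349980151808, 0⟩,
  ⟨[4, 4, 4, 2, 1, 1], 16, 0, 3924951100586131685457186775815526339384610858798960340072050221777460808143441837810173642883908782812437993163012862948513569730116040214245975126668229912612323838918912, 0⟩,
  ⟨[4, 4, 4, 2, 2], 16, 0, 11654040197684446842121487764118876361159014381257621893393695872839597044032430060321484845887988486071244239206885714053361340089410702290213113989176422831620967409909824, 0⟩,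
  ⟨[4, 4, 4, 3, 1], 16, 0, 3985348787877277780417368515053032578891511414258020749192226033471693000229633529798354317525676596349363190804160343800737434392024462567366038046836583768510354175295616, 0⟩,
  ⟨[4, 4, 4, 4], 16, 0, 11654010727943291072829636613657945905972428381955532003387290248922601856118144988436249526086889011981700577393453618819804079594589981856542157815233013082320193062437120, 0⟩,
  ⟨[5, 3, 3, 3, 1, 1], 16, 0, 972992684184258636852758247719378665071533195660746663019421883818973265306208334727586110956305583752376890313631799341437830978011093257884927770838647359995044692032, 0⟩,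
  ⟨[5, 3, 3, 3, 2], 16, 0, 241592577804241207005814183984308061338340046581145561390674164872604700838753447366803738355109709441033058465795961553794775922628560193561533755525957018201442558673024, 0⟩,
  ⟨[5, 4, 3, 1, 1, 1, 1], 16, 0, 7789502674552959336933797486798908634272343677947555030662292810563165163695398681639472196994067133691987602462275435475664361594565772580850276657283915747399007738003776, 0⟩,
  ⟨[5, 4, 3, 2, 1, 1], 16, 0, 3866439487413928708542955278280222281435098864639553258352919141242037412827650432108511959175210261458907534607573184160076321370624370968774421317931994430256771456827520, 0⟩,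
  ⟨[5, 4, 3, 2, 2], 16, 0, 182137916943923161989839331803809358790804687535356126109431489412172325598572959893953061187654615224039521141860112514844413891896196317287906230576411690214104211915072, 0⟩,
  ⟨[5, 4, 3, 3, 1], 16, 0, 3866439476673664236489128950184842022360741193822196605797435504878537940144144471563303219205960720645692674535786288504744075134176966433357179030582079064812241410855104, 0⟩,
  ⟨[5, 4, 4, 1, 1, 1], 16, 0, 4046646416343524356978054464854958620463483326889222616902237266802426146109806556122805993180769312096259378156481241014253830088350525672503267741235757400334874125795648, 0⟩,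
  ⟨[5, 4, 3, 3, 1], 16, 0, 3866439476673664236489128950184842022360741193822196605797435504878537940144144471563303219205960720645692674535786288504744075134176966433357179030582079064812241410855104, 0⟩,
  ⟨[5, 5, 1, 1, 1, 1, 1, 1], 16, 0, 3985363749520391830492456345331935548760773416323106086247843223901444388128079841940444045725743149004939088303194430698081075502341482457350193302225758254852748045979968, 0⟩,
  ⟨[5, 5, 2, 1, 1, 1, 1], 16, 0, 3925893907359210992326185002896295809133830466954299328703209282240235456908528179681738879038614557681291585601159958217899325609865950917188623192820988360740893980098624, 0⟩,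
  ⟨[5, 5, 2, 2, 1, 1], 16, 0, 125484261422764278599767376443056237849015193476562141271286302520153029295912474249352218346679615449692120984840063472772671261716536348707215423306518412856883052544128, 0⟩,
  ⟨[5, 5, 2, 2, 2], 16, 0, 7729089806074408603268544500614540204819953188273087870735080013757812982143636970424036533905364028612188498020644179340423543183379172827158087145344652329698604252135680, 0⟩,
  ⟨[5, 5, 3, 1, 1, 1], 16, 0, 63229534092022139082383477348020392762677282850648857383530595310805574770786482141543981285960945766805193149767624905635746395956056388105622518578207463388558307885120, 0⟩,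
  ⟨[5, 4, 3, 2, 2], 16, 0, 182137916943923161989839331803809358790804687535356126109431489412172325598572959893953061187654615224039521141860112514844413891896196317287906230576411690214104211915072, 0⟩,
  ⟨[5, 3, 3, 3, 2], 16, 0, 241592577804241207005814183984308061338340046581145561390674164872604700838753447366803738355109709441033058465795961553794775922628560193561533755525957018201442558673024, 0⟩,
  ⟨[6, 3, 3, 1, 1, 1, 1], 16, 0, 7850800313930868283486888644684365333767122040228765700616412081672676386911742502230642894298264658304146173730833936198618103455732225069888592322399020096842256582705344, 0⟩,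
  ⟨[6, 3, 3, 2, 1, 1], 16, 0, 243435325644380647785611121200030937906521495185494544146317307506147174670285512978783435107270393761469445082800323542039737854792128276802534621985584959308181313159488, 0⟩,
  ⟨[6, 4, 1, 1, 1, 1, 1, 1], 16, 0, 242477776827970339664222365422312235803482656573542690188624604244648221410004264855311271410248331609946688515455709181363585216793050257665427645597498704450151050645760, 0⟩,
  ⟨[6, 4, 2, 1, 1, 1, 1], 16, 0, 19325518317474240064564204703477647958686355425725167407093722353079025919306999942683668707482870591138839637562503742026855345540937962892336651920786159476564816395501696, 0⟩,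
  ⟨[6, 4, 2, 2, 1, 1], 16, 0, 182108440060713869025547120129825760595217286683440200683794627175874293671896645172373374566836290047618892145489750648458084530515642151339102203393101542512233817047360, 0⟩,
  ⟨[6, 3, 3, 2, 1, 1], 16, 0, 243435325644380647785611121200030937906521495185494544146317307506147174670285512978783435107270393761469445082800323542039737854792128276802534621985584959308181313159488, 0⟩,
  ⟨[7, 3, 1, 1, 1, 1, 1, 1], 16, 0, 241607309216306574302462323609383574345119853206156844048929437656035523311970482185178766494857353484542263315547387243779718332962940640913797449249078032369872721150144, 0⟩,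
  ⟨[7, 3, 2, 1, 1, 1, 1], 16, 0, 60442384960108622845163413121217903374479771838964974112630686773477223022353687615885229919697668498974830352398201980079644724595879583440281477173651402116737176698880, 0⟩,
  ⟨[8, 1, 1, 1, 1, 1, 1, 1, 1], 16, 0, 19322747043940629613652430596022438701306687867460062465695869213347238147950690698522111731404847475368449058239439269465476214514819652268724614616094669894411784482455552, 0⟩,
  ⟨[8, 2, 1, 1, 1, 1, 1, 1], 16, 0, 241563313326012943930785198130344131804275941484450584739132411350946430611282182441053338082532610686070246103014078051973135588270436809317323039480708472723120399319040, 0⟩]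

theorem ct6_3_ok0 : (ct6_3_t0.all fun x => x.lin 16 [6, 4, 2, 2, 1, 1]) = true := by decide +kernel

/-- all certificates -/
def ct6_3_tb : List Entry := ct6_3_t0

theorem ct6_3_tabOK : TabOK [6, 3] 16 ct6_3_tb :=
  (tabOK_of_lin (by decide) (by decide) (by decide) ct6_3_ok0)

theorem ct6_3_cov : covL (regParts (6 - 1) 16) ct6_3_tb = true := by
  decide +kernel

theorem ct6_3_hc : HC 6 [3] := by unfold HC; decide

theorem ct6_3_full (h : FullH [3]) : FullH [6, 3] :=
  fullH_of_reg (by decide) ct6_3_hc h (by decide) (by decide) ct6_3_tabOK ct6_3_cov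

end Crest.Agent.R195
end

-- ▼ part R195/CT6_4
section

/-! Row 195, certificate table (generated, helper895) for the shape with hooks [6, 4]. -/

set_option autoImplicit false
set_option maxRecDepth 100000

namespace Crest.Agent.R195

/-- certificates -/
def ct6_4_t0 : List Entry :=
 [
  ⟨[4, 4, 4, 3, 3], 18, 0, 18535054329245524470029429160229900483387503595225223727949042004735657810139755631491113575965061039141604988193397732973592235775243930413534383002632564380207650637895104887328020901731238016, 0⟩,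
  ⟨[4, 4, 4, 4, 1, 1], 18, 0, 55034788036662704263304905474097089020720519818920031435141612418346229495278127284255511922607798956175908901626153036890209345560038936926473027699633856237039873961028512298350634703224836416, 0⟩,
  ⟨[4, 4, 4, 4, 2], 18, 0, 855736119338542084740367145678792452574441333141601618660405765498844121330663698399107790722370909658704845621283283552952399407850538869217748729305479568870316984571655553650108660855341313, 0⟩,
  ⟨[5, 4, 3, 3, 3], 18, 0, 570445450613073573095956986110609448765768760652777237661088458983469262764059648716024810836487750556753050934661060563906218032169155997262424607286537898502663637761244942353163742522118464, 0⟩,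
  ⟨[5, 4, 4, 3, 1, 1], 18, 0, 855666535747132303331488917982567654094713447562757346258736341441339948280765554930228240671069212659246260337202395363351669977028774083260954278012056792894696814630168779885731153782505600, 0⟩,
  ⟨[5, 4, 4, 3, 2], 18, 0, 579216179020301184200038357128799477985381807787790204220898643706278156368242389055097985946306137738785306804850230660927799641040342274700919775262448516530368019223908711432919599537979712, 0⟩,
  ⟨[5, 4, 4, 4, 1], 18, 0, 36784887453838877119552049199242397568610960403360728203402673681511185384629817837380934408866142565130332562964815941546804658415996242374132665756427665595011780610984951638996122257656643840, 0⟩,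
  ⟨[5, 5, 3, 3, 1, 1], 18, 0, 17824226474092114928287151014322071139583552989134349636875768595071865950075180537580323421696015437190628514555508481728491338253062462759333245266463486451529321623331587430778844410282177, 0⟩,
  ⟨[5, 5, 3, 3, 2], 18, 0, 19390373781185892611928685080929664434930018759428130386642012472445962159634008042776667508317500240729462929977712458981991555367778291812684465215223045662366989845196815116663459103504597184, 0⟩,
  ⟨[5, 5, 4, 1, 1, 1, 1], 18, 0, 289747332910163354161838646956110881003077428495151271112035454015173383099431907309219458058596031300292620898577563981339377981085767507138804485417615451229676046378699919968518869640544320, 0⟩,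
  ⟨[5, 5, 4, 2, 1, 1], 18, 0, 36789203761613452053360497214453033431773858769198769400729368042521860015654066636252107936132250148286748470269412978649652492971700196614720370378654742526001104931603470860262301651058032704, 0⟩,
  ⟨[5, 5, 3, 3, 2], 18, 0, 19390373781185892611928685080929664434930018759428130386642012472445962159634008042776667508317500240729462929977712458981991555367778291812684465215223045662366989845196815116663459103504597184, 0⟩,
  ⟨[5, 4, 4, 3, 2], 18, 0, 579216179020301184200038357128799477985381807787790204220898643706278156368242389055097985946306137738785306804850230660927799641040342274700919775262448516530368019223908711432919599537979712, 0⟩,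
  ⟨[5, 5, 5, 1, 1, 1], 18, 0, 18820207904636574660039356417841879175668885818458058185718066125807267533593624605479055667205867534501549195844406957093750263412209322118139650345513606626661946776647398140230192231583318208, 0⟩,
  ⟨[5, 4, 3, 3, 3], 18, 0, 570445450613073573095956986110609448765768760652777237661088458983469262764059648716024810836487750556753050934661060563906218032169155997262424607286537898502663637761244942353163742522118464, 0⟩,
  ⟨[6, 4, 3, 3, 1, 1], 18, 0, 1425971544980584384391912151115517035542770387187723997307519302150521926019207760149300719606660489614445906581447347276024546638175606492721434344986295718584323184769527003183132774948405504, 0⟩,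
  ⟨[6, 4, 4, 1, 1, 1, 1], 18, 0, 109511941348710892985108647052229539786748112325627806510577325896726857778230163877254876061910336151171469097408987525495083598995609329825444127496290584861452925622576076266490314152811429952, 0⟩,
  ⟨[6, 4, 3, 3, 1, 1], 18, 0, 1425971544980584384391912151115517035542770387187723997307519302150521926019207760149300719606660489614445906581447347276024546638175606492721434344986295718584323184769527003183132774948405504, 0⟩]

theorem ct6_4_ok0 : (ct6_4_t0.all fun x => x.lin 18 [6, 5, 2, 2, 2, 1]) = true := by decide +kernel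

/-- all certificates -/
def ct6_4_tb : List Entry := ct6_4_t0

theorem ct6_4_tabOK : TabOK [6, 4] 18 ct6_4_tb :=
  (tabOK_of_lin (by decide) (by decide) (by decide) ct6_4_ok0)

theorem ct6_4_cov : covL (regParts (6 - 1) 18) ct6_4_tb = true := by
  decide +kernel

theorem ct6_4_hc : HC 6 [4] := by unfold HC; decide

theorem ct6_4_full (h : FullH [4]) : FullH [6, 4] :=
  fullH_of_reg (by decide) ct6_4_hc h (by decide) (by decide) ct6_4_tabOK ct6_4_cov

end Crest.Agent.R195
end

-- ▼ part R195/CT7_5_4_2_1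
section

/-! Row 195, certificate table (generated, helper895) for the shape with hooks [7, 5, 4, 2, 1]. -/

set_option autoImplicit false
set_option maxRecDepth 100000

namespace Crest.Agent.R195

/-- certificates -/
def ct7_5_4_2_1_t0 : List Entry :=
 [
  ⟨[6, 6, 6, 5, 5, 5], 33, 0, 331496096133990911309063411418820971499767286761537228805315454437452041060453543302977255271104618449767615518563749963679396922236681604122771248800551197638477873608770275182933812899417699137900140068157639679488153981660721236770613894238927654821988106600693235694279645149395778184993503000582428919429737577375787305525042395125374904233241049571712, 0⟩,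
  ⟨[6, 6, 6, 6, 5, 4], 33, 0, 201188147025819225008575822430289358939337008757012207854404587270194582372847377916499905212238185631856988287756926097119989606105814486373157045768404253941388498389367014918851882419711731444136243783744147369063645002139219133816418122017399755430848532031679194399460428415539108380515162662738967166694513927095576883730303876054405207642746076799360, 0⟩,
  ⟨[6, 6, 6, 6, 6, 3], 33, 0, 1027057199716673204739884354304542420630101343057586643688480098312750419050530579234547101358157311518993120091488825797483581468794490482844900064171467879019295793055540755918024597175280968547790966201351494113619103341924841789197271171745216347004882783369215307300119904168150982656656668736761235656385922452876746883154052984901120358513386983808, 0⟩]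

theorem ct7_5_4_2_1_ok0 : (ct7_5_4_2_1_t0.all fun x => x.lin 33 [7, 6, 6, 5, 5, 3, 1]) = true := by decide +kernel

/-- all certificates -/
def ct7_5_4_2_1_tb : List Entry := ct7_5_4_2_1_t0

theorem ct7_5_4_2_1_tabOK : TabOK [7, 5, 4, 2, 1] 33 ct7_5_4_2_1_tb :=
  (tabOK_of_lin (by decide) (by decide) (by decide) ct7_5_4_2_1_ok0)

theorem ct7_5_4_2_1_cov : covL (regParts (7 - 1) 33) ct7_5_4_2_1_tb = true := by
  decide +kernel

theorem ct7_5_4_2_1_hc : HC 7 [5, 4, 2, 1] := by unfold HC; decide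

theorem ct7_5_4_2_1_full (h : FullH [5, 4, 2, 1]) : FullH [7, 5, 4, 2, 1] :=
  fullH_of_reg (by decide) ct7_5_4_2_1_hc h (by decide) (by decide) ct7_5_4_2_1_tabOK ct7_5_4_2_1_cov

end Crest.Agent.R195
end

-- ▼ part R195/CTX
section

/-! Row 195: the bases of the chains X and Y of helper545 (helper895). -/

set_option autoImplicit false

namespace Crest.Agent.R195

theorem fullH_5_4_2_1 : FullH [5, 4, 2, 1] := ct5_4_2_1_full
theorem fullH_7_5_4_2_1 : FullH [7, 5, 4, 2, 1] := ct7_5_4_2_1_full fullH_5_4_2_1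
theorem fullH_8_5_4_2_1 : FullH [8, 5, 4, 2, 1] := ct8_5_4_2_1_full fullH_5_4_2_1

end Crest.Agent.R195
end

-- ▼ part R195/CXs
section

/-! Row 195, certificates (generated, helper895) for the diagrams not covered by helper958's trees. -/

set_option autoImplicit false
set_option maxRecDepth 100000

namespace Crest.Agent.R195

/-- certificates -/
def cxs_7_4_2_1_tb : List Entry :=
 [
  ⟨[6, 6, 6, 1, 1, 1, 1, 1, 1], 24, 0, 2042521245170908254487337680538140386680946181835887891752056383011040153329396348375206349561858823493521325131378695192491687237875456281485276648965957522292098183590989942881702650172185448114919232750102820678521773292837887055479721454621844549879201984, 0⟩]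

theorem cxs_7_4_2_1_ok : (cxs_7_4_2_1_tb.all fun x => x.lin 24 [7, 5, 4, 4, 2, 1, 1]) = true := by decide +kernel

theorem cxs_7_4_2_1_tabOK : TabOK [7, 4, 2, 1] 24 cxs_7_4_2_1_tb :=
  tabOK_of_lin (by decide) (by decide) (by decide) cxs_7_4_2_1_ok

/-- the exceptional column lists -/
def cxs_7_4_2_1_qs : List (List ℕ) :=
 [  [6, 6, 6, 1, 1, 1, 1, 1, 1]]

theorem cxs_7_4_2_1_cov : covL cxs_7_4_2_1_qs cxs_7_4_2_1_tb = true := by
  decide +kernel

theorem cxs_7_4_2_1_hexc : ∀ q ∈ cxs_7_4_2_1_qs, ∀ μ : YoungDiagram, μ.card = 24 →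
    (List.range (μ.rowLen 0)).map μ.colLen = q → OccSh (hk [7, 4, 2, 1]) (hk [7, 4, 2, 1]) μ :=
  fun q hq μ hμ h => occ_of_covL cxs_7_4_2_1_tabOK cxs_7_4_2_1_cov hμ (by rw [colLens_eq_map, h]; exact hq)

/-- certificates -/
def cxs_6_3_1_tb : List Entry :=
 [
  ⟨[9, 1, 1, 1, 1, 1, 1, 1, 1], 17, 0, 531269691826791540222005992034090860223327772664725604506467524438766882387574459774045879070568372450609231615583630273234489816139737973196943805338788459393725575647660978163155200, 0⟩,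
  ⟨[5, 3, 3, 3, 3], 17, 0, 1070579069291578360326127273914455999661143369772286994683771116938859479514392497973800368616292686811027890628319341837558306526232756694620444962508912926030504794494413650512838912, 0⟩]

theorem cxs_6_3_1_ok : (cxs_6_3_1_tb.all fun x => x.lin 17 [6, 4, 3, 2, 1, 1]) = true := by decide +kernel

theorem cxs_6_3_1_tabOK : TabOK [6, 3, 1] 17 cxs_6_3_1_tb :=
  tabOK_of_lin (by decide) (by decide) (by decide) cxs_6_3_1_ok

/-- the exceptional column lists -/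
def cxs_6_3_1_qs : List (List ℕ) :=
 [  [9, 1, 1, 1, 1, 1, 1, 1, 1],
  [5, 5, 5, 1, 1]]

theorem cxs_6_3_1_cov : covL cxs_6_3_1_qs cxs_6_3_1_tb = true := by
  decide +kernel

theorem cxs_6_3_1_hexc : ∀ q ∈ cxs_6_3_1_qs, ∀ μ : YoungDiagram, μ.card = 17 →
    (List.range (μ.rowLen 0)).map μ.colLen = q → OccSh (hk [6, 3, 1]) (hk [6, 3, 1]) μ :=
  fun q hq μ hμ h => occ_of_covL cxs_6_3_1_tabOK cxs_6_3_1_cov hμ (by rw [colLens_eq_map, h]; exact hq)

/-- certificates -/
def cxs_9_6_4_2_1_tb : List Entry :=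
 [
  ⟨[8, 8, 8, 8, 4, 1, 1, 1], 39, 0, 222999022216035838888296266746910236639815605640614181752348694283394928000537093910978360385653728160534347499537087348504302802104070713894201599574129152470976557048388194207208933343332429334201452512161236306200526705078651085253226662409881918634935714334656879553495296217176913807707653095886460181962406166156811402451916466945647379321176915453759431593814884322889078407975307640129538787807314737669498470656, 0⟩,
  ⟨[8, 8, 8, 7, 5, 1, 1, 1], 39, 0, 7457721355305112419958553987747854819082177327732972582153209493356983606585851572813213177303790700449525743504987500516479119706630975156643297801151398072315344927438554596331999500043238544402412239922436416964315883205316269538380037974771888484624290022480262147975912535482228443899244646311464971873031242003297321413629084442428330170809444975787782980507802037331773877127482925028406545290758349311670092042497, 0⟩,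
  ⟨[8, 8, 8, 6, 6, 1, 1, 1], 39, 0, 14052421554444638974760418336936717144923855780715409650579498574920852140725436394528022521687236603551931017542423772509316400834049268122919564441789554310694664979773375546729953864310486566147021147272308115251645982713281757776174576266670551680008493888487256360409457111893106234472874598413275679300883136429949596011615591408286201150607666384496325284618926377190756090353281714937254207531776120381222219677760, 0⟩,
  ⟨[8, 8, 7, 7, 6, 1, 1, 1], 39, 0, 6917363019766302807370626590209311094081574018820418649827709550227483756259925198517530424545241870170978214498265554885287329974317305649313297125860244593626892525888365151801519220090278554040655187179423029488067986725956781704791355276450988069089471780134440690721579900930891883932777211369878687627320822761203608206792997326095634789557758449212295545081852939768011364419697669488873461558270847837751390507328, 0⟩,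
  ⟨[8, 7, 7, 7, 7, 1, 1, 1], 39, 0, 216217101652402283348682938813351488064970587295604631179070537284538819746679292974050188232581702059372840656818117173172544036613107354772064834487946491598497901150112354077671039368748797416698992585710615582634796846247876350827353095397365493947726233068233367519466133777355557705257831725496052865233674813237730099008522189134760905547718467185371238226171280143673734379944700819187026044756842222199636238784, 0⟩]

theorem cxs_9_6_4_2_1_ok : (cxs_9_6_4_2_1_tb.all fun x => x.lin 39 [9, 7, 6, 5, 5, 3, 2, 1, 1]) = true := by decide +kernel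

theorem cxs_9_6_4_2_1_tabOK : TabOK [9, 6, 4, 2, 1] 39 cxs_9_6_4_2_1_tb :=
  tabOK_of_lin (by decide) (by decide) (by decide) cxs_9_6_4_2_1_ok

/-- the exceptional column lists -/
def cxs_9_6_4_2_1_qs : List (List ℕ) :=
 [  [8, 8, 8, 8, 4, 1, 1, 1],
  [8, 8, 8, 7, 5, 1, 1, 1],
  [8, 8, 8, 6, 6, 1, 1, 1],
  [8, 8, 7, 7, 6, 1, 1, 1],
  [8, 7, 7, 7, 7, 1, 1, 1]]

theorem cxs_9_6_4_2_1_cov : covL cxs_9_6_4_2_1_qs cxs_9_6_4_2_1_tb = true := by
  decide +kernel

theorem cxs_9_6_4_2_1_hexc : ∀ q ∈ cxs_9_6_4_2_1_qs, ∀ μ : YoungDiagram, μ.card = 39 →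
    (List.range (μ.rowLen 0)).map μ.colLen = q → OccSh (hk [9, 6, 4, 2, 1]) (hk [9, 6, 4, 2, 1]) μ :=
  fun q hq μ hμ h => occ_of_covL cxs_9_6_4_2_1_tabOK cxs_9_6_4_2_1_cov hμ (by rw [colLens_eq_map, h]; exact hq)







/-- certificates -/
def cxs_10_7_5_3_1_tb : List Entry :=
 [
  ⟨[9, 9, 9, 9, 7, 1, 1, 1, 1], 47, 0, 3818934397084487690253408553313031015814722119643783092741656756072778853565659385525640485729390410908401057288006127507117901673047147771066984337183683304001013593330073767149586578944877812296654300417751876891184514303004004365452566069352072977999270046880789432018071799361085451739166655116160102362600183154985444730334239909736295439965352977412824087330560173291468840791685299097624660414825099792719182184610326138302819405656697892989103565278519431794701478131900153672782826515054902959145472, 0⟩,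
  ⟨[9, 9, 9, 8, 8, 1, 1, 1, 1], 47, 0, 53844242549175493886764524579546558387191437535423339829191572862028444481272407576953510583831517186699255516159110765047562223325254233326379866686668623502905901244238438157818033150247019781866355220866219358687374263970867208726242371304035848019178745701810164065817563512711071433024681668328540992148868681616028913554893362710988040607485425174692079420128113822268996993805211928973559853110301095418713701680253048582034627179507573372421997893316190657223717187803698313982478068859716285497600, 0⟩]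

theorem cxs_10_7_5_3_1_ok : (cxs_10_7_5_3_1_tb.all fun x => x.lin 47 [10, 8, 7, 6, 5, 4, 3, 2, 1, 1]) = true := by decide +kernel

theorem cxs_10_7_5_3_1_tabOK : TabOK [10, 7, 5, 3, 1] 47 cxs_10_7_5_3_1_tb :=
  tabOK_of_lin (by decide) (by decide) (by decide) cxs_10_7_5_3_1_ok

/-- the exceptional column lists -/
def cxs_10_7_5_3_1_qs : List (List ℕ) :=
 [  [9, 9, 9, 9, 7, 1, 1, 1, 1],
  [9, 9, 9, 8, 8, 1, 1, 1, 1]]

theorem cxs_10_7_5_3_1_cov : covL cxs_10_7_5_3_1_qs cxs_10_7_5_3_1_tb = true := by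
  decide +kernel

theorem cxs_10_7_5_3_1_hexc : ∀ q ∈ cxs_10_7_5_3_1_qs, ∀ μ : YoungDiagram, μ.card = 47 →
    (List.range (μ.rowLen 0)).map μ.colLen = q → OccSh (hk [10, 7, 5, 3, 1]) (hk [10, 7, 5, 3, 1]) μ :=
  fun q hq μ hμ h => occ_of_covL cxs_10_7_5_3_1_tabOK cxs_10_7_5_3_1_cov hμ (by rw [colLens_eq_map, h]; exact hq)

/-- certificates -/
def cxs_10_7_5_3_tb : List Entry :=
 [
  ⟨[9, 9, 9, 9, 6, 1, 1, 1, 1], 46, 0, 151745646902582840093000406313546793116316354305203868004560651117186912304549731215796276591757807418403373539686372116130508886483550028403832805892828499157472719901230122686425747909446576689067297529258717277536436216232608122396093125490266703387570796381041782942231256325154018392536239950091170766837756879062139382614428632768626977968660600480377975061811658623724258174162969485505308062920254652573253164225456098482882115768495190523999681320449677728944103131282273550912828856861120, 0⟩,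
  ⟨[9, 9, 9, 8, 7, 1, 1, 1, 1], 46, 0, 54754523206359236766451252425809672740669984409578493555769077150507774991487442327932044240551523840208476277657276801992346033651122289811514094669777920767386026251351701713668518211486587207066359763364405317597486954233711451393566541707399366142917138204839789763454615527742095748209797523182662591823981789613333712246944803023226984528205107719381549611830977195567974587289846258097132636693003381874833498138822502718251742412166570965982421224345025965970565056733229759923123948617792, 0⟩,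
  ⟨[9, 9, 8, 8, 8, 1, 1, 1, 1], 46, 0, 6259056632962177317895367425742484303505146582208856195735757249040551802650172104111640238037553516945727065064137884285413214895511277673066192341002600363316006661350486531786467699112723251551614651427094823964912235614637252695243885640456923871148991007495822359442595638035678459650539509152871902340353272574732580350889681244524984580336308725742553838965123682439627316925286561648235883706589241412369461200996886011425575362612557809548069251638117405054607963360405190701147363475584, 0⟩]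

theorem cxs_10_7_5_3_ok : (cxs_10_7_5_3_tb.all fun x => x.lin 46 [10, 8, 7, 6, 4, 4, 3, 2, 1, 1]) = true := by decide +kernel

theorem cxs_10_7_5_3_tabOK : TabOK [10, 7, 5, 3] 46 cxs_10_7_5_3_tb :=
  tabOK_of_lin (by decide) (by decide) (by decide) cxs_10_7_5_3_ok

/-- the exceptional column lists -/
def cxs_10_7_5_3_qs : List (List ℕ) :=
 [  [9, 9, 9, 9, 6, 1, 1, 1, 1],
  [9, 9, 9, 8, 7, 1, 1, 1, 1],
  [9, 9, 8, 8, 8, 1, 1, 1, 1]]

theorem cxs_10_7_5_3_cov : covL cxs_10_7_5_3_qs cxs_10_7_5_3_tb = true := by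
  decide +kernel

theorem cxs_10_7_5_3_hexc : ∀ q ∈ cxs_10_7_5_3_qs, ∀ μ : YoungDiagram, μ.card = 46 →
    (List.range (μ.rowLen 0)).map μ.colLen = q → OccSh (hk [10, 7, 5, 3]) (hk [10, 7, 5, 3]) μ :=
  fun q hq μ hμ h => occ_of_covL cxs_10_7_5_3_tabOK cxs_10_7_5_3_cov hμ (by rw [colLens_eq_map, h]; exact hq)

/-- certificates -/
def cxs_12_10_8_5_4_2_1_tb : List Entry :=
 [
  ⟨[9, 9, 9, 9, 9, 9, 9, 9, 5], 77, 0, 89821313236585403244282192212331192584757324561961906273182080392148395864064365865073308378356129798165185079840437389537390012634079864751699474667390723498345374899512882805119638833494883297341534473818143619147539941427253568580585038226356044381884402261869302056419513129623356645464711789143629373573183927218137739638939509871985451559485045057898393876574851950912742360038663290809494036477281087544880678333062584404200085005384362144184200613985892854926810364301893593765849478298924961004006053003993072532807099223615123715589927656014293793126428161548338336806907472377934269408385912563352203169870651713325248878612230779975686198566016862942390395266573563904229327273644293357871434458502715317059781480667077894305560808010952792542923653429698063008021107073296055338216339262586964217601698976341286306972161,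 0⟩,
  ⟨[9, 9, 9, 9, 9, 9, 9, 8, 6], 77, 0, 268788894087174094426585331976032029845797537851390524687447918602816952169681701860533774057975244914867295020819217716574998641359712695321447927464241998952994460183640475640730896427805937349627300067495479310922950152473854701720782331345072716118734661358718034643307490941475952675569272234380055268425740007434656216422248564389587170319438104451029374328360333204839531528261658842194415298755539047713860937705390200762735583517911805110360722000337655371659327408183218072089252221334724885162765724980184946827561797689881597617239438288541129061871957718964577549326002101322171678475898287074717906618359482025862416305259040634399793232526396914713026804145615724004919796435527138517225889726774387154777361913603994094469166273739054941290916719219385136544303760721530673905959801152577299525611052380444566365414017, 0⟩,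
  ⟨[9, 9, 9, 9, 9, 9, 9, 7, 7], 77, 0, 45966134814835007421339537068737480388468193870161696486965406684754002381853156007783097154371784023995026258048533404398692683480973804423196368132752976191726643893978920259174433035596673449038778191171155603182433523602763602171962928960571771160703315949752562010822009986323900550174835096676773694129514561006475645475742532203797130117690077517364796732743326953678139139107939671500285276625413672377640472890853018621679552562187921837568086474047121906446875112190800814023572015988951358058146503574022234932813015664621434312536104886781576910316427342402161440329058792803810859720386516073358579915299195921148702210036520331353209025425398209728289165024988053421369581643522815020039238430099520555042263706455904309593298820332787653769216580611595808666076148857948639947225373216609930746661048265938041338598080, 0⟩,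
  ⟨[9, 9, 9, 9, 9, 9, 8, 8, 7], 77, 0, 359307003391768203111327724742567887373044222649579459018664774152208578506067051550942660081768852519216123781974613808528094127258410744858620885831845847894662896397279561216127107041448212236879317826848964745828469174199276803965890230351454926385377790868912696744757124751320267640014514579230532263762201424036929158071810681048846694626426930788536024999474688606363911123553924893283220123521833546589284544930749628507654280743294035391955602337931902561113076576613780679275622710254096508634117262571745463814929413972630105434920833226650909076290285485267831874196379921450309452304828763176971816102222985062667317366932533279564234093002578192211136431980713118182105985338783673454427063501499158969526514610913002066572797116505675117438794901251535567701173081898789709396569782589773166350297314194874147151806663, 0⟩,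
  ⟨[9, 9, 9, 9, 9, 8, 8, 8, 8], 77, 0, 1192640592516110388097992632773213416003970502580500324293604886677144751189015903792414407493577238950663207794835800565530533607006426410539204984115090554366675971630784782555333786554702442911032376617851893648975850662406403410438942590528067832485490217310299187311858036442808596198479899538237070389319313497165734522610219639089820194295757608943546978332505651236371613974462783756721627640288727363322630306449981226001901315494382074279859902394028955285348560783756712979240325669326397423911800574088656432557606695272494587644985024848233431535787544003874612205232761420347269091766387899412103210618050183541382284215060766500150186198347885250526253711722304748909695323970454869332501422774841718809476168793041981269394505622552353870978978865715970454082218952521471304777148428810142159897733138058737357504, 0⟩]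

theorem cxs_12_10_8_5_4_2_1_ok : (cxs_12_10_8_5_4_2_1_tb.all fun x => x.lin 77 [12, 11, 10, 8, 8, 7, 7, 5, 3, 3, 2, 1]) = true := by decide +kernel

theorem cxs_12_10_8_5_4_2_1_tabOK : TabOK [12, 10, 8, 5, 4, 2, 1] 77 cxs_12_10_8_5_4_2_1_tb :=
  tabOK_of_lin (by decide) (by decide) (by decide) cxs_12_10_8_5_4_2_1_ok

/-- the exceptional column lists -/
def cxs_12_10_8_5_4_2_1_qs : List (List ℕ) :=
 [  [9, 9, 9, 9, 9, 9, 9, 9, 5],
  [9, 9, 9, 9, 9, 9, 9, 8, 6],
  [9, 9, 9, 9, 9, 9, 9, 7, 7],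
  [9, 9, 9, 9, 9, 9, 8, 8, 7],
  [9, 9, 9, 9, 9, 8, 8, 8, 8]]

theorem cxs_12_10_8_5_4_2_1_cov : covL cxs_12_10_8_5_4_2_1_qs cxs_12_10_8_5_4_2_1_tb = true := by
  decide +kernel

theorem cxs_12_10_8_5_4_2_1_hexc : ∀ q ∈ cxs_12_10_8_5_4_2_1_qs, ∀ μ : YoungDiagram, μ.card = 77 →
    (List.range (μ.rowLen 0)).map μ.colLen = q → OccSh (hk [12, 10, 8, 5, 4, 2, 1]) (hk [12, 10, 8, 5, 4, 2, 1]) μ :=
  fun q hq μ hμ h => occ_of_covL cxs_12_10_8_5_4_2_1_tabOK cxs_12_10_8_5_4_2_1_cov hμ (by rw [colLens_eq_map, h]; exact hq)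

end Crest.Agent.R195
end

-- ▼ part R195/TreeM7
section

set_option autoImplicit false
set_option maxHeartbeats 2000000

namespace Crest.Agent.R195

/-! hook list [5, 3], n = 14: 10 nodes, 0 commitments -/

def ls_5_3 : List (List Pc) :=
  [[.pair 5, .dup 2, .rect 1 1]]

def sp_5_3 : List (ℕ × List ℕ) :=
  [(0, [0, 2, 1])]

def spC_5_3 : List (List (ℕ × ℕ)) :=
  [[(9, 4), (5, 2), (0, 1)]]

def cm_5_3_0 : List CM :=
  []

def cmC_5_3_0 : List (List ℕ × List (ℕ × ℕ)) :=
  []

def cm_5_3 : List CM :=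
  cm_5_3_0

def cmC_5_3 : List (List ℕ × List (ℕ × ℕ)) :=
  cmC_5_3_0

set_option Elab.async false in
theorem covH_5_3 : CovH [5, 3] :=
  covH_of_tree (by decide) ls_5_3 sp_5_3 cm_5_3 spC_5_3 cmC_5_3 99 (by decide +kernel) (by decide +kernel)
    (by decide +kernel) (by decide +kernel) (by decide +kernel) (by decide +kernel)


/-! hook list [6, 4, 1], n = 19: 14 nodes, 0 commitments -/

def ls_6_4_1 : List (List Pc) :=
  [[.pair 6, .rect 3 1, .dup 2, .rect 1 1]]

def sp_6_4_1 : List (ℕ × List ℕ) :=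
  [(0, [0, 0, 2, 1])]

def spC_6_4_1 : List (List (ℕ × ℕ)) :=
  [[(11, 4), (3, 1), (5, 2), (0, 1)]]

def cm_6_4_1_0 : List CM :=
  []

def cmC_6_4_1_0 : List (List ℕ × List (ℕ × ℕ)) :=
  []

def cm_6_4_1 : List CM :=
  cm_6_4_1_0

def cmC_6_4_1 : List (List ℕ × List (ℕ × ℕ)) :=
  cmC_6_4_1_0

set_option Elab.async false in
theorem covH_6_4_1 : CovH [6, 4, 1] :=
  covH_of_tree (by decide) ls_6_4_1 sp_6_4_1 cm_6_4_1 spC_6_4_1 cmC_6_4_1 99 (by decide +kernel) (by decide +kernel)
    (by decide +kernel) (by decide +kernel) (by decide +kernel) (by decide +kernel)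


/-! hook list [6, 4, 2, 1], n = 22: 12 nodes, 0 commitments -/

def ls_6_4_2_1 : List (List Pc) :=
  [[.pair 6, .dup 4, .pair 2]]

def sp_6_4_2_1 : List (ℕ × List ℕ) :=
  [(0, [0, 4, 3])]

def spC_6_4_2_1 : List (List (ℕ × ℕ)) :=
  [[(11, 4), (11, 4), (0, 1)]]

def cm_6_4_2_1_0 : List CM :=
  []

def cmC_6_4_2_1_0 : List (List ℕ × List (ℕ × ℕ)) :=
  []

def cm_6_4_2_1 : List CM :=
  cm_6_4_2_1_0

def cmC_6_4_2_1 : List (List ℕ × List (ℕ × ℕ)) :=
  cmC_6_4_2_1_0

set_option Elab.async false in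
theorem covH_6_4_2_1 : CovH [6, 4, 2, 1] :=
  covH_of_tree (by decide) ls_6_4_2_1 sp_6_4_2_1 cm_6_4_2_1 spC_6_4_2_1 cmC_6_4_2_1 99 (by decide +kernel) (by decide +kernel)
    (by decide +kernel) (by decide +kernel) (by decide +kernel) (by decide +kernel)


/-! hook list [7, 4, 2], n = 23: 69 nodes, 18 commitments -/

def ls_7_4_2 : List (List Pc) :=
  [[.rect 7 1, .pair 5, .pair 3, .dup 1],
   [.gap 7, .pair 4, .rect 2 1, .dup 1]]

def sp_7_4_2 : List (ℕ × List ℕ) :=
  [(0, [0, 0, 0, 1])]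

def spC_7_4_2 : List (List (ℕ × ℕ)) :=
  [[(7, 1), (9, 4), (5, 4), (2, 1)]]

def cm_7_4_2_0 : List CM :=
  [⟨[6, 6, 6, 3], 1, [([4, 4, 2, 2], (.ev, 0)), ([0, 2, 2, 1], (.pl 4, 2)), ([1, 0, 1, 0], (.pl 1, 0)), ([1, 0, 1, 0], (.ev, 0))], [1, 0, 0, 1]⟩,
   ⟨[6, 6, 6, 2], 1, [([4, 4, 2, 2], (.ev, 0)), ([0, 2, 2, 0], (.pl 4, 3)), ([1, 0, 1, 0], (.pl 1, 0)), ([1, 0, 1, 0], (.ev, 0))], [1, 0, 0, 1]⟩,
   ⟨[6, 6, 5, 4], 1, [([4, 4, 2, 2], (.ev, 0)), ([0, 2, 2, 1], (.pl 4, 2)), ([1, 0, 0, 1], (.pl 1, 0)), ([1, 0, 1, 0], (.ev, 0))], [1, 0, 0, 1]⟩,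
   ⟨[6, 6, 5, 3], 1, [([4, 4, 2, 2], (.ev, 0)), ([0, 2, 2, 0], (.pl 4, 3)), ([1, 0, 0, 1], (.pl 1, 0)), ([1, 0, 1, 0], (.ev, 0))], [1, 0, 0, 1]⟩,
   ⟨[6, 6, 5, 2], 1, [([4, 4, 2, 2], (.ev, 0)), ([0, 2, 2, 0], (.pl 4, 3)), ([1, 0, 0, 0], (.pl 1, 1)), ([1, 0, 1, 0], (.ev, 0))], [1, 0, 0, 1]⟩,
   ⟨[6, 6, 4, 4], 1, [([4, 4, 2, 2], (.ev, 0)), ([0, 1, 2, 1], (.pl 4, 3)), ([1, 0, 0, 1], (.pl 1, 0)), ([1, 1, 0, 0], (.ev, 0))], [1, 0, 0, 1]⟩,
   ⟨[6, 6, 4, 3], 1, [([4, 4, 2, 2], (.ev, 0)), ([0, 1, 2, 1], (.pl 4, 3)), ([1, 0, 0, 0], (.pl 1, 1)), ([1, 1, 0, 0], (.ev, 0))], [1, 0, 0, 1]⟩,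
   ⟨[6, 6, 3, 3], 1, [([4, 4, 2, 2], (.ev, 0)), ([0, 1, 1, 1], (.pl 4, 4)), ([1, 0, 0, 0], (.pl 1, 1)), ([1, 1, 0, 0], (.ev, 0))], [1, 0, 0, 1]⟩,
   ⟨[6, 5, 5, 5], 1, [([4, 4, 2, 2], (.ev, 0)), ([1, 1, 2, 1], (.pl 4, 2)), ([1, 0, 0, 1], (.pl 1, 0)), ([0, 0, 1, 1], (.ev, 0))], [1, 0, 0, 1]⟩,
   ⟨[6, 5, 5, 4], 1, [([4, 4, 2, 2], (.ev, 0)), ([0, 1, 2, 1], (.pl 4, 3)), ([1, 0, 0, 1], (.pl 1, 0)), ([1, 0, 1, 0], (.ev, 0))], [1, 0, 0, 1]⟩,
   ⟨[6, 5, 5, 3], 1, [([4, 4, 2, 2], (.ev, 0)), ([0, 1, 2, 1], (.pl 4, 3)), ([1, 0, 0, 0], (.pl 1, 1)), ([1, 0, 1, 0], (.ev, 0))], [1, 0, 0, 1]⟩,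
   ⟨[6, 5, 4, 4], 1, [([4, 4, 2, 2], (.ev, 0)), ([0, 1, 1, 2], (.pl 4, 3)), ([1, 0, 0, 0], (.pl 1, 1)), ([1, 0, 1, 0], (.ev, 0))], [1, 0, 0, 1]⟩,
   ⟨[6, 5, 4, 3], 1, [([4, 4, 2, 2], (.ev, 0)), ([0, 1, 1, 1], (.pl 4, 4)), ([1, 0, 0, 0], (.pl 1, 1)), ([1, 0, 1, 0], (.ev, 0))], [1, 0, 0, 1]⟩,
   ⟨[6, 5, 3, 3], 1, [([4, 4, 2, 2], (.ev, 0)), ([0, 0, 1, 1], (.pl 4, 5)), ([1, 0, 0, 0], (.pl 1, 1)), ([1, 1, 0, 0], (.ev, 0))], [1, 0, 0, 1]⟩,
   ⟨[6, 4], 1, [([2, 2], (.ev, 8)), ([2, 1], (.pl 4, 4)), ([1, 0], (.pl 1, 1)), ([1, 1], (.ev, 0))], [3, 1, 1, 1]⟩,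
   ⟨[5, 5], 1, [([2, 2], (.ev, 8)), ([1, 2], (.pl 4, 4)), ([1, 0], (.pl 1, 1)), ([1, 1], (.ev, 0))], [4, 2, 1, 1]⟩,
   ⟨[5, 4], 1, [([2, 2], (.ev, 8)), ([1, 1], (.pl 4, 5)), ([1, 0], (.pl 1, 1)), ([1, 1], (.ev, 0))], [3, 1, 1, 1]⟩,
   ⟨[4, 4], 1, [([2, 2], (.ev, 8)), ([0, 1], (.pl 4, 6)), ([1, 0], (.pl 1, 1)), ([1, 1], (.ev, 0))], [3, 1, 1, 1]⟩]

def cmC_7_4_2_0 : List (List ℕ × List (ℕ × ℕ)) :=
  [([6, 6, 6, 3], [(0, 1), (2, 4), (0, 1), (0, 1)]),
   ([6, 6, 6, 2], [(0, 1), (3, 4), (0, 1), (0, 1)]),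
   ([6, 6, 5, 4], [(0, 1), (2, 4), (0, 1), (0, 1)]),
   ([6, 6, 5, 3], [(0, 1), (3, 4), (0, 1), (0, 1)]),
   ([6, 6, 5, 2], [(0, 1), (3, 4), (1, 1), (0, 1)]),
   ([6, 6, 4, 4], [(0, 1), (3, 4), (0, 1), (0, 1)]),
   ([6, 6, 4, 3], [(0, 1), (3, 4), (1, 1), (0, 1)]),
   ([6, 6, 3, 3], [(0, 1), (4, 4), (1, 1), (0, 1)]),
   ([6, 5, 5, 5], [(0, 1), (2, 4), (0, 1), (0, 1)]),
   ([6, 5, 5, 4], [(0, 1), (3, 4), (0, 1), (0, 1)]),
   ([6, 5, 5, 3], [(0, 1), (3, 4), (1, 1), (0, 1)]),
   ([6, 5, 4, 4], [(0, 1), (3, 4), (1, 1), (0, 1)]),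
   ([6, 5, 4, 3], [(0, 1), (4, 4), (1, 1), (0, 1)]),
   ([6, 5, 3, 3], [(0, 1), (5, 4), (1, 1), (0, 1)]),
   ([6, 4], [(10, 3), (3, 3), (0, 1), (0, 1)]),
   ([5, 5], [(11, 4), (2, 2), (0, 1), (0, 1)]),
   ([5, 4], [(10, 3), (4, 3), (0, 1), (0, 1)]),
   ([4, 4], [(10, 3), (5, 3), (0, 1), (0, 1)])]

def cm_7_4_2 : List CM :=
  cm_7_4_2_0

def cmC_7_4_2 : List (List ℕ × List (ℕ × ℕ)) :=
  cmC_7_4_2_0

set_option Elab.async false in
theorem covH_7_4_2 : CovH [7, 4, 2] :=
  covH_of_tree (by decide) ls_7_4_2 sp_7_4_2 cm_7_4_2 spC_7_4_2 cmC_7_4_2 99 (by decide +kernel) (by decide +kernel)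
    (by decide +kernel) (by decide +kernel) (by decide +kernel) (by decide +kernel)


/-! hook list [7, 5, 2], n = 25: 14 nodes, 0 commitments -/

def ls_7_5_2 : List (List Pc) :=
  [[.pair 7, .pair 4, .dup 2, .rect 1 1]]

def sp_7_5_2 : List (ℕ × List ℕ) :=
  [(0, [0, 1, 3, 1])]

def spC_7_5_2 : List (List (ℕ × ℕ)) :=
  [[(13, 4), (6, 3), (6, 3), (0, 1)]]

def cm_7_5_2_0 : List CM :=
  []

def cmC_7_5_2_0 : List (List ℕ × List (ℕ × ℕ)) :=
  []

def cm_7_5_2 : List CM :=
  cm_7_5_2_0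

def cmC_7_5_2 : List (List ℕ × List (ℕ × ℕ)) :=
  cmC_7_5_2_0

set_option Elab.async false in
theorem covH_7_5_2 : CovH [7, 5, 2] :=
  covH_of_tree (by decide) ls_7_5_2 sp_7_5_2 cm_7_5_2 spC_7_5_2 cmC_7_5_2 99 (by decide +kernel) (by decide +kernel)
    (by decide +kernel) (by decide +kernel) (by decide +kernel) (by decide +kernel)


/-! hook list [7, 5, 2, 1], n = 26: 23 nodes, 1 commitments -/

def ls_7_5_2_1 : List (List Pc) :=
  [[.pair 7, .dup 4, .dup 2, .rect 1 1]]

def sp_7_5_2_1 : List (ℕ × List ℕ) :=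
  [(0, [1, 3, 1, 1])]

def spC_7_5_2_1 : List (List (ℕ × ℕ)) :=
  [[(12, 3), (10, 3), (4, 1), (0, 1)]]

def cm_7_5_2_1_0 : List CM :=
  [⟨[8, 4], 0, [([4, 0], (.pl 4, 9)), ([4, 4], (.ev, 0)), ([0, 0], (.ev, 4)), ([0, 0], (.pl 1, 1))], [0, 1, 1, 0]⟩]

def cmC_7_5_2_1_0 : List (List ℕ × List (ℕ × ℕ)) :=
  [([8, 4], [(9, 4), (0, 1), (4, 1), (1, 1)])]

def cm_7_5_2_1 : List CM :=
  cm_7_5_2_1_0

def cmC_7_5_2_1 : List (List ℕ × List (ℕ × ℕ)) :=
  cmC_7_5_2_1_0

set_option Elab.async false in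
theorem covH_7_5_2_1 : CovH [7, 5, 2, 1] :=
  covH_of_tree (by decide) ls_7_5_2_1 sp_7_5_2_1 cm_7_5_2_1 spC_7_5_2_1 cmC_7_5_2_1 99 (by decide +kernel) (by decide +kernel)
    (by decide +kernel) (by decide +kernel) (by decide +kernel) (by decide +kernel)


/-! hook list [7, 5, 3], n = 27: 16 nodes, 0 commitments -/

def ls_7_5_3 : List (List Pc) :=
  [[.pair 7, .rect 5 1, .dup 3, .pair 2]]

def sp_7_5_3 : List (ℕ × List ℕ) :=
  [(0, [0, 0, 4, 3])]

def spC_7_5_3 : List (List (ℕ × ℕ)) :=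
  [[(13, 4), (5, 1), (9, 4), (0, 1)]]

def cm_7_5_3_0 : List CM :=
  []

def cmC_7_5_3_0 : List (List ℕ × List (ℕ × ℕ)) :=
  []

def cm_7_5_3 : List CM :=
  cm_7_5_3_0

def cmC_7_5_3 : List (List ℕ × List (ℕ × ℕ)) :=
  cmC_7_5_3_0

set_option Elab.async false in
theorem covH_7_5_3 : CovH [7, 5, 3] :=
  covH_of_tree (by decide) ls_7_5_3 sp_7_5_3 cm_7_5_3 spC_7_5_3 cmC_7_5_3 99 (by decide +kernel) (by decide +kernel)
    (by decide +kernel) (by decide +kernel) (by decide +kernel) (by decide +kernel)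


/-! hook list [8, 5, 3, 1], n = 30: 56 nodes, 9 commitments -/

def ls_8_5_3_1 : List (List Pc) :=
  [[.gap 8, .pair 5, .pair 3, .dup 1],
   [.rect 8 1, .pair 6, .pair 4, .rect 2 1, .dup 1]]

def sp_8_5_3_1 : List (ℕ × List ℕ) :=
  [(0, [3, 1, 3, 1]),
   (1, [0, 0, 0, 0, 1])]

def spC_8_5_3_1 : List (List (ℕ × ℕ)) :=
  [[(18, 3), (8, 3), (2, 1), (2, 1)],
   [(8, 1), (11, 4), (7, 4), (2, 1), (2, 1)]]

def cm_8_5_3_1_0 : List CM :=
  [⟨[7, 7, 7, 6], 0, [([4, 4, 2, 2], (.ev, 2)), ([3, 2, 2, 2], (.pl 4, 0)), ([0, 1, 2, 1], (.pl 4, 1)), ([0, 0, 1, 1], (.ev, 0))], [1, 0, 0, 1]⟩,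
   ⟨[7, 7, 7, 5], 0, [([4, 4, 2, 2], (.ev, 2)), ([2, 3, 2, 1], (.pl 4, 1)), ([0, 0, 2, 2], (.pl 4, 1)), ([1, 0, 1, 0], (.ev, 0))], [1, 0, 0, 1]⟩,
   ⟨[7, 7, 7, 4], 0, [([4, 4, 2, 2], (.ev, 2)), ([2, 3, 2, 1], (.pl 4, 1)), ([0, 0, 2, 1], (.pl 4, 2)), ([1, 0, 1, 0], (.ev, 0))], [1, 0, 0, 1]⟩,
   ⟨[7, 7, 6, 6], 0, [([4, 4, 2, 2], (.ev, 2)), ([3, 2, 2, 1], (.pl 4, 1)), ([0, 1, 1, 2], (.pl 4, 1)), ([0, 0, 1, 1], (.ev, 0))], [1, 0, 0, 1]⟩,
   ⟨[7, 7, 6, 5], 0, [([4, 4, 2, 2], (.ev, 2)), ([2, 3, 1, 2], (.pl 4, 1)), ([0, 0, 2, 1], (.pl 4, 2)), ([1, 0, 1, 0], (.ev, 0))], [1, 0, 0, 1]⟩,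
   ⟨[7, 7, 6, 4], 0, [([4, 4, 2, 2], (.ev, 2)), ([2, 3, 1, 1], (.pl 4, 2)), ([0, 0, 2, 1], (.pl 4, 2)), ([1, 0, 1, 0], (.ev, 0))], [1, 0, 0, 1]⟩,
   ⟨[7, 7, 5, 5], 0, [([4, 4, 2, 2], (.ev, 2)), ([2, 2, 2, 1], (.pl 4, 2)), ([0, 0, 1, 2], (.pl 4, 2)), ([1, 1, 0, 0], (.ev, 0))], [1, 0, 0, 1]⟩,
   ⟨[7, 6], 0, [([2, 2], (.ev, 10)), ([4, 2], (.pl 4, 3)), ([0, 1], (.pl 4, 4)), ([1, 1], (.ev, 0))], [4, 3, 0, 1]⟩,
   ⟨[6, 6], 0, [([2, 2], (.ev, 10)), ([3, 2], (.pl 4, 4)), ([0, 1], (.pl 4, 4)), ([1, 1], (.ev, 0))], [4, 2, 1, 1]⟩]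

def cmC_8_5_3_1_0 : List (List ℕ × List (ℕ × ℕ)) :=
  [([7, 7, 7, 6], [(2, 1), (0, 4), (1, 4), (0, 1)]),
   ([7, 7, 7, 5], [(2, 1), (1, 4), (1, 4), (0, 1)]),
   ([7, 7, 7, 4], [(2, 1), (1, 4), (2, 4), (0, 1)]),
   ([7, 7, 6, 6], [(2, 1), (1, 4), (1, 4), (0, 1)]),
   ([7, 7, 6, 5], [(2, 1), (1, 4), (2, 4), (0, 1)]),
   ([7, 7, 6, 4], [(2, 1), (2, 4), (2, 4), (0, 1)]),
   ([7, 7, 5, 5], [(2, 1), (2, 4), (2, 4), (0, 1)]),
   ([7, 6], [(13, 4), (0, 1), (4, 4), (0, 1)]),
   ([6, 6], [(13, 4), (2, 2), (3, 3), (0, 1)])]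

def cm_8_5_3_1 : List CM :=
  cm_8_5_3_1_0

def cmC_8_5_3_1 : List (List ℕ × List (ℕ × ℕ)) :=
  cmC_8_5_3_1_0

set_option Elab.async false in
theorem covH_8_5_3_1 : CovH [8, 5, 3, 1] :=
  covH_of_tree (by decide) ls_8_5_3_1 sp_8_5_3_1 cm_8_5_3_1 spC_8_5_3_1 cmC_8_5_3_1 99 (by decide +kernel) (by decide +kernel)
    (by decide +kernel) (by decide +kernel) (by decide +kernel) (by decide +kernel)


/-! hook list [8, 6, 3], n = 31: 30 nodes, 3 commitments -/

def ls_8_6_3 : List (List Pc) :=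
  [[.pair 8, .rect 5 1, .dup 3, .dup 2, .rect 1 1]]

def sp_8_6_3 : List (ℕ × List ℕ) :=
  [(0, [0, 0, 2, 1, 1])]

def spC_8_6_3 : List (List (ℕ × ℕ)) :=
  [[(15, 4), (5, 1), (7, 2), (4, 1), (0, 1)]]

def cm_8_6_3_0 : List CM :=
  [⟨[10, 4], 0, [([4, 0], (.pl 4, 11)), ([1, 0], (.pl 1, 4)), ([3, 3], (.ev, 0)), ([1, 1], (.ev, 2)), ([1, 0], (.pl 1, 0))], [0, 0, 1, 1, 0]⟩,
   ⟨[9, 5], 0, [([3, 0], (.pl 4, 12)), ([1, 0], (.pl 1, 4)), ([3, 3], (.ev, 0)), ([2, 2], (.ev, 0)), ([0, 0], (.pl 1, 1))], [0, 0, 1, 1, 0]⟩,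
   ⟨[9, 4], 0, [([4, 0], (.pl 4, 11)), ([1, 0], (.pl 1, 4)), ([3, 3], (.ev, 0)), ([1, 1], (.ev, 2)), ([0, 0], (.pl 1, 1))], [0, 0, 1, 1, 0]⟩]

def cmC_8_6_3_0 : List (List ℕ × List (ℕ × ℕ)) :=
  [([10, 4], [(11, 4), (4, 1), (0, 1), (2, 1), (0, 1)]),
   ([9, 5], [(12, 4), (4, 1), (0, 1), (0, 1), (1, 1)]),
   ([9, 4], [(11, 4), (4, 1), (0, 1), (2, 1), (1, 1)])]

def cm_8_6_3 : List CM :=
  cm_8_6_3_0

def cmC_8_6_3 : List (List ℕ × List (ℕ × ℕ)) :=
  cmC_8_6_3_0

set_option Elab.async false in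
theorem covH_8_6_3 : CovH [8, 6, 3] :=
  covH_of_tree (by decide) ls_8_6_3 sp_8_6_3 cm_8_6_3 spC_8_6_3 cmC_8_6_3 99 (by decide +kernel) (by decide +kernel)
    (by decide +kernel) (by decide +kernel) (by decide +kernel) (by decide +kernel)


/-! hook list [8, 6, 3, 1], n = 32: 18 nodes, 0 commitments -/










/-! hook list [8, 6, 4, 1], n = 34: 21 nodes, 0 commitments -/










/-! hook list [8, 6, 4, 2, 1], n = 37: 21 nodes, 0 commitments -/









end Crest.Agent.R195
end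

-- ▼ part R195/TreeX
section

set_option autoImplicit false
set_option maxHeartbeats 2000000

namespace Crest.Agent.R195

/-! hook list [10, 8, 5, 4, 2, 1], n = 54: 64 nodes, 7 commitments -/

def ls_10_8_5_4_2_1 : List (List Pc) :=
  [[.pair 10, .dup 7, .dup 6, .rect 4 1, .dup 2, .rect 1 1]]

def sp_10_8_5_4_2_1 : List (ℕ × List ℕ) :=
  [(0, [1, 2, 2, 0, 1, 1])]

def spC_10_8_5_4_2_1 : List (List (ℕ × ℕ)) :=
  [[(18, 3), (15, 2), (13, 2), (4, 1), (4, 1), (0, 1)]]

def cm_10_8_5_4_2_1_0 : List CM :=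
  [⟨[12, 6], 0, [([4, 0], (.pl 4, 15)), ([4, 4], (.ev, 6)), ([2, 2], (.ev, 8)), ([1, 0], (.pl 1, 3)), ([0, 0], (.ev, 4)), ([1, 0], (.pl 1, 0))], [0, 1, 1, 0, 1, 0]⟩,
   ⟨[11, 7], 0, [([4, 0], (.pl 4, 15)), ([4, 4], (.ev, 6)), ([3, 3], (.ev, 6)), ([0, 0], (.pl 1, 4)), ([0, 0], (.ev, 4)), ([0, 0], (.pl 1, 1))], [0, 1, 1, 0, 1, 0]⟩,
   ⟨[11, 6], 0, [([4, 0], (.pl 4, 15)), ([4, 4], (.ev, 6)), ([2, 2], (.ev, 8)), ([1, 0], (.pl 1, 3)), ([0, 0], (.ev, 4)), ([0, 0], (.pl 1, 1))], [0, 1, 1, 0, 1, 0]⟩,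
   ⟨[10, 8], 0, [([2, 0], (.pl 4, 17)), ([4, 4], (.ev, 6)), ([4, 4], (.ev, 4)), ([0, 0], (.pl 1, 4)), ([0, 0], (.ev, 4)), ([0, 0], (.pl 1, 1))], [0, 1, 1, 0, 1, 0]⟩,
   ⟨[10, 7], 0, [([3, 0], (.pl 4, 16)), ([4, 4], (.ev, 6)), ([3, 3], (.ev, 6)), ([0, 0], (.pl 1, 4)), ([0, 0], (.ev, 4)), ([0, 0], (.pl 1, 1))], [0, 1, 1, 0, 1, 0]⟩,
   ⟨[10, 6], 0, [([4, 0], (.pl 4, 15)), ([4, 4], (.ev, 6)), ([2, 2], (.ev, 8)), ([0, 0], (.pl 1, 4)), ([0, 0], (.ev, 4)), ([0, 0], (.pl 1, 1))], [0, 1, 1, 0, 1, 0]⟩,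
   ⟨[9, 9], 0, [([1, 1], (.pl 4, 17)), ([4, 4], (.ev, 6)), ([4, 4], (.ev, 4)), ([0, 0], (.pl 1, 4)), ([0, 0], (.ev, 4)), ([0, 0], (.pl 1, 1))], [0, 2, 1, 0, 1, 1]⟩]

def cmC_10_8_5_4_2_1_0 : List (List ℕ × List (ℕ × ℕ)) :=
  [([12, 6], [(15, 4), (6, 1), (8, 1), (3, 1), (4, 1), (0, 1)]),
   ([11, 7], [(15, 4), (6, 1), (6, 1), (4, 1), (4, 1), (1, 1)]),
   ([11, 6], [(15, 4), (6, 1), (8, 1), (3, 1), (4, 1), (1, 1)]),
   ([10, 8], [(17, 4), (6, 1), (4, 1), (4, 1), (4, 1), (1, 1)]),
   ([10, 7], [(16, 4), (6, 1), (6, 1), (4, 1), (4, 1), (1, 1)]),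
   ([10, 6], [(15, 4), (6, 1), (8, 1), (4, 1), (4, 1), (1, 1)]),
   ([9, 9], [(17, 4), (7, 2), (4, 1), (4, 1), (4, 1), (0, 1)])]

def cm_10_8_5_4_2_1 : List CM :=
  cm_10_8_5_4_2_1_0

def cmC_10_8_5_4_2_1 : List (List ℕ × List (ℕ × ℕ)) :=
  cmC_10_8_5_4_2_1_0

set_option Elab.async false in
theorem covH_10_8_5_4_2_1 : CovH [10, 8, 5, 4, 2, 1] :=
  covH_of_tree (by decide) ls_10_8_5_4_2_1 sp_10_8_5_4_2_1 cm_10_8_5_4_2_1 spC_10_8_5_4_2_1 cmC_10_8_5_4_2_1 99 (by decide +kernel) (by decide +kernel)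
    (by decide +kernel) (by decide +kernel) (by decide +kernel) (by decide +kernel)


/-! hook list [12, 10, 8, 5, 4, 2, 1], n = 77: 198 nodes, 6 commitments -/

def ls_12_10_8_5_4_2_1 : List (List Pc) :=
  [[.pair 12, .rect 10 1, .dup 8, .dup 7, .rect 5 1, .dup 3, .pair 2]]

def sp_12_10_8_5_4_2_1 : List (ℕ × List ℕ) :=
  [(0, [0, 0, 3, 2, 0, 1, 3])]

def spC_12_10_8_5_4_2_1 : List (List (ℕ × ℕ)) :=
  [[(23, 4), (10, 1), (18, 3), (15, 2), (5, 1), (6, 1), (0, 1)]]

def cm_12_10_8_5_4_2_1_0 : List CM :=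
  [⟨[15, 7], 0, [([4, 0], (.pl 4, 19)), ([1, 0], (.pl 1, 9)), ([4, 4], (.ev, 8)), ([3, 3], (.ev, 8)), ([1, 0], (.pl 1, 4)), ([0, 0], (.ev, 6)), ([2, 0], (.pl 4, 1))], [0, 0, 1, 1, 0, 1, 0]⟩,
   ⟨[14, 8], 0, [([4, 0], (.pl 4, 19)), ([1, 0], (.pl 1, 9)), ([4, 4], (.ev, 8)), ([4, 4], (.ev, 6)), ([1, 0], (.pl 1, 4)), ([0, 0], (.ev, 6)), ([0, 0], (.pl 4, 3))], [0, 0, 1, 1, 0, 1, 0]⟩,
   ⟨[14, 7], 0, [([4, 0], (.pl 4, 19)), ([1, 0], (.pl 1, 9)), ([4, 4], (.ev, 8)), ([3, 3], (.ev, 8)), ([1, 0], (.pl 1, 4)), ([0, 0], (.ev, 6)), ([1, 0], (.pl 4, 2))], [0, 0, 1, 1, 0, 1, 0]⟩,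
   ⟨[13, 9], 0, [([3, 0], (.pl 4, 20)), ([1, 0], (.pl 1, 9)), ([4, 4], (.ev, 8)), ([4, 4], (.ev, 6)), ([0, 0], (.pl 1, 5)), ([1, 1], (.ev, 4)), ([0, 0], (.pl 4, 3))], [0, 0, 1, 1, 0, 1, 0]⟩,
   ⟨[13, 8], 0, [([4, 0], (.pl 4, 19)), ([1, 0], (.pl 1, 9)), ([4, 4], (.ev, 8)), ([4, 4], (.ev, 6)), ([0, 0], (.pl 1, 5)), ([0, 0], (.ev, 6)), ([0, 0], (.pl 4, 3))], [0, 0, 1, 1, 0, 1, 0]⟩,
   ⟨[13, 7], 0, [([4, 0], (.pl 4, 19)), ([1, 0], (.pl 1, 9)), ([4, 4], (.ev, 8)), ([3, 3], (.ev, 8)), ([1, 0], (.pl 1, 4)), ([0, 0], (.ev, 6)), ([0, 0], (.pl 4, 3))], [0, 0, 1, 1, 0, 1, 0]⟩]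

def cmC_12_10_8_5_4_2_1_0 : List (List ℕ × List (ℕ × ℕ)) :=
  [([15, 7], [(19, 4), (9, 1), (8, 1), (8, 1), (4, 1), (6, 1), (1, 4)]),
   ([14, 8], [(19, 4), (9, 1), (8, 1), (6, 1), (4, 1), (6, 1), (3, 4)]),
   ([14, 7], [(19, 4), (9, 1), (8, 1), (8, 1), (4, 1), (6, 1), (2, 4)]),
   ([13, 9], [(20, 4), (9, 1), (8, 1), (6, 1), (5, 1), (4, 1), (3, 4)]),
   ([13, 8], [(19, 4), (9, 1), (8, 1), (6, 1), (5, 1), (6, 1), (3, 4)]),
   ([13, 7], [(19, 4), (9, 1), (8, 1), (8, 1), (4, 1), (6, 1), (3, 4)])]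

def cm_12_10_8_5_4_2_1 : List CM :=
  cm_12_10_8_5_4_2_1_0

def cmC_12_10_8_5_4_2_1 : List (List ℕ × List (ℕ × ℕ)) :=
  cmC_12_10_8_5_4_2_1_0

def ex_12_10_8_5_4_2_1 : List (List ℕ) :=
  [[9, 9, 9, 9, 9, 9, 9, 9, 5],
   [9, 9, 9, 9, 9, 9, 9, 8, 6],
   [9, 9, 9, 9, 9, 9, 9, 7, 7],
   [9, 9, 9, 9, 9, 9, 8, 8, 7],
   [9, 9, 9, 9, 9, 8, 8, 8, 8]]

set_option Elab.async false in
theorem fullT_12_10_8_5_4_2_1 (hf : FullH [10, 8, 5, 4, 2, 1])
    (hexc : ∀ q ∈ ex_12_10_8_5_4_2_1, ∀ μ : YoungDiagram, μ.card = 77 →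
      (List.range (μ.rowLen 0)).map μ.colLen = q → OccSh (hk [12, 10, 8, 5, 4, 2, 1]) (hk [12, 10, 8, 5, 4, 2, 1]) μ) :
    FullH [12, 10, 8, 5, 4, 2, 1] :=
  fullH_of_tree (by decide) (HC_of (by decide) (by decide)) hf ls_12_10_8_5_4_2_1 sp_12_10_8_5_4_2_1 cm_12_10_8_5_4_2_1 ex_12_10_8_5_4_2_1 spC_12_10_8_5_4_2_1 cmC_12_10_8_5_4_2_1 99 hexc
    (by decide +kernel) (by decide +kernel) (by decide +kernel) (by decide +kernel) (by decide +kernel)
    (by decide +kernel)

end Crest.Agent.R195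
end

-- ▼ part R195/TreeSmall
section

set_option autoImplicit false

namespace Crest.Agent.R195

/-! hook list [11, 8, 6, 4, 2, 1], n = 58: 93 nodes, 9 commitments -/

def ls_11_8_6_4_2_1 : List (List Pc) :=
  [[.rect 11 1, .pair 9, .rect 7 1, .dup 6, .pair 4, .rect 2 1, .dup 1],
   [.gap 11, .pair 8, .dup 6, .pair 4, .rect 2 1, .dup 1]]

def sp_11_8_6_4_2_1 : List (ℕ × List ℕ) :=
  [(0, [0, 0, 0, 4, 3, 0, 1]),
   (1, [3, 2, 2, 3, 0, 1])]

def spC_11_8_6_4_2_1 : List (List (ℕ × ℕ)) :=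
  [[(11, 1), (17, 4), (7, 1), (15, 4), (4, 1), (2, 1), (2, 1)],
   [(24, 3), (13, 2), (13, 2), (4, 1), (2, 1), (2, 1)]]

def cm_11_8_6_4_2_1 : List CM :=
  [⟨[15, 5], 0, [([1, 0], (.pl 1, 10)), ([4, 0], (.pl 4, 13)), ([1, 0], (.pl 1, 6)), ([4, 4], (.ev, 4)), ([3, 0], (.pl 4, 4)), ([1, 0], (.pl 1, 1)), ([1, 1], (.ev, 0))], [0, 0, 0, 1, 0, 0, 1]⟩,
   ⟨[14, 6], 1, [([2, 2], (.ev, 16)), ([4, 0], (.pl 4, 11)), ([4, 4], (.ev, 4)), ([3, 0], (.pl 4, 4)), ([1, 0], (.pl 1, 1)), ([0, 0], (.ev, 2))], [2, 0, 1, 0, 1, 1]⟩,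
   ⟨[14, 5], 1, [([2, 2], (.ev, 16)), ([4, 0], (.pl 4, 11)), ([3, 3], (.ev, 6)), ([4, 0], (.pl 4, 3)), ([1, 0], (.pl 1, 1)), ([0, 0], (.ev, 2))], [2, 0, 1, 0, 1, 1]⟩,
   ⟨[11, 9], 1, [([2, 2], (.ev, 16)), ([4, 2], (.pl 4, 9)), ([4, 4], (.ev, 4)), ([0, 0], (.pl 4, 7)), ([0, 0], (.pl 1, 2)), ([1, 1], (.ev, 0))], [4, 1, 1, 2, 0, 1]⟩,
   ⟨[10, 10], 1, [([2, 2], (.ev, 16)), ([3, 3], (.pl 4, 9)), ([4, 4], (.ev, 4)), ([0, 0], (.pl 4, 7)), ([0, 0], (.pl 1, 2)), ([1, 1], (.ev, 0))], [4, 1, 1, 2, 0, 1]⟩,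
   ⟨[10, 9], 1, [([2, 2], (.ev, 16)), ([3, 2], (.pl 4, 10)), ([4, 4], (.ev, 4)), ([0, 0], (.pl 4, 7)), ([0, 0], (.pl 1, 2)), ([1, 1], (.ev, 0))], [4, 1, 1, 2, 0, 1]⟩,
   ⟨[9, 9], 1, [([2, 2], (.ev, 16)), ([2, 2], (.pl 4, 11)), ([4, 4], (.ev, 4)), ([0, 0], (.pl 4, 7)), ([0, 0], (.pl 1, 2)), ([1, 1], (.ev, 0))], [4, 1, 1, 2, 0, 1]⟩,
   ⟨[9, 8], 1, [([2, 2], (.ev, 16)), ([2, 1], (.pl 4, 12)), ([4, 4], (.ev, 4)), ([0, 0], (.pl 4, 7)), ([0, 0], (.pl 1, 2)), ([1, 1], (.ev, 0))], [4, 1, 1, 2, 0, 1]⟩,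
   ⟨[8, 8], 1, [([2, 2], (.ev, 16)), ([1, 1], (.pl 4, 13)), ([4, 4], (.ev, 4)), ([0, 0], (.pl 4, 7)), ([0, 0], (.pl 1, 2)), ([1, 1], (.ev, 0))], [4, 1, 1, 2, 0, 1]⟩]

def cmC_11_8_6_4_2_1 : List (List ℕ × List (ℕ × ℕ)) :=
  [([15, 5], [(10, 1), (13, 4), (6, 1), (4, 1), (4, 4), (1, 1), (0, 1)]),
   ([14, 6], [(17, 2), (11, 4), (4, 1), (4, 4), (0, 1), (2, 1)]),
   ([14, 5], [(17, 2), (11, 4), (6, 1), (3, 4), (0, 1), (2, 1)]),
   ([11, 9], [(19, 4), (8, 3), (4, 1), (5, 2), (2, 1), (0, 1)]),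
   ([10, 10], [(19, 4), (8, 3), (4, 1), (5, 2), (2, 1), (0, 1)]),
   ([10, 9], [(19, 4), (9, 3), (4, 1), (5, 2), (2, 1), (0, 1)]),
   ([9, 9], [(19, 4), (10, 3), (4, 1), (5, 2), (2, 1), (0, 1)]),
   ([9, 8], [(19, 4), (11, 3), (4, 1), (5, 2), (2, 1), (0, 1)]),
   ([8, 8], [(19, 4), (12, 3), (4, 1), (5, 2), (2, 1), (0, 1)])]

set_option Elab.async false in
theorem covH_11_8_6_4_2_1 : CovH [11, 8, 6, 4, 2, 1] :=
  covH_of_tree (by decide) ls_11_8_6_4_2_1 sp_11_8_6_4_2_1 cm_11_8_6_4_2_1 spC_11_8_6_4_2_1 cmC_11_8_6_4_2_1 99 (by decide +kernel) (by decide +kernel)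
    (by decide +kernel) (by decide +kernel) (by decide +kernel) (by decide +kernel)

theorem covT_hB_10_1 : CovH (hB 10 1) := covH_11_8_6_4_2_1


/-! hook list [9, 6, 4, 2], n = 38: 67 nodes, 10 commitments -/

def ls_9_6_4_2 : List (List Pc) :=
  [[.gap 9, .pair 6, .pair 4, .rect 2 1, .dup 1],
   [.rect 9 1, .pair 7, .pair 5, .pair 3, .dup 1]]

def sp_9_6_4_2 : List (ℕ × List ℕ) :=
  [(0, [3, 1, 3, 0, 1]),
   (1, [0, 0, 0, 0, 1])]

def spC_9_6_4_2 : List (List (ℕ × ℕ)) :=
  [[(20, 3), (10, 3), (4, 1), (2, 1), (2, 1)],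
   [(9, 1), (13, 4), (9, 4), (5, 4), (2, 1)]]

def cm_9_6_4_2 : List CM :=
  [⟨[8, 8, 8, 8], 0, [([4, 4, 2, 2], (.ev, 4)), ([4, 2, 2, 2], (.pl 4, 1)), ([0, 1, 3, 2], (.pl 4, 1)), ([0, 1, 0, 1], (.pl 1, 0)), ([0, 0, 1, 1], (.ev, 0))], [1, 0, 0, 0, 1]⟩,
   ⟨[8, 8, 8, 7], 0, [([4, 4, 2, 2], (.ev, 4)), ([4, 2, 2, 2], (.pl 4, 1)), ([0, 1, 3, 1], (.pl 4, 2)), ([0, 1, 0, 1], (.pl 1, 0)), ([0, 0, 1, 1], (.ev, 0))], [1, 0, 0, 0, 1]⟩,
   ⟨[8, 8, 8, 6], 0, [([4, 4, 2, 2], (.ev, 4)), ([3, 2, 3, 1], (.pl 4, 2)), ([0, 1, 2, 2], (.pl 4, 2)), ([0, 1, 0, 1], (.pl 1, 0)), ([1, 0, 1, 0], (.ev, 0))], [1, 0, 0, 0, 1]⟩,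
   ⟨[8, 8, 8, 5], 0, [([4, 4, 2, 2], (.ev, 4)), ([3, 2, 3, 1], (.pl 4, 2)), ([0, 1, 2, 1], (.pl 4, 3)), ([0, 1, 0, 1], (.pl 1, 0)), ([1, 0, 1, 0], (.ev, 0))], [1, 0, 0, 0, 1]⟩,
   ⟨[8, 8, 7, 7], 0, [([4, 4, 2, 2], (.ev, 4)), ([4, 2, 2, 1], (.pl 4, 2)), ([0, 1, 2, 2], (.pl 4, 2)), ([0, 1, 0, 1], (.pl 1, 0)), ([0, 0, 1, 1], (.ev, 0))], [1, 0, 0, 0, 1]⟩,
   ⟨[8, 8, 7, 6], 0, [([4, 4, 2, 2], (.ev, 4)), ([3, 2, 2, 2], (.pl 4, 2)), ([0, 1, 2, 1], (.pl 4, 3)), ([0, 1, 0, 1], (.pl 1, 0)), ([1, 0, 1, 0], (.ev, 0))], [1, 0, 0, 0, 1]⟩,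
   ⟨[8, 8, 6, 6], 0, [([4, 4, 2, 2], (.ev, 4)), ([3, 2, 2, 1], (.pl 4, 3)), ([0, 0, 2, 2], (.pl 4, 3)), ([0, 1, 0, 1], (.pl 1, 0)), ([1, 1, 0, 0], (.ev, 0))], [1, 0, 0, 0, 1]⟩,
   ⟨[8, 7], 0, [([2, 2], (.ev, 12)), ([4, 2], (.pl 4, 5)), ([0, 2], (.pl 4, 5)), ([1, 0], (.pl 1, 1)), ([1, 1], (.ev, 0))], [4, 1, 1, 1, 1]⟩,
   ⟨[7, 7], 0, [([2, 2], (.ev, 12)), ([4, 2], (.pl 4, 5)), ([0, 1], (.pl 4, 6)), ([0, 1], (.pl 1, 1)), ([1, 1], (.ev, 0))], [4, 1, 1, 1, 1]⟩,
   ⟨[7, 6], 0, [([2, 2], (.ev, 12)), ([4, 1], (.pl 4, 6)), ([0, 1], (.pl 4, 6)), ([0, 1], (.pl 1, 1)), ([1, 1], (.ev, 0))], [4, 1, 1, 1, 1]⟩]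

def cmC_9_6_4_2 : List (List ℕ × List (ℕ × ℕ)) :=
  [([8, 8, 8, 8], [(4, 1), (1, 4), (1, 4), (0, 1), (0, 1)]),
   ([8, 8, 8, 7], [(4, 1), (1, 4), (2, 4), (0, 1), (0, 1)]),
   ([8, 8, 8, 6], [(4, 1), (2, 4), (2, 4), (0, 1), (0, 1)]),
   ([8, 8, 8, 5], [(4, 1), (2, 4), (3, 4), (0, 1), (0, 1)]),
   ([8, 8, 7, 7], [(4, 1), (2, 4), (2, 4), (0, 1), (0, 1)]),
   ([8, 8, 7, 6], [(4, 1), (2, 4), (3, 4), (0, 1), (0, 1)]),
   ([8, 8, 6, 6], [(4, 1), (3, 4), (3, 4), (0, 1), (0, 1)]),
   ([8, 7], [(15, 4), (4, 3), (4, 3), (0, 1), (0, 1)]),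
   ([7, 7], [(15, 4), (4, 3), (5, 3), (0, 1), (0, 1)]),
   ([7, 6], [(15, 4), (5, 3), (5, 3), (0, 1), (0, 1)])]

set_option Elab.async false in
theorem covH_9_6_4_2 : CovH [9, 6, 4, 2] :=
  covH_of_tree (by decide) ls_9_6_4_2 sp_9_6_4_2 cm_9_6_4_2 spC_9_6_4_2 cmC_9_6_4_2 99 (by decide +kernel) (by decide +kernel)
    (by decide +kernel) (by decide +kernel) (by decide +kernel) (by decide +kernel)

theorem covT_hA_8_1 : CovH (hA 8 1) := covH_9_6_4_2


/-! hook list [9, 7, 4, 2, 1], n = 41: 45 nodes, 3 commitments -/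

def ls_9_7_4_2_1 : List (List Pc) :=
  [[.pair 9, .rect 6 1, .dup 5, .rect 3 1, .dup 2, .rect 1 1]]

def sp_9_7_4_2_1 : List (ℕ × List ℕ) :=
  [(0, [0, 0, 2, 0, 1, 1])]

def spC_9_7_4_2_1 : List (List (ℕ × ℕ)) :=
  [[(17, 4), (6, 1), (11, 2), (3, 1), (4, 1), (0, 1)]]

def cm_9_7_4_2_1 : List CM :=
  [⟨[11, 5], 0, [([4, 0], (.pl 4, 13)), ([1, 0], (.pl 1, 5)), ([4, 4], (.ev, 2)), ([1, 0], (.pl 1, 2)), ([1, 1], (.ev, 2)), ([0, 0], (.pl 1, 1))], [0, 0, 1, 0, 1, 0]⟩,
   ⟨[10, 6], 0, [([3, 0], (.pl 4, 14)), ([1, 0], (.pl 1, 5)), ([4, 4], (.ev, 2)), ([0, 0], (.pl 1, 3)), ([2, 2], (.ev, 0)), ([0, 0], (.pl 1, 1))], [0, 0, 1, 0, 1, 0]⟩,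
   ⟨[10, 5], 0, [([4, 0], (.pl 4, 13)), ([1, 0], (.pl 1, 5)), ([4, 4], (.ev, 2)), ([0, 0], (.pl 1, 3)), ([1, 1], (.ev, 2)), ([0, 0], (.pl 1, 1))], [0, 0, 1, 0, 1, 0]⟩]

def cmC_9_7_4_2_1 : List (List ℕ × List (ℕ × ℕ)) :=
  [([11, 5], [(13, 4), (5, 1), (2, 1), (2, 1), (2, 1), (1, 1)]),
   ([10, 6], [(14, 4), (5, 1), (2, 1), (3, 1), (0, 1), (1, 1)]),
   ([10, 5], [(13, 4), (5, 1), (2, 1), (3, 1), (2, 1), (1, 1)])]

set_option Elab.async false in
theorem covH_9_7_4_2_1 : CovH [9, 7, 4, 2, 1] :=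
  covH_of_tree (by decide) ls_9_7_4_2_1 sp_9_7_4_2_1 cm_9_7_4_2_1 spC_9_7_4_2_1 cmC_9_7_4_2_1 99 (by decide +kernel) (by decide +kernel)
    (by decide +kernel) (by decide +kernel) (by decide +kernel) (by decide +kernel)

theorem covT_hB_8_2 : CovH (hB 8 2) := covH_9_7_4_2_1


/-! hook list [13, 11, 8, 6, 3], n = 77: 86 nodes, 10 commitments -/









/-! hook list [11, 9, 5, 3], n = 52: 61 nodes, 6 commitments -/

def ls_11_9_5_3 : List (List Pc) :=
  [[.pair 11, .pair 7, .dup 4, .rect 3 1, .rect 2 3, .rect 1 1]]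

def sp_11_9_5_3 : List (ℕ × List ℕ) :=
  [(0, [0, 1, 3, 0, 0, 1])]

def spC_11_9_5_3 : List (List (ℕ × ℕ)) :=
  [[(21, 4), (12, 3), (10, 3), (3, 1), (6, 1), (0, 1)]]

def cm_11_9_5_3 : List CM :=
  [⟨[15, 5], 0, [([4, 0], (.pl 4, 17)), ([4, 0], (.pl 4, 9)), ([4, 4], (.ev, 0)), ([1, 0], (.pl 1, 2)), ([1, 1], (.pl 1, 4)), ([1, 0], (.pl 1, 0))], [0, 0, 1, 0, 0, 0]⟩,
   ⟨[14, 6], 0, [([4, 1], (.pl 4, 16)), ([4, 0], (.pl 4, 9)), ([4, 4], (.ev, 0)), ([1, 0], (.pl 1, 2)), ([1, 1], (.pl 1, 4)), ([0, 0], (.pl 1, 1))], [0, 0, 1, 0, 0, 0]⟩,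
   ⟨[14, 5], 0, [([4, 0], (.pl 4, 17)), ([4, 0], (.pl 4, 9)), ([4, 4], (.ev, 0)), ([1, 0], (.pl 1, 2)), ([1, 1], (.pl 1, 4)), ([0, 0], (.pl 1, 1))], [0, 0, 1, 0, 0, 0]⟩,
   ⟨[13, 7], 0, [([4, 2], (.pl 4, 15)), ([3, 0], (.pl 4, 10)), ([4, 4], (.ev, 0)), ([1, 0], (.pl 1, 2)), ([1, 1], (.pl 1, 4)), ([0, 0], (.pl 1, 1))], [0, 0, 1, 0, 0, 0]⟩,
   ⟨[13, 6], 0, [([4, 1], (.pl 4, 16)), ([3, 0], (.pl 4, 10)), ([4, 4], (.ev, 0)), ([1, 0], (.pl 1, 2)), ([1, 1], (.pl 1, 4)), ([0, 0], (.pl 1, 1))], [0, 0, 1, 0, 0, 0]⟩,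
   ⟨[13, 5], 0, [([4, 0], (.pl 4, 17)), ([3, 0], (.pl 4, 10)), ([4, 4], (.ev, 0)), ([1, 0], (.pl 1, 2)), ([1, 1], (.pl 1, 4)), ([0, 0], (.pl 1, 1))], [0, 0, 1, 0, 0, 0]⟩]

def cmC_11_9_5_3 : List (List ℕ × List (ℕ × ℕ)) :=
  [([15, 5], [(17, 4), (9, 4), (0, 1), (2, 1), (4, 1), (0, 1)]),
   ([14, 6], [(16, 4), (9, 4), (0, 1), (2, 1), (4, 1), (1, 1)]),
   ([14, 5], [(17, 4), (9, 4), (0, 1), (2, 1), (4, 1), (1, 1)]),
   ([13, 7], [(15, 4), (10, 4), (0, 1), (2, 1), (4, 1), (1, 1)]),
   ([13, 6], [(16, 4), (10, 4), (0, 1), (2, 1), (4, 1), (1, 1)]),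
   ([13, 5], [(17, 4), (10, 4), (0, 1), (2, 1), (4, 1), (1, 1)])]

set_option Elab.async false in
theorem covH_11_9_5_3 : CovH [11, 9, 5, 3] :=
  covH_of_tree (by decide) ls_11_9_5_3 sp_11_9_5_3 cm_11_9_5_3 spC_11_9_5_3 cmC_11_9_5_3 99 (by decide +kernel) (by decide +kernel)
    (by decide +kernel) (by decide +kernel) (by decide +kernel) (by decide +kernel)

end Crest.Agent.R195
end

-- ▼ part R195/S298Base
section

/-! Row 195, S0298 (helper545).  The small full shapes, from certificates (helper895, helper563) and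
trees (helper958). -/

set_option autoImplicit false

namespace Crest.Agent.R195

theorem b_1 : FullH [1] := fullH_stair 1
theorem b_2 : FullH [2] := fullH_stair 2
theorem b_3_1 : FullH [3, 1] := fullH_stair 3
theorem b_4_2 : FullH [4, 2] := fullH_stair 4
theorem b_5_3_1 : FullH [5, 3, 1] := fullH_stair 5
theorem b_6_4_2 : FullH [6, 4, 2] := fullH_stair 6
theorem b_7_5_3_1 : FullH [7, 5, 3, 1] := fullH_stair 7
theorem b_3 : FullH [3] := ct3_full (fullH_stair 0)
theorem b_4 : FullH [4] := ct4_full (fullH_stair 0)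
theorem b_4_1 : FullH [4, 1] := ct4_1_full b_1
theorem b_4_2_1 : FullH [4, 2, 1] := ct4_2_1_full
theorem b_5_2 : FullH [5, 2] := ct5_2_full b_2
theorem b_5_2_1 : FullH [5, 2, 1] := ct5_2_1_full
theorem b_5_3 : FullH [5, 3] := fullH_of_cov (by decide) (by decide) (by decide) b_3 covH_5_3
theorem b_6_3 : FullH [6, 3] := ct6_3_full b_3
theorem b_6_3_1 : FullH [6, 3, 1] := fullT_6_3_1 b_3_1 cxs_6_3_1_hexc
theorem b_6_4 : FullH [6, 4] := ct6_4_full b_4
theorem b_6_4_1 : FullH [6, 4, 1] :=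
  fullH_of_cov (by decide) (by decide) (by decide) b_4_1 covH_6_4_1
theorem b_6_4_2_1 : FullH [6, 4, 2, 1] :=
  fullH_of_cov (by decide) (by decide) (by decide) b_4_2_1 covH_6_4_2_1
theorem b_7_4_2 : FullH [7, 4, 2] :=
  fullH_of_cov (by decide) (by decide) (by decide) b_4_2 covH_7_4_2
theorem b_7_4_2_1 : FullH [7, 4, 2, 1] := fullT_7_4_2_1 b_4_2_1 cxs_7_4_2_1_hexc
theorem b_7_5_2 : FullH [7, 5, 2] :=
  fullH_of_cov (by decide) (by decide) (by decide) b_5_2 covH_7_5_2
theorem b_7_5_2_1 : FullH [7, 5, 2, 1] :=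
  fullH_of_cov (by decide) (by decide) (by decide) b_5_2_1 covH_7_5_2_1
theorem b_7_5_3 : FullH [7, 5, 3] :=
  fullH_of_cov (by decide) (by decide) (by decide) b_5_3 covH_7_5_3
theorem b_8_5_3 : FullH [8, 5, 3] :=
  fullH_of_cov (by decide) (by decide) (by decide) b_5_3 covH_8_5_3
theorem b_8_5_3_1 : FullH [8, 5, 3, 1] :=
  fullH_of_cov (by decide) (by decide) (by decide) b_5_3_1 covH_8_5_3_1
theorem b_8_6_3 : FullH [8, 6, 3] :=
  fullH_of_cov (by decide) (by decide) (by decide) b_6_3 covH_8_6_3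
theorem b_9_6_4_2_1 : FullH [9, 6, 4, 2, 1] := fullT_9_6_4_2_1 b_6_4_2_1 cxs_9_6_4_2_1_hexc
theorem b_10_7_5_3_1 : FullH [10, 7, 5, 3, 1] := fullT_10_7_5_3_1 b_7_5_3_1 cxs_10_7_5_3_1_hexc
theorem b_10_7_5_3 : FullH [10, 7, 5, 3] := fullT_10_7_5_3 b_7_5_3 cxs_10_7_5_3_hexc
theorem b_9_5_3 : FullH [9, 5, 3] := ct9_5_3_full b_5_3
/-- `n = 52` -/
theorem b_52 : FullH [11, 9, 5, 3] :=
  fullH_of_cov (by decide) (by decide) (by decide) b_9_5_3 covH_11_9_5_3
/-- `n = 54` -/
theorem b_54 : FullH [10, 8, 5, 4, 2, 1] :=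
  fullH_of_cov (by decide) (by decide) (by decide) fullH_8_5_4_2_1 covH_10_8_5_4_2_1
/-- `n = 77` -/
theorem b_77 : FullH [12, 10, 8, 5, 4, 2, 1] :=
  fullT_12_10_8_5_4_2_1 b_54 cxs_12_10_8_5_4_2_1_hexc

end Crest.Agent.R195
end

-- ▼ part R195/CovA
section

/-! Row 195, S0298 (T3), **family A**: hooks `M+1, M-1, .. (e terms), M-2e, M-2e-2, ..`,
`n = T_M + 2 e`. -/

set_option autoImplicit false

namespace Crest.Agent.R195

open Finset Function

/-- **Coverage for the family A.** -/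
theorem covA {M e n : ℕ} (he1 : 1 ≤ e) (he : 2 * e ≤ M) (hM9 : 9 ≤ M) (hM1 : e = 1 → 11 ≤ M)
    (hn : 2 * n = M * (M + 1) + 4 * e) (H : ℕ → ℕ) (w w₂ : ℕ) (R : Region n M w w₂ H) :
    ∃ L : List Pc, validP L ∧ (∀ s, (colsP L).getD s 0 = cl (hA M e) s) ∧
      Decomp L fun j : Fin w => H j := by
  rcases Nat.even_or_odd' e with ⟨k, hk | hk⟩
  · have hM : M = 2 * e + 2 * ((M - 2 * e) / 2) + (M - 2 * e) % 2 := by omega
    have hr : (M - 2 * e) % 2 < 2 := Nat.mod_lt _ (by norm_num)
    exact ⟨LAe M e k ((M - 2 * e) / 2) ((M - 2 * e) % 2), validP_LAe he1 hk hM hr,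
      cols_LAe hk hM hr, decomp_LAe hk (by omega) hM hr hM9 hn R⟩
  · by_cases hw : M + 2 ≤ w + e
    · have hM : M = 2 * e + 2 * ((M - 2 * e) / 2) + (M - 2 * e) % 2 := by omega
      have hr : (M - 2 * e) % 2 < 2 := Nat.mod_lt _ (by norm_num)
      exact ⟨LAo M e k ((M - 2 * e) / 2) ((M - 2 * e) % 2), validP_LAo hk hM hr,
        cols_LAo hk hM hr, decomp_LAo hk hM hr hM9 hn R hw⟩
    · have hw' : w + e ≤ M + 1 := by omega
      -- narrow diagrams exist only for `2 e < M`
      have hlt : 2 * e + 1 ≤ M := by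
        by_contra hcon
        have h1 : M = 2 * e := by omega
        have h2 := R.n_le_sq
        have h3 : w * w ≤ (e + 1) * (e + 1) := Nat.mul_le_mul (by omega) (by omega)
        subst h1
        nlinarith
      have hM : M = 2 * e + 1 + 2 * ((M - 2 * e - 1) / 2) + (M - 2 * e - 1) % 2 := by omega
      have hr : (M - 2 * e - 1) % 2 < 2 := Nat.mod_lt _ (by norm_num)
      exact ⟨LAg M e k ((M - 2 * e - 1) / 2) ((M - 2 * e - 1) % 2), validP_LAg hk hM hr,
        cols_LAg hk hM hr, decomp_LAg hk hM hr hM9 (fun _ => hM1 (by omega)) hn R hw'⟩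

/-- **Family A**, final form. -/
theorem covA'' (M e : ℕ) (hM9 : 9 ≤ M) (hM1 : e = 1 → 11 ≤ M) (he1 : 1 ≤ e) (he : 2 * e ≤ M) :
    CovH (hA M e) := by
  intro H w w₂ R
  have h1 : (hA M e).headD 0 - 1 = M := by
    rw [hA_eq he, headD_runH, if_neg (by omega)]
    omega
  rw [h1] at R
  exact covA he1 he hM9 hM1 (hsize_hA he) H w w₂ R


end Crest.Agent.R195
end

-- ▼ part R195/CovCodd
section

/-! Row 195, S0298.  Coverage of family C (`M = 2m+1` odd), `e` odd, by merging the `gap` and `dup`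
pieces with pairs. -/

set_option autoImplicit false
set_option linter.unusedSectionVars false
set_option linter.unusedDecidableInType false
set_option linter.unusedSimpArgs false

namespace Crest.Agent.R195

open Finset

/-! ### The numerical core -/

/-- a free list with small deficits covers -/
theorem core_Codd {m e n w w₂ : ℕ} {H : ℕ → ℕ} (hm : 7 ≤ m) (he : 1 ≤ e)
    (hn : n = 2 * m * m + 3 * m + 2 * e) (hr : Region n (2 * m + 1) w w₂ H) (L : List Pc)
    (hL : ∀ p ∈ L, p.free) (hN : (L.map Pc.size).sum = n)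
    (h1 : 4 * m ≤ FL L 1 + 8) (h2 : (L.map Pc.size).sum ≤ FL L m + (2 * m + 2 * e))
    (h3 : (L.map Pc.size).sum ≤ FL L (m + 1) + 5)
    (h4 : (L.map Pc.size).sum ≤ FL L (m + 2) + 1)
    (h5 : ∀ J, m + 3 ≤ J → (L.map Pc.size).sum ≤ FL L J) :
    Decomp L fun j : Fin w => H j := by
  have hn' : (2 * m + 1) * (2 * m + 1 + 1) ≤ 2 * n := by rw [hn]; nlinarith
  have hB9 : 9 ≤ 2 * m + 1 := by omega
  have hw := hr.wlog
  have hH0 : H 0 ≤ 4 * m - 8 := by
    by_contra hcon
    push Not at hcon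
    have a1 := hr.n_le_hook (by omega)
    have a2 := hr.H0_add_w hn' hB9
    have a3 := hr.col
    have a4 := hr.row
    have a5 : (H 1 - 1) * (w₂ - 1) ≤ 8 * 8 := Nat.mul_le_mul (by omega) (by omega)
    nlinarith
  have hcard : (range w).filter (fun j => H j ≠ 0) = range w := by
    refine filter_true_of_mem fun j hj => ?_
    have := (hr.pos j).1 (mem_range.1 hj)
    omega
  have hle : ∀ j, j < w → H j ≤ FL L 1 := fun j _ => by
    have := hr.le_H0 j
    omega
  rcases Nat.lt_or_ge w (m + 6) with hw5 | hw5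
  · refine decomp_crit2 L hL w H (hr.sum.trans hN.symm) (2 * (m + 5)) (m + 2) w ?_ hle ?_ ?_ ?_
    · intro i j hi hj hij
      have b1 := hr.le_H0 i
      have b2 := hr.le_H0 j
      omega
    · rw [hN] at h4
      nlinarith
    · rw [hcard, card_range]
    · intro J hJ
      exact (h5 J (by omega)).trans (Nat.le_add_right _ _)
  · refine decomp_crit2 L hL w H (hr.sum.trans hN.symm) (2 * (2 * m + 1)) m w ?_ hle ?_ ?_ ?_
    · intro i j hi hj hij
      exact hr.pair_le hij
    · rw [hN] at h2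
      nlinarith
    · rw [hcard, card_range]
    · intro J hJ
      rcases Nat.lt_or_ge (m + 2) J with h6 | h6
      · exact (h5 J (by omega)).trans (Nat.le_add_right _ _)
      · rcases Nat.lt_or_ge (m + 1) J with h7 | h7
        · have : J = m + 2 := by omega
          subst this
          omega
        · have : J = m + 1 := by omega
          subst this
          omega

/-! ### The lists -/

/-- `m` even, `e = 2a+1`, `m = 2a + 2v + 2` -/
def CE (m a v : ℕ) : List Pc :=
  runP (2 * m + 2) a ++ .gap (2 * m + 2 - 2 * a) :: (runP (2 * m - 2 * a - 1) v ++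
    .dup m :: (runP (m - 1) v ++ .dup (2 * a + 1) :: runP (2 * a) a))

/-- `m` odd, `e = 2a+1`, `m = 2a + 2v + 3` -/
def CO (m a v : ℕ) : List Pc :=
  runP (2 * m + 2) a ++ .gap (2 * m + 2 - 2 * a) :: (runP (2 * m - 2 * a - 1) v ++
    .gap (m + 2) :: (runP m (v + 1) ++ .dup (2 * a + 1) :: runP (2 * a) a))

theorem valid_CE {m a v : ℕ} (hm : m = 2 * a + 2 * v + 2) : validP (CE m a v) := by
  unfold CE
  refine (VP_runP_append (t := 2 * m + 2) (by omega) (VP_gap (by omega) (VP_runP_append (by omega)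
    (VP_dup (by omega) (VP_runP_append (by omega) (VP_dup (by omega)
      (VP_runP ?_ ?_) ?_) ?_) ?_) ?_) ?_) ?_).1
  all_goals omega

theorem cols_CE {m a v : ℕ} (hm : m = 2 * a + 2 * v + 2) (s : ℕ) :
    (colsP (CE m a v)).getD s 0 = cl (hC (2 * m + 1) (2 * a + 1)) s := by
  unfold CE
  rw [getD_runP_append, getD_gap_cons, getD_runP_append, getD_dup_cons,
    getD_runP_append, getD_dup_cons, getD_colsP_runP, cl_hC (by omega)]
  split_ifs <;> omega

theorem valid_CO {m a v : ℕ} (hm : m = 2 * a + 2 * v + 3) : validP (CO m a v) := by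
  unfold CO
  refine (VP_runP_append (t := 2 * m + 2) (by omega) (VP_gap (by omega) (VP_runP_append (by omega)
    (VP_gap (by omega) (VP_runP_append (by omega) (VP_dup (by omega)
      (VP_runP ?_ ?_) ?_) ?_) ?_) ?_) ?_) ?_).1
  all_goals omega

theorem cols_CO {m a v : ℕ} (hm : m = 2 * a + 2 * v + 3) (s : ℕ) :
    (colsP (CO m a v)).getD s 0 = cl (hC (2 * m + 1) (2 * a + 1)) s := by
  unfold CO
  rw [getD_runP_append, getD_gap_cons, getD_runP_append, getD_gap_cons,
    getD_runP_append, getD_dup_cons, getD_colsP_runP, cl_hC (by omega)]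
  split_ifs <;> omega

/-! ### The merged lists -/

variable {m n w w₂ : ℕ} {H : ℕ → ℕ}

/-- deficit of a run, for `m ≤ 2 J + 2` -/
theorem size_le_FL_runP'' {m k J : ℕ} (h : m ≤ 2 * J + 2) :
    ((runP m k).map Pc.size).sum ≤ FL (runP m k) J + (2 * (m - 2 * J) - 1) := by
  have h1 := size_le_FL_runP m k J
  rcases Nat.lt_or_ge (2 * J + 1) m with h2 | h2
  · have : m - 2 * J = 2 := by omega
    rw [this, tri_two] at h1
    omega
  · have := size_le_FL_runP' (m := m) (k := k) (J := J) (by omega)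
    omega

/-- case `m` even, `e ≥ 3`, `e ≤ m - 3` -/
theorem dec_CE {a v : ℕ} (hm : m = 2 * (a + 1) + 2 * (v + 1) + 2) (hm8 : 7 ≤ m)
    (hn : n = 2 * m * m + 3 * m + 2 * (2 * (a + 1) + 1)) (hr : Region n (2 * m + 1) w w₂ H)
    (hN : ((CE m (a + 1) (v + 1)).map Pc.size).sum = n) :
    Decomp (CE m (a + 1) (v + 1)) fun j : Fin w => H j := by
  have hw := hr.row
  have hw2 := hr.two_w2_ge (by rw [hn]; nlinarith) (by omega)
  have e1 : runP (m - 1) (v + 1) = .pair (m - 1) :: runP (m - 3) v := by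
    rw [runP_succ, Nat.sub_sub]
  have e2 : runP (2 * (a + 1)) (a + 1) = runP (2 * (a + 1)) a ++ [.pair 2] := by
    rw [runP_append _ a 1, runP_succ, runP_zero, show 2 * (a + 1) - 2 * a = 2 by omega]
  unfold CE at hN ⊢
  rw [e1, e2] at hN ⊢
  have h0 : Decomp (.pair (2 * m + 4) :: .pair (2 * m - 1) :: (runP (2 * m + 2) (a + 1) ++ (runP (2 * m - 2 * (a + 1) - 1) (v + 1) ++
      (runP (m - 3) v ++ runP (2 * (a + 1)) a)))) fun j : Fin w => H j := by
    refine core_Codd (e := (2 * (a + 1) + 1)) hm8 (by omega) hn hr _ ?_ ?_ ?_ ?_ ?_ ?_ ?_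
    · intro p hp
      simp only [List.mem_cons, List.mem_append, List.not_mem_nil, or_false] at hp
      rcases hp with rfl | rfl | hp | hp | hp | hp
      · trivial
      · trivial
      · exact free_runP p hp
      · exact free_runP p hp
      · exact free_runP p hp
      · exact free_runP p hp
    · rw [← hN]
      simp only [sum_map_size_append, sum_map_size_pair, sum_map_size_rect, sum_map_size_dup,
        sum_map_size_gap]
      simp only [List.map_nil, List.sum_nil]
      omega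
    · simp only [FL_append, FL_pair, FL_rect, FL_nil]
      rw [FL_one_runP (by omega), FL_one_runP (by omega), FL_one_runP (by omega), FL_one_runP (by omega)]
      omega
    · have b1 := size_le_FL_runP'' (m := 2 * m + 2) (k := a + 1) (J := m) (by omega)
      have b2 := size_le_FL_runP'' (m := 2 * m - 2 * (a + 1) - 1) (k := v + 1) (J := m) (by omega)
      have b3 := size_le_FL_runP'' (m := m - 3) (k := v) (J := m) (by omega)
      have b4 := size_le_FL_runP'' (m := 2 * (a + 1)) (k := a) (J := m) (by omega)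
      simp only [sum_map_size_append, sum_map_size_pair, sum_map_size_rect, FL_append, FL_pair,
        FL_rect, List.map_nil, List.sum_nil, FL_nil]
      omega
    · have b1 := size_le_FL_runP'' (m := 2 * m + 2) (k := a + 1) (J := m + 1) (by omega)
      have b2 := size_le_FL_runP'' (m := 2 * m - 2 * (a + 1) - 1) (k := v + 1) (J := m + 1) (by omega)
      have b3 := size_le_FL_runP'' (m := m - 3) (k := v) (J := m + 1) (by omega)
      have b4 := size_le_FL_runP'' (m := 2 * (a + 1)) (k := a) (J := m + 1) (by omega)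
      simp only [sum_map_size_append, sum_map_size_pair, sum_map_size_rect, FL_append, FL_pair,
        FL_rect, List.map_nil, List.sum_nil, FL_nil]
      omega
    · have b1 := size_le_FL_runP'' (m := 2 * m + 2) (k := a + 1) (J := m + 2) (by omega)
      have b2 := size_le_FL_runP'' (m := 2 * m - 2 * (a + 1) - 1) (k := v + 1) (J := m + 2) (by omega)
      have b3 := size_le_FL_runP'' (m := m - 3) (k := v) (J := m + 2) (by omega)
      have b4 := size_le_FL_runP'' (m := 2 * (a + 1)) (k := a) (J := m + 2) (by omega)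
      simp only [sum_map_size_append, sum_map_size_pair, sum_map_size_rect, FL_append, FL_pair,
        FL_rect, List.map_nil, List.sum_nil, FL_nil]
      omega
    · intro J hJ
      have b1 := size_le_FL_runP'' (m := 2 * m + 2) (k := a + 1) (J := J) (by omega)
      have b2 := size_le_FL_runP'' (m := 2 * m - 2 * (a + 1) - 1) (k := v + 1) (J := J) (by omega)
      have b3 := size_le_FL_runP'' (m := m - 3) (k := v) (J := J) (by omega)
      have b4 := size_le_FL_runP'' (m := 2 * (a + 1)) (k := a) (J := J) (by omega)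
      simp only [sum_map_size_append, sum_map_size_pair, sum_map_size_rect, FL_append, FL_pair,
        FL_rect, List.map_nil, List.sum_nil, FL_nil]
      omega
  rw [show 2 * m + 4 = 2 * m + 2 - 2 * (a + 1) + (2 * (a + 1) + 1) + 2 - 1 by omega] at h0
  have h1 := h0.merge_gap_dup (by omega) (by omega) (by omega) (by omega)
  have h2 := h1.perm (L' := .pair (2 * m - 1) :: .gap (2 * m + 2 - 2 * (a + 1)) ::
      .dup ((2 * (a + 1) + 1)) :: .pair 2 :: (runP (2 * m + 2) (a + 1) ++ (runP (2 * m - 2 * (a + 1) - 1) (v + 1) ++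
      (runP (m - 3) v ++ runP (2 * (a + 1)) a)))) (by
    rw [List.perm_iff_count]; intro x
    simp only [List.count_append, List.count_cons]
    ring)
  have h3 : Decomp (.pair (m + (m - 1)) :: .gap (2 * m + 2 - 2 * (a + 1)) ::
      .dup ((2 * (a + 1) + 1)) :: .pair 2 :: (runP (2 * m + 2) (a + 1) ++ (runP (2 * m - 2 * (a + 1) - 1) (v + 1) ++
      (runP (m - 3) v ++ runP (2 * (a + 1)) a)))) fun j : Fin w => H j := by
    rwa [show m + (m - 1) = 2 * m - 1 by omega]
  refine (h3.merge_dup (by omega)).perm ?_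
  rw [List.perm_iff_count]; intro x
  simp only [List.count_append, List.count_cons, List.count_nil]
  ring

/-- case `m` even, `e = m - 1` -/
theorem dec_CE0 {a : ℕ} (hm : m = 2 * (a + 2) + 2) (hm8 : 7 ≤ m)
    (hn : n = 2 * m * m + 3 * m + 2 * (2 * (a + 2) + 1)) (hr : Region n (2 * m + 1) w w₂ H)
    (hN : ((CE m (a + 2) 0).map Pc.size).sum = n) :
    Decomp (CE m (a + 2) 0) fun j : Fin w => H j := by
  have hw := hr.row
  have hw2 := hr.two_w2_ge (by rw [hn]; nlinarith) (by omega)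
  have e2 : runP (2 * (a + 2)) (a + 2) = .pair (2 * (a + 2)) :: (runP (2 * (a + 2) - 2) a ++
      [.pair 2]) := by
    rw [runP_succ, runP_append _ a 1, runP_succ, runP_zero,
      show 2 * (a + 2) - 2 - 2 * a = 2 by omega]
  unfold CE at hN ⊢
  rw [e2, runP_zero, runP_zero, List.nil_append, List.nil_append] at hN ⊢
  have h0 : Decomp (.pair (2 * m + 4) :: .pair (2 * m - 2) :: (runP (2 * m + 2) (a + 2) ++ runP (2 * (a + 2) - 2) a)) fun j : Fin w => H j := by
    refine core_Codd (e := (2 * (a + 2) + 1)) hm8 (by omega) hn hr _ ?_ ?_ ?_ ?_ ?_ ?_ ?_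
    · intro p hp
      simp only [List.mem_cons, List.mem_append, List.not_mem_nil, or_false] at hp
      rcases hp with rfl | rfl | hp | hp
      · trivial
      · trivial
      · exact free_runP p hp
      · exact free_runP p hp
    · rw [← hN]
      simp only [sum_map_size_append, sum_map_size_pair, sum_map_size_rect, sum_map_size_dup,
        sum_map_size_gap]
      simp only [List.map_nil, List.sum_nil]
      omega
    · simp only [FL_append, FL_pair, FL_rect, FL_nil]
      rw [FL_one_runP (by omega), FL_one_runP (by omega)]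
      omega
    · have b1 := size_le_FL_runP'' (m := 2 * m + 2) (k := a + 2) (J := m) (by omega)
      have b2 := size_le_FL_runP'' (m := 2 * (a + 2) - 2) (k := a) (J := m) (by omega)
      simp only [sum_map_size_append, sum_map_size_pair, sum_map_size_rect, FL_append, FL_pair,
        FL_rect, List.map_nil, List.sum_nil, FL_nil]
      omega
    · have b1 := size_le_FL_runP'' (m := 2 * m + 2) (k := a + 2) (J := m + 1) (by omega)
      have b2 := size_le_FL_runP'' (m := 2 * (a + 2) - 2) (k := a) (J := m + 1) (by omega)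
      simp only [sum_map_size_append, sum_map_size_pair, sum_map_size_rect, FL_append, FL_pair,
        FL_rect, List.map_nil, List.sum_nil, FL_nil]
      omega
    · have b1 := size_le_FL_runP'' (m := 2 * m + 2) (k := a + 2) (J := m + 2) (by omega)
      have b2 := size_le_FL_runP'' (m := 2 * (a + 2) - 2) (k := a) (J := m + 2) (by omega)
      simp only [sum_map_size_append, sum_map_size_pair, sum_map_size_rect, FL_append, FL_pair,
        FL_rect, List.map_nil, List.sum_nil, FL_nil]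
      omega
    · intro J hJ
      have b1 := size_le_FL_runP'' (m := 2 * m + 2) (k := a + 2) (J := J) (by omega)
      have b2 := size_le_FL_runP'' (m := 2 * (a + 2) - 2) (k := a) (J := J) (by omega)
      simp only [sum_map_size_append, sum_map_size_pair, sum_map_size_rect, FL_append, FL_pair,
        FL_rect, List.map_nil, List.sum_nil, FL_nil]
      omega
  rw [show 2 * m + 4 = 2 * m + 2 - 2 * (a + 2) + (2 * (a + 2) + 1) + 2 - 1 by omega] at h0
  have h1 := h0.merge_gap_dup (by omega) (by omega) (by omega) (by omega)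
  have h2 := h1.perm (L' := .pair (2 * m - 2) :: .gap (2 * m + 2 - 2 * (a + 2)) ::
      .dup ((2 * (a + 2) + 1)) :: .pair 2 :: (runP (2 * m + 2) (a + 2) ++ runP (2 * (a + 2) - 2) a)) (by
    rw [List.perm_iff_count]; intro x
    simp only [List.count_append, List.count_cons]
    ring)
  have h3 : Decomp (.pair (m + 2 * (a + 2)) :: .gap (2 * m + 2 - 2 * (a + 2)) ::
      .dup ((2 * (a + 2) + 1)) :: .pair 2 :: (runP (2 * m + 2) (a + 2) ++ runP (2 * (a + 2) - 2) a)) fun j : Fin w => H j := by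
    rwa [show m + 2 * (a + 2) = 2 * m - 2 by omega]
  refine (h3.merge_dup (by omega)).perm ?_
  rw [List.perm_iff_count]; intro x
  simp only [List.count_append, List.count_cons, List.count_nil]
  ring

/-- case `m` even, `e = 1` -/
theorem dec_CE1 {v : ℕ} (hm : m = 2 * (v + 2) + 2) (hm8 : 7 ≤ m)
    (hn : n = 2 * m * m + 3 * m + 2 * 1) (hr : Region n (2 * m + 1) w w₂ H)
    (hN : ((CE m 0 (v + 2)).map Pc.size).sum = n) :
    Decomp (CE m 0 (v + 2)) fun j : Fin w => H j := by
  have hw := hr.row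
  have hw2 := hr.two_w2_ge (by rw [hn]; nlinarith) (by omega)
  have e1 : runP (m - 1) (v + 2) = .pair (m - 1) :: (runP (m - 3) v ++ [.pair 3]) := by
    rw [runP_succ, Nat.sub_sub, show 1 + 2 = 3 from rfl, runP_append _ v 1,
      show m - 3 - 2 * v = 3 by omega]
    rfl
  unfold CE at hN ⊢
  rw [e1, runP_zero, List.nil_append, mul_zero, runP_zero, Nat.sub_zero, Nat.zero_add,
    Nat.sub_zero] at hN ⊢
  have h0 : Decomp (.pair (2 * m + 5) :: .pair (2 * m - 1) :: (runP (2 * m - 1) (v + 2) ++ runP (m - 3) v)) fun j : Fin w => H j := by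
    refine core_Codd (e := 1) hm8 (by omega) hn hr _ ?_ ?_ ?_ ?_ ?_ ?_ ?_
    · intro p hp
      simp only [List.mem_cons, List.mem_append, List.not_mem_nil, or_false] at hp
      rcases hp with rfl | rfl | hp | hp
      · trivial
      · trivial
      · exact free_runP p hp
      · exact free_runP p hp
    · rw [← hN]
      simp only [sum_map_size_append, sum_map_size_pair, sum_map_size_rect, sum_map_size_dup,
        sum_map_size_gap]
      simp only [List.map_nil, List.sum_nil]
      omega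
    · simp only [FL_append, FL_pair, FL_rect, FL_nil]
      rw [FL_one_runP (by omega), FL_one_runP (by omega)]
      omega
    · have b1 := size_le_FL_runP'' (m := 2 * m - 1) (k := v + 2) (J := m) (by omega)
      have b2 := size_le_FL_runP'' (m := m - 3) (k := v) (J := m) (by omega)
      simp only [sum_map_size_append, sum_map_size_pair, sum_map_size_rect, FL_append, FL_pair,
        FL_rect, List.map_nil, List.sum_nil, FL_nil]
      omega
    · have b1 := size_le_FL_runP'' (m := 2 * m - 1) (k := v + 2) (J := m + 1) (by omega)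
      have b2 := size_le_FL_runP'' (m := m - 3) (k := v) (J := m + 1) (by omega)
      simp only [sum_map_size_append, sum_map_size_pair, sum_map_size_rect, FL_append, FL_pair,
        FL_rect, List.map_nil, List.sum_nil, FL_nil]
      omega
    · have b1 := size_le_FL_runP'' (m := 2 * m - 1) (k := v + 2) (J := m + 2) (by omega)
      have b2 := size_le_FL_runP'' (m := m - 3) (k := v) (J := m + 2) (by omega)
      simp only [sum_map_size_append, sum_map_size_pair, sum_map_size_rect, FL_append, FL_pair,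
        FL_rect, List.map_nil, List.sum_nil, FL_nil]
      omega
    · intro J hJ
      have b1 := size_le_FL_runP'' (m := 2 * m - 1) (k := v + 2) (J := J) (by omega)
      have b2 := size_le_FL_runP'' (m := m - 3) (k := v) (J := J) (by omega)
      simp only [sum_map_size_append, sum_map_size_pair, sum_map_size_rect, FL_append, FL_pair,
        FL_rect, List.map_nil, List.sum_nil, FL_nil]
      omega
  rw [show 2 * m + 5 = 2 * m + 2 + 1 + 3 - 1 by omega] at h0
  have h1 := h0.merge_gap_dup (by omega) (by omega) (by omega) (by omega)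
  have h2 := h1.perm (L' := .pair (2 * m - 1) :: .gap (2 * m + 2) ::
      .dup (1) :: .pair 3 :: (runP (2 * m - 1) (v + 2) ++ runP (m - 3) v)) (by
    rw [List.perm_iff_count]; intro x
    simp only [List.count_append, List.count_cons]
    ring)
  have h3 : Decomp (.pair (m + (m - 1)) :: .gap (2 * m + 2) ::
      .dup (1) :: .pair 3 :: (runP (2 * m - 1) (v + 2) ++ runP (m - 3) v)) fun j : Fin w => H j := by
    rwa [show m + (m - 1) = 2 * m - 1 by omega]
  refine (h3.merge_dup (by omega)).perm ?_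
  rw [List.perm_iff_count]; intro x
  simp only [List.count_append, List.count_cons, List.count_nil]
  ring

/-- case `m` odd, `e ≥ 3` -/
theorem dec_CO {a v : ℕ} (hm : m = 2 * (a + 1) + 2 * v + 3) (hm8 : 7 ≤ m)
    (hn : n = 2 * m * m + 3 * m + 2 * (2 * (a + 1) + 1)) (hr : Region n (2 * m + 1) w w₂ H)
    (hN : ((CO m (a + 1) v).map Pc.size).sum = n) :
    Decomp (CO m (a + 1) v) fun j : Fin w => H j := by
  have hw := hr.row
  have hw2 := hr.two_w2_ge (by rw [hn]; nlinarith) (by omega)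
  have e1 : runP m (v + 1) = .pair m :: runP (m - 2) v := runP_succ _ _
  have e2 : runP (2 * (a + 1)) (a + 1) = runP (2 * (a + 1)) a ++ [.pair 2] := by
    rw [runP_append _ a 1, runP_succ, runP_zero, show 2 * (a + 1) - 2 * a = 2 by omega]
  unfold CO at hN ⊢
  rw [e1, e2] at hN ⊢
  have h0 : Decomp (.pair (2 * m + 4) :: .pair (2 * m + 1) :: (runP (2 * m + 2) (a + 1) ++ (runP (2 * m - 2 * (a + 1) - 1) v ++
      (runP (m - 2) v ++ runP (2 * (a + 1)) a)))) fun j : Fin w => H j := by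
    refine core_Codd (e := (2 * (a + 1) + 1)) hm8 (by omega) hn hr _ ?_ ?_ ?_ ?_ ?_ ?_ ?_
    · intro p hp
      simp only [List.mem_cons, List.mem_append, List.not_mem_nil, or_false] at hp
      rcases hp with rfl | rfl | hp | hp | hp | hp
      · trivial
      · trivial
      · exact free_runP p hp
      · exact free_runP p hp
      · exact free_runP p hp
      · exact free_runP p hp
    · rw [← hN]
      simp only [sum_map_size_append, sum_map_size_pair, sum_map_size_rect, sum_map_size_dup,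
        sum_map_size_gap]
      simp only [List.map_nil, List.sum_nil]
      omega
    · simp only [FL_append, FL_pair, FL_rect, FL_nil]
      rw [FL_one_runP (by omega), FL_one_runP (by omega), FL_one_runP (by omega), FL_one_runP (by omega)]
      omega
    · have b1 := size_le_FL_runP'' (m := 2 * m + 2) (k := a + 1) (J := m) (by omega)
      have b2 := size_le_FL_runP'' (m := 2 * m - 2 * (a + 1) - 1) (k := v) (J := m) (by omega)
      have b3 := size_le_FL_runP'' (m := m - 2) (k := v) (J := m) (by omega)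
      have b4 := size_le_FL_runP'' (m := 2 * (a + 1)) (k := a) (J := m) (by omega)
      simp only [sum_map_size_append, sum_map_size_pair, sum_map_size_rect, FL_append, FL_pair,
        FL_rect, List.map_nil, List.sum_nil, FL_nil]
      omega
    · have b1 := size_le_FL_runP'' (m := 2 * m + 2) (k := a + 1) (J := m + 1) (by omega)
      have b2 := size_le_FL_runP'' (m := 2 * m - 2 * (a + 1) - 1) (k := v) (J := m + 1) (by omega)
      have b3 := size_le_FL_runP'' (m := m - 2) (k := v) (J := m + 1) (by omega)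
      have b4 := size_le_FL_runP'' (m := 2 * (a + 1)) (k := a) (J := m + 1) (by omega)
      simp only [sum_map_size_append, sum_map_size_pair, sum_map_size_rect, FL_append, FL_pair,
        FL_rect, List.map_nil, List.sum_nil, FL_nil]
      omega
    · have b1 := size_le_FL_runP'' (m := 2 * m + 2) (k := a + 1) (J := m + 2) (by omega)
      have b2 := size_le_FL_runP'' (m := 2 * m - 2 * (a + 1) - 1) (k := v) (J := m + 2) (by omega)
      have b3 := size_le_FL_runP'' (m := m - 2) (k := v) (J := m + 2) (by omega)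
      have b4 := size_le_FL_runP'' (m := 2 * (a + 1)) (k := a) (J := m + 2) (by omega)
      simp only [sum_map_size_append, sum_map_size_pair, sum_map_size_rect, FL_append, FL_pair,
        FL_rect, List.map_nil, List.sum_nil, FL_nil]
      omega
    · intro J hJ
      have b1 := size_le_FL_runP'' (m := 2 * m + 2) (k := a + 1) (J := J) (by omega)
      have b2 := size_le_FL_runP'' (m := 2 * m - 2 * (a + 1) - 1) (k := v) (J := J) (by omega)
      have b3 := size_le_FL_runP'' (m := m - 2) (k := v) (J := J) (by omega)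
      have b4 := size_le_FL_runP'' (m := 2 * (a + 1)) (k := a) (J := J) (by omega)
      simp only [sum_map_size_append, sum_map_size_pair, sum_map_size_rect, FL_append, FL_pair,
        FL_rect, List.map_nil, List.sum_nil, FL_nil]
      omega
  rw [show 2 * m + 4 = 2 * m + 2 - 2 * (a + 1) + (2 * (a + 1) + 1) + 2 - 1 by omega] at h0
  have h1 := h0.merge_gap_dup (by omega) (by omega) (by omega) (by omega)
  have h2 := h1.perm (L' := .pair (2 * m + 1) :: .gap (2 * m + 2 - 2 * (a + 1)) ::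
      .dup ((2 * (a + 1) + 1)) :: .pair 2 :: (runP (2 * m + 2) (a + 1) ++ (runP (2 * m - 2 * (a + 1) - 1) v ++
      (runP (m - 2) v ++ runP (2 * (a + 1)) a)))) (by
    rw [List.perm_iff_count]; intro x
    simp only [List.count_append, List.count_cons]
    ring)
  have h3 : Decomp (.pair ((m + 2) + m - 1) :: .gap (2 * m + 2 - 2 * (a + 1)) ::
      .dup ((2 * (a + 1) + 1)) :: .pair 2 :: (runP (2 * m + 2) (a + 1) ++ (runP (2 * m - 2 * (a + 1) - 1) v ++
      (runP (m - 2) v ++ runP (2 * (a + 1)) a)))) fun j : Fin w => H j := by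
    rwa [show (m + 2) + m - 1 = 2 * m + 1 by omega]
  refine (h3.merge_gap (by omega) (by omega) (by omega)).perm ?_
  rw [List.perm_iff_count]; intro x
  simp only [List.count_append, List.count_cons, List.count_nil]
  ring

/-- case `m` odd, `e = 1` -/
theorem dec_CO1 {v : ℕ} (hm : m = 2 * (v + 1) + 3) (hm8 : 7 ≤ m)
    (hn : n = 2 * m * m + 3 * m + 2 * 1) (hr : Region n (2 * m + 1) w w₂ H)
    (hN : ((CO m 0 (v + 1)).map Pc.size).sum = n) :
    Decomp (CO m 0 (v + 1)) fun j : Fin w => H j := by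
  have hw := hr.row
  have hw2 := hr.two_w2_ge (by rw [hn]; nlinarith) (by omega)
  have e1 : runP m (v + 1 + 1) = .pair m :: (runP (m - 2) v ++ [.pair 3]) := by
    rw [runP_succ, runP_append _ v 1, show m - 2 - 2 * v = 3 by omega]
    rfl
  unfold CO at hN ⊢
  rw [e1, runP_zero, List.nil_append, mul_zero, runP_zero, Nat.sub_zero, Nat.zero_add,
    Nat.sub_zero] at hN ⊢
  have h0 : Decomp (.pair (2 * m + 5) :: .pair (2 * m + 1) :: (runP (2 * m - 1) (v + 1) ++ runP (m - 2) v)) fun j : Fin w => H j := by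
    refine core_Codd (e := 1) hm8 (by omega) hn hr _ ?_ ?_ ?_ ?_ ?_ ?_ ?_
    · intro p hp
      simp only [List.mem_cons, List.mem_append, List.not_mem_nil, or_false] at hp
      rcases hp with rfl | rfl | hp | hp
      · trivial
      · trivial
      · exact free_runP p hp
      · exact free_runP p hp
    · rw [← hN]
      simp only [sum_map_size_append, sum_map_size_pair, sum_map_size_rect, sum_map_size_dup,
        sum_map_size_gap]
      simp only [List.map_nil, List.sum_nil]
      omega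
    · simp only [FL_append, FL_pair, FL_rect, FL_nil]
      rw [FL_one_runP (by omega), FL_one_runP (by omega)]
      omega
    · have b1 := size_le_FL_runP'' (m := 2 * m - 1) (k := v + 1) (J := m) (by omega)
      have b2 := size_le_FL_runP'' (m := m - 2) (k := v) (J := m) (by omega)
      simp only [sum_map_size_append, sum_map_size_pair, sum_map_size_rect, FL_append, FL_pair,
        FL_rect, List.map_nil, List.sum_nil, FL_nil]
      omega
    · have b1 := size_le_FL_runP'' (m := 2 * m - 1) (k := v + 1) (J := m + 1) (by omega)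
      have b2 := size_le_FL_runP'' (m := m - 2) (k := v) (J := m + 1) (by omega)
      simp only [sum_map_size_append, sum_map_size_pair, sum_map_size_rect, FL_append, FL_pair,
        FL_rect, List.map_nil, List.sum_nil, FL_nil]
      omega
    · have b1 := size_le_FL_runP'' (m := 2 * m - 1) (k := v + 1) (J := m + 2) (by omega)
      have b2 := size_le_FL_runP'' (m := m - 2) (k := v) (J := m + 2) (by omega)
      simp only [sum_map_size_append, sum_map_size_pair, sum_map_size_rect, FL_append, FL_pair,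
        FL_rect, List.map_nil, List.sum_nil, FL_nil]
      omega
    · intro J hJ
      have b1 := size_le_FL_runP'' (m := 2 * m - 1) (k := v + 1) (J := J) (by omega)
      have b2 := size_le_FL_runP'' (m := m - 2) (k := v) (J := J) (by omega)
      simp only [sum_map_size_append, sum_map_size_pair, sum_map_size_rect, FL_append, FL_pair,
        FL_rect, List.map_nil, List.sum_nil, FL_nil]
      omega
  rw [show 2 * m + 5 = 2 * m + 2 + 1 + 3 - 1 by omega] at h0
  have h1 := h0.merge_gap_dup (by omega) (by omega) (by omega) (by omega)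
  have h2 := h1.perm (L' := .pair (2 * m + 1) :: .gap (2 * m + 2) ::
      .dup (1) :: .pair 3 :: (runP (2 * m - 1) (v + 1) ++ runP (m - 2) v)) (by
    rw [List.perm_iff_count]; intro x
    simp only [List.count_append, List.count_cons]
    ring)
  have h3 : Decomp (.pair ((m + 2) + m - 1) :: .gap (2 * m + 2) ::
      .dup (1) :: .pair 3 :: (runP (2 * m - 1) (v + 1) ++ runP (m - 2) v)) fun j : Fin w => H j := by
    rwa [show (m + 2) + m - 1 = 2 * m + 1 by omega]
  refine (h3.merge_gap (by omega) (by omega) (by omega)).perm ?_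
  rw [List.perm_iff_count]; intro x
  simp only [List.count_append, List.count_cons, List.count_nil]
  ring

/-! ### Coverage -/

/-- **Coverage of family C, `e` odd.** -/
theorem covC_odd {m e : ℕ} (hm : 7 ≤ m) (he : e < m) (hodd : e % 2 = 1) :
    CovH (hC (2 * m + 1) e) := by
  intro H w w₂ hr
  have hv : ValidH (hC (2 * m + 1) e) := validH_hC (by omega)
  have hsz := hsize_hC' he
  rw [headD_hC he, if_neg (by omega)] at hr
  obtain ⟨a, rfl⟩ : ∃ a, e = 2 * a + 1 := ⟨e / 2, by omega⟩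
  have hn : hsize (hC (2 * m + 1) (2 * a + 1)) = 2 * m * m + 3 * m + 2 * (2 * a + 1) := by
    have : (2 * m + 1) * (m + 1) = 2 * m * m + 3 * m + 1 := by ring
    omega
  rcases Nat.mod_two_eq_zero_or_one m with hm2 | hm2
  · obtain ⟨v, hv'⟩ : ∃ v, m = 2 * a + 2 * v + 2 := ⟨(m - 2 * a - 2) / 2, by omega⟩
    have hN := sum_size_of_cols hv (valid_CE hv') (cols_CE hv')
    refine ⟨CE m a v, valid_CE hv', cols_CE hv', ?_⟩
    rcases Nat.eq_zero_or_pos a with rfl | ha
    · obtain ⟨b, rfl⟩ : ∃ b, v = b + 2 := ⟨v - 2, by omega⟩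
      exact dec_CE1 (by omega) hm hn hr hN
    · rcases Nat.eq_zero_or_pos v with rfl | hv1
      · obtain ⟨b, rfl⟩ : ∃ b, a = b + 2 := ⟨a - 2, by omega⟩
        exact dec_CE0 (by omega) hm hn hr hN
      · obtain ⟨b, rfl⟩ : ∃ b, v = b + 1 := ⟨v - 1, by omega⟩
        obtain ⟨c, rfl⟩ : ∃ c, a = c + 1 := ⟨a - 1, by omega⟩
        exact dec_CE hv' hm hn hr hN
  · obtain ⟨v, hv'⟩ : ∃ v, m = 2 * a + 2 * v + 3 := ⟨(m - 2 * a - 3) / 2, by omega⟩
    have hN := sum_size_of_cols hv (valid_CO hv') (cols_CO hv')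
    refine ⟨CO m a v, valid_CO hv', cols_CO hv', ?_⟩
    rcases Nat.eq_zero_or_pos a with rfl | ha
    · obtain ⟨b, rfl⟩ : ∃ b, v = b + 1 := ⟨v - 1, by omega⟩
      exact dec_CO1 (by omega) hm hn hr hN
    · obtain ⟨c, rfl⟩ : ∃ c, a = c + 1 := ⟨a - 1, by omega⟩
      exact dec_CO hv' hm hn hr hN

/-- **Family C, `e` odd.** -/
theorem covC_odd' (M e : ℕ) (hM : M % 2 = 1) (hM0 : 15 ≤ M) (he : 2 * e + 3 ≤ M)
    (hodd : e % 2 = 1) : CovH (hC M e) := by
  obtain ⟨m, rfl⟩ : ∃ m, M = 2 * m + 1 := ⟨M / 2, by omega⟩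
  exact covC_odd (by omega) (by omega) hodd

end Crest.Agent.R195
end

-- ▼ part R195/CovV
section

/-! Row 195, S0298 (helper864).  Coverage of the family V: `n = T_M - 3` and `n = T_M - 1`,
`M = 2 k`. -/

set_option autoImplicit false
set_option linter.unusedSectionVars false
set_option linter.unusedDecidableInType false

namespace Crest.Agent.R195

open Finset

/-- merging inside a list -/
theorem Decomp.merge_dup_at {w c c₁ : ℕ} {A B : List Pc} {H : Fin w → ℕ} (hc : 2 ≤ c₁)
    (h : Decomp (A ++ .pair (c + c₁) :: B) H) : Decomp (A ++ .dup c :: .pair c₁ :: B) H := by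
  have h1 : Decomp (.pair (c + c₁) :: (A ++ B)) H := h.perm List.perm_middle
  have h2 : Decomp (.dup c :: .pair c₁ :: (A ++ B)) H := h1.merge_dup hc
  refine h2.perm ?_
  have p1 : (A ++ .pair c₁ :: B).Perm (.pair c₁ :: (A ++ B)) := List.perm_middle
  have p2 : (A ++ .dup c :: .pair c₁ :: B).Perm (.dup c :: (A ++ .pair c₁ :: B)) :=
    List.perm_middle
  exact (p2.trans (p1.cons _)).symm

/-- the region of the family V -/
theorem regionV {n k w w₂ : ℕ} {H : ℕ → ℕ} (hk : 12 ≤ k) (hn : k * (2 * k + 1) ≤ n + 3)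
    (hr : Region n (2 * k) w w₂ H) : k + 6 ≤ w ∧ w ≤ 4 * k ∧ H 0 + 16 ≤ 4 * k ∧ H 0 + w ≤ n := by
  have h1 := hr.le_sq
  have h2 : 2 ≤ w₂ := hr.two_le (by nlinarith)
  have h4 := hr.row
  have h6 := hr.le_three h2
  have h7 := hr.col
  have h8 := hr.wlog
  obtain ⟨d, rfl⟩ : ∃ d, k = d + 12 := ⟨k - 12, by omega⟩
  refine ⟨?_, by omega, ?_, ?_⟩
  · by_contra hcon
    push Not at hcon
    have : w ≤ d + 17 := by omega
    nlinarith [Nat.mul_le_mul this this]
  · by_contra hcon
    push Not at hcon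
    have a1 : H 1 ≤ 15 := by omega
    have a2 : w₂ ≤ 15 := by omega
    obtain ⟨v, rfl⟩ : ∃ v, w₂ = v + 2 := ⟨w₂ - 2, by omega⟩
    have e1 : v + 2 - 1 = v + 1 := by omega
    rw [e1] at h6
    have a3 : v * H 1 + 2 * 13 ≤ v * 15 + 2 * H 1 + 2 * (13 - v) + 100 := by
      nlinarith
    nlinarith
  · nlinarith

/-- **Numerical core**: all pieces are pairs and rectangles, `n ≥ T_M - 3`, `M = 2 k`. -/
theorem covV_core {n k w w₂ : ℕ} {H : ℕ → ℕ} (hk : 12 ≤ k) (hn : k * (2 * k + 1) ≤ n + 3)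
    (hr : Region n (2 * k) w w₂ H) (L : List Pc) (hL : ∀ p ∈ L, p.free)
    (hs : (L.map Pc.size).sum = n) (h1 : 4 * k ≤ FL L 1 + 16) (h2 : n ≤ FL L (k - 1) + 17)
    (h3 : n ≤ FL L k + 11) (h4 : ∀ J, k < J → n ≤ FL L J + (k + 6 - J)) :
    Decomp L fun j : Fin w => H j := by
  obtain ⟨a1, a2, a3, a4⟩ := regionV hk hn hr
  have st := St.of_region (Q := 0) hr (by omega)
  have hcap : ∀ j, j < w → H j ≤ FL L 1 := by
    intro j _
    have := hr.le_H0 j
    omega
  obtain ⟨d, rfl⟩ : ∃ d, k = d + 12 := ⟨k - 12, by omega⟩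
  have hwl := hr.wlog
  rcases Nat.lt_or_ge w (2 * (d + 12)) with hw | hw
  · have st3 : St (2 * (d + 12)) (2 * (2 * (d + 12) - 1)) w n 0 H :=
      { st with
        two := fun i j _ _ _ => by
          have h1 := hr.le_H0 i
          have h2 := hr.le_H0 j
          omega }
    refine st3.free L hL hs.symm (d + 12) hcap ?_ ?_
    · have e2 : 2 * (2 * (d + 12) - 1) = 4 * d + 46 := by omega
      rw [e2]
      nlinarith
    · intro J hJ
      have := h4 J hJ
      omega
  · refine st.free L hL hs.symm (d + 12 - 1) hcap ?_ ?_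
    · have e1 : d + 12 - 1 = d + 11 := by omega
      rw [e1] at h2 ⊢
      nlinarith
    · intro J hJ
      rcases Nat.lt_or_ge (d + 12) J with h | h
      · have := h4 J h
        omega
      · have : J = d + 12 := by omega
        subst this
        omega

/-- columns of `hV P 0` -/
theorem cl_hV0 {P : ℕ} (h : 6 ≤ P) (s : ℕ) :
    cl (runH P ((P - 4) / 2) [3]) s = if s < (P - 4) / 2 then P - s
      else min ((P - 4) / 2) (P - s) + if s = (P - 4) / 2 then 3
        else if s ≤ (P - 4) / 2 + 2 then 1 else 0 := by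
  have hv : ValidH [3] := ⟨by simp, trivial⟩
  rw [cl_runH (ps := [3]) hv (fun _ => by simp only [List.headD_cons]; omega)]
  split_ifs with h1 h2 h3
  · rfl
  · rw [show s - (P - 4) / 2 = 0 by omega]; rfl
  · obtain ⟨d, hd⟩ : ∃ d, s - (P - 4) / 2 = d + 1 := ⟨s - (P - 4) / 2 - 1, by omega⟩
    rw [hd, cl_succ, if_pos (by omega)]
    rfl
  · obtain ⟨d, hd⟩ : ∃ d, s - (P - 4) / 2 = d + 1 := ⟨s - (P - 4) / 2 - 1, by omega⟩
    rw [hd, cl_succ, if_neg (by omega)]

/-- columns of `hV P 1`, `P = 2 k - 2` -/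
theorem cl_hV1 {k : ℕ} (h : 4 ≤ k) (s : ℕ) :
    cl (hV (2 * k - 2) 1) s = if s = 0 then 2 * k + 1 else if s < k - 2 then 2 * k - s
      else if s = k - 2 then k + 1 else if s ≤ k then k - 1
      else if s ≤ k + 2 then k - 2 else if s < 2 * k then 2 * k - s
      else if s = 2 * k then 1 else 0 := by
  have e : hV (2 * k - 2) 1 = (2 * k + 1) :: runH (2 * k - 2) ((2 * k - 2 - 4) / 2) [3] := by
    unfold hV
    rw [runH_succ, runH_zero, show 2 * k - 2 + 1 + 2 * 1 = 2 * k + 1 by omega]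
  rw [e]
  cases s with
  | zero => rfl
  | succ s =>
    rw [cl_succ, cl_hV0 (by omega)]
    have e3 : (2 * k - 2 - 4) / 2 = k - 3 := by omega
    rw [e3, if_neg (Nat.succ_ne_zero s)]
    simp only [Nat.min_def]
    split_ifs <;> omega

/-- decide all conditions -/
local macro "ifs_omega" : tactic =>
  `(tactic| repeat (first | rw [if_pos (by omega)] | rw [if_neg (by omega)]))

theorem tailV1e {k r : ℕ} (hk : k = 2 * r + 10) (s : ℕ) :
    (colsP (runP (k - 3) r ++ [.pair 7, .pair 5, .pair 3, .rect 1 2])).getD s 0 =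
      if s < k - 4 then k - 3 - s else if s < k - 2 then 1 else 0 := by
  rw [getD_runP_append]
  have e : colsP [.pair 7, .pair 5, .pair 3, .rect 1 2] = [7, 6, 5, 4, 3, 2, 1, 1] := rfl
  rw [e]
  by_cases hs : s < 2 * r
  · rw [if_pos hs, if_pos (by omega)]
  · rw [if_neg hs]
    obtain ⟨d, rfl⟩ : ∃ d, s = 2 * r + d := ⟨s - 2 * r, by omega⟩
    rw [show 2 * r + d - 2 * r = d by omega]
    rcases Nat.lt_or_ge d 8 with h | h
    · interval_cases d <;> simp <;> split_ifs <;> omega
    · rw [List.getD_eq_default _ _ (by simpa using h)]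
      ifs_omega

/-- `M = 2 k`, `k` even -/
theorem covV1_even {k r : ℕ} (hk : k = 2 * r + 10) (hk12 : 12 ≤ k) : CovH (hV (2 * k - 2) 1) := by
  intro H w w₂ hr
  have hsz := hsize_hV1 (P := 2 * k - 2) (by omega) (by omega)
  have hd : (hV (2 * k - 2) 1).headD 0 - 1 = 2 * k := by
    rw [← cl_zero, cl_hV1 (by omega), if_pos rfl]; omega
  rw [hd] at hr
  have hv := validH_hV (P := 2 * k - 2) (e := 1) (by omega) (by omega)
  have hn : k * (2 * k + 1) ≤ hsize (hV (2 * k - 2) 1) + 3 := by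
    rw [show 2 * k - 2 + 2 = 2 * k by omega, show 2 * k - 2 + 3 = 2 * k + 1 by omega] at hsz
    nlinarith
  have hL1 : validP (.gap (2 * k + 1) :: (runP (2 * k - 2) (r + 3) ++ (.rect (k + 1) 1 ::
      .dup (k - 1) :: .dup (k - 2) :: (runP (k - 3) r ++ [.pair 7, .pair 5, .pair 3,
        .rect 1 2])))) := by
    have v5 : validP [.pair 7, .pair 5, .pair 3, .rect 1 2] := by
      simp [validP, Pc.low, Pc.top, Pc.next]
    have v4 : validP (runP (k - 3) r ++ [.pair 7, .pair 5, .pair 3, .rect 1 2]) := by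
      refine validP_runP_append (by omega) v5 fun q hq => ?_
      simp only [List.mem_cons, List.not_mem_nil, or_false] at hq
      rcases hq with rfl | rfl | rfl | rfl <;> simp only [Pc.top] <;> omega
    have t4 : ∀ q ∈ (runP (k - 3) r ++ [.pair 7, .pair 5, .pair 3, .rect 1 2] : List Pc),
        q.top ≤ k - 3 := by
      intro q hq
      rw [List.mem_append] at hq
      rcases hq with hq | hq
      · exact top_runP q hq
      · simp only [List.mem_cons, List.not_mem_nil, or_false] at hq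
        rcases hq with rfl | rfl | rfl | rfl <;> simp only [Pc.top] <;> omega
    have v3 : validP (.rect (k + 1) 1 :: .dup (k - 1) :: .dup (k - 2) ::
        (runP (k - 3) r ++ [.pair 7, .pair 5, .pair 3, .rect 1 2])) := by
      refine ⟨by simp only [Pc.low, Pc.top]; omega, fun q hq => ?_,
        by simp only [Pc.low, Pc.top]; omega, fun q hq => ?_,
        by simp only [Pc.low, Pc.top]; omega, fun q hq => ?_, v4⟩
      · simp only [List.mem_cons] at hq
        rcases hq with rfl | rfl | hq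
        · simp only [Pc.top, Pc.next]; omega
        · simp only [Pc.top, Pc.next]; omega
        · have := t4 q hq
          simp only [Pc.next]; omega
      · simp only [List.mem_cons] at hq
        rcases hq with rfl | hq
        · simp only [Pc.top, Pc.next]; omega
        · have := t4 q hq
          simp only [Pc.next]; omega
      · have := t4 q hq
        simp only [Pc.next]; omega
    have t3 : ∀ q ∈ (.rect (k + 1) 1 :: .dup (k - 1) :: .dup (k - 2) ::
        (runP (k - 3) r ++ [.pair 7, .pair 5, .pair 3, .rect 1 2]) : List Pc), q.top ≤ k + 1 := by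
      intro q hq
      simp only [List.mem_cons] at hq
      rcases hq with rfl | rfl | rfl | hq
      · simp only [Pc.top]; omega
      · simp only [Pc.top]; omega
      · simp only [Pc.top]; omega
      · have := t4 q hq
        omega
    refine ⟨by simp only [Pc.low, Pc.top]; omega, fun q hq => ?_,
      validP_runP_append (by omega) v3 fun q hq => (t3 q hq).trans (by omega)⟩
    rw [List.mem_append] at hq
    rcases hq with hq | hq
    · have := top_runP q hq
      simp only [Pc.next]; omega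
    · have := t3 q hq
      simp only [Pc.next]; omega
  have hL2 : ∀ s, (colsP (.gap (2 * k + 1) :: (runP (2 * k - 2) (r + 3) ++ (.rect (k + 1) 1 ::
      .dup (k - 1) :: .dup (k - 2) :: (runP (k - 3) r ++ [.pair 7, .pair 5, .pair 3,
        .rect 1 2]))))).getD s 0 = cl (hV (2 * k - 2) 1) s := by
    intro s
    rw [getD_gap_cons, getD_runP_append, getD_rect_cons, getD_dup_cons, getD_dup_cons,
      tailV1e hk, cl_hV1 (by omega)]
    rcases Nat.lt_or_ge s 1 with h0 | h0
    · ifs_omega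
    rcases Nat.lt_or_ge s 2 with h1 | h1
    · ifs_omega
      omega
    rcases Nat.lt_or_ge s (k - 2) with h2 | h2
    · ifs_omega
      omega
    rcases Nat.lt_or_ge s (k - 1) with h3 | h3
    · ifs_omega
    rcases Nat.lt_or_ge s (k + 1) with h4 | h4
    · ifs_omega
    rcases Nat.lt_or_ge s (k + 3) with h5 | h5
    · ifs_omega
    rcases Nat.lt_or_ge s (2 * k - 1) with h6 | h6
    · ifs_omega
      omega
    rcases Nat.lt_or_ge s (2 * k) with h7 | h7
    · ifs_omega
      omega
    rcases Nat.lt_or_ge s (2 * k + 1) with h8 | h8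
    · ifs_omega
    · ifs_omega
  refine ⟨_, hL1, hL2, ?_⟩
  have htot := sum_size_of_cols hv hL1 hL2
  -- merging
  have hmerge : Decomp (.pair (2 * k + 1 + 5 - 1) :: .pair (k - 1 + 3) :: .pair (k - 2 + 7) ::
      .rect (k + 1) 1 :: .rect 1 2 :: (runP (2 * k - 2) (r + 3) ++ runP (k - 3) r))
      (fun j : Fin w => H j) := by
    simp only [List.map_append, List.sum_append, List.map_cons,
      List.map_nil, List.sum_cons, List.sum_nil, Pc.size] at htot
    refine covV_core hk12 hn hr _ ?_ ?_ ?_ ?_ ?_ ?_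
    · intro p hp
      simp only [List.mem_cons, List.mem_append] at hp
      rcases hp with rfl | rfl | rfl | rfl | rfl | hp | hp
      · trivial
      · trivial
      · trivial
      · trivial
      · trivial
      · exact free_runP p hp
      · exact free_runP p hp
    · simp only [List.map_append, List.sum_append, List.map_cons, List.sum_cons, Pc.size]
      omega
    · simp only [FL_append, FL_cons, Pc.size, Pc.cap]
      rw [FL_one_runP (by omega), FL_one_runP (by omega)]
      omega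
    · rw [← htot]
      simp only [FL_append, FL_cons, Pc.size, Pc.cap]
      have h1 := size_le_FL_runP (2 * k - 2) (r + 3) (k - 1)
      have h2 := size_le_FL_runP (k - 3) r (k - 1)
      rw [show 2 * k - 2 - 2 * (k - 1) = 0 by omega, tri_zero] at h1
      rw [show k - 3 - 2 * (k - 1) = 0 by omega, tri_zero] at h2
      omega
    · rw [← htot]
      simp only [FL_append, FL_cons, Pc.size, Pc.cap]
      have h1 := size_le_FL_runP (2 * k - 2) (r + 3) k
      have h2 := size_le_FL_runP (k - 3) r k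
      rw [show 2 * k - 2 - 2 * k = 0 by omega, tri_zero] at h1
      rw [show k - 3 - 2 * k = 0 by omega, tri_zero] at h2
      omega
    · intro J hJ
      rw [← htot]
      simp only [FL_append, FL_cons, Pc.size, Pc.cap]
      have h1 := size_le_FL_runP (2 * k - 2) (r + 3) J
      have h2 := size_le_FL_runP (k - 3) r J
      rw [show 2 * k - 2 - 2 * J = 0 by omega, tri_zero] at h1
      rw [show k - 3 - 2 * J = 0 by omega, tri_zero] at h2
      omega
  have hw : w ≤ 4 * k := by
    have := hr.row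
    omega
  have d1 := hmerge.merge_gap (by omega) (by omega) (by omega)
  have d2 := Decomp.merge_dup_at (A := [.gap (2 * k + 1), .pair 5]) (c := k - 1) (c₁ := 3)
    (by omega) d1
  have d3 := Decomp.merge_dup_at (A := [.gap (2 * k + 1), .pair 5, .dup (k - 1), .pair 3])
    (c := k - 2) (c₁ := 7) (by omega) d2
  refine d3.perm (Multiset.coe_eq_coe.1 ?_)
  simp only [List.cons_append, List.nil_append, ← Multiset.cons_coe, ← Multiset.coe_add,
    ← Multiset.singleton_add, Multiset.coe_nil]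
  abel

theorem tailV1o {k r : ℕ} (hk : k = 2 * r + 11) (s : ℕ) :
    (colsP (runP (k - 3) r ++ [.pair 8, .pair 6, .pair 4, .rect 2 1, .rect 1 2])).getD s 0 =
      if s < k - 4 then k - 3 - s else if s < k - 2 then 1 else 0 := by
  rw [getD_runP_append]
  have e : colsP [.pair 8, .pair 6, .pair 4, .rect 2 1, .rect 1 2] = [8, 7, 6, 5, 4, 3, 2, 1, 1] := rfl
  rw [e]
  by_cases hs : s < 2 * r
  · rw [if_pos hs, if_pos (by omega)]
  · rw [if_neg hs]
    obtain ⟨d, rfl⟩ : ∃ d, s = 2 * r + d := ⟨s - 2 * r, by omega⟩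
    rw [show 2 * r + d - 2 * r = d by omega]
    rcases Nat.lt_or_ge d 9 with h | h
    · interval_cases d <;> simp <;> split_ifs <;> omega
    · rw [List.getD_eq_default _ _ (by simpa using h)]
      ifs_omega

/-- `M = 2 k`, `k` odd -/
theorem covV1_odd {k r : ℕ} (hk : k = 2 * r + 11) (hk12 : 12 ≤ k) : CovH (hV (2 * k - 2) 1) := by
  intro H w w₂ hr
  have hsz := hsize_hV1 (P := 2 * k - 2) (by omega) (by omega)
  have hd : (hV (2 * k - 2) 1).headD 0 - 1 = 2 * k := by
    rw [← cl_zero, cl_hV1 (by omega), if_pos rfl]; omega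
  rw [hd] at hr
  have hv := validH_hV (P := 2 * k - 2) (e := 1) (by omega) (by omega)
  have hn : k * (2 * k + 1) ≤ hsize (hV (2 * k - 2) 1) + 3 := by
    rw [show 2 * k - 2 + 2 = 2 * k by omega, show 2 * k - 2 + 3 = 2 * k + 1 by omega] at hsz
    nlinarith
  have hL1 : validP (.gap (2 * k + 1) :: (runP (2 * k - 2) (r + 3) ++ (.rect (k + 3) 1 :: .rect (k + 1) 1 ::
      .dup (k - 1) :: .dup (k - 2) :: (runP (k - 3) r ++ [.pair 8, .pair 6, .pair 4,
        .rect 2 1, .rect 1 2])))) := by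
    have v5 : validP [.pair 8, .pair 6, .pair 4, .rect 2 1, .rect 1 2] := by
      simp [validP, Pc.low, Pc.top, Pc.next]
    have v4 : validP (runP (k - 3) r ++ [.pair 8, .pair 6, .pair 4, .rect 2 1, .rect 1 2]) := by
      refine validP_runP_append (by omega) v5 fun q hq => ?_
      simp only [List.mem_cons, List.not_mem_nil, or_false] at hq
      rcases hq with rfl | rfl | rfl | rfl | rfl <;> simp only [Pc.top] <;> omega
    have t4 : ∀ q ∈ (runP (k - 3) r ++ [.pair 8, .pair 6, .pair 4, .rect 2 1, .rect 1 2] : List Pc),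
        q.top ≤ k - 3 := by
      intro q hq
      rw [List.mem_append] at hq
      rcases hq with hq | hq
      · exact top_runP q hq
      · simp only [List.mem_cons, List.not_mem_nil, or_false] at hq
        rcases hq with rfl | rfl | rfl | rfl | rfl <;> simp only [Pc.top] <;> omega
    have v3 : validP (.rect (k + 1) 1 :: .dup (k - 1) :: .dup (k - 2) ::
        (runP (k - 3) r ++ [.pair 8, .pair 6, .pair 4, .rect 2 1, .rect 1 2])) := by
      refine ⟨by simp only [Pc.low, Pc.top]; omega, fun q hq => ?_,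
        by simp only [Pc.low, Pc.top]; omega, fun q hq => ?_,
        by simp only [Pc.low, Pc.top]; omega, fun q hq => ?_, v4⟩
      · simp only [List.mem_cons] at hq
        rcases hq with rfl | rfl | hq
        · simp only [Pc.top, Pc.next]; omega
        · simp only [Pc.top, Pc.next]; omega
        · have := t4 q hq
          simp only [Pc.next]; omega
      · simp only [List.mem_cons] at hq
        rcases hq with rfl | hq
        · simp only [Pc.top, Pc.next]; omega
        · have := t4 q hq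
          simp only [Pc.next]; omega
      · have := t4 q hq
        simp only [Pc.next]; omega
    have t3 : ∀ q ∈ (.rect (k + 1) 1 :: .dup (k - 1) :: .dup (k - 2) ::
        (runP (k - 3) r ++ [.pair 8, .pair 6, .pair 4, .rect 2 1, .rect 1 2]) : List Pc), q.top ≤ k + 1 := by
      intro q hq
      simp only [List.mem_cons] at hq
      rcases hq with rfl | rfl | rfl | hq
      · simp only [Pc.top]; omega
      · simp only [Pc.top]; omega
      · simp only [Pc.top]; omega
      · have := t4 q hq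
        omega
    have v2 : validP (.rect (k + 3) 1 :: .rect (k + 1) 1 :: .dup (k - 1) :: .dup (k - 2) ::
        (runP (k - 3) r ++ [.pair 8, .pair 6, .pair 4, .rect 2 1, .rect 1 2])) := by
      refine ⟨by simp only [Pc.low, Pc.top]; omega, fun q hq => ?_, v3⟩
      have := t3 q hq
      simp only [Pc.next]; omega
    have t2 : ∀ q ∈ (.rect (k + 3) 1 :: .rect (k + 1) 1 :: .dup (k - 1) :: .dup (k - 2) ::
        (runP (k - 3) r ++ [.pair 8, .pair 6, .pair 4, .rect 2 1, .rect 1 2]) : List Pc),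
        q.top ≤ k + 3 := by
      intro q hq
      rw [List.mem_cons] at hq
      rcases hq with rfl | hq
      · simp only [Pc.top]; omega
      · have := t3 q hq
        omega
    refine ⟨by simp only [Pc.low, Pc.top]; omega, fun q hq => ?_,
      validP_runP_append (by omega) v2 fun q hq => (t2 q hq).trans (by omega)⟩
    rw [List.mem_append] at hq
    rcases hq with hq | hq
    · have := top_runP q hq
      simp only [Pc.next]; omega
    · have := t2 q hq
      simp only [Pc.next]; omega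
  have hL2 : ∀ s, (colsP (.gap (2 * k + 1) :: (runP (2 * k - 2) (r + 3) ++ (.rect (k + 3) 1 :: .rect (k + 1) 1 ::
      .dup (k - 1) :: .dup (k - 2) :: (runP (k - 3) r ++ [.pair 8, .pair 6, .pair 4,
        .rect 2 1, .rect 1 2]))))).getD s 0 = cl (hV (2 * k - 2) 1) s := by
    intro s
    rw [getD_gap_cons, getD_runP_append, getD_rect_cons, getD_rect_cons, getD_dup_cons,
      getD_dup_cons, tailV1o hk, cl_hV1 (by omega)]
    rcases Nat.lt_or_ge s 1 with h0 | h0
    · ifs_omega
    rcases Nat.lt_or_ge s 2 with h1 | h1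
    · ifs_omega
      omega
    rcases Nat.lt_or_ge s (k - 3) with h2' | h2'
    · ifs_omega
      omega
    rcases Nat.lt_or_ge s (k - 2) with h2 | h2
    · ifs_omega
      omega
    rcases Nat.lt_or_ge s (k - 1) with h3 | h3
    · ifs_omega
    rcases Nat.lt_or_ge s (k + 1) with h4 | h4
    · ifs_omega
    rcases Nat.lt_or_ge s (k + 3) with h5 | h5
    · ifs_omega
    rcases Nat.lt_or_ge s (2 * k - 1) with h6 | h6
    · ifs_omega
      omega
    rcases Nat.lt_or_ge s (2 * k) with h7 | h7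
    · ifs_omega
      omega
    rcases Nat.lt_or_ge s (2 * k + 1) with h8 | h8
    · ifs_omega
    · ifs_omega
  refine ⟨_, hL1, hL2, ?_⟩
  have htot := sum_size_of_cols hv hL1 hL2
  -- merging
  have hmerge : Decomp (.pair (2 * k + 1 + 4 - 1) :: .pair (k - 1 + 6) :: .pair (k - 2 + 8) ::
      .rect (k + 3) 1 :: .rect (k + 1) 1 :: .rect 2 1 :: .rect 1 2 :: (runP (2 * k - 2) (r + 3) ++ runP (k - 3) r))
      (fun j : Fin w => H j) := by
    simp only [List.map_append, List.sum_append, List.map_cons,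
      List.map_nil, List.sum_cons, List.sum_nil, Pc.size] at htot
    refine covV_core hk12 hn hr _ ?_ ?_ ?_ ?_ ?_ ?_
    · intro p hp
      simp only [List.mem_cons, List.mem_append] at hp
      rcases hp with rfl | rfl | rfl | rfl | rfl | rfl | rfl | hp | hp
      · trivial
      · trivial
      · trivial
      · trivial
      · trivial
      · trivial
      · trivial
      · exact free_runP p hp
      · exact free_runP p hp
    · simp only [List.map_append, List.sum_append, List.map_cons, List.sum_cons, Pc.size]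
      omega
    · simp only [FL_append, FL_cons, Pc.size, Pc.cap]
      rw [FL_one_runP (by omega), FL_one_runP (by omega)]
      omega
    · rw [← htot]
      simp only [FL_append, FL_cons, Pc.size, Pc.cap]
      have h1 := size_le_FL_runP (2 * k - 2) (r + 3) (k - 1)
      have h2 := size_le_FL_runP (k - 3) r (k - 1)
      rw [show 2 * k - 2 - 2 * (k - 1) = 0 by omega, tri_zero] at h1
      rw [show k - 3 - 2 * (k - 1) = 0 by omega, tri_zero] at h2
      omega
    · rw [← htot]
      simp only [FL_append, FL_cons, Pc.size, Pc.cap]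
      have h1 := size_le_FL_runP (2 * k - 2) (r + 3) k
      have h2 := size_le_FL_runP (k - 3) r k
      rw [show 2 * k - 2 - 2 * k = 0 by omega, tri_zero] at h1
      rw [show k - 3 - 2 * k = 0 by omega, tri_zero] at h2
      omega
    · intro J hJ
      rw [← htot]
      simp only [FL_append, FL_cons, Pc.size, Pc.cap]
      have h1 := size_le_FL_runP (2 * k - 2) (r + 3) J
      have h2 := size_le_FL_runP (k - 3) r J
      rw [show 2 * k - 2 - 2 * J = 0 by omega, tri_zero] at h1
      rw [show k - 3 - 2 * J = 0 by omega, tri_zero] at h2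
      omega
  have hw : w ≤ 4 * k := by
    have := hr.row
    omega
  have d1 := hmerge.merge_gap (by omega) (by omega) (by omega)
  have d2 := Decomp.merge_dup_at (A := [.gap (2 * k + 1), .pair 4]) (c := k - 1) (c₁ := 6)
    (by omega) d1
  have d3 := Decomp.merge_dup_at (A := [.gap (2 * k + 1), .pair 4, .dup (k - 1), .pair 6])
    (c := k - 2) (c₁ := 8) (by omega) d2
  refine d3.perm (Multiset.coe_eq_coe.1 ?_)
  simp only [List.cons_append, List.nil_append, ← Multiset.cons_coe, ← Multiset.coe_add,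
    ← Multiset.singleton_add, Multiset.coe_nil]
  abel

/-- **Coverage of `hV P 1`** (`n = T_{P+2} - 3`). -/
theorem covV1 (P : ℕ) (hP : P % 2 = 0) (h : 22 ≤ P) : CovH (hV P 1) := by
  obtain ⟨k, hk⟩ : ∃ k, P = 2 * k - 2 := ⟨P / 2 + 1, by omega⟩
  subst hk
  rcases Nat.mod_two_eq_zero_or_one k with h2 | h2
  · exact covV1_even (r := (k - 10) / 2) (by omega) (by omega)
  · exact covV1_odd (r := (k - 11) / 2) (by omega) (by omega)

end Crest.Agent.R195
end

-- ▼ part R195/CovAll
section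

/-! Row 195, S0298 (helper563).  Coverage of the families: uniform theorems and small table together. -/

set_option autoImplicit false

namespace Crest.Agent.R195

open MergeS

/-- family `hA`: all members with `M ≥ 7`, `e ≥ 1` except `e = 1`, `M ≤ 9` -/
theorem covA_all (M e : ℕ) (hM : 7 ≤ M) (h1 : e = 1 → 10 ≤ M) (he1 : 1 ≤ e) (he : 2 * e ≤ M) :
    CovH (hA M e) := by
  rcases Nat.lt_or_ge M 11 with h | h
  · interval_cases M
    · exact covA_7_2 e (by omega) (by omega)
    · exact covA_8_2 e (by omega) (by omega)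
    · exact covA_9_2 e (by omega) (by omega)
    · by_cases h2 : e = 1
      · exact covA_10_1 e (by omega) (by omega)
      · exact covA'' 10 e (by omega) (by omega) he1 he
  · exact covA'' M e (by omega) (by omega) he1 he

/-- family `hB`: all members with `M ≥ 12`, and `M = 10` without `e = 1` -/
theorem covB_all (M e : ℕ) (hp : M % 2 = 0) (hM : 10 ≤ M) (h1 : e = 1 → 12 ≤ M)
    (he : 2 * e + 2 ≤ M) : CovH (hB M e) := by
  rcases Nat.lt_or_ge M 16 with h | h
  · obtain ⟨m, rfl⟩ : ∃ m, M = 2 * m := ⟨M / 2, by omega⟩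
    have hm : 5 ≤ m := by omega
    have hm' : m ≤ 7 := by omega
    interval_cases m
    · by_cases h2 : e = 0
      · exact covB_10_0 e (by omega) (by omega)
      · exact covB_10_2 e (by omega) (by omega)
    · exact covB_12_0 e (by omega) (by omega)
    · rcases Nat.mod_two_eq_zero_or_one e with h2 | h2
      · exact covB_even' 14 e rfl (by omega) he h2
      · have h3 : e = 1 ∨ e = 3 ∨ e = 5 := by omega
        rcases h3 with rfl | rfl | rfl
        · exact covB_14_1 1 (by omega) (by omega)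
        · exact covB_14_3 3 (by omega) (by omega)
        · exact covB_14_5 5 (by omega) (by omega)
  · rcases Nat.mod_two_eq_zero_or_one e with h2 | h2
    · exact covB_even' M e hp (by omega) he h2
    · exact covB_odd' M e hp h he h2

/-- family `hC`: all members with `M ≥ 13`, and `M = 9, 11` without `e = 1` -/
theorem covC_all (M e : ℕ) (hp : M % 2 = 1) (hM : 9 ≤ M) (h1 : e = 1 → 13 ≤ M)
    (he : 2 * e + 3 ≤ M) : CovH (hC M e) := by
  rcases Nat.lt_or_ge M 15 with h | h
  · obtain ⟨m, rfl⟩ : ∃ m, M = 2 * m + 1 := ⟨M / 2, by omega⟩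
    have hm : 4 ≤ m := by omega
    have hm' : m ≤ 6 := by omega
    interval_cases m
    · by_cases h2 : e = 0
      · exact covC_9_0 e (by omega) (by omega)
      · exact covC_9_2 e (by omega) (by omega)
    · by_cases h2 : e = 0
      · exact covC_11_0 e (by omega) (by omega)
      · exact covC_11_2 e (by omega) (by omega)
    · exact covC_13_0 e (by omega) (by omega)
  · rcases Nat.mod_two_eq_zero_or_one e with h2 | h2
    · exact covC_even' M e hp (by omega) he h2
    · exact covC_odd' M e hp h he h2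

/-- family `hV _ 1` -/
theorem covV1_all (P : ℕ) (hp : P % 2 = 0) (hP : 18 ≤ P) : CovH (hV P 1) := by
  rcases Nat.lt_or_ge P 22 with h | h
  · have h3 : P = 18 ∨ P = 20 := by omega
    rcases h3 with rfl | rfl
    · exact covV_18_1 1 (by omega) (by omega)
    · exact covV_20_1 1 (by omega) (by omega)
  · exact covV1 P hp h

/-- family `hV _ 2` -/
theorem covV2_all (P : ℕ) (hp : P % 2 = 0) (hP : 10 ≤ P) : CovH (hV P 2) := by
  rcases Nat.lt_or_ge P 14 with h | h
  · have h3 : P = 10 ∨ P = 12 := by omega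
    rcases h3 with rfl | rfl
    · exact covV_10_2 2 (by omega) (by omega)
    · exact covV_12_2 2 (by omega) (by omega)
  · exact covV2' P hp h

end Crest.Agent.R195
end

-- ▼ part R195/TreeV14
section

set_option autoImplicit false

namespace Crest.Agent.R195

/-! hook list [17, 14, 12, 10, 8, 6, 3], n = 133: 198 nodes, 9 commitments -/

def ls_17_14_12_10_8_6_3 : List (List Pc) :=
  [[.gap 17, .pair 14, .pair 12, .rect 9 1, .dup 7, .dup 6, .pair 5, .pair 3, .dup 1],
   [.rect 17 1, .pair 15, .pair 13, .gap 11, .dup 7, .dup 6, .pair 5, .pair 3, .dup 1],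
   [.rect 17 1, .pair 15, .pair 13, .rect 11 1, .rect 9 1, .dup 7, .dup 6, .pair 5, .pair 3, .dup 1]]

def sp_17_14_12_10_8_6_3 : List (ℕ × List ℕ) :=
  [(0, [3, 0, 0, 0, 2, 2, 3, 3, 1]),
   (0, [4, 0, 2, 0, 2, 1, 3, 3, 1]),
   (1, [0, 0, 0, 3, 2, 2, 3, 3, 1]),
   (2, [0, 0, 0, 0, 0, 4, 3, 2, 3, 1])]

def spC_17_14_12_10_8_6_3 : List (List (ℕ × ℕ)) :=
  [[(36, 3), (27, 4), (23, 4), (9, 1), (15, 2), (13, 2), (6, 1), (2, 1), (2, 1)],
   [(39, 4), (27, 4), (21, 2), (9, 1), (15, 2), (12, 1), (6, 1), (2, 1), (2, 1)],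
   [(17, 1), (29, 4), (25, 4), (24, 3), (15, 2), (13, 2), (6, 1), (2, 1), (2, 1)],
   [(17, 1), (29, 4), (25, 4), (11, 1), (9, 1), (17, 4), (14, 3), (7, 2), (2, 1), (2, 1)]]

def cm_17_14_12_10_8_6_3 : List CM :=
  [⟨[24, 8], 0, [([2, 2], (.ev, 28)), ([4, 0], (.pl 4, 23)), ([4, 0], (.pl 4, 19)), ([1, 0], (.pl 1, 8)), ([4, 4], (.ev, 6)), ([2, 2], (.ev, 8)), ([4, 0], (.pl 4, 5)), ([3, 0], (.pl 4, 2)), ([0, 0], (.ev, 2))], [2, 0, 0, 0, 1, 1, 0, 1, 1]⟩,
   ⟨[23, 9], 0, [([2, 2], (.ev, 28)), ([4, 0], (.pl 4, 23)), ([4, 0], (.pl 4, 19)), ([1, 0], (.pl 1, 8)), ([4, 4], (.ev, 6)), ([3, 3], (.ev, 6)), ([4, 0], (.pl 4, 5)), ([1, 0], (.pl 4, 4)), ([0, 0], (.ev, 2))], [2, 0, 0, 0, 1, 1, 0, 1, 1]⟩,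
   ⟨[23, 8], 0, [([2, 2], (.ev, 28)), ([4, 0], (.pl 4, 23)), ([4, 0], (.pl 4, 19)), ([1, 0], (.pl 1, 8)), ([4, 4], (.ev, 6)), ([2, 2], (.ev, 8)), ([4, 0], (.pl 4, 5)), ([2, 0], (.pl 4, 3)), ([0, 0], (.ev, 2))], [2, 0, 0, 0, 1, 1, 0, 1, 1]⟩,
   ⟨[16, 16], 0, [([2, 2], (.ev, 28)), ([4, 2], (.pl 4, 21)), ([0, 2], (.pl 4, 21)), ([1, 1], (.pl 1, 7)), ([4, 4], (.ev, 6)), ([4, 4], (.ev, 4)), ([0, 0], (.pl 4, 9)), ([0, 0], (.pl 4, 5)), ([1, 1], (.ev, 0))], [4, 0, 0, 0, 1, 1, 1, 2, 1]⟩,
   ⟨[16, 15], 0, [([2, 2], (.ev, 28)), ([4, 2], (.pl 4, 21)), ([0, 1], (.pl 4, 22)), ([1, 1], (.pl 1, 7)), ([4, 4], (.ev, 6)), ([4, 4], (.ev, 4)), ([0, 0], (.pl 4, 9)), ([0, 0], (.pl 4, 5)), ([1, 1], (.ev, 0))], [4, 1, 0, 0, 1, 1, 1, 1, 1]⟩,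
   ⟨[16, 14], 0, [([2, 2], (.ev, 28)), ([4, 1], (.pl 4, 22)), ([0, 1], (.pl 4, 22)), ([1, 1], (.pl 1, 7)), ([4, 4], (.ev, 6)), ([4, 4], (.ev, 4)), ([0, 0], (.pl 4, 9)), ([0, 0], (.pl 4, 5)), ([1, 1], (.ev, 0))], [4, 1, 0, 0, 1, 1, 1, 1, 1]⟩,
   ⟨[15, 15], 0, [([2, 2], (.ev, 28)), ([3, 2], (.pl 4, 22)), ([0, 1], (.pl 4, 22)), ([1, 1], (.pl 1, 7)), ([4, 4], (.ev, 6)), ([4, 4], (.ev, 4)), ([0, 0], (.pl 4, 9)), ([0, 0], (.pl 4, 5)), ([1, 1], (.ev, 0))], [4, 1, 0, 0, 1, 1, 1, 1, 1]⟩,
   ⟨[15, 14], 0, [([2, 2], (.ev, 28)), ([3, 2], (.pl 4, 22)), ([0, 0], (.pl 4, 23)), ([1, 1], (.pl 1, 7)), ([4, 4], (.ev, 6)), ([4, 4], (.ev, 4)), ([0, 0], (.pl 4, 9)), ([0, 0], (.pl 4, 5)), ([1, 1], (.ev, 0))], [4, 1, 0, 0, 1, 1, 1, 1, 1]⟩,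
   ⟨[14, 14], 0, [([2, 2], (.ev, 28)), ([2, 2], (.pl 4, 23)), ([0, 0], (.pl 4, 23)), ([1, 1], (.pl 1, 7)), ([4, 4], (.ev, 6)), ([4, 4], (.ev, 4)), ([0, 0], (.pl 4, 9)), ([0, 0], (.pl 4, 5)), ([1, 1], (.ev, 0))], [4, 1, 0, 0, 1, 1, 1, 1, 1]⟩]

def cmC_17_14_12_10_8_6_3 : List (List ℕ × List (ℕ × ℕ)) :=
  [([24, 8], [(29, 2), (23, 4), (19, 4), (8, 1), (6, 1), (8, 1), (5, 4), (1, 3), (2, 1)]),
   ([23, 9], [(29, 2), (23, 4), (19, 4), (8, 1), (6, 1), (6, 1), (5, 4), (3, 3), (2, 1)]),
   ([23, 8], [(29, 2), (23, 4), (19, 4), (8, 1), (6, 1), (8, 1), (5, 4), (2, 3), (2, 1)]),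
   ([16, 16], [(31, 4), (21, 4), (21, 4), (7, 1), (6, 1), (4, 1), (8, 3), (3, 2), (0, 1)]),
   ([16, 15], [(31, 4), (20, 3), (22, 4), (7, 1), (6, 1), (4, 1), (8, 3), (4, 3), (0, 1)]),
   ([16, 14], [(31, 4), (21, 3), (22, 4), (7, 1), (6, 1), (4, 1), (8, 3), (4, 3), (0, 1)]),
   ([15, 15], [(31, 4), (21, 3), (22, 4), (7, 1), (6, 1), (4, 1), (8, 3), (4, 3), (0, 1)]),
   ([15, 14], [(31, 4), (21, 3), (23, 4), (7, 1), (6, 1), (4, 1), (8, 3), (4, 3), (0, 1)]),
   ([14, 14], [(31, 4), (22, 3), (23, 4), (7, 1), (6, 1), (4, 1), (8, 3), (4, 3), (0, 1)])]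

set_option Elab.async false in
theorem covH_17_14_12_10_8_6_3 : CovH [17, 14, 12, 10, 8, 6, 3] :=
  covH_of_tree (by decide) ls_17_14_12_10_8_6_3 sp_17_14_12_10_8_6_3 cm_17_14_12_10_8_6_3 spC_17_14_12_10_8_6_3 cmC_17_14_12_10_8_6_3 99 (by decide +kernel) (by decide +kernel)
    (by decide +kernel) (by decide +kernel) (by decide +kernel) (by decide +kernel)

theorem covT_hV_14_1 : CovH (hV 14 1) := covH_17_14_12_10_8_6_3

end Crest.Agent.R195
end

-- ▼ part R195/TreeV16
section

set_option autoImplicit false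

namespace Crest.Agent.R195

/-! hook list [19, 16, 14, 12, 10, 8, 6, 3], n = 168: 283 nodes, 12 commitments -/

def ls_19_16_14_12_10_8_6_3 : List (List Pc) :=
  [[.gap 19, .pair 16, .pair 14, .rect 12 1, .rect 10 1, .dup 8, .dup 7, .rect 6 1, .pair 5, .pair 3, .dup 1],
   [.rect 19 1, .pair 17, .pair 15, .pair 13, .rect 10 1, .dup 8, .dup 7, .pair 6, .pair 4, .rect 2 1, .dup 1],
   [.gap 19, .pair 16, .pair 14, .rect 12 1, .rect 10 1, .dup 8, .dup 7, .pair 6, .pair 4, .rect 2 1, .dup 1],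
   [.gap 19, .pair 16, .pair 14, .gap 12, .dup 8, .dup 7, .pair 6, .pair 4, .rect 2 1, .dup 1]]

def sp_19_16_14_12_10_8_6_3 : List (ℕ × List ℕ) :=
  [(0, [3, 0, 0, 0, 0, 2, 2, 0, 3, 3, 1]),
   (1, [0, 0, 0, 0, 0, 4, 3, 2, 3, 0, 1]),
   (0, [4, 0, 2, 0, 0, 2, 1, 0, 3, 3, 1])]

def spC_19_16_14_12_10_8_6_3 : List (List (ℕ × ℕ)) :=
  [[(40, 3), (31, 4), (27, 4), (12, 1), (10, 1), (17, 2), (15, 2), (6, 1), (6, 1), (2, 1), (2, 1)],
   [(19, 1), (33, 4), (29, 4), (25, 4), (10, 1), (19, 4), (16, 3), (9, 2), (4, 1), (2, 1), (2, 1)],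
   [(43, 4), (31, 4), (25, 2), (12, 1), (10, 1), (17, 2), (14, 1), (6, 1), (6, 1), (2, 1), (2, 1)]]

def cm_19_16_14_12_10_8_6_3 : List CM :=
  [⟨[27, 9], 2, [([2, 2], (.ev, 32)), ([4, 0], (.pl 4, 27)), ([4, 0], (.pl 4, 23)), ([1, 0], (.pl 1, 11)), ([1, 0], (.pl 1, 9)), ([4, 4], (.ev, 8)), ([3, 3], (.ev, 8)), ([4, 0], (.pl 4, 7)), ([3, 0], (.pl 4, 4)), ([1, 0], (.pl 1, 1)), ([0, 0], (.ev, 2))], [2, 0, 0, 0, 0, 1, 1, 0, 0, 1, 1]⟩,
   ⟨[18, 18], 3, [([2, 2], (.ev, 32)), ([4, 3], (.pl 4, 24)), ([1, 2], (.pl 4, 24)), ([2, 2], (.ev, 18)), ([4, 4], (.ev, 8)), ([4, 4], (.ev, 6)), ([0, 0], (.pl 4, 11)), ([0, 0], (.pl 4, 7)), ([0, 0], (.pl 1, 2)), ([1, 1], (.ev, 0))], [4, 0, 0, 3, 1, 1, 2, 3, 0, 1]⟩,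
   ⟨[18, 17], 3, [([2, 2], (.ev, 32)), ([4, 3], (.pl 4, 24)), ([1, 1], (.pl 4, 25)), ([2, 2], (.ev, 18)), ([4, 4], (.ev, 8)), ([4, 4], (.ev, 6)), ([0, 0], (.pl 4, 11)), ([0, 0], (.pl 4, 7)), ([0, 0], (.pl 1, 2)), ([1, 1], (.ev, 0))], [4, 0, 0, 2, 1, 1, 2, 2, 0, 1]⟩,
   ⟨[18, 16], 3, [([2, 2], (.ev, 32)), ([4, 2], (.pl 4, 25)), ([1, 1], (.pl 4, 25)), ([2, 2], (.ev, 18)), ([4, 4], (.ev, 8)), ([4, 4], (.ev, 6)), ([0, 0], (.pl 4, 11)), ([0, 0], (.pl 4, 7)), ([0, 0], (.pl 1, 2)), ([1, 1], (.ev, 0))], [4, 1, 1, 2, 1, 1, 1, 1, 0, 1]⟩,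
   ⟨[17, 17], 3, [([2, 2], (.ev, 32)), ([4, 2], (.pl 4, 25)), ([0, 2], (.pl 4, 25)), ([2, 2], (.ev, 18)), ([4, 4], (.ev, 8)), ([4, 4], (.ev, 6)), ([0, 0], (.pl 4, 11)), ([0, 0], (.pl 4, 7)), ([0, 0], (.pl 1, 2)), ([1, 1], (.ev, 0))], [4, 0, 0, 2, 1, 1, 2, 2, 0, 1]⟩,
   ⟨[17, 16], 3, [([2, 2], (.ev, 32)), ([4, 2], (.pl 4, 25)), ([0, 1], (.pl 4, 26)), ([2, 2], (.ev, 18)), ([4, 4], (.ev, 8)), ([4, 4], (.ev, 6)), ([0, 0], (.pl 4, 11)), ([0, 0], (.pl 4, 7)), ([0, 0], (.pl 1, 2)), ([1, 1], (.ev, 0))], [4, 1, 1, 2, 1, 1, 1, 1, 0, 1]⟩,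
   ⟨[17, 15], 3, [([2, 2], (.ev, 32)), ([4, 1], (.pl 4, 26)), ([0, 1], (.pl 4, 26)), ([2, 2], (.ev, 18)), ([4, 4], (.ev, 8)), ([4, 4], (.ev, 6)), ([0, 0], (.pl 4, 11)), ([0, 0], (.pl 4, 7)), ([0, 0], (.pl 1, 2)), ([1, 1], (.ev, 0))], [4, 1, 1, 2, 1, 1, 1, 1, 0, 1]⟩,
   ⟨[16, 16], 3, [([2, 2], (.ev, 32)), ([3, 2], (.pl 4, 26)), ([0, 1], (.pl 4, 26)), ([2, 2], (.ev, 18)), ([4, 4], (.ev, 8)), ([4, 4], (.ev, 6)), ([0, 0], (.pl 4, 11)), ([0, 0], (.pl 4, 7)), ([0, 0], (.pl 1, 2)), ([1, 1], (.ev, 0))], [4, 1, 1, 2, 1, 1, 1, 1, 0, 1]⟩,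
   ⟨[16, 15], 3, [([2, 2], (.ev, 32)), ([3, 2], (.pl 4, 26)), ([0, 0], (.pl 4, 27)), ([2, 2], (.ev, 18)), ([4, 4], (.ev, 8)), ([4, 4], (.ev, 6)), ([0, 0], (.pl 4, 11)), ([0, 0], (.pl 4, 7)), ([0, 0], (.pl 1, 2)), ([1, 1], (.ev, 0))], [4, 1, 1, 2, 1, 1, 1, 1, 0, 1]⟩,
   ⟨[15, 15], 3, [([2, 2], (.ev, 32)), ([2, 2], (.pl 4, 27)), ([0, 0], (.pl 4, 27)), ([2, 2], (.ev, 18)), ([4, 4], (.ev, 8)), ([4, 4], (.ev, 6)), ([0, 0], (.pl 4, 11)), ([0, 0], (.pl 4, 7)), ([0, 0], (.pl 1, 2)), ([1, 1], (.ev, 0))], [4, 1, 1, 2, 1, 1, 1, 1, 0, 1]⟩,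
   ⟨[14, 14], 3, [([2, 2], (.ev, 32)), ([1, 1], (.pl 4, 29)), ([0, 0], (.pl 4, 27)), ([2, 2], (.ev, 18)), ([4, 4], (.ev, 8)), ([4, 4], (.ev, 6)), ([0, 0], (.pl 4, 11)), ([0, 0], (.pl 4, 7)), ([0, 0], (.pl 1, 2)), ([1, 1], (.ev, 0))], [4, 1, 1, 2, 1, 1, 1, 1, 0, 1]⟩,
   ⟨[13, 13], 3, [([2, 2], (.ev, 32)), ([0, 0], (.pl 4, 31)), ([0, 0], (.pl 4, 27)), ([2, 2], (.ev, 18)), ([4, 4], (.ev, 8)), ([4, 4], (.ev, 6)), ([0, 0], (.pl 4, 11)), ([0, 0], (.pl 4, 7)), ([0, 0], (.pl 1, 2)), ([1, 1], (.ev, 0))], [4, 1, 1, 2, 1, 1, 1, 1, 0, 1]⟩]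

def cmC_19_16_14_12_10_8_6_3 : List (List ℕ × List (ℕ × ℕ)) :=
  [([27, 9], [(33, 2), (27, 4), (23, 4), (11, 1), (9, 1), (8, 1), (8, 1), (7, 4), (4, 4), (0, 1), (2, 1)]),
   ([18, 18], [(35, 4), (24, 4), (24, 4), (20, 3), (8, 1), (6, 1), (9, 2), (4, 1), (2, 1), (0, 1)]),
   ([18, 17], [(35, 4), (24, 4), (25, 4), (19, 2), (8, 1), (6, 1), (9, 2), (5, 2), (2, 1), (0, 1)]),
   ([18, 16], [(35, 4), (24, 3), (24, 3), (19, 2), (8, 1), (6, 1), (10, 3), (6, 3), (2, 1), (0, 1)]),
   ([17, 17], [(35, 4), (25, 4), (25, 4), (19, 2), (8, 1), (6, 1), (9, 2), (5, 2), (2, 1), (0, 1)]),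
   ([17, 16], [(35, 4), (24, 3), (25, 3), (19, 2), (8, 1), (6, 1), (10, 3), (6, 3), (2, 1), (0, 1)]),
   ([17, 15], [(35, 4), (25, 3), (25, 3), (19, 2), (8, 1), (6, 1), (10, 3), (6, 3), (2, 1), (0, 1)]),
   ([16, 16], [(35, 4), (25, 3), (25, 3), (19, 2), (8, 1), (6, 1), (10, 3), (6, 3), (2, 1), (0, 1)]),
   ([16, 15], [(35, 4), (25, 3), (26, 3), (19, 2), (8, 1), (6, 1), (10, 3), (6, 3), (2, 1), (0, 1)]),
   ([15, 15], [(35, 4), (26, 3), (26, 3), (19, 2), (8, 1), (6, 1), (10, 3), (6, 3), (2, 1), (0, 1)]),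
   ([14, 14], [(35, 4), (28, 3), (26, 3), (19, 2), (8, 1), (6, 1), (10, 3), (6, 3), (2, 1), (0, 1)]),
   ([13, 13], [(35, 4), (30, 3), (26, 3), (19, 2), (8, 1), (6, 1), (10, 3), (6, 3), (2, 1), (0, 1)])]

set_option Elab.async false in
theorem covH_19_16_14_12_10_8_6_3 : CovH [19, 16, 14, 12, 10, 8, 6, 3] :=
  covH_of_tree (by decide) ls_19_16_14_12_10_8_6_3 sp_19_16_14_12_10_8_6_3 cm_19_16_14_12_10_8_6_3 spC_19_16_14_12_10_8_6_3 cmC_19_16_14_12_10_8_6_3 99 (by decide +kernel) (by decide +kernel)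
    (by decide +kernel) (by decide +kernel) (by decide +kernel) (by decide +kernel)

theorem covT_hV_16_1 : CovH (hV 16 1) := covH_19_16_14_12_10_8_6_3

end Crest.Agent.R195
end

-- ▼ part R195/S298Top

/-! Row 195, S0298 (helper545).  Final assembly: for every `n ≠ 0, 2, 4, 9` there is a self-conjugate
shape with `n` cells whose tensor square contains everything. -/

set_option autoImplicit false

namespace Crest.Agent.R195

open Finset

theorem FullH.congr' {a b : List ℕ} (hb : FullH b) (h : a = b) : FullH a := by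
  rw [h]; exact hb

theorem fA_step (M e : ℕ) (he : 1 ≤ e) (h : 2 * e ≤ M) : CovH (hA M e) ∨ FullH (hA M e) := by
  by_cases h1 : 7 ≤ M ∧ (e = 1 → 10 ≤ M)
  · exact Or.inl (covA_all M e h1.1 h1.2 he h)
  · by_cases h7 : 7 ≤ M
    · have he1 : e = 1 := by
        by_contra hne; exact h1 ⟨h7, fun h => absurd h hne⟩
      subst he1
      have h9 : M ≤ 9 := by
        by_contra hne; exact h1 ⟨h7, fun _ => by omega⟩
      have hM : M = 7 ∨ M = 8 ∨ M = 9 := by omega
      rcases hM with rfl | rfl | rfl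
      · exact Or.inr (b_8_5_3_1.congr' (by decide))
      · exact Or.inl covT_hA_8_1
      · exact Or.inr (b_10_7_5_3_1.congr' (by decide))
    · right
      have hM : (M = 2 ∧ e = 1) ∨ (M = 3 ∧ e = 1) ∨ (M = 4 ∧ e = 1) ∨ (M = 4 ∧ e = 2) ∨
        (M = 5 ∧ e = 1) ∨ (M = 5 ∧ e = 2) ∨ (M = 6 ∧ e = 1) ∨ (M = 6 ∧ e = 2) ∨
        (M = 6 ∧ e = 3) := by omega
      rcases hM with ⟨rfl, rfl⟩ | ⟨rfl, rfl⟩ | ⟨rfl, rfl⟩ | ⟨rfl, rfl⟩ | ⟨rfl, rfl⟩ | ⟨rfl, rfl⟩ |
        ⟨rfl, rfl⟩ | ⟨rfl, rfl⟩ | ⟨rfl, rfl⟩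
      · exact b_3.congr' (by decide)
      · exact b_4_1.congr' (by decide)
      · exact b_5_2.congr' (by decide)
      · exact b_5_3.congr' (by decide)
      · exact b_6_3_1.congr' (by decide)
      · exact b_6_4_1.congr' (by decide)
      · exact b_7_4_2.congr' (by decide)
      · exact b_7_5_2.congr' (by decide)
      · exact b_7_5_3.congr' (by decide)

/-- family A -/
theorem fA (M e : ℕ) (h : 2 * e ≤ M) : FullH (hA M e) := fullA_of fA_step M e h

theorem fB_step (M e : ℕ) (h0 : M % 2 = 0) (h4 : 4 ≤ M) (h : 2 * e + 2 ≤ M) :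
    (6 ≤ M ∧ CovH (hB M e)) ∨ FullH (hB M e) := by
  by_cases h1 : 10 ≤ M ∧ (e = 1 → 12 ≤ M)
  · exact Or.inl ⟨by omega, covB_all _ e h0 h1.1 h1.2 h⟩
  · by_cases h5 : 10 ≤ M
    · have he1 : e = 1 := by
        by_contra hne; exact h1 ⟨h5, fun h => absurd h hne⟩
      subst he1
      have h6 : M = 10 := by
        by_contra hne; exact h1 ⟨h5, fun _ => by omega⟩
      subst h6
      exact Or.inl ⟨by omega, covT_hB_10_1⟩
    · have hM : (M = 4 ∧ e = 0) ∨ (M = 4 ∧ e = 1) ∨ (M = 6 ∧ e = 0) ∨ (M = 6 ∧ e = 1) ∨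
        (M = 6 ∧ e = 2) ∨ (M = 8 ∧ e = 0) ∨ (M = 8 ∧ e = 1) ∨ (M = 8 ∧ e = 2) ∨
        (M = 8 ∧ e = 3) := by omega
      rcases hM with ⟨rfl, rfl⟩ | ⟨rfl, rfl⟩ | ⟨rfl, rfl⟩ | ⟨rfl, rfl⟩ | ⟨rfl, rfl⟩ | ⟨rfl, rfl⟩ |
        ⟨rfl, rfl⟩ | ⟨rfl, rfl⟩ | ⟨rfl, rfl⟩
      · exact Or.inr (b_4_2_1.congr' (by decide))
      · exact Or.inr (b_5_2_1.congr' (by decide))
      · exact Or.inr (b_6_4_2_1.congr' (by decide))
      · exact Or.inr (b_7_4_2_1.congr' (by decide))
      · exact Or.inr (b_7_5_2_1.congr' (by decide))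
      · exact Or.inl ⟨by omega, MergeS.covB_8_0 0 (by omega) (by omega)⟩
      · exact Or.inr (b_9_6_4_2_1.congr' (by decide))
      · exact Or.inl ⟨by omega, covT_hB_8_2⟩
      · exact Or.inl ⟨by omega, MergeS.covB_8_3 3 (by omega) (by omega)⟩

/-- family B -/
theorem fB (M e : ℕ) (h0 : M % 2 = 0) (h4 : 4 ≤ M) (h : 2 * e + 2 ≤ M) : FullH (hB M e) :=
  fullB_of fB_step M e h0 h4 h

theorem fC_step (M e : ℕ) (h1 : M % 2 = 1) (h : 2 * e + 3 ≤ M) :
    (5 ≤ M ∧ CovH (hC M e)) ∨ FullH (hC M e) := by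
  by_cases h2 : 9 ≤ M ∧ (e = 1 → 13 ≤ M)
  · exact Or.inl ⟨by omega, covC_all _ e h1 h2.1 h2.2 h⟩
  · by_cases h4 : 9 ≤ M
    · have he1 : e = 1 := by
        by_contra hne; exact h2 ⟨h4, fun h => absurd h hne⟩
      subst he1
      have h5 : M < 13 := by
        by_contra hne; exact h2 ⟨h4, fun _ => by omega⟩
      have hM : M = 9 ∨ M = 11 := by omega
      rcases hM with rfl | rfl
      · exact Or.inr (b_10_7_5_3.congr' (by decide))
      · exact Or.inl ⟨by omega, covT_hC_11_1⟩
    · right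
      have hM : (M = 3 ∧ e = 0) ∨ (M = 5 ∧ e = 0) ∨ (M = 5 ∧ e = 1) ∨ (M = 7 ∧ e = 0) ∨
        (M = 7 ∧ e = 1) ∨ (M = 7 ∧ e = 2) := by omega
      rcases hM with ⟨rfl, rfl⟩ | ⟨rfl, rfl⟩ | ⟨rfl, rfl⟩ | ⟨rfl, rfl⟩ | ⟨rfl, rfl⟩ | ⟨rfl, rfl⟩
      · exact b_3.congr' (by decide)
      · exact b_5_3.congr' (by decide)
      · exact b_6_3.congr' (by decide)
      · exact b_7_5_3.congr' (by decide)
      · exact b_8_5_3.congr' (by decide)
      · exact b_8_6_3.congr' (by decide)

/-- family C -/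
theorem fC (M e : ℕ) (h1 : M % 2 = 1) (h : 2 * e + 3 ≤ M) : FullH (hC M e) :=
  fullC_of fC_step M e h1 h

theorem fV1 (P : ℕ) (hP : P % 2 = 0) (h : 10 ≤ P) : FullH (hV P 1) := by
  refine fullV hP (by omega) (fC _ _ (by omega) (by omega)) ?_
  by_cases h18 : 18 ≤ P
  · exact covV1_all P hP h18
  · have hk : P = 10 ∨ P = 12 ∨ P = 14 ∨ P = 16 := by omega
    rcases hk with rfl | rfl | rfl | rfl
    · exact covT_hV_10_1
    · exact covT_hV_12_1
    · exact covT_hV_14_1
    · exact covT_hV_16_1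

theorem fV2 (P : ℕ) (hP : P % 2 = 0) (h : 10 ≤ P) : FullH (hV P 2) :=
  fullV2 hP (by omega) (fV1 P hP h) (covV2_all P hP h)

theorem full_of_large {n : ℕ} (M r : ℕ) (hr : r ≤ M) (hn : 2 * n = M * (M + 1) + 2 * r)
    (hM : 10 ≤ M) (h77 : n ≠ 77) : ∃ ps, ValidH ps ∧ hsize ps = n ∧ FullH ps := by
  rcases Nat.mod_two_eq_zero_or_one r with h0 | h0
  · refine ⟨hA M (r / 2), validH_hA (by omega), ?_, fA _ _ (by omega)⟩
    have := hsize_hA (M := M) (e := r / 2) (by omega)
    omega
  · rcases Nat.mod_two_eq_zero_or_one M with h1 | h1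
    · refine ⟨hB M (r / 2), validH_hB h1 (by omega), ?_, fB _ _ h1 (by omega) (by omega)⟩
      have := hsize_hB (M := M) (e := r / 2) h1 (by omega)
      omega
    · rcases Nat.lt_or_ge (r + 2) M with h2 | h2
      · refine ⟨hC M ((r + 1) / 2), validH_hC (by omega), ?_, fC _ _ h1 (by omega)⟩
        have := hsize_hC (M := M) (e := (r + 1) / 2) h1 (by omega)
        omega
      · rcases Nat.lt_or_ge r M with h3 | h3
        · refine ⟨hV (M - 1) 1, validH_hV (by omega) (by omega), ?_, fV1 _ (by omega) (by omega)⟩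
          have := hsize_hV1 (P := M - 1) (by omega) (by omega)
          rw [show M - 1 + 2 = M + 1 by omega, show M - 1 + 3 = M + 2 by omega] at this
          have h4 : r + 2 = M := by omega
          nlinarith
        · have h4 : r = M := by omega
          have h5 : M ≠ 11 := by
            rintro rfl
            subst h4
            exact h77 (by omega)
          refine ⟨hV (M - 3) 2, validH_hV (by omega) (by omega), ?_, fV2 _ (by omega) (by omega)⟩
          have := hsize_hV2 (P := M - 3) (by omega) (by omega)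
          rw [show M - 3 + 4 = M + 1 by omega, show M - 3 + 5 = M + 2 by omega] at this
          nlinarith

theorem full_of_small {n : ℕ} (h0 : 0 < n) (h2 : n ≠ 2) (h4 : n ≠ 4) (h9 : n ≠ 9) (h : n < 55) :
    ∃ ps, ValidH ps ∧ hsize ps = n ∧ FullH ps := by
  interval_cases n
  · exact ⟨[1], by decide, by decide, b_1⟩
  · exact absurd rfl h2
  · exact ⟨[2], by decide, by decide, b_2⟩
  · exact absurd rfl h4
  · exact ⟨[3], by decide, by decide, b_3⟩
  · exact ⟨[3, 1], by decide, by decide, b_3_1⟩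
  · exact ⟨[4], by decide, by decide, b_4⟩
  · exact ⟨[4, 1], by decide, by decide, b_4_1⟩
  · exact absurd rfl h9
  · exact ⟨[4, 2], by decide, by decide, b_4_2⟩
  · exact ⟨[4, 2, 1], by decide, by decide, b_4_2_1⟩
  · exact ⟨[5, 2], by decide, by decide, b_5_2⟩
  · exact ⟨[5, 2, 1], by decide, by decide, b_5_2_1⟩
  · exact ⟨[5, 3], by decide, by decide, b_5_3⟩
  · exact ⟨[5, 3, 1], by decide, by decide, b_5_3_1⟩
  · exact ⟨[6, 3], by decide, by decide, b_6_3⟩
  · exact ⟨[6, 3, 1], by decide, by decide, b_6_3_1⟩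
  · exact ⟨[6, 4], by decide, by decide, b_6_4⟩
  · exact ⟨[6, 4, 1], by decide, by decide, b_6_4_1⟩
  · exact ⟨[5, 4, 2, 1], by decide, by decide, fullH_5_4_2_1⟩
  · exact ⟨[6, 4, 2], by decide, by decide, b_6_4_2⟩
  · exact ⟨[6, 4, 2, 1], by decide, by decide, b_6_4_2_1⟩
  · exact ⟨[7, 4, 2], by decide, by decide, b_7_4_2⟩
  · exact ⟨[7, 4, 2, 1], by decide, by decide, b_7_4_2_1⟩
  · exact ⟨[7, 5, 2], by decide, by decide, b_7_5_2⟩
  · exact ⟨[7, 5, 2, 1], by decide, by decide, b_7_5_2_1⟩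
  · exact ⟨[7, 5, 3], by decide, by decide, b_7_5_3⟩
  · exact ⟨[7, 5, 3, 1], by decide, by decide, b_7_5_3_1⟩
  · exact ⟨[8, 5, 3], by decide, by decide, b_8_5_3⟩
  · exact ⟨[8, 5, 3, 1], by decide, by decide, b_8_5_3_1⟩
  · exact ⟨[8, 6, 3], by decide, by decide, b_8_6_3⟩
  · exact ⟨hA 7 2, by decide, by decide, fA 7 2 (by omega)⟩
  · exact ⟨[7, 5, 4, 2, 1], by decide, by decide, fullH_7_5_4_2_1⟩
  · exact ⟨hA 7 3, by decide, by decide, fA 7 3 (by omega)⟩
  · exact ⟨[8, 5, 4, 2, 1], by decide, by decide, fullH_8_5_4_2_1⟩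
  · exact ⟨hA 8 0, by decide, by decide, fA 8 0 (by omega)⟩
  · exact ⟨hB 8 0, by decide, by decide, fB 8 0 rfl (by omega) (by omega)⟩
  · exact ⟨hA 8 1, by decide, by decide, fA 8 1 (by omega)⟩
  · exact ⟨hB 8 1, by decide, by decide, fB 8 1 rfl (by omega) (by omega)⟩
  · exact ⟨hA 8 2, by decide, by decide, fA 8 2 (by omega)⟩
  · exact ⟨hB 8 2, by decide, by decide, fB 8 2 rfl (by omega) (by omega)⟩
  · exact ⟨hA 8 3, by decide, by decide, fA 8 3 (by omega)⟩
  · exact ⟨hB 8 3, by decide, by decide, fB 8 3 rfl (by omega) (by omega)⟩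
  · exact ⟨hA 8 4, by decide, by decide, fA 8 4 (by omega)⟩
  · exact ⟨hA 9 0, by decide, by decide, fA 9 0 (by omega)⟩
  · exact ⟨hC 9 1, by decide, by decide, fC 9 1 rfl (by omega)⟩
  · exact ⟨hA 9 1, by decide, by decide, fA 9 1 (by omega)⟩
  · exact ⟨hC 9 2, by decide, by decide, fC 9 2 rfl (by omega)⟩
  · exact ⟨hA 9 2, by decide, by decide, fA 9 2 (by omega)⟩
  · exact ⟨hC 9 3, by decide, by decide, fC 9 3 rfl (by omega)⟩
  · exact ⟨hA 9 3, by decide, by decide, fA 9 3 (by omega)⟩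
  · exact ⟨[11, 9, 5, 3], by decide, by decide, b_52⟩
  · exact ⟨hA 9 4, by decide, by decide, fA 9 4 (by omega)⟩
  · exact ⟨[10, 8, 5, 4, 2, 1], by decide, by decide, b_54⟩

/-- every `n ≠ 0, 2, 4, 9` -/
theorem full_all {n : ℕ} (h0 : 0 < n) (h2 : n ≠ 2) (h4 : n ≠ 4) (h9 : n ≠ 9) :
    ∃ ps, ValidH ps ∧ hsize ps = n ∧ FullH ps := by
  rcases Nat.lt_or_ge n 55 with h | h
  · exact full_of_small h0 h2 h4 h9 h
  · by_cases h7 : n = 77
    · rw [h7]; exact ⟨[12, 10, 8, 5, 4, 2, 1], by decide, by decide, b_77⟩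
    · obtain ⟨M, r, hr, hn⟩ := exists_tri n
      refine full_of_large M r hr hn ?_ h7
      by_contra hM
      have : M ≤ 9 := by omega
      interval_cases M <;> omega

theorem good298_all {n : ℕ} (h0 : 0 < n) (h2 : n ≠ 2) (h4 : n ≠ 4) (h9 : n ≠ 9) : Good298 n := by
  obtain ⟨ps, h, hn, hf⟩ := full_all h0 h2 h4 h9
  exact good_of_fullH ps h hn hf

end Crest.Agent.R195
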