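import Crest.Agent.R195.SpDefs
import Crest.Agent.R195.Shape

-- ▼ part R195/Zig1
section

/-! Row 195, L4.  Gluing of tableaux with disjoint column sets: the polytabloid of a glued tableau is
the product of the polytabloids. -/

set_option autoImplicit false
set_option linter.unusedSectionVars false
set_option linter.unusedDecidableInType false

namespace Crest.Agent.R195

open Finset Function

section glue

variable {T : Type*} [Fintype T] [DecidableEq T]

/-- summing over the permutations of `T` a function that vanishes off the permutations preserving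
`p` is summing over pairs of permutations. -/
theorem sum_perm_preserving {M : Type*} [AddCommMonoid M] (p : T → Prop) [DecidablePred p]
    (F : Equiv.Perm T → M) (hF : ∀ σ, (¬ ∀ i, p (σ i) ↔ p i) → F σ = 0) :
    ∑ σ, F σ = ∑ a : Equiv.Perm {t // p t}, ∑ b : Equiv.Perm {t // ¬ p t},
      F (Equiv.Perm.subtypeCongr a b) := by
  classical
  rw [← Fintype.sum_prod_type' (f := fun a b => F (Equiv.Perm.subtypeCongr a b))]
  symm
  refine Finset.sum_bij_ne_zero (fun q _ _ => Equiv.Perm.subtypeCongr q.1 q.2)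
    (fun q _ _ => Finset.mem_univ _) ?_ ?_ ?_
  · rintro ⟨a, b⟩ _ _ ⟨a', b'⟩ _ _ h
    have := Equiv.Perm.subtypeCongrHom_injective p (a₁ := (a, b)) (a₂ := (a', b')) h
    exact this
  · intro σ _ hσ
    have hp : ∀ i, p (σ i) ↔ p i := by
      by_contra hcon
      exact hσ (hF σ hcon)
    have hn : ∀ i, (¬ p (σ i)) ↔ ¬ p i := fun i => not_congr (hp i)
    have key : Equiv.Perm.subtypeCongr (σ.subtypePerm hp) (σ.subtypePerm hn) = σ := by
      ext i
      rw [Equiv.Perm.subtypeCongr.apply]
      split_ifs <;> rfl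
    refine ⟨(σ.subtypePerm hp, σ.subtypePerm hn), Finset.mem_univ _, ?_, key⟩
    simp only [key]
    exact hσ
  · intro q _ _
    rfl

/-- **Gluing.** If the letters satisfying `p` and the others sit in different columns, then the
polytabloid is a product. -/
theorem polyF_glue (p : T → Prop) [DecidablePred p] (τ : T → ℕ × ℕ)
    (h : ∀ s t, p s → ¬ p t → (τ s).2 ≠ (τ t).2) (w : T → ℕ) :
    polyF τ w = polyF (fun t : {t // p t} => τ t) (fun t => w t) *
      polyF (fun t : {t // ¬ p t} => τ t) (fun t => w t) := by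
  classical
  unfold polyF
  rw [sum_perm_preserving p]
  · rw [Finset.sum_mul_sum]
    refine Finset.sum_congr rfl fun a _ => Finset.sum_congr rfl fun b _ => ?_
    have hL : ((∀ i, (τ ((Equiv.Perm.subtypeCongr a b) i)).2 = (τ i).2) ∧
        ∀ i, w ((Equiv.Perm.subtypeCongr a b) i) = (τ i).1) ↔
        ((∀ i : {t // p t}, (τ (a i)).2 = (τ i).2) ∧ ∀ i : {t // p t}, w (a i) = (τ i).1) ∧
        ((∀ i : {t // ¬ p t}, (τ (b i)).2 = (τ i).2) ∧
          ∀ i : {t // ¬ p t}, w (b i) = (τ i).1) := by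
      constructor
      · rintro ⟨h1, h2⟩
        refine ⟨⟨fun i => ?_, fun i => ?_⟩, ⟨fun i => ?_, fun i => ?_⟩⟩
        · simpa [Equiv.Perm.subtypeCongr.left_apply _ _ i.2] using h1 i
        · simpa [Equiv.Perm.subtypeCongr.left_apply _ _ i.2] using h2 i
        · simpa [Equiv.Perm.subtypeCongr.right_apply _ _ i.2] using h1 i
        · simpa [Equiv.Perm.subtypeCongr.right_apply _ _ i.2] using h2 i
      · rintro ⟨⟨h1, h2⟩, ⟨h3, h4⟩⟩
        refine ⟨fun i => ?_, fun i => ?_⟩
        · by_cases hi : p i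
          · rw [Equiv.Perm.subtypeCongr.left_apply _ _ hi]; exact h1 ⟨i, hi⟩
          · rw [Equiv.Perm.subtypeCongr.right_apply _ _ hi]; exact h3 ⟨i, hi⟩
        · by_cases hi : p i
          · rw [Equiv.Perm.subtypeCongr.left_apply _ _ hi]; exact h2 ⟨i, hi⟩
          · rw [Equiv.Perm.subtypeCongr.right_apply _ _ hi]; exact h4 ⟨i, hi⟩
    simp only [hL]
    by_cases hA : (∀ i : {t // p t}, (τ (a i)).2 = (τ i).2) ∧
        ∀ i : {t // p t}, w (a i) = (τ i).1
    · by_cases hB : (∀ i : {t // ¬ p t}, (τ (b i)).2 = (τ i).2) ∧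
          ∀ i : {t // ¬ p t}, w (b i) = (τ i).1
      · rw [if_pos ⟨hA, hB⟩, if_pos hA, if_pos hB, Equiv.Perm.sign_subtypeCongr]
        push_cast
        rfl
      · rw [if_neg (fun hh => hB hh.2), if_neg hB, mul_zero]
    · rw [if_neg (fun hh => hA hh.1), if_neg hA, zero_mul]
  · intro σ hσ
    rw [if_neg]
    rintro ⟨h1, -⟩
    apply hσ
    intro i
    constructor
    · intro h2
      by_contra h3
      exact h _ _ h2 h3 (h1 i)
    · intro h2
      by_contra h3
      exact h _ _ h2 h3 (h1 i).symm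

end glue

end Crest.Agent.R195
end

-- ▼ part R195/Zig2
section

/-! Row 195, L4.  The step `λ = κ + rest` for equivariant kernels. -/

set_option autoImplicit false
set_option linter.unusedSectionVars false
set_option linter.unusedDecidableInType false

namespace Crest.Agent.R195

open Finset Function

/-- shift all columns by `k` -/
def shiftC (k : ℕ) (D : Finset (ℕ × ℕ)) : Finset (ℕ × ℕ) := D.image fun c => (c.1, c.2 + k)

/-- the columns of `D` followed by the columns of `E` (the columns of `D` are `< k`) -/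
def addC (k : ℕ) (D E : Finset (ℕ × ℕ)) : Finset (ℕ × ℕ) := D ∪ shiftC k E

section words

variable {T X : Type*}

/-- restrict a word to the letters satisfying `p` -/
def resP (p : T → Prop) (w : T → X) : {t // p t} → X := fun t => w t

/-- restrict a word to the letters not satisfying `p` -/
def resN (p : T → Prop) (w : T → X) : {t // ¬ p t} → X := fun t => w t

/-- glue two words -/
def glueW (p : T → Prop) [DecidablePred p] (a : {t // p t} → X) (b : {t // ¬ p t} → X) : T → X :=
  fun t => if h : p t then a ⟨t, h⟩ else b ⟨t, h⟩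

theorem resP_glueW (p : T → Prop) [DecidablePred p] (a : {t // p t} → X) (b : {t // ¬ p t} → X) :
    resP p (glueW p a b) = a := by
  funext t; simp [resP, glueW, t.2]

theorem resN_glueW (p : T → Prop) [DecidablePred p] (a : {t // p t} → X) (b : {t // ¬ p t} → X) :
    resN p (glueW p a b) = b := by
  funext t; simp [resN, glueW, t.2]

theorem glueW_res (p : T → Prop) [DecidablePred p] (w : T → X) :
    glueW p (resP p w) (resN p w) = w := by
  funext t; by_cases h : p t <;> simp [resP, resN, glueW, h]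

/-- words on `T` = pairs of words -/
def glueE (p : T → Prop) [DecidablePred p] : (({t // p t} → X) × ({t // ¬ p t} → X)) ≃ (T → X) where
  toFun q := glueW p q.1 q.2
  invFun w := (resP p w, resN p w)
  left_inv q := by simp [resP_glueW, resN_glueW]
  right_inv w := glueW_res p w

end words

/-- total cost of a word of cells -/
def cost {T : Type*} [Fintype T] (u : T → ℕ × ℕ) : ℕ := ∑ t, (u t).1 * (u t).2

section cost

variable {T : Type*} [Fintype T] [DecidableEq T]

theorem cost_comp (u : T → ℕ × ℕ) (g : Equiv.Perm T) : cost (u ∘ g) = cost u := by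
  unfold cost
  exact Equiv.sum_comp g (fun t => (u t).1 * (u t).2)

theorem cost_res (p : T → Prop) [DecidablePred p] (u : T → ℕ × ℕ) :
    cost u = cost (resP p u) + cost (resN p u) := by
  unfold cost resP resN
  exact (Fintype.sum_subtype_add_sum_subtype p (fun t => (u t).1 * (u t).2)).symm

theorem polyF_shift (τ : T → ℕ × ℕ) (k : ℕ) :
    polyF (fun t => ((τ t).1, (τ t).2 + k)) = polyF τ := by
  funext w
  unfold polyF
  simp only [Nat.add_right_cancel_iff]

theorem isTab_glue {p : T → Prop} [DecidablePred p] {k : ℕ} {D E : Finset (ℕ × ℕ)}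
    {a : {t // p t} → ℕ × ℕ} {b : {t // ¬ p t} → ℕ × ℕ} (ha : IsTab D a) (hb : IsTab E b)
    (hk : ∀ c ∈ D, c.2 < k) :
    IsTab (addC k D E) (glueW p a (fun t => ((b t).1, (b t).2 + k))) := by
  classical
  have ha' : ∀ t, a t ∈ D := fun t => by rw [← ha.2]; exact mem_image_of_mem _ (mem_univ _)
  constructor
  · intro s t hst
    unfold glueW at hst
    by_cases hs : p s <;> by_cases ht : p t
    · simp only [hs, ht, dif_pos] at hst
      exact congrArg Subtype.val (ha.1 hst)
    · simp only [hs, ht, dif_pos, dif_neg, not_false_iff] at hst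
      have := hk _ (ha' ⟨s, hs⟩)
      rw [hst] at this
      simp only at this
      omega
    · simp only [hs, ht, dif_pos, dif_neg, not_false_iff] at hst
      have := hk _ (ha' ⟨t, ht⟩)
      rw [← hst] at this
      simp only at this
      omega
    · simp only [hs, ht, dif_neg, not_false_iff, Prod.mk.injEq, Nat.add_right_cancel_iff] at hst
      exact congrArg Subtype.val (hb.1 (Prod.ext hst.1 hst.2))
  · ext c
    simp only [mem_image, mem_univ, true_and, addC, shiftC, mem_union]
    constructor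
    · rintro ⟨t, rfl⟩
      by_cases ht : p t
      · left
        simp only [glueW, ht, dif_pos]
        exact ha' _
      · right
        refine ⟨b ⟨t, ht⟩, ?_, ?_⟩
        · rw [← hb.2]; exact mem_image_of_mem _ (mem_univ _)
        · simp [glueW, ht]
    · rintro (hc | ⟨d, hd, rfl⟩)
      · rw [← ha.2] at hc
        obtain ⟨t, -, rfl⟩ := mem_image.1 hc
        exact ⟨t, by simp [glueW, t.2]⟩
      · rw [← hb.2] at hd
        obtain ⟨t, -, rfl⟩ := mem_image.1 hd
        exact ⟨t, by simp [glueW, t.2]⟩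

theorem polyF_glueW {p : T → Prop} [DecidablePred p] {k : ℕ} {D : Finset (ℕ × ℕ)}
    {a : {t // p t} → ℕ × ℕ} (b : {t // ¬ p t} → ℕ × ℕ) (ha : IsTab D a)
    (hk : ∀ c ∈ D, c.2 < k) (w : T → ℕ) :
    polyF (glueW p a (fun t => ((b t).1, (b t).2 + k))) w =
      polyF a (resP p w) * polyF b (resN p w) := by
  classical
  have ha' : ∀ t, a t ∈ D := fun t => by rw [← ha.2]; exact mem_image_of_mem _ (mem_univ _)
  rw [polyF_glue p]
  · congr 1
    · congr 1
      funext t
      simp [glueW, t.2]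
    · rw [← polyF_shift b k]
      congr 1
      funext t
      simp [glueW, t.2]
  · intro s t hs ht hst
    have := hk _ (ha' ⟨s, hs⟩)
    simp only [glueW, hs, ht, dif_pos, dif_neg, not_false_iff] at hst
    omega

/-- products of elements of `Kr` on complementary sets of letters -/
theorem Kr_glue {p : T → Prop} [DecidablePred p] {k l : ℕ} {D E D' E' : Finset (ℕ × ℕ)}
    (hk : ∀ c ∈ D, c.2 < k) (hl : ∀ c ∈ D', c.2 < l)
    {f : ({t // p t} → ℕ × ℕ) → ℂ} (hf : f ∈ Kr {t // p t} D D')
    {g : ({t // ¬ p t} → ℕ × ℕ) → ℂ} (hg : g ∈ Kr {t // ¬ p t} E E') :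
    (fun w => f (resP p w) * g (resN p w)) ∈ Kr T (addC k D E) (addC l D' E') := by
  unfold Kr at hf
  induction hf using Submodule.span_induction with
  | mem x hx =>
    obtain ⟨τ, τ', hτ, hτ', rfl⟩ := hx
    unfold Kr at hg
    induction hg using Submodule.span_induction with
    | mem y hy =>
      obtain ⟨υ, υ', hυ, hυ', rfl⟩ := hy
      refine Submodule.subset_span ⟨_, _, isTab_glue hτ hυ hk, isTab_glue hτ' hυ' hl, ?_⟩
      funext w
      unfold prodF
      rw [polyF_glueW υ hτ hk, polyF_glueW υ' hτ' hl]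
      change (polyF τ (fun t => (w t).1) * polyF τ' (fun t => (w t).2)) *
        (polyF υ (fun t => (w t).1) * polyF υ' (fun t => (w t).2)) =
        (polyF τ (fun t => (w t).1) * polyF υ (fun t => (w t).1)) *
        (polyF τ' (fun t => (w t).2) * polyF υ' (fun t => (w t).2))
      ring
    | zero =>
      convert Submodule.zero_mem (Kr T (addC k D E) (addC l D' E')) using 1
      funext w; simp
    | add y z _ _ hy hz =>
      have := Submodule.add_mem _ hy hz
      convert this using 1
      funext w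
      simp only [Pi.add_apply]; ring
    | smul a y _ hy =>
      have := Submodule.smul_mem _ a hy
      convert this using 1
      funext w
      simp only [Pi.smul_apply, smul_eq_mul]; ring
  | zero =>
    convert Submodule.zero_mem (Kr T (addC k D E) (addC l D' E')) using 1
    funext w; simp
  | add y z _ _ hy hz =>
    have := Submodule.add_mem _ hy hz
    convert this using 1
    funext w
    simp only [Pi.add_apply]; ring
  | smul a y _ hy =>
    have := Submodule.smul_mem _ a hy
    convert this using 1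
    funext w
    simp only [Pi.smul_apply, smul_eq_mul]; ring

end cost

/-- equivariant kernels with values in `S`, cost at least `c`, cells in `Z` at cost `c`. -/
structure KerB {T K : Type*} [Fintype T] [DecidableEq T]
    (S : Submodule ℂ ((T → ℕ × ℕ) → ℂ)) (Z : Set (ℕ × ℕ)) (c : ℕ)
    (k : (T → K) → (T → ℕ × ℕ) → ℂ) : Prop where
  act : ∀ (g : Equiv.Perm T) (z : T → K) (u : T → ℕ × ℕ), k (z ∘ g) (u ∘ g) = k z u
  mem : ∀ z, k z ∈ S
  bd : ∀ z u, k z u ≠ 0 → c ≤ cost u ∧ (cost u = c → ∀ t, u t ∈ Z)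

section step

variable {T K : Type*} [Fintype T] [DecidableEq T] [Fintype K] [DecidableEq K]

/-- the induction product of two kernels -/
noncomputable def kerMul (p : T → Prop) [DecidablePred p]
    (k' : ({t // p t} → K) → ({t // p t} → ℕ × ℕ) → ℂ)
    (k'' : ({t // ¬ p t} → K) → ({t // ¬ p t} → ℕ × ℕ) → ℂ)
    (z : T → K) (u : T → ℕ × ℕ) : ℂ :=
  ∑ g : Equiv.Perm T, k' (resP p (z ∘ g)) (resP p (u ∘ g)) * k'' (resN p (z ∘ g)) (resN p (u ∘ g))

theorem kerMul_KerB {p : T → Prop} [DecidablePred p] {m n : ℕ} {D E D' E' : Finset (ℕ × ℕ)}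
    (hm : ∀ c ∈ D, c.2 < m) (hn : ∀ c ∈ D', c.2 < n) {Z' Z'' : Set (ℕ × ℕ)} {c' c'' : ℕ}
    {k' : ({t // p t} → K) → ({t // p t} → ℕ × ℕ) → ℂ}
    {k'' : ({t // ¬ p t} → K) → ({t // ¬ p t} → ℕ × ℕ) → ℂ}
    (h' : KerB (Kr {t // p t} D D') Z' c' k') (h'' : KerB (Kr {t // ¬ p t} E E') Z'' c'' k'') :
    KerB (Kr T (addC m D E) (addC n D' E')) (Z' ∪ Z'') (c' + c'') (kerMul p k' k'') where
  act := by
    intro h z u
    unfold kerMul
    exact Equiv.sum_comp (Equiv.mulLeft h) (fun g => k' (resP p (z ∘ g)) (resP p (u ∘ g)) *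
      k'' (resN p (z ∘ g)) (resN p (u ∘ g)))
  mem := by
    intro z
    have : kerMul p k' k'' z = ∑ g : Equiv.Perm T, fun u : T → ℕ × ℕ =>
        (fun w => k' (resP p (z ∘ g)) (resP p w) * k'' (resN p (z ∘ g)) (resN p w)) (u ∘ g) := by
      funext u
      simp [kerMul, Finset.sum_apply]
    rw [this]
    refine Submodule.sum_mem _ fun g _ => ?_
    exact Kr_act (Kr_glue hm hn (h'.mem _) (h''.mem _)) g
  bd := by
    intro z u hne
    obtain ⟨g, -, hg⟩ := Finset.exists_ne_zero_of_sum_ne_zero hne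
    have h1 := h'.bd _ _ (left_ne_zero_of_mul hg)
    have h2 := h''.bd _ _ (right_ne_zero_of_mul hg)
    have h3 : cost u = cost (resP p (u ∘ g)) + cost (resN p (u ∘ g)) := by
      rw [← cost_res, cost_comp]
    refine ⟨by omega, fun hc t => ?_⟩
    have h4 := h1.2 (by omega)
    have h5 := h2.2 (by omega)
    by_cases ht : p (g.symm t)
    · left
      have := h4 ⟨g.symm t, ht⟩
      simpa [resP] using this
    · right
      have := h5 ⟨g.symm t, ht⟩
      simpa [resN] using this

theorem resP_congr {X : Type*} {p : T → Prop} [DecidablePred p] (w : T → X)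
    (a : Equiv.Perm {t // p t}) (b : Equiv.Perm {t // ¬ p t}) :
    resP p (w ∘ (Equiv.Perm.subtypeCongr a b)) = resP p w ∘ a := by
  funext t
  simp [resP, Equiv.Perm.subtypeCongr.left_apply _ _ t.2]

theorem resN_congr {X : Type*} {p : T → Prop} [DecidablePred p] (w : T → X)
    (a : Equiv.Perm {t // p t}) (b : Equiv.Perm {t // ¬ p t}) :
    resN p (w ∘ (Equiv.Perm.subtypeCongr a b)) = resN p w ∘ b := by
  funext t
  simp [resN, Equiv.Perm.subtypeCongr.right_apply _ _ t.2]

/-- **The step**: evaluation of the induction product at a word of minimal cost. -/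
theorem kerMul_ne {p : T → Prop} [DecidablePred p] {S' : Submodule ℂ (({t // p t} → ℕ × ℕ) → ℂ)}
    {S'' : Submodule ℂ (({t // ¬ p t} → ℕ × ℕ) → ℂ)} {Z' Z'' : Set (ℕ × ℕ)} {c' c'' : ℕ}
    {k' : ({t // p t} → K) → ({t // p t} → ℕ × ℕ) → ℂ}
    {k'' : ({t // ¬ p t} → K) → ({t // ¬ p t} → ℕ × ℕ) → ℂ}
    (h' : KerB S' Z' c' k') (h'' : KerB S'' Z'' c'' k'')
    (hZ : Disjoint Z' Z'') (v : (T → K) → ℂ)
    {u' : {t // p t} → ℕ × ℕ} {u'' : {t // ¬ p t} → ℕ × ℕ} (hu' : cost u' = c')
    (hu'' : cost u'' = c'')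
    (hne : ∑ z', (∑ z'', v (glueW p z' z'') * k'' z'' u'') * k' z' u' ≠ 0) :
    ∑ z, v z * kerMul p k' k'' z (glueW p u' u'') ≠ 0 := by
  classical
  -- the cells of `u'` and `u''`
  obtain ⟨z1, -, hz1⟩ := Finset.exists_ne_zero_of_sum_ne_zero hne
  have hZ' : ∀ t, u' t ∈ Z' := (h'.bd _ _ (right_ne_zero_of_mul hz1)).2 hu'
  obtain ⟨z2, -, hz2⟩ := Finset.exists_ne_zero_of_sum_ne_zero (left_ne_zero_of_mul hz1)
  have hZ'' : ∀ t, u'' t ∈ Z'' := (h''.bd _ _ (right_ne_zero_of_mul hz2)).2 hu''
  set u : T → ℕ × ℕ := glueW p u' u'' with hu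
  have hcu : cost u = c' + c'' := by
    rw [cost_res p, hu, resP_glueW, resN_glueW, hu', hu'']
  have hF : ∀ z : T → K, ∀ g : Equiv.Perm T, (¬ ∀ i, p (g i) ↔ p i) →
      k' (resP p (z ∘ g)) (resP p (u ∘ g)) * k'' (resN p (z ∘ g)) (resN p (u ∘ g)) = 0 := by
    intro z g hg
    by_contra hcon
    apply hg
    have h1 := h'.bd _ _ (left_ne_zero_of_mul hcon)
    have h2 := h''.bd _ _ (right_ne_zero_of_mul hcon)
    have h3 : cost u = cost (resP p (u ∘ g)) + cost (resN p (u ∘ g)) := by
      rw [← cost_res, cost_comp]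
    have h4 := h1.2 (by omega)
    have h5 := h2.2 (by omega)
    have hdis : ∀ c, c ∈ Z' → c ∈ Z'' → False := fun c hc hc' =>
      Set.disjoint_left.1 hZ hc hc'
    intro i
    constructor
    · intro hi
      by_contra hni
      have h6 := h5 ⟨i, hni⟩
      simp only [resN, comp_apply] at h6
      have h7 : u (g i) = u' ⟨g i, hi⟩ := by rw [hu]; simp [glueW, hi]
      rw [h7] at h6
      exact hdis _ (hZ' _) h6
    · intro hi
      by_contra hni
      have h6 := h4 ⟨i, hi⟩
      simp only [resP, comp_apply] at h6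
      have h7 : u (g i) = u'' ⟨g i, hni⟩ := by rw [hu]; simp [glueW, hni]
      rw [h7] at h6
      exact hdis _ h6 (hZ'' _)
  have hK : ∀ z : T → K, kerMul p k' k'' z u =
      (Fintype.card (Equiv.Perm {t // p t}) : ℂ) * (Fintype.card (Equiv.Perm {t // ¬ p t}) : ℂ) *
        (k' (resP p z) u' * k'' (resN p z) u'') := by
    intro z
    unfold kerMul
    rw [sum_perm_preserving p _ (hF z)]
    have : ∀ (a : Equiv.Perm {t // p t}) (b : Equiv.Perm {t // ¬ p t}),
        k' (resP p (z ∘ (Equiv.Perm.subtypeCongr a b))) (resP p (u ∘ (Equiv.Perm.subtypeCongr a b)))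
          * k'' (resN p (z ∘ (Equiv.Perm.subtypeCongr a b)))
            (resN p (u ∘ (Equiv.Perm.subtypeCongr a b))) =
        k' (resP p z) u' * k'' (resN p z) u'' := by
      intro a b
      rw [resP_congr, resP_congr, resN_congr, resN_congr, h'.act, h''.act, hu, resP_glueW,
        resN_glueW]
    simp only [this]
    simp only [Finset.sum_const, Finset.card_univ, nsmul_eq_mul]
    ring
  simp only [hK]
  have hsum : ∑ z : T → K, v z * ((Fintype.card (Equiv.Perm {t // p t}) : ℂ) *
      (Fintype.card (Equiv.Perm {t // ¬ p t}) : ℂ) * (k' (resP p z) u' * k'' (resN p z) u'')) =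
      ((Fintype.card (Equiv.Perm {t // p t}) : ℂ) * (Fintype.card (Equiv.Perm {t // ¬ p t}) : ℂ)) *
      ∑ z', (∑ z'', v (glueW p z' z'') * k'' z'' u'') * k' z' u' := by
    rw [← Equiv.sum_comp (glueE (X := K) p), Fintype.sum_prod_type, Finset.mul_sum]
    refine Finset.sum_congr rfl fun a _ => ?_
    rw [Finset.sum_mul, Finset.mul_sum]
    refine Finset.sum_congr rfl fun b _ => ?_
    change v (glueW p a b) * (_ * (k' (resP p (glueW p a b)) u' * k'' (resN p (glueW p a b)) u''))
      = _
    rw [resP_glueW, resN_glueW]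
    ring
  rw [hsum]
  refine mul_ne_zero (mul_ne_zero ?_ ?_) hne
  · exact_mod_cast Fintype.card_ne_zero
  · exact_mod_cast Fintype.card_ne_zero

end step

/-- `Det ν D E Z c`: nonzero functions on colour words of content `ν` are detected by equivariant
kernels with values in `Kr T D E`, at words of minimal cost `c` with cells in `Z`. -/
def Det {K : Type} [Fintype K] [DecidableEq K] (ν : K → ℕ) (D E : Finset (ℕ × ℕ))
    (Z : Set (ℕ × ℕ)) (c : ℕ) : Prop :=
  ∀ (T : Type) [Fintype T] [DecidableEq T] (v : (T → K) → ℂ) (z₀ : T → K),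
    (∀ a, (univ.filter fun t => z₀ t = a).card = ν a) → v z₀ ≠ 0 →
    ∃ k : (T → K) → (T → ℕ × ℕ) → ℂ, KerB (Kr T D E) Z c k ∧
      ∃ u, cost u = c ∧ ∑ z, v z * k z u ≠ 0

section det

variable {K : Type} [Fintype K] [DecidableEq K]

/-- **Step** `λ = κ + rest`. -/
theorem Det.add {ν' ν'' : K → ℕ} {D E D' E' : Finset (ℕ × ℕ)} {Z' Z'' : Set (ℕ × ℕ)}
    {c' c'' m n : ℕ} (h' : Det ν' D D' Z' c') (h'' : Det ν'' E E' Z'' c'')
    (hν : ∀ a, ν' a = 0 ∨ ν'' a = 0) (hZ : Disjoint Z' Z'')
    (hm : ∀ c ∈ D, c.2 < m) (hn : ∀ c ∈ D', c.2 < n) :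
    Det (fun a => ν' a + ν'' a) (addC m D E) (addC n D' E') (Z' ∪ Z'') (c' + c'') := by
  classical
  intro T _ _ v z₀ hz₀ hv
  let p : T → Prop := fun t => ν' (z₀ t) ≠ 0
  have hcardP : ∀ a, (univ.filter fun t : {t // p t} => (resP p z₀) t = a).card = ν' a := by
    intro a
    by_cases ha : ν' a = 0
    · rw [ha, Finset.card_eq_zero, Finset.filter_eq_empty_iff]
      intro t _ ht
      exact t.2 (by rw [show z₀ t = a from ht]; exact ha)
    · have h1 : ν'' a = 0 := (hν a).resolve_left ha
      have h2 := hz₀ a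
      simp only [h1, add_zero] at h2
      rw [← h2]
      refine Finset.card_bij (fun t _ => (t : T)) ?_ ?_ ?_
      · intro t ht
        simp only [mem_filter, mem_univ, true_and] at ht ⊢
        exact ht
      · intro s _ t _ hst
        exact Subtype.ext hst
      · intro t ht
        simp only [mem_filter, mem_univ, true_and] at ht
        exact ⟨⟨t, by change ν' (z₀ t) ≠ 0; rw [ht]; exact ha⟩, by simpa [resP] using ht, rfl⟩
  have hcardN : ∀ a, (univ.filter fun t : {t // ¬ p t} => (resN p z₀) t = a).card = ν'' a := by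
    intro a
    by_cases ha : ν' a = 0
    · have h2 := hz₀ a
      simp only [ha, zero_add] at h2
      rw [← h2]
      refine Finset.card_bij (fun t _ => (t : T)) ?_ ?_ ?_
      · intro t ht
        simp only [mem_filter, mem_univ, true_and] at ht ⊢
        exact ht
      · intro s _ t _ hst
        exact Subtype.ext hst
      · intro t ht
        simp only [mem_filter, mem_univ, true_and] at ht
        exact ⟨⟨t, by change ¬ ν' (z₀ t) ≠ 0; rw [ht]; simpa using ha⟩,
          by simpa [resN] using ht, rfl⟩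
    · rw [(hν a).resolve_left ha, Finset.card_eq_zero, Finset.filter_eq_empty_iff]
      intro t _ ht
      apply t.2
      change ν' (z₀ t) ≠ 0
      rw [show z₀ t = a from ht]
      exact ha
  obtain ⟨k'', hk'', u'', hu'', hne''⟩ := h'' {t // ¬ p t} (fun z'' => v (glueW p (resP p z₀) z''))
    (resN p z₀) hcardN (by simpa [glueW_res] using hv)
  obtain ⟨k', hk', u', hu', hne'⟩ := h' {t // p t}
    (fun z' => ∑ z'', v (glueW p z' z'') * k'' z'' u'') (resP p z₀) hcardP hne''
  exact ⟨kerMul p k' k'', kerMul_KerB hm hn hk' hk'', glueW p u' u'',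
    by rw [cost_res p, resP_glueW, resN_glueW, hu', hu''],
    kerMul_ne hk' hk'' hZ v hu' hu'' hne'⟩

/-- the empty shape -/
theorem Det.empty : Det (fun _ : K => 0) ∅ ∅ ∅ 0 := by
  intro T _ _ v z₀ hz₀ hv
  have hT : IsEmpty T := by
    refine ⟨fun t => ?_⟩
    have := hz₀ (z₀ t)
    rw [Finset.card_eq_zero, Finset.filter_eq_empty_iff] at this
    exact this (mem_univ t) rfl
  refine ⟨fun _ _ => 1, ⟨fun _ _ _ => rfl, fun z => ?_, fun z u _ => ⟨Nat.zero_le _, fun _ t =>
    (hT.false t).elim⟩⟩, fun t => (hT.false t).elim, ?_, ?_⟩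
  · refine Submodule.subset_span ⟨fun t => (hT.false t).elim, fun t => (hT.false t).elim, ?_, ?_, ?_⟩
    · exact ⟨fun t => (hT.false t).elim, by simp⟩
    · exact ⟨fun t => (hT.false t).elim, by simp⟩
    · funext w
      simp [prodF, polyF]
  · simp [cost]
  · have : ∀ z : T → K, z = z₀ := fun z => funext fun t => (hT.false t).elim
    rw [Fintype.sum_eq_single z₀ (fun z hz => absurd (this z) hz), mul_one]
    exact hv

end det

end Crest.Agent.R195
end

-- ▼ part R195/Zig3

/-! Row 195, L4.  From detection to occurrence; from a gadget to detection; dual certificates for the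
minimal cost; the rectangle gadget. -/

set_option autoImplicit false
set_option linter.unusedSectionVars false
set_option linter.unusedDecidableInType false

namespace Crest.Agent.R195

open Finset Function

section occ

variable {K : Type} [Fintype K] [DecidableEq K]

/-- a representation with a nonzero vector fixed by the Young subgroup of a colouring of content `ν`
occurs in `Kr T D E`. -/
theorem Det.occ {ν : K → ℕ} {D E : Finset (ℕ × ℕ)} {Z : Set (ℕ × ℕ)} {c : ℕ} (h : Det ν D E Z c)
    {T : Type} [Fintype T] [DecidableEq T] {W : Type*} [AddCommGroup W] [Module ℂ W]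
    (ρ : Representation ℂ (Equiv.Perm T) W) (f : T → K)
    (hf : ∀ a, (univ.filter fun t => f t = a).card = ν a) (w : W) (hw : w ≠ 0)
    (hfix : SwapFixed ρ f w) : Occ ρ (Kr T D E) := by
  classical
  obtain ⟨ℓ, hℓ⟩ : ∃ ℓ : Module.Dual ℂ W, ℓ w ≠ 0 := by
    by_contra hcon
    push Not at hcon
    exact hw ((Module.forall_dual_apply_eq_zero_iff ℂ w).1 hcon)
  let ι : W →ₗ[ℂ] ((T → K) → ℂ) := LinearMap.pi fun z =>
    ∑ g : Equiv.Perm T, if f ∘ g.symm = z then ℓ ∘ₗ ρ g⁻¹ else 0
  have hι : ∀ x z, ι x z = ∑ g : Equiv.Perm T, if f ∘ g.symm = z then ℓ (ρ g⁻¹ x) else 0 := by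
    intro x z
    simp only [ι, LinearMap.pi_apply, LinearMap.sum_apply]
    refine Finset.sum_congr rfl fun g _ => ?_
    split_ifs <;> simp
  have hιw : ι w f ≠ 0 := by
    rw [hι]
    have : ∀ g : Equiv.Perm T, (if f ∘ g.symm = f then ℓ (ρ g⁻¹ w) else 0) =
        if f ∘ g.symm = f then ℓ w else 0 := by
      intro g
      split_ifs with hg
      · have : ρ g⁻¹ w = w := by
          refine hfix.perm g⁻¹ fun t => ?_
          exact congrFun hg t
        rw [this]
      · rfl
    simp only [this]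
    rw [← Finset.sum_filter, Finset.sum_const, nsmul_eq_mul]
    refine mul_ne_zero ?_ hℓ
    have : (univ.filter fun g : Equiv.Perm T => f ∘ g.symm = f).card ≠ 0 := by
      rw [Finset.card_ne_zero]
      exact ⟨1, by simp; rfl⟩
    exact_mod_cast this
  obtain ⟨k, hk, u, -, hu⟩ := h T (ι w) f hf hιw
  let φ : W →ₗ[ℂ] ((T → ℕ × ℕ) → ℂ) := ∑ z : T → K,
    (LinearMap.toSpanSingleton ℂ ((T → ℕ × ℕ) → ℂ) (k z)) ∘ₗ ((LinearMap.proj z) ∘ₗ ι)
  have hφ : ∀ x u, φ x u = ∑ z : T → K, ι x z * k z u := by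
    intro x u
    simp [φ, LinearMap.sum_apply, Finset.sum_apply, LinearMap.toSpanSingleton_apply]
  refine ⟨φ, ?_, ?_, ?_⟩
  · intro h0
    apply hu
    rw [← hφ, h0]
    rfl
  · intro x
    have : φ x = ∑ z : T → K, ι x z • k z := by
      simp [φ, LinearMap.sum_apply, LinearMap.toSpanSingleton_apply]
    rw [this]
    exact Submodule.sum_mem _ fun z _ => Submodule.smul_mem _ _ (hk.mem z)
  · intro h x u
    rw [hφ, hφ]
    have h1 : ∀ z, ι (ρ h x) z = ι x (z ∘ h) := by
      intro z
      rw [hι, hι, ← Equiv.sum_comp (Equiv.mulLeft h)]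
      refine Finset.sum_congr rfl fun g _ => ?_
      have h2 : (f ∘ (Equiv.mulLeft h g).symm = z) ↔ f ∘ g.symm = z ∘ h := by
        constructor
        · intro h3
          rw [← h3]
          funext t
          change f (g.symm t) = f (g.symm (h.symm (h t)))
          rw [Equiv.symm_apply_apply]
        · intro h3
          funext t
          change f (g.symm (h.symm t)) = z t
          have := congrFun h3 (h.symm t)
          simpa using this
      have h3 : ρ (Equiv.mulLeft h g)⁻¹ (ρ h x) = ρ g⁻¹ x := by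
        rw [← Module.End.mul_apply, ← map_mul]
        congr 2
        change (h * g)⁻¹ * h = g⁻¹
        group
      simp only [h2, h3]
    simp only [h1]
    rw [← Equiv.sum_comp (Equiv.arrowCongr h.symm (Equiv.refl K)) (fun z => ι x z * k z (u ∘ h))]
    refine Finset.sum_congr rfl fun z _ => ?_
    have h4 : (Equiv.arrowCongr h.symm (Equiv.refl K)) z = z ∘ h := by
      funext t; rfl
    rw [h4, hk.act]

end occ

section bound

variable {T : Type*} [Fintype T] [DecidableEq T]

/-- the row contents of the words supporting a polytabloid -/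
theorem polyF_sum_row {D : Finset (ℕ × ℕ)} {τ : T → ℕ × ℕ} (hτ : IsTab D τ) {w : T → ℕ}
    (h : polyF τ w ≠ 0) (α : ℕ → ℤ) : ∑ t, α (w t) = ∑ c ∈ D, α c.1 := by
  classical
  obtain ⟨σ, -, hσ⟩ := polyF_support h
  rw [← Equiv.sum_comp σ (fun t => α (w t)), ← hτ.2, Finset.sum_image (fun s _ t _ h => hτ.1 h)]
  exact Finset.sum_congr rfl fun t _ => by rw [hσ t]

/-- row contents of the words supporting elements of `Kr`, with a dual certificate -/
theorem Kr_sum_rows {D E : Finset (ℕ × ℕ)} {F : (T → ℕ × ℕ) → ℂ} (hF : F ∈ Kr T D E)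
    {u : T → ℕ × ℕ} (h : F u ≠ 0) (α β : ℕ → ℤ) :
    (∑ t, α (u t).1 = ∑ c ∈ D, α c.1) ∧ (∑ t, β (u t).2 = ∑ c ∈ E, β c.1) := by
  classical
  by_contra hcon
  apply h
  unfold Kr at hF
  induction hF using Submodule.span_induction with
  | mem x hx =>
    obtain ⟨τ, τ', hτ, hτ', rfl⟩ := hx
    by_contra h1
    exact hcon ⟨polyF_sum_row hτ (left_ne_zero_of_mul h1) α,
      polyF_sum_row hτ' (right_ne_zero_of_mul h1) β⟩
  | zero => rfl
  | add x y _ _ hx hy =>
    by_cases h1 : x u = 0
    · by_cases h2 : y u = 0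
      · simp [h1, h2]
      · exact absurd (hy h2) h2
    · exact absurd (hx h1) h1
  | smul a x _ hx =>
    by_cases h1 : x u = 0
    · simp [h1]
    · exact absurd (hx h1) h1

/-- **Dual certificate** for the minimal cost. -/
theorem Kr_cost_bound {D E : Finset (ℕ × ℕ)} {Z : Set (ℕ × ℕ)} {N : ℕ} (hN : 0 < N) (α β : ℕ → ℤ)
    (hle : ∀ i j, α i + β j ≤ N * (i * j)) (heq : ∀ i j, α i + β j = N * (i * j) ↔ (i, j) ∈ Z)
    {F₀ : (T → ℕ × ℕ) → ℂ} (hF₀ : F₀ ∈ Kr T D E) {u₀ : T → ℕ × ℕ} (h₀ : F₀ u₀ ≠ 0)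
    (hZ₀ : ∀ t, u₀ t ∈ Z) :
    ((((∑ c ∈ D, α c.1) + ∑ c ∈ E, β c.1) / N).toNat = cost u₀) ∧
    ∀ F ∈ Kr T D E, ∀ u, F u ≠ 0 → cost u₀ ≤ cost u ∧ (cost u = cost u₀ → ∀ t, u t ∈ Z) := by
  have key : ∀ u : T → ℕ × ℕ, (N : ℤ) * (cost u : ℤ) = ∑ t, (N : ℤ) * (((u t).1 : ℤ) * (u t).2) := by
    intro u
    unfold cost
    push_cast
    rw [Finset.mul_sum]
  have h1 : (N : ℤ) * (cost u₀ : ℤ) = (∑ c ∈ D, α c.1) + ∑ c ∈ E, β c.1 := by
    obtain ⟨ha, hb⟩ := Kr_sum_rows hF₀ h₀ α β
    rw [key, ← ha, ← hb, ← Finset.sum_add_distrib]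
    exact Finset.sum_congr rfl fun t _ => ((heq _ _).2 (hZ₀ t)).symm
  refine ⟨?_, ?_⟩
  · rw [← h1, Int.mul_ediv_cancel_left _ (by exact_mod_cast hN.ne')]
    simp
  · intro F hF u hu
    obtain ⟨ha, hb⟩ := Kr_sum_rows hF hu α β
    have h2 : (∑ c ∈ D, α c.1) + ∑ c ∈ E, β c.1 = ∑ t, (α (u t).1 + β (u t).2) := by
      rw [← ha, ← hb, ← Finset.sum_add_distrib]
    have h3 : ∑ t, (α (u t).1 + β (u t).2) ≤ ∑ t, (N : ℤ) * (((u t).1 : ℤ) * (u t).2) :=
      Finset.sum_le_sum fun t _ => hle _ _
    have h4 : (N : ℤ) * (cost u₀ : ℤ) ≤ (N : ℤ) * (cost u : ℤ) := by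
      rw [h1, h2, key]; exact h3
    have hN' : (0 : ℤ) < N := by exact_mod_cast hN
    refine ⟨by exact_mod_cast le_of_mul_le_mul_left h4 hN', ?_⟩
    intro hc t
    rw [← heq]
    have h5 : ∑ t, (α (u t).1 + β (u t).2) = ∑ t, (N : ℤ) * (((u t).1 : ℤ) * (u t).2) := by
      rw [← h2, ← h1, ← hc, key]
    exact (Finset.sum_eq_sum_iff_of_le fun t _ => hle _ _).1 h5 t (mem_univ t)

end bound

section gadget

variable {K : Type} [Fintype K] [DecidableEq K]

/-- **Gadget ⇒ detection.**  `P` is a family of colourings; `hG` is the `U`-form of the gadget. -/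
theorem det_of_gadget {D E : Finset (ℕ × ℕ)} {Z : Set (ℕ × ℕ)} {N : ℕ} (hN : 0 < N) (α β : ℕ → ℤ)
    (hle : ∀ i j, α i + β j ≤ N * (i * j)) (heq : ∀ i j, α i + β j = N * (i * j) ↔ (i, j) ∈ Z)
    {ν : K → ℕ} {C : Type} (e : K → C) (he : ∀ a b, ν a ≠ 0 → ν b ≠ 0 → e a = e b → a = b)
    (hG : ∀ (T : Type) [Fintype T] [DecidableEq T], Fintype.card T = ∑ a, ν a →
      ∀ (U : Type) [AddCommGroup U] [Module ℂ U] (ρ : Representation ℂ (Equiv.Perm T) U)
        (f : T → C) (w : U), w ≠ 0 → SwapFixed ρ f w →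
      ∃ G ∈ Kr T D E, ∃ u : T → ℕ × ℕ, (∀ t, u t ∈ Z) ∧
        ∃ x : U, ∑ g : Equiv.Perm T, G (u ∘ g) • ρ g⁻¹ x ≠ 0) :
    Det ν D E Z (((∑ c ∈ D, α c.1) + ∑ c ∈ E, β c.1) / N).toNat := by
  classical
  intro T _ _ v z₀ hz₀ hv
  have hcard : Fintype.card T = ∑ a, ν a := by
    rw [← Finset.card_univ, Finset.card_eq_sum_card_fiberwise (f := z₀) (t := univ)
      (fun _ _ => mem_univ _)]
    exact Finset.sum_congr rfl fun a _ => hz₀ a
  -- the permutation representation on functions of colour words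
  let P : Representation ℂ (Equiv.Perm T) ((T → K) → ℂ) :=
    { toFun := fun g =>
        { toFun := fun F z => F (z ∘ g)
          map_add' := fun F G => rfl
          map_smul' := fun a F => rfl }
      map_one' := by ext; rfl
      map_mul' := fun g h => by ext; rfl }
  have hP : ∀ g F z, P g F z = F (z ∘ g) := fun g F z => rfl
  let V : Submodule ℂ ((T → K) → ℂ) := Submodule.span ℂ (Set.range fun g => P g v)
  have hV : ∀ g, ∀ x ∈ V, P g x ∈ V := by
    intro g x hx
    induction hx using Submodule.span_induction with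
    | mem y hy =>
      obtain ⟨h, rfl⟩ := hy
      refine Submodule.subset_span ⟨g * h, ?_⟩
      simp only [map_mul, Module.End.mul_apply]
    | zero => rw [map_zero]; exact Submodule.zero_mem _
    | add y z _ _ hy hz => rw [map_add]; exact Submodule.add_mem _ hy hz
    | smul a y _ hy => rw [map_smul]; exact Submodule.smul_mem _ a hy
  let Q : Representation ℂ (Equiv.Perm T) V :=
    { toFun := fun g => (P g).restrict (hV g)
      map_one' := by ext; rfl
      map_mul' := fun g h => by ext; rfl }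
  have hQ : ∀ g (x : V), ((Q g x : V) : (T → K) → ℂ) = P g x := fun g x => rfl
  -- the symmetrized vector
  let S : Finset (Equiv.Perm T) := univ.filter fun s => ∀ t, z₀ (s t) = z₀ t
  let w₀ : (T → K) → ℂ := ∑ s ∈ S, P s v
  have hw₀ : w₀ ∈ V := Submodule.sum_mem _ fun s _ => Submodule.subset_span ⟨s, rfl⟩
  have hw₀z : w₀ z₀ ≠ 0 := by
    have h1 : w₀ z₀ = ∑ s ∈ S, v z₀ := by
      simp only [w₀, Finset.sum_apply]
      refine Finset.sum_congr rfl fun s hs => ?_
      rw [hP]
      congr 1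
      funext t
      exact (mem_filter.1 hs).2 t
    rw [h1, Finset.sum_const, nsmul_eq_mul]
    refine mul_ne_zero ?_ hv
    have : S.card ≠ 0 := by
      rw [Finset.card_ne_zero]
      exact ⟨1, by simp [S]⟩
    exact_mod_cast this
  have hfix : SwapFixed Q (fun t => e (z₀ t)) ⟨w₀, hw₀⟩ := by
    intro a b hab
    have hab' : z₀ a = z₀ b := by
      refine he _ _ ?_ ?_ hab
      · rw [← hz₀, Finset.card_ne_zero]; exact ⟨a, by simp⟩
      · rw [← hz₀, Finset.card_ne_zero]; exact ⟨b, by simp⟩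
    apply Subtype.ext
    rw [hQ]
    simp only [w₀, map_sum]
    have hmem : ∀ s ∈ S, Equiv.swap a b * s ∈ S := by
      intro s hs
      have hs' := (mem_filter.1 hs).2
      refine mem_filter.2 ⟨mem_univ _, fun t => ?_⟩
      rw [Equiv.Perm.mul_apply]
      by_cases h1 : s t = a
      · rw [h1, Equiv.swap_apply_left, ← hab', ← h1, hs']
      · by_cases h2 : s t = b
        · rw [h2, Equiv.swap_apply_right, hab', ← h2, hs']
        · rw [Equiv.swap_apply_of_ne_of_ne h1 h2, hs']
    refine Finset.sum_bij' (fun s _ => Equiv.swap a b * s) (fun s _ => Equiv.swap a b * s)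
      (fun s hs => hmem s hs) (fun s hs => hmem s hs) ?_ ?_ ?_
    · intro s _; rw [← mul_assoc, Equiv.swap_mul_self, one_mul]
    · intro s _; rw [← mul_assoc, Equiv.swap_mul_self, one_mul]
    · intro s _
      rw [map_mul, Module.End.mul_apply]
  obtain ⟨G, hGK, u, huZ, x, hx⟩ := hG T hcard V Q _ ⟨w₀, hw₀⟩ (by
    intro h
    apply hw₀z
    have := congrArg (fun y : V => (y : (T → K) → ℂ) z₀) h
    simpa using this) hfix
  -- some translate of `v` works
  have h1 : ∃ h : Equiv.Perm T, ∑ g : Equiv.Perm T, G (u ∘ g) • P g⁻¹ (P h v) ≠ 0 := by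
    by_contra hcon
    push Not at hcon
    apply hx
    let L : ((T → K) → ℂ) →ₗ[ℂ] ((T → K) → ℂ) := ∑ g : Equiv.Perm T, G (u ∘ g) • P g⁻¹
    have hL : ∀ y, L y = ∑ g : Equiv.Perm T, G (u ∘ g) • P g⁻¹ y := by
      intro y; simp [L, LinearMap.sum_apply]
    have hLV : ∀ y ∈ V, L y = 0 := by
      intro y hy
      induction hy using Submodule.span_induction with
      | mem y hy =>
        obtain ⟨h, rfl⟩ := hy
        rw [hL]; exact hcon h
      | zero => rw [map_zero]
      | add y z _ _ hy hz => rw [map_add, hy, hz, add_zero]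
      | smul a y _ hy => rw [map_smul, hy, smul_zero]
    apply Subtype.ext
    have h2 := hLV x x.2
    rw [hL] at h2
    rw [Submodule.coe_sum]
    simpa [hQ] using h2
  obtain ⟨h, hh⟩ := h1
  obtain ⟨z₁, hz₁⟩ := Function.ne_iff.1 hh
  simp only [Finset.sum_apply, Pi.smul_apply, smul_eq_mul, Pi.zero_apply, hP] at hz₁
  -- the kernel
  let k : (T → K) → (T → ℕ × ℕ) → ℂ := fun z u =>
    ∑ g : Equiv.Perm T, if z₁ ∘ g.symm = z then G (u ∘ g) else 0
  have hkmem : ∀ z, k z ∈ Kr T D E := by
    intro z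
    have : k z = ∑ g : Equiv.Perm T, if z₁ ∘ g.symm = z then (fun u => G (u ∘ g)) else 0 := by
      funext u
      simp only [k, Finset.sum_apply]
      refine Finset.sum_congr rfl fun g _ => ?_
      split_ifs <;> rfl
    rw [this]
    refine Submodule.sum_mem _ fun g _ => ?_
    split_ifs
    · exact Kr_act hGK g
    · exact Submodule.zero_mem _
  have hkne : ∑ z, v z * k z (u ∘ h) ≠ 0 := by
    have h2 : ∑ z, v z * k z (u ∘ h) = ∑ g : Equiv.Perm T, v (z₁ ∘ g.symm) * G (u ∘ h ∘ g) := by
      simp only [k, Finset.mul_sum]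
      rw [Finset.sum_comm]
      refine Finset.sum_congr rfl fun g _ => ?_
      rw [Finset.sum_eq_single (z₁ ∘ g.symm)]
      · rw [if_pos rfl]; rfl
      · intro z _ hz
        rw [if_neg (fun h => hz h.symm), mul_zero]
      · intro h; exact absurd (mem_univ _) h
    rw [h2]
    convert hz₁ using 1
    rw [← Equiv.sum_comp (Equiv.mulLeft h) (fun g => G (u ∘ g) * v ((z₁ ∘ ⇑g⁻¹) ∘ h))]
    refine Finset.sum_congr rfl fun g _ => ?_
    rw [mul_comm]
    congr 2
    funext t
    simp
  -- value of the minimal cost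
  obtain ⟨z2, -, hz2⟩ := Finset.exists_ne_zero_of_sum_ne_zero hkne
  have hb := Kr_cost_bound hN α β hle heq (hkmem z2) (right_ne_zero_of_mul hz2)
    (fun t => huZ (h t))
  refine ⟨k, ⟨?_, hkmem, ?_⟩, u ∘ h, hb.1.symm, hkne⟩
  · intro g z u
    simp only [k]
    rw [← Equiv.sum_comp (Equiv.mulLeft g)
      (fun g' : Equiv.Perm T => if z₁ ∘ g'.symm = z then G (u ∘ g') else 0)]
    refine Finset.sum_congr rfl fun g' _ => ?_
    have h2 : (z₁ ∘ (Equiv.mulLeft g g').symm = z) ↔ z₁ ∘ g'.symm = z ∘ g := by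
      constructor
      · intro h3
        rw [← h3]
        funext t
        change z₁ (g'.symm t) = z₁ (g'.symm (g.symm (g t)))
        rw [Equiv.symm_apply_apply]
      · intro h3
        funext t
        change z₁ (g'.symm (g.symm t)) = z t
        have := congrFun h3 (g.symm t)
        simpa using this
    simp only [h2]
    rfl
  · intro z u' hne
    rw [hb.1]
    exact hb.2 _ (hkmem z) u' hne

end gadget

end Crest.Agent.R195
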